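import Mathlib
import Vale.Agent.P361.Model

set_option linter.all false

section

/-!
P361, low-temperature order of the Heisenberg ferromagnet: common definitions (note 9886).

Part A: charge laws of random permutations (charge network), `X` = set of space-time nodes.
Part B: the physical circuit (Trotter number `N`, extra slice `T` = layer `0`).
Part C: the static Gibbs state, spin 1/2, real matrices in the `S³`-basis.
Part D: the torus and the family of field profiles.
-/

namespace Vale.Agent.P361.LRO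

open Finset Matrix

noncomputable section

/-! ### Part A -/

section A

variable {X : Type} [Fintype X] [DecidableEq X]

/-- Law of the random permutation `σ₁ * σ₂ * ⋯ * σ_m * σ`, where `σ_i` is the transposition
`swap x y` with probability `p` and `1` with probability `1 - p`, `(x, y, p)` the `i`-th entry. -/
def law : List (X × X × ℝ) → Equiv.Perm X → Equiv.Perm X → ℝ
  | [], σ => Pi.single σ 1
  | g :: l, σ => fun π =>
      (1 - g.2.2) * law l σ π + g.2.2 * law l σ (Equiv.swap g.1 g.2.1 * π)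

/-- `μ` is the law of a product of independent random transpositions and one permutation. -/
def IsLaw (μ : Equiv.Perm X → ℝ) : Prop :=
  ∃ (l : List (X × X × ℝ)) (σ : Equiv.Perm X),
    (∀ g ∈ l, 0 ≤ g.2.2 ∧ g.2.2 ≤ 1 / 2) ∧ μ = law l σ

/-- Weight of the flips: the node `x` costs `θ x` if the spin jumps there. -/
def wt (θ : X → ℝ) (π : Equiv.Perm X) (s : X → Fin 2) : ℝ :=
  ∏ x, if s x = s (π x) then 1 else θ x

/-- The charge (jump) at the node `x`, in `{-1, 0, 1}`. -/
def jj (π : Equiv.Perm X) (s : X → Fin 2) (x : X) : ℝ :=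
  ((s x : ℕ) : ℝ) - ((s (π x) : ℕ) : ℝ)

/-- Partition function. -/
def ZZ (μ : Equiv.Perm X → ℝ) (θ : X → ℝ) : ℝ := ∑ π, ∑ s, μ π * wt θ π s

/-- Expectation. -/
def EE (μ : Equiv.Perm X → ℝ) (θ : X → ℝ) (f : Equiv.Perm X → (X → Fin 2) → ℝ) : ℝ :=
  (∑ π, ∑ s, μ π * wt θ π s * f π s) / ZZ μ θ

/-- `K(a) = Var(∑ a_x j_x)`. -/
def KK (μ : Equiv.Perm X → ℝ) (θ : X → ℝ) (a : X → ℝ) : ℝ :=
  EE μ θ fun π s => (∑ x, a x * jj π s x) ^ 2

/-- Conductance `c_uv = - E j_u j_v` (meant for `u ≠ v`). -/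
def cc (μ : Equiv.Perm X → ℝ) (θ : X → ℝ) (u v : X) : ℝ :=
  - EE μ θ fun π s => jj π s u * jj π s v

/-- `v_z = E j_z² = P(j_z ≠ 0)`. -/
def vv (μ : Equiv.Perm X → ℝ) (θ : X → ℝ) (z : X) : ℝ :=
  EE μ θ fun π s => jj π s z ^ 2

/-- The magnetization `M_z = <σ³_z>` at the node `z` (with the slice at `z` removed):
`Z = B + θ_z A`, `M = A / B`. -/
def mag (μ : Equiv.Perm X → ℝ) (θ : X → ℝ) (z : X) : ℝ :=
  (∑ π, ∑ s, if s z = s (π z) then 0 else μ π * wt (Function.update θ z 1) π s) /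
    (∑ π, ∑ s, if s z = s (π z) then μ π * wt θ π s else 0)

/-- Generating polynomial `E ∏ ζ_x^{1 + j_x}` (not normalised). -/
def gen (μ : Equiv.Perm X → ℝ) (θ : X → ℝ) (ζ : X → ℂ) : ℂ :=
  ∑ π, ∑ s, ((μ π * wt θ π s : ℝ) : ℂ) *
    ∏ x, (if s x = s (π x) then ζ x else if s x = 1 then ζ x ^ 2 else 1)

/-- Real stability. -/
def Stable (μ : Equiv.Perm X → ℝ) (θ : X → ℝ) : Prop :=
  ∀ ζ : X → ℂ, (∀ x, 0 < (ζ x).im) → gen μ θ ζ ≠ 0

/-- Lower bound `c` for the effective conductance between the electrodes `E` (potential `1`)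
and `G` (potential `0`). -/
def LB (μ : Equiv.Perm X → ℝ) (θ : X → ℝ) (E G : Finset X) (c : ℝ) : Prop :=
  ∀ a : X → ℝ, (∀ x ∈ E, a x = 1) → (∀ x ∈ G, a x = 0) → c ≤ KK μ θ a

/-- Upper bound `R` for the resistance between the electrode `E` and the unit charge
distribution `q`. -/
def RB (μ : Equiv.Perm X → ℝ) (θ : X → ℝ) (E : Finset X) (q : X → ℝ) (R : ℝ) : Prop :=
  ∀ a : X → ℝ, (∀ x ∈ E, a x = 1) → (1 - ∑ x, q x * a x) ^ 2 ≤ R * KK μ θ a

end A

/-! ### Part B -/

section B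

variable {V : Type} [Fintype V] [DecidableEq V]

/-- `(k, x) ↦ (k - 1, x)` (cyclic). -/
def base (N : ℕ) : Equiv.Perm (Fin (N + 1) × V) :=
  Equiv.prodCongr (Equiv.subRight 1) (Equiv.refl V)

/-- All gates: between the layers `k` and `k + 1`, `k < N`, one gate for each edge of `L`. There
is no gate between the layer `N` and the layer `0`. -/
def gates (L : List (V × V)) (N : ℕ) (p : ℝ) :
    List ((Fin (N + 1) × V) × (Fin (N + 1) × V) × ℝ) :=
  (List.finRange N).flatMap fun k =>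
    L.map fun e => ((k.castSucc, e.1), (k.castSucc, e.2), p)

/-- The law of the worldline permutation; gates `(1 - p) + p P_e`, `p = β / (2N)`. -/
def phys (L : List (V × V)) (β : ℝ) (N : ℕ) : Equiv.Perm (Fin (N + 1) × V) → ℝ :=
  law (gates L N (β / (2 * N))) (base N)

/-- Slice parameters: the layers `1, …, N` are physical (`θ = β h_x / (2N)`), the layer `0` is the
extra slice `T`. -/
def th (β : ℝ) (N : ℕ) (h T : V → ℝ) : Fin (N + 1) × V → ℝ :=
  fun z => if z.1 = 0 then T z.2 else β * h z.2 / (2 * N)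

/-- The extra slice `e^{K n_b}`, `n_b = S³_b / |b|`: `θ = tanh (K / (2|b|))` on `b`. -/
def blk (K : ℝ) (b : Finset V) : V → ℝ :=
  fun x => if x ∈ b then Real.tanh (K / (2 * b.card)) else 0

/-- The nodes of the extra slice in `b`. -/
def hatb (N : ℕ) (b : Finset V) : Finset (Fin (N + 1) × V) := {0} ×ˢ b

/-- `κ_b = Var (Q_b)`, `Q_b` = total charge of the extra slice in `b`. -/
def kap (L : List (V × V)) (β : ℝ) (N : ℕ) (h : V → ℝ) (K : ℝ) (b : Finset V) : ℝ :=
  KK (phys L β N) (th β N h (blk K b)) fun z => if z ∈ hatb N b then 1 else 0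

end B

/-! ### Part C -/

section C

variable {V : Type} [Fintype V] [DecidableEq V]

/-- The exchange of the spins at `x` and `y`. -/
def swapM (x y : V) : Matrix (V → Fin 2) (V → Fin 2) ℝ :=
  Matrix.of fun σ τ => if σ = τ ∘ Equiv.swap x y then 1 else 0

/-- `σ³_x` (`0` = up). -/
def szM (x : V) : Matrix (V → Fin 2) (V → Fin 2) ℝ :=
  Matrix.diagonal fun σ => if σ x = 0 then 1 else -1

/-- `σ¹_x`. -/
def sxM (x : V) : Matrix (V → Fin 2) (V → Fin 2) ℝ :=
  Matrix.of fun σ τ => if σ = Function.update τ x (1 - τ x) then 1 else 0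

/-- `h_xy = 1/4 - S_x · S_y = (1 - P_xy) / 2`. -/
def hM (x y : V) : Matrix (V → Fin 2) (V → Fin 2) ℝ := (1 / 2 : ℝ) • (1 - swapM x y)

/-- `H - ∑ h_x S³_x`, one term `h_xy` for each entry of the list `L` of edges. -/
def ham (L : List (V × V)) (h : V → ℝ) : Matrix (V → Fin 2) (V → Fin 2) ℝ :=
  (L.map fun e => hM e.1 e.2).sum - ∑ x, (h x / 2) • szM x

/-- Gibbs expectation. -/
def gib (L : List (V × V)) (β : ℝ) (h : V → ℝ) (A : Matrix (V → Fin 2) (V → Fin 2) ℝ) : ℝ :=
  Matrix.trace (NormedSpace.exp (-β • ham L h) * A) /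
    Matrix.trace (NormedSpace.exp (-β • ham L h))

/-- `ρ_x = <1/2 - S³_x>`. -/
def rho (L : List (V × V)) (β : ℝ) (h : V → ℝ) (x : V) : ℝ :=
  gib L β h ((1 / 2 : ℝ) • (1 - szM x))

end C

/-! ### Part D -/

/-- The torus of side `n`. -/
abbrev Tor (n : ℕ) : Type := Fin 3 → ZMod n

/-- The nearest neighbour edges `(x, x + e_i)` of the torus (each edge once if `n ≥ 3`). -/
def edges (n : ℕ) [NeZero n] : List (Tor n × Tor n) :=
  ((Finset.univ : Finset (Tor n × Fin 3)).toList).map fun z => (z.1, z.1 + Pi.single z.2 1)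

/-- The family of profiles: `h0 ≤ h ≤ 1`, `|log h_x - log h_y| ≤ lam` for nearest neighbours
(`lam = 1 / L₀`). -/
def Fam (n : ℕ) (h0 lam : ℝ) (h : Tor n → ℝ) : Prop :=
  (∀ x, h0 ≤ h x ∧ h x ≤ 1) ∧
    ∀ (x : Tor n) (i : Fin 3), h x ≤ Real.exp lam * h (x + Pi.single i 1) ∧
      h (x + Pi.single i 1) ≤ Real.exp lam * h x

/-- The cube `x + [0, w)³`. -/
def cube (n : ℕ) (x : Tor n) (w : ℕ) : Finset (Tor n) :=
  (Finset.univ : Finset (Fin 3 → Fin w)).image fun y => x + fun i => ((y i : ℕ) : ZMod n)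

end

end Vale.Agent.P361.LRO

end

section

/-!
P361, STAGE 3 (Bloch's law with the constant, spin 1/2): exact outputs of the blocks, as `Prop`s.
Captain: helper569.  See note 10625.  Fields are `h = g / β`, `g ∈ Fam n g0 (β ^ (-9/2))`.
-/

namespace Vale.Agent.P361.LRO.S3

open Finset Matrix Filter Topology

noncomputable section

/-- Bloch's constant for spin 1/2: `ζ(3/2) / (8 π^{3/2} (1/2)^{3/2})`. -/
def BC : ℝ := (riemannZeta (3 / 2)).re / (8 * Real.pi ^ (3 / 2 : ℝ) * (1 / 2 : ℝ) ^ (3 / 2 : ℝ))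

/-- Bootstrap hypothesis on the capped family. -/
def BH3 (n : ℕ) [NeZero n] (β η g0 : ℝ) : Prop :=
  ∀ g : Tor n → ℝ, Fam n g0 (β ^ (-(9 / 2) : ℝ)) g → ∀ x, rho (edges n) β (fun y => g y / β) x ≤ η

/-- The Casimir-type matrix `∑_{x,y in b} h_xy` (ordered pairs) `= N_b (|b| + 1 - N_b)`,
`N_b = J_max - J_b`. -/
def CM {V : Type} [Fintype V] [DecidableEq V] (b : Finset V) :
    Matrix (V → Fin 2) (V → Fin 2) ℝ := ∑ x ∈ b, ∑ y ∈ b, hM x y

/-- `y_b = <C_b> / |b|^2`, so that `D (1 - D) ≤ C_b / |b|^2 ≤ D (1 + 1/|b|)`, `D = N_b / |b|`. -/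
def yb {V : Type} [Fintype V] [DecidableEq V] (L : List (V × V)) (β : ℝ) (h : V → ℝ)
    (b : Finset V) : ℝ := gib L β h (CM b) / (b.card : ℝ) ^ 2

/-- (K) network block (helper118, helper938). -/
def KappaStmt3 : Prop :=
  ∃ c2 c3 : ℝ, 0 < c2 ∧ 0 < c3 ∧ ∀ C7 Lam : ℝ, 0 < C7 → 0 < Lam → ∃ β0 : ℝ, ∀ β : ℝ, β0 ≤ β →
    ∃ n0 : ℕ, ∀ (n : ℕ) [NeZero n], n0 ≤ n → Odd n → ∀ a : ℕ, Real.sqrt β ≤ (3 : ℝ) ^ a →
    (3 : ℝ) ^ a ≤ β ^ (3 / 4 : ℝ) → ∀ K : ℝ, 1 ≤ K → K ≤ Lam * β ^ (3 / 2 : ℝ) → K ≤ c2 * β * 3 ^ a →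
    ∀ g0 : ℝ, (n : ℝ) ^ (-(1 / 4) : ℝ) ≤ g0 → g0 ≤ 1 → BH3 n β (C7 * β ^ (-(3 / 2) : ℝ)) g0 →
    ∀ g : Tor n → ℝ, Fam n g0 (β ^ (-(9 / 2) : ℝ)) g → ∀ x : Tor n,
      ∃ᶠ N : ℕ in atTop, c3 * K ≤ kap (edges n) β N (fun y => g y / β) K (cube n x (3 ^ a))

/-- (D) direction, closure form (helper74, helper111, helper733). -/
def DirStmt3 : Prop :=
  ∃ C : ℝ, 0 < C ∧ ∀ (V : Type) [Fintype V] [DecidableEq V] (L : List (V × V)) (β : ℝ) (h : V → ℝ)
    (K κ : ℝ) (b : Finset V), 0 < β → (∀ x, 0 ≤ h x) → 1 ≤ K → 0 < κ → b.Nonempty →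
    (∃ᶠ N : ℕ in atTop, κ ≤ kap L β N h K b) →
    (∑ x ∈ b, rho L β h x) / b.card ≤ C * (1 + K / κ) * yb L β h b + C / κ

/-- (D) direction, sharp form.  There is a finite law `μ` of `r = N_b = J_max - J_b` in the Gibbs
state such that, with `D = r / |b|`, `m = E D` and `P = P(D < q)`,
`ρ_b ≤ m + C (K/κ) (m + (1/K) log (C (P + exp (-K q))))`. -/
def DirSharpStmt3 : Prop :=
  ∃ C : ℝ, 0 < C ∧ ∀ (V : Type) [Fintype V] [DecidableEq V] (L : List (V × V)) (β : ℝ) (h : V → ℝ)
    (b : Finset V), 0 < β → (∀ x, 0 ≤ h x) → b.Nonempty →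
    ∃ (ι : Type) (_ : Fintype ι) (μ : ι → ℝ) (r : ι → ℕ), (∀ i, 0 ≤ μ i) ∧
      (∀ i, 2 * r i ≤ b.card) ∧ ∑ i, μ i = 1 ∧
      (∀ P : Polynomial ℝ, ∑ i, μ i * P.eval ((r i : ℝ) * ((b.card : ℝ) - r i + 1)) =
        gib L β h (Polynomial.aeval (CM b) P)) ∧
      ∀ K κ q : ℝ, 1 ≤ K → 0 < κ → 0 ≤ q → q ≤ 1 / 4 →
        (∃ᶠ N : ℕ in atTop, κ ≤ kap L β N h K b) →
        (∑ x ∈ b, rho L β h x) / b.card ≤ (∑ i, μ i * (r i : ℝ)) / b.card +
          C * (K / κ) * ((∑ i, μ i * (r i : ℝ)) / b.card +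
            (1 / K) * Real.log (C * ((∑ i, if (r i : ℝ) < q * b.card then μ i else 0) +
              Real.exp (-(K * q)))))

end

end Vale.Agent.P361.LRO.S3
end

section

/-!
P361 LRO: interface statements of the top-level blocks (note 9886), as `Prop`s.
-/

namespace Vale.Agent.P361.LRO

open Finset Matrix Filter Topology

noncomputable section

/-- Deficit operator expectation `(4/|b|²) ∑_{x<y in b} h_xy` (as half of the sum over ordered
pairs). -/
def Db {V : Type} [Fintype V] [DecidableEq V] (L : List (V × V)) (β : ℝ) (h : V → ℝ)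
    (b : Finset V) : ℝ :=
  4 / (b.card : ℝ) ^ 2 * ((1 / 2) * ∑ x ∈ b, ∑ y ∈ b, gib L β h (hM x y))

/-- Block (8): Lee-Yang regularity, `f = 1 / M - 1`, `M = 1 - 2 ρ`. -/
def RegStmt : Prop :=
  ∀ (V : Type) [Fintype V] [DecidableEq V] (L : List (V × V)) (β : ℝ) (h h' : V → ℝ) (s : ℝ),
    0 < β → (∀ x, 0 < h x) → (∀ x, 0 < h' x) → 0 ≤ s → 3 * s < Real.pi / 2 →
    (∀ x, |Real.log (h x) - Real.log (h' x)| ≤ s) → ∀ z,
    0 < 1 - 2 * rho L β h z ∧
    1 / (1 - 2 * rho L β h' z) - 1 ≤ 2 * (1 / (1 - 2 * rho L β h z) - 1) + 9 / 2 * s ^ 2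

end

end Vale.Agent.P361.LRO
end

section

/-!
P361 LRO, all spins `S = s / 2` (route M): vertex set `Tor n × Fin s`, inter-site edges between all
copies, intra-site edges repeated `M` times; everything is uniform in `M`, and `M → ∞` at the end.
-/

namespace Vale.Agent.P361.LRO.GenS

open Finset Matrix Filter Topology

noncomputable section

/-- All edges between copies of neighbouring sites. -/
def interE (n s : ℕ) [NeZero n] : List ((Tor n × Fin s) × (Tor n × Fin s)) :=
  (edges n).flatMap fun e => (List.finRange s).flatMap fun i => (List.finRange s).map fun j =>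
    ((e.1, i), (e.2, j))

/-- All edges between two copies at the same site. -/
def intraE (n s : ℕ) [NeZero n] : List ((Tor n × Fin s) × (Tor n × Fin s)) :=
  ((univ : Finset (Tor n × Fin s × Fin s)).filter fun z => z.2.1 < z.2.2).toList.map fun z =>
    ((z.1, z.2.1), (z.1, z.2.2))

/-- The edges of the model with `M`-fold coupling inside the sites. -/
def edgesS (n s M : ℕ) [NeZero n] : List ((Tor n × Fin s) × (Tor n × Fin s)) :=
  interE n s ++ (List.replicate M (intraE n s)).flatten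

/-- A profile on the sites as a profile on the copies. -/
def hS {n s : ℕ} (h : Tor n → ℝ) : Tor n × Fin s → ℝ := fun z => h z.1

/-- All copies of the sites of a cube. -/
def cubeS (n s : ℕ) (x : Tor n) (w : ℕ) : Finset (Tor n × Fin s) := cube n x w ×ˢ univ

/-- (M5) translations (and permutations of the copies at a site). -/
def TransStmtS (s : ℕ) : Prop :=
  ∀ (n : ℕ) [NeZero n] (M : ℕ) (β : ℝ) (h : Tor n → ℝ) (x a : Tor n) (i j : Fin s),
    rho (edgesS n s M) β (hS fun y => h (y + a)) (x, i) = rho (edgesS n s M) β (hS h) (x + a, j)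

end

end Vale.Agent.P361.LRO.GenS
end

section

/-!
Magnetization in a field, and the ideal spin-wave prediction.
-/

namespace Vale.Agent.P361.Model

noncomputable section

/-- Magnetization in the field `h`: the right derivative of `p_β` at `h`. -/
def mag (n : ℕ) (β h : ℝ) : ℝ := derivWithin (pressure n β) (Set.Ioi h) h

/-- `(4πS)^{-3/2} ∑_{j ≥ 1} e^{-jt} / j^{3/2}`. -/
def idealDeficit (S t : ℝ) : ℝ :=
  (4 * Real.pi * S) ^ (-(3 / 2) : ℝ) *
    ∑' j : ℕ, Real.exp (-(((j : ℝ) + 1) * t)) / ((j : ℝ) + 1) ^ (3 / 2 : ℝ)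

end

end Vale.Agent.P361.Model
end

section

/-!
# Network ODE (note 9886, step (3)): abstract form

`c s x y` is a time dependent symmetric family of conductances on a finite set.  If the
derivative of the quadratic form is bounded below by the one-node inequality, then the
capacity between two electrodes loses at most the factor `exp (-4 ε s*)` and an additive
`2 ε B exp (-s*)`.
-/

namespace P361.LRO

open Finset Set Filter Topology

variable {V : Type*} [Fintype V] [DecidableEq V]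

/-- Dirichlet form of the (symmetric) weight `c`. -/
noncomputable def netK (c : V → V → ℝ) (a : V → ℝ) : ℝ :=
  (1 / 2) * ∑ x, ∑ y, c x y * (a x - a y) ^ 2

/-- `(K a)_z`. -/
noncomputable def netQ (c : V → V → ℝ) (a : V → ℝ) (z : V) : ℝ :=
  ∑ x, c z x * (a z - a x)

/-- The star energy of the node `z`. -/
noncomputable def netStar (c : V → V → ℝ) (a : V → ℝ) (z : V) : ℝ :=
  ∑ x, c z x * (a x - a z) ^ 2

/-- Total conductance of the node `z`. -/
noncomputable def netV (c : V → V → ℝ) (z : V) : ℝ := ∑ x, c z x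

/-- Admissible potentials. -/
def netAdm (E G : Set V) : Set (V → ℝ) :=
  {u | (∀ x, 0 ≤ u x ∧ u x ≤ 1) ∧ (∀ x ∈ E, u x = 1) ∧ (∀ x ∈ G, u x = 0)}

/-- Capacity between the electrodes `E` (potential one) and `G` (potential zero). -/
noncomputable def netCap (c : V → V → ℝ) (E G : Set V) : ℝ :=
  sInf (netK c '' netAdm E G)

omit [DecidableEq V] in
theorem netK_nonneg {c : V → V → ℝ} (hc : ∀ x y, 0 ≤ c x y) (a : V → ℝ) : 0 ≤ netK c a := by
  unfold netK
  have : 0 ≤ ∑ x, ∑ y, c x y * (a x - a y) ^ 2 :=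
    Finset.sum_nonneg fun x _ => Finset.sum_nonneg fun y _ => mul_nonneg (hc x y) (sq_nonneg _)
  linarith

omit [DecidableEq V] in
theorem netStar_nonneg {c : V → V → ℝ} (hc : ∀ x y, 0 ≤ c x y) (a : V → ℝ) (z : V) :
    0 ≤ netStar c a z :=
  Finset.sum_nonneg fun x _ => mul_nonneg (hc z x) (sq_nonneg _)

omit [DecidableEq V] in
theorem sum_netStar (c : V → V → ℝ) (a : V → ℝ) : ∑ z, netStar c a z = 2 * netK c a := by
  unfold netStar netK
  have : ∀ z x : V, c z x * (a x - a z) ^ 2 = c z x * (a z - a x) ^ 2 := fun z x => by ring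
  simp only [this]
  ring

omit [DecidableEq V] in
theorem netStar_le_netV {c : V → V → ℝ} (hc : ∀ x y, 0 ≤ c x y) {a : V → ℝ}
    (ha : ∀ x, 0 ≤ a x ∧ a x ≤ 1) (z : V) : netStar c a z ≤ netV c z := by
  unfold netStar netV
  refine Finset.sum_le_sum fun x _ => ?_
  have h1 : (a x - a z) ^ 2 ≤ 1 := by
    have hx := ha x; have hz := ha z
    nlinarith [hx.1, hx.2, hz.1, hz.2]
  calc c z x * (a x - a z) ^ 2 ≤ c z x * 1 := mul_le_mul_of_nonneg_left h1 (hc z x)
    _ = c z x := mul_one _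

omit [DecidableEq V] in
theorem netK_sub_abs_le (c d : V → V → ℝ) {a : V → ℝ} (ha : ∀ x, 0 ≤ a x ∧ a x ≤ 1) :
    |netK c a - netK d a| ≤ ∑ x, ∑ y, |c x y - d x y| := by
  have h : netK c a - netK d a = (1 / 2) * ∑ x, ∑ y, (c x y - d x y) * (a x - a y) ^ 2 := by
    unfold netK
    rw [← mul_sub, ← Finset.sum_sub_distrib]
    congr 1
    refine Finset.sum_congr rfl fun x _ => ?_
    rw [← Finset.sum_sub_distrib]
    exact Finset.sum_congr rfl fun y _ => by ring
  rw [h, abs_mul]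
  have h2 : |∑ x, ∑ y, (c x y - d x y) * (a x - a y) ^ 2| ≤ ∑ x, ∑ y, |c x y - d x y| := by
    refine (Finset.abs_sum_le_sum_abs _ _).trans (Finset.sum_le_sum fun x _ => ?_)
    refine (Finset.abs_sum_le_sum_abs _ _).trans (Finset.sum_le_sum fun y _ => ?_)
    rw [abs_mul]
    have h1 : |(a x - a y) ^ 2| ≤ 1 := by
      rw [abs_of_nonneg (sq_nonneg _)]
      have hx := ha x; have hz := ha y
      nlinarith [hx.1, hx.2, hz.1, hz.2]
    calc |c x y - d x y| * |(a x - a y) ^ 2| ≤ |c x y - d x y| * 1 :=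
          mul_le_mul_of_nonneg_left h1 (abs_nonneg _)
      _ = _ := mul_one _
  have h3 : |(1 / 2 : ℝ)| = 1 / 2 := abs_of_pos (by norm_num)
  rw [h3]
  have h4 : 0 ≤ ∑ x, ∑ y, |c x y - d x y| :=
    Finset.sum_nonneg fun x _ => Finset.sum_nonneg fun y _ => abs_nonneg _
  linarith

omit [DecidableEq V] in
theorem netQ_sub_abs_le (c d : V → V → ℝ) {a : V → ℝ} (ha : ∀ x, 0 ≤ a x ∧ a x ≤ 1) (z : V) :
    |netQ c a z - netQ d a z| ≤ ∑ x, ∑ y, |c x y - d x y| := by
  have h : netQ c a z - netQ d a z = ∑ x, (c z x - d z x) * (a z - a x) := by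
    unfold netQ
    rw [← Finset.sum_sub_distrib]
    exact Finset.sum_congr rfl fun x _ => by ring
  rw [h]
  have h2 : |∑ x, (c z x - d z x) * (a z - a x)| ≤ ∑ x, |c z x - d z x| := by
    refine (Finset.abs_sum_le_sum_abs _ _).trans (Finset.sum_le_sum fun x _ => ?_)
    rw [abs_mul]
    have h1 : |a z - a x| ≤ 1 := by
      have hx := ha x; have hz := ha z
      rw [abs_le]; constructor <;> linarith [hx.1, hx.2, hz.1, hz.2]
    calc |c z x - d z x| * |a z - a x| ≤ |c z x - d z x| * 1 :=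
          mul_le_mul_of_nonneg_left h1 (abs_nonneg _)
      _ = _ := mul_one _
  refine h2.trans ?_
  exact Finset.single_le_sum (f := fun x => ∑ y, |c x y - d x y|)
    (fun x _ => Finset.sum_nonneg fun y _ => abs_nonneg _) (Finset.mem_univ z)

omit [DecidableEq V] in
theorem continuous_netK (c : V → V → ℝ) : Continuous (netK c) := by
  unfold netK
  fun_prop

omit [Fintype V] [DecidableEq V] in
theorem isCompact_netAdm (E G : Set V) : IsCompact (netAdm E G) := by
  have h : netAdm E G = (Set.pi Set.univ fun _ : V => Set.Icc (0 : ℝ) 1) ∩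
      {u | (∀ x ∈ E, u x = 1) ∧ (∀ x ∈ G, u x = 0)} := by
    ext u
    simp only [netAdm, Set.mem_ofPred_eq, Set.mem_inter_iff, Set.mem_pi, Set.mem_univ,
      forall_true_left, Set.mem_Icc]
  rw [h]
  refine (isCompact_univ_pi fun _ => isCompact_Icc).inter_right ?_
  have h1 : IsClosed {u : V → ℝ | ∀ x ∈ E, u x = 1} := by
    simp only [Set.ofPred_forall]
    exact isClosed_iInter fun x => isClosed_iInter fun _ =>
      isClosed_eq (continuous_apply x) continuous_const
  have h2 : IsClosed {u : V → ℝ | ∀ x ∈ G, u x = 0} := by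
    simp only [Set.ofPred_forall]
    exact isClosed_iInter fun x => isClosed_iInter fun _ =>
      isClosed_eq (continuous_apply x) continuous_const
  exact h1.inter h2

omit [Fintype V] [DecidableEq V] in
theorem nonempty_netAdm {E G : Set V} (hEG : Disjoint E G) : (netAdm E G).Nonempty := by
  classical
  refine ⟨fun x => if x ∈ E then 1 else 0, ?_, ?_, ?_⟩
  · intro x
    by_cases hx : x ∈ E <;> simp [hx]
  · intro x hx; simp [hx]
  · intro x hx
    have : x ∉ E := fun h => (Set.disjoint_left.mp hEG h) hx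
    simp [this]

omit [DecidableEq V] in
theorem exists_min (c : V → V → ℝ) {E G : Set V} (hEG : Disjoint E G) :
    ∃ u ∈ netAdm E G, netK c u = netCap c E G ∧ ∀ w ∈ netAdm E G, netK c u ≤ netK c w := by
  obtain ⟨u, hu, hmin⟩ := (isCompact_netAdm E G).exists_isMinOn (nonempty_netAdm hEG)
    (continuous_netK c).continuousOn
  have hm : ∀ w ∈ netAdm E G, netK c u ≤ netK c w := fun w hw => hmin hw
  refine ⟨u, hu, ?_, hm⟩
  unfold netCap
  refine le_antisymm ?_ ?_
  · refine le_csInf ⟨_, Set.mem_image_of_mem _ hu⟩ ?_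
    rintro _ ⟨w, hw, rfl⟩
    exact hm w hw
  · refine csInf_le ⟨netK c u, ?_⟩ (Set.mem_image_of_mem _ hu)
    rintro _ ⟨w, hw, rfl⟩
    exact hm w hw

omit [DecidableEq V] in
theorem netCap_le {c : V → V → ℝ} (hc : ∀ x y, 0 ≤ c x y) {E G : Set V} {w : V → ℝ}
    (hw : w ∈ netAdm E G) : netCap c E G ≤ netK c w := by
  unfold netCap
  refine csInf_le ⟨0, ?_⟩ (Set.mem_image_of_mem _ hw)
  rintro _ ⟨w, _, rfl⟩
  exact netK_nonneg hc w

omit [DecidableEq V] in
theorem netCap_nonneg {c : V → V → ℝ} (hc : ∀ x y, 0 ≤ c x y) {E G : Set V}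
    (hEG : Disjoint E G) : 0 ≤ netCap c E G := by
  obtain ⟨u, _, h, _⟩ := exists_min c hEG
  rw [← h]; exact netK_nonneg hc u

/-- Truncation to `[0,1]`. -/
noncomputable def trunc01 (a : V → ℝ) : V → ℝ := fun x => max 0 (min 1 (a x))

omit [Fintype V] [DecidableEq V] in
theorem trunc01_lip (s t : ℝ) : (max 0 (min 1 s) - max 0 (min 1 t)) ^ 2 ≤ (s - t) ^ 2 := by
  have h : |max 0 (min 1 s) - max 0 (min 1 t)| ≤ |s - t| := by
    have h1 : |max 0 (min 1 s) - max 0 (min 1 t)| ≤ |min 1 s - min 1 t| := by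
      have := abs_max_sub_max_le_abs (min 1 s) (min 1 t) 0
      simpa [max_comm] using this
    have h2 : |min 1 s - min 1 t| ≤ |s - t| := by
      have := abs_min_sub_min_le_max 1 s 1 t
      simpa using this
    exact h1.trans h2
  exact sq_le_sq.mpr h

omit [DecidableEq V] in
theorem netK_trunc01_le {c : V → V → ℝ} (hc : ∀ x y, 0 ≤ c x y) (a : V → ℝ) :
    netK c (trunc01 a) ≤ netK c a := by
  unfold netK trunc01
  have : ∑ x, ∑ y, c x y * (max 0 (min 1 (a x)) - max 0 (min 1 (a y))) ^ 2 ≤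
      ∑ x, ∑ y, c x y * (a x - a y) ^ 2 :=
    Finset.sum_le_sum fun x _ => Finset.sum_le_sum fun y _ =>
      mul_le_mul_of_nonneg_left (trunc01_lip _ _) (hc x y)
  linarith

omit [Fintype V] [DecidableEq V] in
theorem trunc01_mem {E G : Set V} {a : V → ℝ} (hE : ∀ x ∈ E, a x = 1) (hG : ∀ x ∈ G, a x = 0) :
    trunc01 a ∈ netAdm E G := by
  refine ⟨fun x => ⟨le_max_left _ _, ?_⟩, fun x hx => ?_, fun x hx => ?_⟩
  · exact max_le (by norm_num) (min_le_left _ _)
  · simp [trunc01, hE x hx]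
  · simp [trunc01, hG x hx]

omit [DecidableEq V] in
/-- the capacity is a lower bound without the restriction to `[0,1]`. -/
theorem netCap_le' {c : V → V → ℝ} (hc : ∀ x y, 0 ≤ c x y) {E G : Set V} {w : V → ℝ}
    (hE : ∀ x ∈ E, w x = 1) (hG : ∀ x ∈ G, w x = 0) : netCap c E G ≤ netK c w :=
  (netCap_le hc (trunc01_mem hE hG)).trans (netK_trunc01_le hc w)

theorem netK_add_single {c : V → V → ℝ} (hsymm : ∀ x y, c x y = c y x) (a : V → ℝ) (z : V)
    (t : ℝ) :
    netK c (a + Pi.single z t) = netK c a + 2 * t * netQ c a z + t ^ 2 * netK c (Pi.single z 1) := by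
  have hexp : netK c (a + Pi.single z t) = netK c a
      + t * ∑ x, ∑ y, c x y * ((a x - a y) * ((Pi.single z (1:ℝ) : V → ℝ) x - (Pi.single z (1:ℝ) : V → ℝ) y))
      + t ^ 2 * netK c (Pi.single z 1) := by
    unfold netK
    have hs : ∀ x, (a + (Pi.single z t : V → ℝ)) x = a x + t * (Pi.single z (1:ℝ) : V → ℝ) x := by
      intro x
      by_cases hx : x = z
      · subst hx; simp
      · simp [Pi.single_eq_of_ne hx]
    simp only [hs, Finset.mul_sum, ← Finset.sum_add_distrib]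
    refine Finset.sum_congr rfl fun x _ => Finset.sum_congr rfl fun y _ => ?_
    ring
  have hlin : ∑ x, ∑ y, c x y * ((a x - a y) * ((Pi.single z (1:ℝ) : V → ℝ) x - (Pi.single z (1:ℝ) : V → ℝ) y))
      = 2 * netQ c a z := by
    have h1 : ∑ x, ∑ y, c x y * ((a x - a y) * ((Pi.single z (1:ℝ) : V → ℝ) x - (Pi.single z (1:ℝ) : V → ℝ) y))
        = ∑ x, ∑ y, (Pi.single z (1:ℝ) : V → ℝ) x * (c x y * (a x - a y))
          + ∑ x, ∑ y, (Pi.single z (1:ℝ) : V → ℝ) y * (c x y * (a y - a x)) := by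
      rw [← Finset.sum_add_distrib]
      refine Finset.sum_congr rfl fun x _ => ?_
      rw [← Finset.sum_add_distrib]
      exact Finset.sum_congr rfl fun y _ => by ring
    have h2 : ∑ x, ∑ y, (Pi.single z (1:ℝ) : V → ℝ) x * (c x y * (a x - a y)) = netQ c a z := by
      unfold netQ
      rw [Finset.sum_eq_single z]
      · simp
      · intro x _ hx; simp [Pi.single_eq_of_ne hx]
      · intro h; exact absurd (Finset.mem_univ z) h
    have h3 : ∑ x, ∑ y, (Pi.single z (1:ℝ) : V → ℝ) y * (c x y * (a y - a x)) = netQ c a z := by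
      rw [Finset.sum_comm, ← h2]
      refine Finset.sum_congr rfl fun x _ => Finset.sum_congr rfl fun y _ => ?_
      rw [hsymm y x]
    rw [h1, h2, h3]; ring
  rw [hexp, hlin]; ring

theorem stationary {c : V → V → ℝ} (hc : ∀ x y, 0 ≤ c x y) (hsymm : ∀ x y, c x y = c y x)
    {E G : Set V} {u : V → ℝ} (hu : u ∈ netAdm E G) (hmin : netK c u = netCap c E G)
    {z : V} (hzE : z ∉ E) (hzG : z ∉ G) : netQ c u z = 0 := by
  have h : ∀ t : ℝ, 0 ≤ 2 * t * netQ c u z + t ^ 2 * netK c (Pi.single z 1) := by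
    intro t
    have h1 : netCap c E G ≤ netK c (u + Pi.single z t) := by
      refine netCap_le' hc (fun x hx => ?_) (fun x hx => ?_)
      · have : x ≠ z := fun h => hzE (h ▸ hx)
        simp [Pi.single_eq_of_ne this, hu.2.1 x hx]
      · have : x ≠ z := fun h => hzG (h ▸ hx)
        simp [Pi.single_eq_of_ne this, hu.2.2 x hx]
    rw [netK_add_single hsymm, ← hmin] at h1
    linarith
  set q := netQ c u z
  set k := netK c (Pi.single z 1)
  have hk : 0 ≤ k := netK_nonneg hc _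
  have h2 := h (-q / (k + 1))
  have hk1 : 0 < k + 1 := by linarith
  have h3 : 2 * (-q / (k + 1)) * q + (-q / (k + 1)) ^ 2 * k = - (q ^ 2 * (k + 2)) / (k + 1) ^ 2 := by
    field_simp
    ring
  rw [h3] at h2
  have h4 : 0 < (k + 1) ^ 2 := by positivity
  rw [le_div_iff₀ h4] at h2
  have h5 : q ^ 2 * (k + 2) ≤ 0 := by linarith
  have h6 : q ^ 2 ≤ 0 := by nlinarith [sq_nonneg q]
  exact pow_eq_zero_iff (two_ne_zero) |>.mp (le_antisymm h6 (sq_nonneg q))


/-- `ℓ¹` distance of two weights. -/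
noncomputable def netDist (c d : V → V → ℝ) : ℝ := ∑ x, ∑ y, |c x y - d x y|

omit [DecidableEq V] in
theorem netDist_nonneg (c d : V → V → ℝ) : 0 ≤ netDist c d :=
  Finset.sum_nonneg fun _ _ => Finset.sum_nonneg fun _ _ => abs_nonneg _

omit [DecidableEq V] in
theorem netDist_comm (c d : V → V → ℝ) : netDist c d = netDist d c := by
  unfold netDist
  exact Finset.sum_congr rfl fun x _ => Finset.sum_congr rfl fun y _ => abs_sub_comm _ _

omit [DecidableEq V] in
theorem netCap_sub_le {c d : V → V → ℝ} {E G : Set V} (hd : ∀ x y, 0 ≤ d x y)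
    (hEG : Disjoint E G) : netCap d E G - netCap c E G ≤ netDist d c := by
  obtain ⟨u, hu, huc, _⟩ := exists_min c hEG
  have h1 := netCap_le hd hu
  have h2 := netK_sub_abs_le d c hu.1
  have h3 := (abs_le.mp h2).2
  unfold netDist
  linarith

omit [DecidableEq V] in
theorem netCap_abs_sub_le {c d : V → V → ℝ} {E G : Set V} (hc : ∀ x y, 0 ≤ c x y)
    (hd : ∀ x y, 0 ≤ d x y) (hEG : Disjoint E G) :
    |netCap d E G - netCap c E G| ≤ netDist d c := by
  rw [abs_le]
  have h1 := netCap_sub_le (c := c) (d := d) hd hEG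
  have h2 := netCap_sub_le (c := d) (d := c) hc hEG
  rw [netDist_comm] at h2
  constructor <;> linarith

/-- One step of the Gronwall argument, evaluated at the NEW minimiser. -/
theorem one_step {c0 c1 c' : V → V → ℝ} {E G : Set V} (hEG : Disjoint E G)
    (h0 : ∀ x y, 0 ≤ c0 x y) (h1 : ∀ x y, 0 ≤ c1 x y) (hs1 : ∀ x y, c1 x y = c1 y x)
    {r : V → ℝ} (hr0 : ∀ z, 0 ≤ r z) (hr1 : ∀ z, r z ≤ 1) (hrE : ∀ z ∈ E, r z = 0)
    (hrG : ∀ z ∈ G, r z = 0) {ε : ℝ} (hε : 0 ≤ ε)
    (hbound : ∀ a : V → ℝ, - ∑ z, r z * ((netQ c0 a z) ^ 2 / netV c0 z + 2 * ε * netStar c0 a z)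
      ≤ netK c' a) {δ : ℝ} (hδ : 0 < δ) :
    δ⁻¹ * (netCap c0 E G - netCap c1 E G) ≤
      netDist (fun x y => δ⁻¹ * (c1 x y - c0 x y)) c'
        + (∑ z, (netV c0 z)⁻¹) * (netDist c1 c0) ^ 2
        + 2 * ε * min (2 * (netCap c0 E G + 2 * netDist c1 c0)) (∑ z, r z * netV c0 z) := by
  obtain ⟨u, hu, huc, _⟩ := exists_min c1 hEG
  set Δ := netDist c1 c0 with hΔ
  have hΔ0 : 0 ≤ Δ := netDist_nonneg _ _
  have hstep : netCap c0 E G - netCap c1 E G ≤ netK c0 u - netK c1 u := by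
    have := netCap_le h0 hu
    linarith
  have hlin : δ⁻¹ * (netK c0 u - netK c1 u) = - netK (fun x y => δ⁻¹ * (c1 x y - c0 x y)) u := by
    unfold netK
    have : ∑ x, ∑ y, δ⁻¹ * (c1 x y - c0 x y) * (u x - u y) ^ 2
        = δ⁻¹ * (∑ x, ∑ y, c1 x y * (u x - u y) ^ 2 - ∑ x, ∑ y, c0 x y * (u x - u y) ^ 2) := by
      rw [← Finset.sum_sub_distrib, Finset.mul_sum]
      refine Finset.sum_congr rfl fun x _ => ?_
      rw [← Finset.sum_sub_distrib, Finset.mul_sum]
      exact Finset.sum_congr rfl fun y _ => by ring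
    rw [this]; ring
  have hd := netK_sub_abs_le (fun x y => δ⁻¹ * (c1 x y - c0 x y)) c' hu.1
  have hd' : - netK (fun x y => δ⁻¹ * (c1 x y - c0 x y)) u ≤
      netDist (fun x y => δ⁻¹ * (c1 x y - c0 x y)) c' - netK c' u := by
    have := (abs_le.mp hd).1
    unfold netDist
    linarith
  have hb := hbound u
  have hq : ∀ z, r z * ((netQ c0 u z) ^ 2 / netV c0 z) ≤ (netV c0 z)⁻¹ * Δ ^ 2 := by
    intro z
    have hv : 0 ≤ (netV c0 z)⁻¹ := inv_nonneg.mpr (Finset.sum_nonneg fun x _ => h0 z x)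
    by_cases hz : z ∈ E
    · rw [hrE z hz, zero_mul]; positivity
    by_cases hz' : z ∈ G
    · rw [hrG z hz', zero_mul]; positivity
    have hst := stationary h1 hs1 hu huc hz hz'
    have hq1 := netQ_sub_abs_le c0 c1 hu.1 z
    rw [hst, sub_zero] at hq1
    have hq2 : |netQ c0 u z| ≤ Δ := by
      rw [hΔ, netDist_comm]; exact hq1
    have hq3 : (netQ c0 u z) ^ 2 ≤ Δ ^ 2 := by
      rw [← sq_abs]
      exact pow_le_pow_left₀ (abs_nonneg _) hq2 2
    rw [div_eq_mul_inv]
    calc r z * ((netQ c0 u z) ^ 2 * (netV c0 z)⁻¹)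
        ≤ 1 * ((netQ c0 u z) ^ 2 * (netV c0 z)⁻¹) :=
          mul_le_mul_of_nonneg_right (hr1 z) (mul_nonneg (sq_nonneg _) hv)
      _ = (netV c0 z)⁻¹ * (netQ c0 u z) ^ 2 := by ring
      _ ≤ (netV c0 z)⁻¹ * Δ ^ 2 := mul_le_mul_of_nonneg_left hq3 hv
  have hstar1 : ∑ z, r z * netStar c0 u z ≤ 2 * (netCap c0 E G + 2 * Δ) := by
    have e1 : ∑ z, r z * netStar c0 u z ≤ ∑ z, netStar c0 u z :=
      Finset.sum_le_sum fun z _ => by
        have := mul_le_mul_of_nonneg_right (hr1 z) (netStar_nonneg h0 u z)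
        linarith
    rw [sum_netStar] at e1
    have e2 := (abs_le.mp (netK_sub_abs_le c0 c1 hu.1)).2
    have e3 : ∑ x, ∑ y, |c0 x y - c1 x y| = Δ := by
      rw [hΔ, netDist_comm]; rfl
    have e4 := netCap_sub_le (c := c0) (d := c1) h1 hEG
    rw [e3] at e2
    linarith
  have hstar2 : ∑ z, r z * netStar c0 u z ≤ ∑ z, r z * netV c0 z :=
    Finset.sum_le_sum fun z _ =>
      mul_le_mul_of_nonneg_left (netStar_le_netV h0 hu.1 z) (hr0 z)
  have hsum : ∑ z, r z * ((netQ c0 u z) ^ 2 / netV c0 z + 2 * ε * netStar c0 u z)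
      ≤ (∑ z, (netV c0 z)⁻¹) * Δ ^ 2
        + 2 * ε * min (2 * (netCap c0 E G + 2 * Δ)) (∑ z, r z * netV c0 z) := by
    have e1 : ∑ z, r z * ((netQ c0 u z) ^ 2 / netV c0 z + 2 * ε * netStar c0 u z)
        = ∑ z, r z * ((netQ c0 u z) ^ 2 / netV c0 z) + 2 * ε * ∑ z, r z * netStar c0 u z := by
      rw [Finset.mul_sum, ← Finset.sum_add_distrib]
      exact Finset.sum_congr rfl fun z _ => by ring
    rw [e1]
    have e2 : ∑ z, r z * ((netQ c0 u z) ^ 2 / netV c0 z) ≤ (∑ z, (netV c0 z)⁻¹) * Δ ^ 2 := by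
      rw [Finset.sum_mul]
      exact Finset.sum_le_sum fun z _ => hq z
    have e3 : 2 * ε * ∑ z, r z * netStar c0 u z
        ≤ 2 * ε * min (2 * (netCap c0 E G + 2 * Δ)) (∑ z, r z * netV c0 z) :=
      mul_le_mul_of_nonneg_left (le_min hstar1 hstar2) (by positivity)
    linarith
  calc δ⁻¹ * (netCap c0 E G - netCap c1 E G) ≤ δ⁻¹ * (netK c0 u - netK c1 u) :=
        mul_le_mul_of_nonneg_left hstep (by positivity)
    _ = - netK (fun x y => δ⁻¹ * (c1 x y - c0 x y)) u := hlin
    _ ≤ _ := by linarith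

omit [DecidableEq V] in
theorem tendsto_netDist {c : ℝ → V → V → ℝ} {d : V → V → ℝ} {l : Filter ℝ}
    (h : ∀ x y, Tendsto (fun t => c t x y) l (𝓝 (d x y))) :
    Tendsto (fun t => netDist (c t) d) l (𝓝 0) := by
  unfold netDist
  have : (0 : ℝ) = ∑ x : V, ∑ y : V, (0 : ℝ) := by simp
  rw [this]
  refine tendsto_finsetSum _ fun x _ => tendsto_finsetSum _ fun y _ => ?_
  have h1 : Tendsto (fun t => c t x y - d x y) l (𝓝 (d x y - d x y)) :=
    (h x y).sub tendsto_const_nhds
  rw [sub_self] at h1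
  simpa using h1.abs

/-- The hypotheses of the network ODE. -/
structure NetFlow (c c' : ℝ → V → V → ℝ) (r : ℝ → V → ℝ) (E G : Set V) (ε : ℝ) : Prop where
  disj : Disjoint E G
  nn : ∀ s, 0 ≤ s → ∀ x y, 0 ≤ c s x y
  symm : ∀ s, 0 ≤ s → ∀ x y, c s x y = c s y x
  cont : ∀ x y, ContinuousOn (fun s => c s x y) (Set.Ici 0)
  der : ∀ s, 0 ≤ s → ∀ x y, HasDerivWithinAt (fun t => c t x y) (c' s x y) (Set.Ici s) s
  r0 : ∀ s, 0 ≤ s → ∀ z, 0 ≤ r s z
  r1 : ∀ s, 0 ≤ s → ∀ z, r s z ≤ 1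
  rE : ∀ s, 0 ≤ s → ∀ z ∈ E, r s z = 0
  rG : ∀ s, 0 ≤ s → ∀ z ∈ G, r s z = 0
  eps : 0 ≤ ε
  bound : ∀ s, 0 ≤ s → ∀ a : V → ℝ,
    - ∑ z, r s z * ((netQ (c s) a z) ^ 2 / netV (c s) z + 2 * ε * netStar (c s) a z)
      ≤ netK (c' s) a

theorem NetFlow.dini {c c' : ℝ → V → V → ℝ} {r : ℝ → V → ℝ} {E G : Set V} {ε : ℝ}
    (H : NetFlow c c' r E G ε) {s : ℝ} (hs : 0 ≤ s) {b : ℝ}
    (hb : 2 * ε * min (2 * netCap (c s) E G) (∑ z, r s z * netV (c s) z) < b) :
    ∀ᶠ z in 𝓝[>] s, (z - s)⁻¹ * (netCap (c s) E G - netCap (c z) E G) < b := by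
  have hslope : ∀ x y, Tendsto (fun z => (z - s)⁻¹ * (c z x y - c s x y)) (𝓝[>] s)
      (𝓝 (c' s x y)) := by
    intro x y
    have h := hasDerivWithinAt_iff_tendsto_slope.mp (H.der s hs x y)
    rw [Set.Ici_sdiff_left] at h
    refine h.congr fun z => ?_
    simp [slope_def_field, div_eq_inv_mul]
  have hval : ∀ x y, Tendsto (fun z => c z x y) (𝓝[>] s) (𝓝 (c s x y)) := by
    intro x y
    exact (H.der s hs x y).continuousWithinAt.tendsto.mono_left
      (nhdsWithin_mono _ Set.Ioi_subset_Ici_self)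
  have h1 := tendsto_netDist hslope
  have h2 := tendsto_netDist hval
  have hlim : Tendsto (fun z => netDist (fun x y => (z - s)⁻¹ * (c z x y - c s x y)) (c' s)
        + (∑ w, (netV (c s) w)⁻¹) * (netDist (c z) (c s)) ^ 2
        + 2 * ε * min (2 * (netCap (c s) E G + 2 * netDist (c z) (c s)))
            (∑ w, r s w * netV (c s) w)) (𝓝[>] s)
      (𝓝 (0 + (∑ w, (netV (c s) w)⁻¹) * 0 ^ 2
        + 2 * ε * min (2 * (netCap (c s) E G + 2 * 0)) (∑ w, r s w * netV (c s) w))) := by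
    refine (h1.add ((h2.pow 2).const_mul _)).add (Tendsto.const_mul _ ?_)
    exact Tendsto.min (((h2.const_mul 2).const_add _).const_mul 2) tendsto_const_nhds
  have hlt : 0 + (∑ w, (netV (c s) w)⁻¹) * 0 ^ 2
        + 2 * ε * min (2 * (netCap (c s) E G + 2 * 0)) (∑ w, r s w * netV (c s) w) < b := by
    simpa using hb
  have hev := hlim.eventually (gt_mem_nhds hlt)
  filter_upwards [hev, self_mem_nhdsWithin] with z hz hzs
  have hzs' : (0 : ℝ) < z - s := sub_pos.mpr hzs
  have hz0 : 0 ≤ z := hs.trans (le_of_lt hzs)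
  exact lt_of_le_of_lt (one_step H.disj (H.nn s hs) (H.nn z hz0) (H.symm z hz0) (H.r0 s hs)
    (H.r1 s hs) (H.rE s hs) (H.rG s hs) H.eps (H.bound s hs) hzs') hz

omit [DecidableEq V] in
theorem NetFlow.continuousOn_cap {c c' : ℝ → V → V → ℝ} {r : ℝ → V → ℝ} {E G : Set V} {ε : ℝ}
    (H : NetFlow c c' r E G ε) : ContinuousOn (fun s => netCap (c s) E G) (Set.Ici 0) := by
  intro s hs
  have hval : ∀ x y, Tendsto (fun z => c z x y) (𝓝[Set.Ici 0] s) (𝓝 (c s x y)) :=
    fun x y => H.cont x y s hs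
  have h2 := tendsto_netDist hval
  rw [ContinuousWithinAt, tendsto_iff_dist_tendsto_zero]
  refine squeeze_zero' (Eventually.of_forall fun _ => dist_nonneg) ?_ h2
  filter_upwards [self_mem_nhdsWithin] with z hz
  rw [Real.dist_eq]
  exact netCap_abs_sub_le (H.nn s hs) (H.nn z hz) H.disj

/-- Exponential loss. -/
theorem NetFlow.cap_exp {c c' : ℝ → V → V → ℝ} {r : ℝ → V → ℝ} {E G : Set V} {ε : ℝ}
    (H : NetFlow c c' r E G ε) {T : ℝ} (hT : 0 ≤ T) :
    Real.exp (-(4 * ε * T)) * netCap (c 0) E G ≤ netCap (c T) E G := by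
  have hf : ContinuousOn (fun s => - netCap (c s) E G) (Set.Icc 0 T) :=
    (H.continuousOn_cap.mono Set.Icc_subset_Ici_self).neg
  have key := le_gronwallBound_of_liminf_deriv_right_le (f := fun s => - netCap (c s) E G)
    (f' := fun s => 4 * ε * netCap (c s) E G) (δ := - netCap (c 0) E G) (K := -(4 * ε)) (ε := 0)
    (a := 0) (b := T) hf ?_ le_rfl ?_ T ⟨hT, le_rfl⟩
  · rw [gronwallBound_ε0, sub_zero] at key
    have : -(4 * ε) * T = -(4 * ε * T) := by ring
    rw [this] at key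
    linarith
  · intro s hs b hb
    have hb' : 2 * ε * min (2 * netCap (c s) E G) (∑ z, r s z * netV (c s) z) < b := by
      refine lt_of_le_of_lt ?_ hb
      calc 2 * ε * min (2 * netCap (c s) E G) (∑ z, r s z * netV (c s) z)
          ≤ 2 * ε * (2 * netCap (c s) E G) :=
            mul_le_mul_of_nonneg_left (min_le_left _ _) (by have := H.eps; positivity)
        _ = 4 * ε * netCap (c s) E G := by ring
    have := H.dini hs.1 hb'
    refine Eventually.frequently (this.mono fun z hz => ?_)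
    have e : -netCap (c z) E G - -netCap (c s) E G = netCap (c s) E G - netCap (c z) E G := by ring
    rw [e]; exact hz
  · intro s _
    have : -(4 * ε) * (-netCap (c s) E G) + 0 = 4 * ε * netCap (c s) E G := by ring
    rw [this]

/-- Additive loss. -/
theorem NetFlow.cap_add {c c' : ℝ → V → V → ℝ} {r : ℝ → V → ℝ} {E G : Set V} {ε : ℝ}
    (H : NetFlow c c' r E G ε) {B : ℝ}
    (hB : ∀ s, 0 ≤ s → ∑ z, r s z * netV (c s) z ≤ B * Real.exp (-s)) {S T : ℝ} (hS : 0 ≤ S)
    (hT : S ≤ T) :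
    netCap (c S) E G - 2 * ε * B * (Real.exp (-S) - Real.exp (-T)) ≤ netCap (c T) E G := by
  have hf : ContinuousOn (fun s => - netCap (c s) E G) (Set.Icc S T) :=
    (H.continuousOn_cap.mono fun s hs => hS.trans hs.1).neg
  have key := image_le_of_liminf_slope_right_le_deriv_boundary (f := fun s => - netCap (c s) E G)
    (a := S) (b := T) hf
    (B := fun s => - netCap (c S) E G + 2 * ε * B * (Real.exp (-S) - Real.exp (-s)))
    (B' := fun s => 2 * ε * B * Real.exp (-s)) ?_ ?_ ?_ ?_ (x := T) ⟨hT, le_rfl⟩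
  · linarith
  · simp
  · fun_prop
  · intro s _
    have h1 : HasDerivAt (fun s : ℝ => Real.exp (-s)) (-Real.exp (-s)) s := by
      have := (hasDerivAt_id s).neg.exp
      simpa using this
    have h2 := ((h1.const_sub (Real.exp (-S))).const_mul (2 * ε * B)).const_add
      (- netCap (c S) E G)
    simp only [neg_neg] at h2
    exact h2.hasDerivWithinAt
  · intro s hs b hb
    have hs0 : 0 ≤ s := hS.trans hs.1
    have hb' : 2 * ε * min (2 * netCap (c s) E G) (∑ z, r s z * netV (c s) z) < b := by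
      refine lt_of_le_of_lt ?_ hb
      calc 2 * ε * min (2 * netCap (c s) E G) (∑ z, r s z * netV (c s) z)
          ≤ 2 * ε * (B * Real.exp (-s)) :=
            mul_le_mul_of_nonneg_left ((min_le_right _ _).trans (hB s hs0))
              (by have := H.eps; positivity)
        _ = 2 * ε * B * Real.exp (-s) := by ring
    have := H.dini hs0 hb'
    refine Eventually.frequently (this.mono fun z hz => ?_)
    rw [slope_def_field, div_eq_inv_mul]
    have e : -netCap (c z) E G - -netCap (c s) E G = netCap (c s) E G - netCap (c z) E G := by ring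
    rw [e]; exact hz

/-- **Network ODE, primal form** (note 9886, step (3)). -/
theorem NetFlow.cap_lower {c c' : ℝ → V → V → ℝ} {r : ℝ → V → ℝ} {E G : Set V} {ε : ℝ}
    (H : NetFlow c c' r E G ε) {B : ℝ} (hB0 : 0 ≤ B)
    (hB : ∀ s, 0 ≤ s → ∑ z, r s z * netV (c s) z ≤ B * Real.exp (-s)) {S T : ℝ} (hS : 0 ≤ S)
    (hT : 0 ≤ T) :
    Real.exp (-(4 * ε * S)) * netCap (c 0) E G - 2 * ε * B * Real.exp (-S) ≤ netCap (c T) E G := by
  have hε := H.eps
  have hc0 : 0 ≤ netCap (c 0) E G := netCap_nonneg (H.nn 0 le_rfl) H.disj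
  rcases le_total S T with hST | hTS
  · have h1 := H.cap_exp hS
    have h2 := H.cap_add hB hS hST
    have h3 : 0 ≤ 2 * ε * B * Real.exp (-T) := by positivity
    nlinarith
  · have h1 := H.cap_exp hT
    have h2 : Real.exp (-(4 * ε * S)) ≤ Real.exp (-(4 * ε * T)) := by
      apply Real.exp_le_exp.mpr
      have : 4 * ε * T ≤ 4 * ε * S := mul_le_mul_of_nonneg_left hTS (by positivity)
      linarith
    have h3 := mul_le_mul_of_nonneg_right h2 hc0
    have h4 : 0 ≤ 2 * ε * B * Real.exp (-S) := by positivity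
    linarith

end P361.LRO
end

section

/-!
# P361 LRO, block (6): definitions

Everything in block (6) is about an abstract family of symmetric conductances
`c : (Tor n → ℝ) → Nd n N → Nd n N → ℝ` (field profile ↦ network on the space-time nodes).
Time: `N = m * W`, `m` windows of `W` slices, physical layers `1, …, N`,
layer `1 + w W + j` is the `j`-th slice of the window `w`.
-/

namespace Vale.Agent.P361.LRO.Ind

open Finset Vale.Agent.P361.LRO _root_.P361.LRO

noncomputable section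

/-- Space-time nodes. -/
abbrev Nd (n N : ℕ) : Type := Fin (N + 1) × Tor n

/-- The site `o + (x, y, z)`. -/
def pt (n : ℕ) (o : Tor n) (x y z : ℕ) : Tor n :=
  o + ![(x : ZMod n), (y : ZMod n), (z : ZMod n)]

/-- Lower bound for the effective conductance. -/
def LBn {X : Type} [Fintype X] (c : X → X → ℝ) (E G : Finset X) (A : ℝ) : Prop :=
  ∀ a : X → ℝ, (∀ x ∈ E, a x = 1) → (∀ x ∈ G, a x = 0) → A ≤ netK c a

/-- Upper bound for the resistance between `E` and the charge distribution `q`. -/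
def RBn {X : Type} [Fintype X] (c : X → X → ℝ) (E : Finset X) (q : X → ℝ) (R : ℝ) : Prop :=
  ∀ a : X → ℝ, (∀ x ∈ E, a x = 1) → (1 - ∑ x, q x * a x) ^ 2 ≤ R * netK c a

/-- Local information on the network `c` in the field `h` (output of block (4)). -/
structure Local (n N W : ℕ) [NeZero n] (β K c1 : ℝ) (b : Finset (Tor n)) (h : Tor n → ℝ)
    (c : Nd n N → Nd n N → ℝ) : Prop where
  symm : ∀ u v, c u v = c v u
  nonneg : ∀ u v, 0 ≤ c u v
  tot : ∀ (k : Fin (N + 1)) (x : Tor n), k ≠ 0 → ∑ v, c (k, x) v ≤ β * h x / (2 * N)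
  same : ∀ (k l : Fin (N + 1)) (x : Tor n), k ≠ 0 → k < l → (l : ℕ) ≤ k + 3 * W → h x = 1 →
    c1 * (β / N) ^ 2 ≤ c (k, x) (l, x)
  nbr : ∀ (k l : Fin (N + 1)) (x : Tor n) (i : Fin 3), k ≠ 0 → l ≠ 0 →
    ((k : ℕ) + W ≤ l ∨ (l : ℕ) + W ≤ k) → (l : ℕ) ≤ k + 3 * W → (k : ℕ) ≤ l + 3 * W →
    h x = 1 → h (x + Pi.single i 1) = 1 →
    c1 * (β / N) ^ 2 ≤ c (k, x) (l, x + Pi.single i 1)
  contact : ∀ (k : Fin (N + 1)) (x : Tor n), k ≠ 0 → (k : ℕ) ≤ W → x ∈ b → h x = 1 →
    c1 * (K / b.card) * (β / N) ≤ c (0, x) (k, x)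

/-- Lowering the field (output of block (3)). -/
structure Low (n N : ℕ) [NeZero n] (β h0 lam ε : ℝ)
    (c : (Tor n → ℝ) → Nd n N → Nd n N → ℝ) : Prop where
  prim : ∀ h h' : Tor n → ℝ, Fam n h0 lam h → Fam n h0 lam h' → (∀ x, h' x ≤ h x) →
    ∀ E G : Finset (Nd n N), Disjoint E G →
    (∀ z ∈ E ∪ G, z.1 ≠ 0 → h' z.2 = h z.2) →
    ∀ S : ℝ, 1 ≤ β * S → ∑ x, (if h' x = h x then 0 else h x) ≤ S →
    ∀ A : ℝ, 0 ≤ A → LBn (c h) E G A →
      LBn (c h') E G ((β * S) ^ (-(4 * ε)) * A - 2 * ε)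
  dual : 0 < h0 → h0 ≤ 1 → ∀ h' : Tor n → ℝ, Fam n h0 lam h' →
    ∀ (E : Finset (Nd n N)) (q : Nd n N → ℝ),
    (∀ z ∈ E, z.1 ≠ 0 → h' z.2 = 1) → (∀ z ∈ E, q z = 0) → (∀ x, q (0, x) = 0) →
    (∀ z, 0 ≤ q z) → ∑ z, q z = 1 →
    ∀ R : ℝ, 0 ≤ R → RBn (c fun _ => 1) E q R →
      RBn (c h') E q (h0 ^ (-(4 * ε)) * (R + 8 * N / (β * h0) * ∑ z, (q z) ^ 2))

/-! ### Geometry -/

/-- Distance of `t` to `{0, …, r - 1}` in `ZMod n`. -/
def d1 (n r : ℕ) (t : ZMod n) : ℕ := if t.val < r then 0 else min (t.val + 1 - r) (n - t.val)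

/-- Distance of `x` to the cube of side `r` at the corner `o`. -/
def dist (n : ℕ) (o : Tor n) (r : ℕ) (x : Tor n) : ℕ := ∑ i, d1 n r (x i - o i)

/-- The bump `exp (- lam * dist)`. -/
def bump (n : ℕ) (lam : ℝ) (o : Tor n) (r : ℕ) (x : Tor n) : ℝ :=
  Real.exp (-(lam * dist n o r x))

/-- `H = max (h, bump)`. -/
def HH (n : ℕ) (lam : ℝ) (o : Tor n) (r : ℕ) (h : Tor n → ℝ) (x : Tor n) : ℝ :=
  max (h x) (bump n lam o r x)

/-- Electrode: the nodes of the extra slice on `b` and all physical nodes over the cube of side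
`r` at the corner `o`. -/
def EE6 (n N : ℕ) [NeZero n] (o : Tor n) (b : Finset (Tor n)) (r : ℕ) : Finset (Nd n N) :=
  hatb N b ∪ ((univ.filter fun k => k ≠ 0) ×ˢ cube n o r)

/-- Ground: all physical nodes over the cube of side `s` at the corner `o + (4 s, 0, 0)`. -/
def GG6 (n N : ℕ) [NeZero n] (o : Tor n) (s : ℕ) : Finset (Nd n N) :=
  (univ.filter fun k => k ≠ 0) ×ˢ cube n (pt n o (4 * s) 0 0) s

/-! ### Window averages and energies -/

/-- Layer of the `j`-th slice of the window `w` (junk value `0` if out of range). -/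
def lay (N W w j : ℕ) : Fin (N + 1) :=
  if h : 1 + w * W + j < N + 1 then ⟨1 + w * W + j, h⟩ else 0

/-- Average of `a` over the window `w` at the site `o + (x, y, z)`. -/
def UU (n N W : ℕ) (o : Tor n) (a : Nd n N → ℝ) (x y z w : ℕ) : ℝ :=
  (1 / W : ℝ) * ∑ j ∈ range W, a (lay N W w j, pt n o x y z)

/-- Energy of the space edges on `[0, S)³ × [0, T)`. -/
def Esp (S T : ℕ) (U : ℕ → ℕ → ℕ → ℕ → ℝ) : ℝ :=
  (∑ x ∈ range (S - 1), ∑ y ∈ range S, ∑ z ∈ range S, ∑ w ∈ range T,
      (U (x + 1) y z w - U x y z w) ^ 2) +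
  (∑ x ∈ range S, ∑ y ∈ range (S - 1), ∑ z ∈ range S, ∑ w ∈ range T,
      (U x (y + 1) z w - U x y z w) ^ 2) +
  (∑ x ∈ range S, ∑ y ∈ range S, ∑ z ∈ range (S - 1), ∑ w ∈ range T,
      (U x y (z + 1) w - U x y z w) ^ 2)

/-- Energy of the time edges on `[0, S)³ × [0, T)`. -/
def Eti (S T : ℕ) (U : ℕ → ℕ → ℕ → ℕ → ℝ) : ℝ :=
  ∑ x ∈ range S, ∑ y ∈ range S, ∑ z ∈ range S, ∑ w ∈ range (T - 1),
      (U x y z (w + 1) - U x y z w) ^ 2

/-- Nearest neighbour energy on `[0, S)³ × [0, T)`. -/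
def E4 (S T : ℕ) (U : ℕ → ℕ → ℕ → ℕ → ℝ) : ℝ := Esp S T U + Eti S T U

/-- Number of points of `[0, S)³ × [0, T)` where `U < t`. -/
def cnt (S T : ℕ) (t : ℝ) (U : ℕ → ℕ → ℕ → ℕ → ℝ) : ℝ :=
  ∑ x ∈ range S, ∑ y ∈ range S, ∑ z ∈ range S, ∑ w ∈ range T, if U x y z w < t then 1 else 0

end

end Vale.Agent.P361.LRO.Ind
end

section

/-!
# P361 LRO, stage 3 (Bloch's law), network chapter on cells (helper118, helper938)

Scaled fields: the physical field is `h / β` with `h ∈ Fam n h0 lam` (so `h ≤ 1`), hence the slice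
parameters are `β (h/β) / (2N) = h / (2N)`.  Cells: cubes of side `3 ^ e ∼ √β`, so `27 ^ e ∼ β^{3/2}`.
Time: whole circle, `N = 4 W` (four quarters of `W` slices).
-/

namespace Vale.Agent.P361.LRO.Ind3

open Finset Vale.Agent.P361.LRO _root_.P361.LRO Vale.Agent.P361.LRO.Ind

noncomputable section

/-- Local information on the network `c` in the scaled field `h` (long-window LOC). -/
structure Local3 (n N W : ℕ) [NeZero n] (e : ℕ) (K c1 : ℝ) (b : Finset (Tor n)) (h : Tor n → ℝ)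
    (c : Nd n N → Nd n N → ℝ) : Prop where
  symm : ∀ u v, c u v = c v u
  nonneg : ∀ u v, 0 ≤ c u v
  tot : ∀ (k : Fin (N + 1)) (x : Tor n), k ≠ 0 → ∑ v, c (k, x) v ≤ h x / (2 * N)
  long : ∀ (k l : Fin (N + 1)) (p x y : Tor n), k ≠ 0 → (k : ℕ) + W ≤ l →
    x ∈ cube n p (2 * 3 ^ e) → y ∈ cube n p (2 * 3 ^ e) → h x = 1 → h y = 1 →
    c1 / ((N : ℝ) ^ 2 * 27 ^ e) ≤ c (k, x) (l, y)
  contact : ∀ (k : Fin (N + 1)) (p x y : Tor n), W ≤ (k : ℕ) →
    x ∈ b → x ∈ cube n p (2 * 3 ^ e) → y ∈ cube n p (2 * 3 ^ e) → h y = 1 →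
    c1 * (K / b.card) / ((N : ℝ) * 27 ^ e) ≤ c (0, x) (k, y)

/-- Average of `a` over the cell `(x, y, z)` (corner `o + 3^e (x,y,z)`, side `3 ^ e`) and all
layers `1, …, N`. -/
def UC (n N e : ℕ) (o : Tor n) (a : Nd n N → ℝ) (x y z : ℕ) : ℝ :=
  (1 / ((N : ℝ) * 27 ^ e)) * ∑ i ∈ range (3 ^ e), ∑ j ∈ range (3 ^ e), ∑ k ∈ range (3 ^ e),
    ∑ t ∈ range N, a (lay N N 0 t, pt n o (3 ^ e * x + i) (3 ^ e * y + j) (3 ^ e * z + k))

/-- `UC` as a function of four variables (one time window), for `E4 S 1`, `cnt S 1`, `chain3`,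
`start3`, `lines` of stage 1 with `T = 1`. -/
def UT (n N e : ℕ) (o : Tor n) (a : Nd n N → ℝ) (x y z _w : ℕ) : ℝ := UC n N e o a x y z

/-- Sum of the squared deviations from the cell averages over `[0, S)³` cells. -/
def DevC (n N e : ℕ) (o : Tor n) (a : Nd n N → ℝ) (S : ℕ) : ℝ :=
  ∑ x ∈ range S, ∑ y ∈ range S, ∑ z ∈ range S,
    ∑ i ∈ range (3 ^ e), ∑ j ∈ range (3 ^ e), ∑ k ∈ range (3 ^ e), ∑ t ∈ range N,
      (a (lay N N 0 t, pt n o (3 ^ e * x + i) (3 ^ e * y + j) (3 ^ e * z + k)) -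
        UC n N e o a x y z) ^ 2

end

end Vale.Agent.P361.LRO.Ind3
end

section

/-!
P361 LRO, block (4) LOC: interfaces.  Everything on helper118's `LRO/Defs.lean`.

For a permutation `π` of the nodes:
* `Zp π θ = ∑_{t, t ∘ π = t} ∏ (1 + θ_x t_x)` (spins constant on the cycles);
* `Zf π θ u v`: the spin is flipped exactly at `u` and `v`, the factors of `u, v` are dropped.
-/

namespace Vale.Agent.P361.LRO.Loc

open Finset Vale.Agent.P361.LRO

noncomputable section

variable {X : Type} [Fintype X] [DecidableEq X]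

end

end Vale.Agent.P361.LRO.Loc
end

section

/-!
P361 LRO: from `LocSame` / `LocNN` (block (4)) to the form used by the network blocks
(`Skel/Low.lean`, theorem `loc`).
-/

namespace Vale.Agent.P361.LRO.Loc

open Finset Vale.Agent.P361.LRO

noncomputable section

end

end Vale.Agent.P361.LRO.Loc
end

section

/-!
# P361, long range order: the one-node inequality (statement)
-/

namespace Vale.Agent.P361.LRO

open Finset

/-- The one-node inequality (Theorem 1 of note 8371 in covariance form):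
`Cov(j_z², (a·j)²) ≤ F_z² / v_z + sqrt (1 - M_z²) Star_z(a)`. -/
def OneNode {X : Type} [Fintype X] [DecidableEq X] (μ : Equiv.Perm X → ℝ) : Prop :=
  ∀ θ : X → ℝ, (∀ x, 0 ≤ θ x ∧ θ x ≤ 1) → ∀ z, 0 < θ z → ∀ a : X → ℝ,
    EE μ θ (fun π s => jj π s z ^ 2 * (∑ x, a x * jj π s x) ^ 2) - vv μ θ z * KK μ θ a
      ≤ (∑ x, cc μ θ z x * (a x - a z)) ^ 2 / vv μ θ z
        + Real.sqrt (1 - mag μ θ z ^ 2) * ∑ x, cc μ θ z x * (a x - a z) ^ 2

end Vale.Agent.P361.LRO
end

section

/-!
# Network ODE (note 9886, step (3)): dual form with a fixed charge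
-/

namespace P361.LRO

open Finset Set Filter Topology

variable {V : Type*} [Fintype V] [DecidableEq V]

omit [DecidableEq V] in
theorem netK_sub_abs_le_of_osc (c d : V → V → ℝ) {a : V → ℝ} {L : ℝ}
    (ha : ∀ x y, |a x - a y| ≤ L) : |netK c a - netK d a| ≤ L ^ 2 * netDist c d := by
  have h : netK c a - netK d a = (1 / 2) * ∑ x, ∑ y, (c x y - d x y) * (a x - a y) ^ 2 := by
    unfold netK
    rw [← mul_sub, ← Finset.sum_sub_distrib]
    congr 1
    refine Finset.sum_congr rfl fun x _ => ?_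
    rw [← Finset.sum_sub_distrib]
    exact Finset.sum_congr rfl fun y _ => by ring
  rw [h, abs_mul]
  have h2 : |∑ x, ∑ y, (c x y - d x y) * (a x - a y) ^ 2| ≤ L ^ 2 * netDist c d := by
    unfold netDist
    rw [Finset.mul_sum]
    refine (Finset.abs_sum_le_sum_abs _ _).trans (Finset.sum_le_sum fun x _ => ?_)
    rw [Finset.mul_sum]
    refine (Finset.abs_sum_le_sum_abs _ _).trans (Finset.sum_le_sum fun y _ => ?_)
    rw [abs_mul, mul_comm]
    refine mul_le_mul_of_nonneg_right ?_ (abs_nonneg _)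
    rw [abs_of_nonneg (sq_nonneg _), ← sq_abs]
    exact pow_le_pow_left₀ (abs_nonneg _) (ha x y) 2
  have h3 : |(1 / 2 : ℝ)| = 1 / 2 := abs_of_pos (by norm_num)
  rw [h3]
  have h4 := mul_nonneg (sq_nonneg L) (netDist_nonneg c d)
  linarith

omit [DecidableEq V] in
theorem netQ_sub_abs_le_of_osc (c d : V → V → ℝ) {a : V → ℝ} {L : ℝ} (hL : 0 ≤ L)
    (ha : ∀ x y, |a x - a y| ≤ L) (z : V) :
    |netQ c a z - netQ d a z| ≤ L * netDist c d := by
  have h : netQ c a z - netQ d a z = ∑ x, (c z x - d z x) * (a z - a x) := by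
    unfold netQ
    rw [← Finset.sum_sub_distrib]
    exact Finset.sum_congr rfl fun x _ => by ring
  rw [h]
  have h2 : |∑ x, (c z x - d z x) * (a z - a x)| ≤ L * ∑ x, |c z x - d z x| := by
    rw [Finset.mul_sum]
    refine (Finset.abs_sum_le_sum_abs _ _).trans (Finset.sum_le_sum fun x _ => ?_)
    rw [abs_mul, mul_comm]
    exact mul_le_mul_of_nonneg_right (ha z x) (abs_nonneg _)
  refine h2.trans (mul_le_mul_of_nonneg_left ?_ hL)
  exact Finset.single_le_sum (f := fun x => ∑ y, |c x y - d x y|)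
    (fun x _ => Finset.sum_nonneg fun y _ => abs_nonneg _) (Finset.mem_univ z)

omit [DecidableEq V] in
theorem sum_mul_netQ {c : V → V → ℝ} (hsymm : ∀ x y, c x y = c y x) (a : V → ℝ) :
    ∑ z, a z * netQ c a z = netK c a := by
  unfold netQ netK
  have h1 : ∑ z, a z * ∑ x, c z x * (a z - a x) = ∑ z, ∑ x, c z x * (a z * (a z - a x)) := by
    refine Finset.sum_congr rfl fun z _ => ?_
    rw [Finset.mul_sum]
    exact Finset.sum_congr rfl fun x _ => by ring
  have h2 : ∑ z, ∑ x, c z x * (a z * (a z - a x)) = ∑ z, ∑ x, c z x * (a x * (a x - a z)) := by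
    rw [Finset.sum_comm]
    refine Finset.sum_congr rfl fun x _ => Finset.sum_congr rfl fun z _ => ?_
    rw [hsymm z x]
  have h3 : ∑ x, ∑ y, c x y * (a x - a y) ^ 2 =
      ∑ z, ∑ x, c z x * (a z * (a z - a x)) + ∑ z, ∑ x, c z x * (a x * (a x - a z)) := by
    rw [← Finset.sum_add_distrib]
    refine Finset.sum_congr rfl fun x _ => ?_
    rw [← Finset.sum_add_distrib]
    exact Finset.sum_congr rfl fun y _ => by ring
  rw [h1, h3, ← h2]; ring

/-- Regularised dual functional. -/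
noncomputable def dualJ (c : V → V → ℝ) (q : V → ℝ) (l : ℝ) (u : V → ℝ) : ℝ :=
  2 * ∑ x, q x * u x - netK c u - l * ∑ x, u x ^ 2

/-- Potentials vanishing on the electrode. -/
def dualAdm (E : Set V) : Set (V → ℝ) := {u | ∀ x ∈ E, u x = 0}

/-- Regularised resistance of the charge `q` to the electrode `E`. -/
noncomputable def dualR (E : Set V) (c : V → V → ℝ) (q : V → ℝ) (l : ℝ) : ℝ :=
  sSup (dualJ c q l '' dualAdm E)

/-- A bound for the maximiser. -/
noncomputable def dualM (q : V → ℝ) (l : ℝ) : ℝ := 2 * (√(∑ x, q x ^ 2) / l)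

omit [DecidableEq V] in
theorem dualJ_le {c : V → V → ℝ} (hc : ∀ x y, 0 ≤ c x y) (q : V → ℝ) {l : ℝ} (hl : 0 < l)
    (u : V → ℝ) : dualJ c q l u ≤ (∑ x, q x ^ 2) / l - l * ∑ x, (u x - q x / l) ^ 2 := by
  have h : (∑ x, q x ^ 2) / l - l * ∑ x, (u x - q x / l) ^ 2
      = 2 * ∑ x, q x * u x - l * ∑ x, u x ^ 2 := by
    rw [Finset.sum_div, Finset.mul_sum, Finset.mul_sum, Finset.mul_sum, ← Finset.sum_sub_distrib,
      ← Finset.sum_sub_distrib]
    refine Finset.sum_congr rfl fun x _ => ?_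
    field_simp
    ring
  rw [h]
  unfold dualJ
  have := netK_nonneg hc u
  linarith

omit [DecidableEq V] in
theorem exists_max (E : Set V) {c : V → V → ℝ} (hc : ∀ x y, 0 ≤ c x y) (q : V → ℝ) {l : ℝ}
    (hl : 0 < l) :
    ∃ u ∈ dualAdm E, dualJ c q l u = dualR E c q l ∧
      (∀ w ∈ dualAdm E, dualJ c q l w ≤ dualJ c q l u) ∧
      ∀ x, |u x| ≤ dualM q l := by
  set Q := ∑ x, q x ^ 2 with hQ
  have hQ0 : 0 ≤ Q := Finset.sum_nonneg fun _ _ => sq_nonneg _
  have hbox : ∀ u : V → ℝ, 0 ≤ dualJ c q l u → ∀ x, |u x| ≤ dualM q l := by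
    intro u hu x
    have h1 := dualJ_le hc q hl u
    have h2 : l * ∑ x, (u x - q x / l) ^ 2 ≤ Q / l := by linarith
    have h3 : (u x - q x / l) ^ 2 ≤ ∑ x, (u x - q x / l) ^ 2 :=
      Finset.single_le_sum (f := fun x => (u x - q x / l) ^ 2) (fun _ _ => sq_nonneg _)
        (Finset.mem_univ x)
    have h4 : (u x - q x / l) ^ 2 ≤ Q / l / l := by
      rw [le_div_iff₀ hl]
      calc (u x - q x / l) ^ 2 * l ≤ (∑ x, (u x - q x / l) ^ 2) * l :=
            mul_le_mul_of_nonneg_right h3 hl.le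
        _ ≤ Q / l := by linarith
    have h5 : |u x - q x / l| ≤ √Q / l := by
      rw [← Real.sqrt_sq_eq_abs]
      calc √((u x - q x / l) ^ 2) ≤ √(Q / l / l) := Real.sqrt_le_sqrt h4
        _ = √Q / l := by
            rw [div_div, ← sq, Real.sqrt_div hQ0, Real.sqrt_sq hl.le]
    have h6 : |q x / l| ≤ √Q / l := by
      rw [abs_div, abs_of_pos hl]
      refine div_le_div_of_nonneg_right ?_ hl.le
      rw [← Real.sqrt_sq_eq_abs]
      refine Real.sqrt_le_sqrt ?_
      exact Finset.single_le_sum (f := fun x => q x ^ 2) (fun _ _ => sq_nonneg _)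
        (Finset.mem_univ x)
    have h7 : |u x| ≤ |u x - q x / l| + |q x / l| := by
      have := abs_add_le (u x - q x / l) (q x / l)
      simpa using this
    unfold dualM
    linarith
  have hcont : Continuous (dualJ c q l) := by
    unfold dualJ
    have := continuous_netK c
    fun_prop
  have hcl : IsClosed (dualAdm E : Set (V → ℝ)) := by
    have : (dualAdm E : Set (V → ℝ)) = ⋂ x ∈ E, {u : V → ℝ | u x = 0} := by
      ext u; simp [dualAdm]
    rw [this]
    exact isClosed_iInter fun x => isClosed_iInter fun _ =>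
      isClosed_eq (continuous_apply x) continuous_const
  have hcomp : IsCompact ((Set.pi Set.univ fun _ : V => Set.Icc (-dualM q l) (dualM q l)) ∩
      dualAdm E) :=
    (isCompact_univ_pi fun _ => isCompact_Icc).inter_right hcl
  have hM : 0 ≤ dualM q l := by unfold dualM; positivity
  have hJ0 : dualJ c q l 0 = 0 := by simp [dualJ, netK]
  have hmem0 : (0 : V → ℝ) ∈ (Set.pi Set.univ fun _ : V => Set.Icc (-dualM q l) (dualM q l)) ∩
      dualAdm E := by
    refine ⟨fun x _ => ?_, fun x _ => rfl⟩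
    simp [hM]
  obtain ⟨u, hu, hmax⟩ := hcomp.exists_isMaxOn ⟨0, hmem0⟩ hcont.continuousOn
  have hall : ∀ w ∈ dualAdm E, dualJ c q l w ≤ dualJ c q l u := by
    intro w hwE
    have h0 : 0 ≤ dualJ c q l u := by
      have := hmax hmem0
      simp only [Set.mem_ofPred_eq, hJ0] at this
      exact this
    by_cases hw : 0 ≤ dualJ c q l w
    · have hwm : w ∈ (Set.pi Set.univ fun _ : V => Set.Icc (-dualM q l) (dualM q l)) ∩
          dualAdm E := by
        refine ⟨fun x _ => ?_, hwE⟩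
        exact abs_le.mp (hbox w hw x)
      exact hmax hwm
    · linarith [not_le.mp hw]
  refine ⟨u, hu.2, ?_, hall, ?_⟩
  · unfold dualR
    refine le_antisymm ?_ ?_
    · refine le_csSup ⟨dualJ c q l u, ?_⟩ ⟨u, hu.2, rfl⟩
      rintro _ ⟨w, hw, rfl⟩
      exact hall w hw
    · refine csSup_le ⟨_, ⟨u, hu.2, rfl⟩⟩ ?_
      rintro _ ⟨w, hw, rfl⟩
      exact hall w hw
  · intro x
    exact abs_le.mpr (hu.1 x (Set.mem_univ x))

omit [DecidableEq V] in
theorem dualJ_le_dualR {E : Set V} {c : V → V → ℝ} (hc : ∀ x y, 0 ≤ c x y) (q : V → ℝ) {l : ℝ}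
    (hl : 0 < l) {w : V → ℝ} (hw : w ∈ dualAdm E) : dualJ c q l w ≤ dualR E c q l := by
  obtain ⟨u, _, hu, hmax, _⟩ := exists_max E hc q hl
  rw [← hu]; exact hmax w hw

theorem dual_stationary {E : Set V} {c : V → V → ℝ} (hc : ∀ x y, 0 ≤ c x y)
    (hsymm : ∀ x y, c x y = c y x)
    {q : V → ℝ} {l : ℝ} (hl : 0 < l) {u : V → ℝ} (hu : u ∈ dualAdm E)
    (hmax : ∀ w ∈ dualAdm E, dualJ c q l w ≤ dualJ c q l u)
    {z : V} (hz : z ∉ E) : netQ c u z + l * u z = q z := by
  have hsq : ∀ t : ℝ, ∑ x, (u + (Pi.single z t : V → ℝ)) x ^ 2 = ∑ x, u x ^ 2 + 2 * t * u z + t ^ 2 := by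
    intro t
    have h1 : ∀ x, (u + (Pi.single z t : V → ℝ)) x ^ 2
        = u x ^ 2 + (if x = z then 2 * t * u z + t ^ 2 else 0) := by
      intro x
      by_cases hx : x = z
      · subst hx; simp; ring
      · simp [hx]
    simp only [h1, Finset.sum_add_distrib]
    simp
    ring
  have hlin : ∀ t : ℝ, ∑ x, q x * (u + (Pi.single z t : V → ℝ)) x = ∑ x, q x * u x + t * q z := by
    intro t
    have h1 : ∀ x, q x * (u + (Pi.single z t : V → ℝ)) x
        = q x * u x + (if x = z then t * q z else 0) := by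
      intro x
      by_cases hx : x = z
      · subst hx; simp; ring
      · simp [hx]
    simp only [h1, Finset.sum_add_distrib]
    simp
  set g := q z - netQ c u z - l * u z with hg
  set k := netK c (Pi.single z 1) + l with hk
  have hk0 : 0 < k := by
    have := netK_nonneg hc (Pi.single z (1:ℝ) : V → ℝ)
    rw [hk]; linarith
  have h : ∀ t : ℝ, 2 * t * g - t ^ 2 * k ≤ 0 := by
    intro t
    have hm : u + (Pi.single z t : V → ℝ) ∈ dualAdm E := by
      intro x hx
      have hxz : x ≠ z := fun h => hz (h ▸ hx)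
      simp [Pi.single_eq_of_ne hxz, hu x hx]
    have h1 := hmax _ hm
    unfold dualJ at h1
    rw [hsq, hlin, netK_add_single hsymm] at h1
    rw [hg, hk]
    linarith
  have h2 := h (g / k)
  have h3 : 2 * (g / k) * g - (g / k) ^ 2 * k = g ^ 2 / k := by
    field_simp
    ring
  rw [h3] at h2
  have h4 : g ^ 2 ≤ 0 := by
    by_contra hcon
    have : 0 < g ^ 2 / k := div_pos (not_le.mp hcon) hk0
    linarith
  have h5 : g = 0 := pow_eq_zero_iff (two_ne_zero) |>.mp (le_antisymm h4 (sq_nonneg g))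
  rw [hg] at h5
  linarith

theorem dual_value {E : Set V} {c : V → V → ℝ} (hc : ∀ x y, 0 ≤ c x y)
    (hsymm : ∀ x y, c x y = c y x)
    {q : V → ℝ} {l : ℝ} (hl : 0 < l) {u : V → ℝ} (hu : u ∈ dualAdm E)
    (hmax : ∀ w ∈ dualAdm E, dualJ c q l w ≤ dualJ c q l u) :
    dualJ c q l u = netK c u + l * ∑ x, u x ^ 2 := by
  have h1 : ∑ z, q z * u z = netK c u + l * ∑ x, u x ^ 2 := by
    rw [← sum_mul_netQ hsymm u, Finset.mul_sum, ← Finset.sum_add_distrib]
    refine Finset.sum_congr rfl fun z _ => ?_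
    by_cases hz : z ∈ E
    · rw [hu z hz]; ring
    · rw [← dual_stationary hc hsymm hl hu hmax hz]; ring
  unfold dualJ
  rw [h1]; ring


omit [DecidableEq V] in
theorem dualR_sub_le (E : Set V) {c0 c1 : V → V → ℝ} (h0 : ∀ x y, 0 ≤ c0 x y)
    (h1 : ∀ x y, 0 ≤ c1 x y) (q : V → ℝ) {l : ℝ} (hl : 0 < l) :
    dualR E c1 q l - dualR E c0 q l ≤ (2 * dualM q l) ^ 2 * netDist c1 c0 := by
  obtain ⟨u, huE, hu, _, hM⟩ := exists_max E h1 q hl
  have hosc : ∀ x y, |u x - u y| ≤ 2 * dualM q l := by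
    intro x y
    have := abs_sub (u x) (u y)
    linarith [hM x, hM y]
  have e1 := dualJ_le_dualR h0 q hl huE
  have e2 := (abs_le.mp (netK_sub_abs_le_of_osc c1 c0 hosc)).1
  rw [← hu]
  unfold dualJ at *
  linarith

theorem dual_one_step {E : Set V} {c0 c1 c' : V → V → ℝ}
    (h0 : ∀ x y, 0 ≤ c0 x y) (h1 : ∀ x y, 0 ≤ c1 x y) (hs1 : ∀ x y, c1 x y = c1 y x)
    {r : V → ℝ} (hr0 : ∀ z, 0 ≤ r z) (hr1 : ∀ z, r z ≤ 1) (hrE : ∀ z ∈ E, r z = 0)
    {ε : ℝ} (hε : 0 ≤ ε)
    (hbound : ∀ a : V → ℝ, - ∑ z, r z * ((netQ c0 a z) ^ 2 / netV c0 z + 2 * ε * netStar c0 a z)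
      ≤ netK c' a) (q : V → ℝ) {l : ℝ} (hl : 0 < l) {η : ℝ} (hη : 0 < η) {δ : ℝ} (hδ : 0 < δ)
    {L : ℝ} (hL : L = 2 * dualM q l) :
    δ⁻¹ * (dualR E c1 q l - dualR E c0 q l) ≤
      L ^ 2 * netDist (fun x y => δ⁻¹ * (c1 x y - c0 x y)) c'
      + ((1 + η) * ∑ z, r z * (q z ^ 2 / netV c0 z)
         + (1 + η⁻¹) * (l * (dualR E c0 q l + L ^ 2 * netDist c1 c0) + l * L ^ 2 * netDist c1 c0
            + L ^ 2 * netDist c1 c0 ^ 2) * ∑ z, r z * (netV c0 z)⁻¹)
      + 4 * ε * (dualR E c0 q l + 2 * L ^ 2 * netDist c1 c0) := by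
  obtain ⟨u, huE, hu, hmax, hM⟩ := exists_max E h1 q hl
  set Δ := netDist c1 c0 with hΔ
  have hΔ0 : 0 ≤ Δ := netDist_nonneg _ _
  have hM0 : 0 ≤ dualM q l := by unfold dualM; positivity
  have hL0 : 0 ≤ L := by rw [hL]; positivity
  have hosc : ∀ x y, |u x - u y| ≤ L := by
    intro x y
    have := abs_sub (u x) (u y)
    rw [hL]
    linarith [hM x, hM y]
  -- value comparison
  have hR1 : dualR E c1 q l ≤ dualR E c0 q l + L ^ 2 * Δ := by
    have := dualR_sub_le E h0 h1 q hl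
    rw [← hL] at this
    linarith
  have hval := dual_value h1 hs1 hl huE hmax
  rw [hu] at hval
  have hK0 : 0 ≤ netK c1 u := netK_nonneg h1 u
  have hS0 : 0 ≤ ∑ x, u x ^ 2 := Finset.sum_nonneg fun _ _ => sq_nonneg _
  have hK1 : netK c1 u ≤ dualR E c1 q l := by
    have hlS := mul_nonneg hl.le hS0
    linarith only [hval, hlS]
  have hlu : ∀ z, l ^ 2 * u z ^ 2 ≤ l * (dualR E c0 q l + L ^ 2 * Δ) := by
    intro z
    have e1 : u z ^ 2 ≤ ∑ x, u x ^ 2 :=
      Finset.single_le_sum (f := fun x => u x ^ 2) (fun _ _ => sq_nonneg _) (Finset.mem_univ z)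
    have e2 : l * u z ^ 2 ≤ dualR E c1 q l := by
      have e1l := mul_le_mul_of_nonneg_left e1 hl.le
      linarith only [e1l, hval, hK0]
    have e3 : l * (l * u z ^ 2) ≤ l * (dualR E c0 q l + L ^ 2 * Δ) :=
      mul_le_mul_of_nonneg_left (e2.trans hR1) hl.le
    linarith
  have hstep : dualR E c1 q l - dualR E c0 q l ≤ netK c0 u - netK c1 u := by
    have e1 := dualJ_le_dualR h0 q hl huE
    rw [← hu]
    unfold dualJ at *
    linarith
  have hlin : δ⁻¹ * (netK c0 u - netK c1 u) = - netK (fun x y => δ⁻¹ * (c1 x y - c0 x y)) u := by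
    unfold netK
    have : ∑ x, ∑ y, δ⁻¹ * (c1 x y - c0 x y) * (u x - u y) ^ 2
        = δ⁻¹ * (∑ x, ∑ y, c1 x y * (u x - u y) ^ 2 - ∑ x, ∑ y, c0 x y * (u x - u y) ^ 2) := by
      rw [← Finset.sum_sub_distrib, Finset.mul_sum]
      refine Finset.sum_congr rfl fun x _ => ?_
      rw [← Finset.sum_sub_distrib, Finset.mul_sum]
      exact Finset.sum_congr rfl fun y _ => by ring
    rw [this]; ring
  have hd := netK_sub_abs_le_of_osc (fun x y => δ⁻¹ * (c1 x y - c0 x y)) c' hosc
  have hd' := (abs_le.mp hd).1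
  have hb := hbound u
  set P := l * (dualR E c0 q l + L ^ 2 * Δ) + l * L ^ 2 * Δ + L ^ 2 * Δ ^ 2 with hP
  have hq : ∀ z ∉ E, (netQ c0 u z) ^ 2 ≤ (1 + η) * q z ^ 2 + (1 + η⁻¹) * P := by
    intro z hz
    have hst := dual_stationary h1 hs1 hl huE hmax hz
    set e := netQ c0 u z - netQ c1 u z with he
    have he1 : |e| ≤ L * Δ := by
      rw [he, hΔ, netDist_comm]
      exact netQ_sub_abs_le_of_osc c0 c1 hL0 hosc z
    have hqz : netQ c0 u z = q z + (e - l * u z) := by
      rw [he]; linarith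
    have hb2 : (e - l * u z) ^ 2 ≤ P := by
      have e1 : (e - l * u z) ^ 2 ≤ (|e| + l * |u z|) ^ 2 := by
        rw [← sq_abs (e - l * u z)]
        refine pow_le_pow_left₀ (abs_nonneg _) ?_ 2
        have := abs_sub e (l * u z)
        rwa [abs_mul, abs_of_pos hl] at this
      have e2 : |u z| ≤ L / 2 := by rw [hL]; linarith [hM z]
      have e3 := hlu z
      have e4 : |e| * (l * |u z|) ≤ (L * Δ) * (l * (L / 2)) :=
        mul_le_mul he1 (mul_le_mul_of_nonneg_left e2 hl.le) (by positivity) (by positivity)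
      have e5 : |e| ^ 2 ≤ (L * Δ) ^ 2 := pow_le_pow_left₀ (abs_nonneg _) he1 2
      have e6 : (l * |u z|) ^ 2 = l ^ 2 * u z ^ 2 := by rw [mul_pow, sq_abs]
      have e7 : (|e| + l * |u z|) ^ 2 = |e| ^ 2 + 2 * (|e| * (l * |u z|)) + (l * |u z|) ^ 2 := by
        ring
      rw [e7, e6] at e1
      rw [hP]
      linarith only [e1, e3, e4, e5]
    have hy : 2 * (q z * (e - l * u z)) ≤ η * q z ^ 2 + η⁻¹ * (e - l * u z) ^ 2 := by
      have h1 : 0 ≤ η⁻¹ * (η * q z - (e - l * u z)) ^ 2 := by positivity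
      have h2 : η⁻¹ * (η * q z - (e - l * u z)) ^ 2
          = η * q z ^ 2 - 2 * (q z * (e - l * u z)) + η⁻¹ * (e - l * u z) ^ 2 := by
        field_simp
        ring
      linarith only [h1, h2]
    have hη' : 0 < 1 + η⁻¹ := add_pos one_pos (inv_pos.mpr hη)
    have hfin := mul_le_mul_of_nonneg_left hb2 hη'.le
    rw [hqz]
    linarith only [hy, hfin]
  have hrq : ∑ z, r z * ((netQ c0 u z) ^ 2 / netV c0 z) ≤
      (1 + η) * ∑ z, r z * (q z ^ 2 / netV c0 z) + (1 + η⁻¹) * P * ∑ z, r z * (netV c0 z)⁻¹ := by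
    rw [Finset.mul_sum, Finset.mul_sum, ← Finset.sum_add_distrib]
    refine Finset.sum_le_sum fun z _ => ?_
    have hv : 0 ≤ (netV c0 z)⁻¹ := inv_nonneg.mpr (Finset.sum_nonneg fun x _ => h0 z x)
    by_cases hz : z ∈ E
    · rw [hrE z hz]; simp
    have h2 := mul_le_mul_of_nonneg_right (hq z hz) (mul_nonneg (hr0 z) hv)
    rw [div_eq_mul_inv, div_eq_mul_inv]
    linarith
  have hstar : ∑ z, r z * netStar c0 u z ≤ 2 * (dualR E c0 q l + 2 * L ^ 2 * Δ) := by
    have e1 : ∑ z, r z * netStar c0 u z ≤ ∑ z, netStar c0 u z :=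
      Finset.sum_le_sum fun z _ => by
        have := mul_le_mul_of_nonneg_right (hr1 z) (netStar_nonneg h0 u z)
        linarith
    rw [sum_netStar] at e1
    have e2 := (abs_le.mp (netK_sub_abs_le_of_osc c0 c1 hosc)).2
    rw [netDist_comm, ← hΔ] at e2
    linarith
  have hsum : ∑ z, r z * ((netQ c0 u z) ^ 2 / netV c0 z + 2 * ε * netStar c0 u z)
      = ∑ z, r z * ((netQ c0 u z) ^ 2 / netV c0 z) + 2 * ε * ∑ z, r z * netStar c0 u z := by
    rw [Finset.mul_sum, ← Finset.sum_add_distrib]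
    exact Finset.sum_congr rfl fun z _ => by ring
  have hstar2 : 2 * ε * ∑ z, r z * netStar c0 u z ≤ 2 * ε * (2 * (dualR E c0 q l + 2 * L ^ 2 * Δ)) :=
    mul_le_mul_of_nonneg_left hstar (by positivity)
  have hfin := mul_le_mul_of_nonneg_left hstep (inv_nonneg.mpr hδ.le)
  rw [hlin] at hfin
  linarith

theorem NetFlow.dual_dini {c c' : ℝ → V → V → ℝ} {r : ℝ → V → ℝ} {E G : Set V} {ε : ℝ}
    (H : NetFlow c c' r E G ε) (q : V → ℝ) {l : ℝ} (hl : 0 < l) {η : ℝ} (hη : 0 < η)
    {s : ℝ} (hs : 0 ≤ s) {b : ℝ}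
    (hb : ((1 + η) * ∑ z, r s z * (q z ^ 2 / netV (c s) z)
         + (1 + η⁻¹) * (l * dualR E (c s) q l) * ∑ z, r s z * (netV (c s) z)⁻¹)
      + 4 * ε * dualR E (c s) q l < b) :
    ∀ᶠ z in 𝓝[>] s, (z - s)⁻¹ * (dualR E (c z) q l - dualR E (c s) q l) < b := by
  have hslope : ∀ x y, Tendsto (fun z => (z - s)⁻¹ * (c z x y - c s x y)) (𝓝[>] s)
      (𝓝 (c' s x y)) := by
    intro x y
    have h := hasDerivWithinAt_iff_tendsto_slope.mp (H.der s hs x y)
    rw [Set.Ici_sdiff_left] at h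
    refine h.congr fun z => ?_
    simp [slope_def_field, div_eq_inv_mul]
  have hval : ∀ x y, Tendsto (fun z => c z x y) (𝓝[>] s) (𝓝 (c s x y)) := by
    intro x y
    exact (H.der s hs x y).continuousWithinAt.tendsto.mono_left
      (nhdsWithin_mono _ Set.Ioi_subset_Ici_self)
  have h1 := tendsto_netDist hslope
  have h2 := tendsto_netDist hval
  set L := 2 * dualM q l with hL
  set R := dualR E (c s) q l with hR
  have hlim : Tendsto (fun z =>
      L ^ 2 * netDist (fun x y => (z - s)⁻¹ * (c z x y - c s x y)) (c' s)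
      + ((1 + η) * ∑ w, r s w * (q w ^ 2 / netV (c s) w)
         + (1 + η⁻¹) * (l * (R + L ^ 2 * netDist (c z) (c s)) + l * L ^ 2 * netDist (c z) (c s)
            + L ^ 2 * netDist (c z) (c s) ^ 2) * ∑ w, r s w * (netV (c s) w)⁻¹)
      + 4 * ε * (R + 2 * L ^ 2 * netDist (c z) (c s))) (𝓝[>] s)
      (𝓝 (L ^ 2 * 0
      + ((1 + η) * ∑ w, r s w * (q w ^ 2 / netV (c s) w)
         + (1 + η⁻¹) * (l * (R + L ^ 2 * 0) + l * L ^ 2 * 0
            + L ^ 2 * 0 ^ 2) * ∑ w, r s w * (netV (c s) w)⁻¹)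
      + 4 * ε * (R + 2 * L ^ 2 * 0))) := by
    refine ((h1.const_mul _).add ?_).add (Tendsto.const_mul _ ?_)
    · refine Tendsto.const_add _ (Tendsto.mul_const _ (Tendsto.const_mul _ ?_))
      refine ((Tendsto.const_mul _ ((h2.const_mul _).const_add _)).add (h2.const_mul _)).add ?_
      exact (h2.pow 2).const_mul _
    · exact (h2.const_mul _).const_add _
  have hlt : (L ^ 2 * 0
      + ((1 + η) * ∑ w, r s w * (q w ^ 2 / netV (c s) w)
         + (1 + η⁻¹) * (l * (R + L ^ 2 * 0) + l * L ^ 2 * 0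
            + L ^ 2 * 0 ^ 2) * ∑ w, r s w * (netV (c s) w)⁻¹)
      + 4 * ε * (R + 2 * L ^ 2 * 0)) < b := by
    simpa using hb
  have hev := hlim.eventually (gt_mem_nhds hlt)
  filter_upwards [hev, self_mem_nhdsWithin] with z hz hzs
  have hzs' : (0 : ℝ) < z - s := sub_pos.mpr hzs
  have hz0 : 0 ≤ z := hs.trans (le_of_lt hzs)
  exact lt_of_le_of_lt (dual_one_step (H.nn s hs) (H.nn z hz0) (H.symm z hz0) (H.r0 s hs)
    (H.r1 s hs) (H.rE s hs) H.eps (H.bound s hs) q hl hη hzs' hL) hz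

omit [DecidableEq V] in
theorem NetFlow.continuousOn_dualR {c c' : ℝ → V → V → ℝ} {r : ℝ → V → ℝ} {E G : Set V} {ε : ℝ}
    (H : NetFlow c c' r E G ε) (q : V → ℝ) {l : ℝ} (hl : 0 < l) :
    ContinuousOn (fun s => dualR E (c s) q l) (Set.Ici 0) := by
  intro s hs
  have hval : ∀ x y, Tendsto (fun z => c z x y) (𝓝[Set.Ici 0] s) (𝓝 (c s x y)) :=
    fun x y => H.cont x y s hs
  have h2 := (tendsto_netDist hval).const_mul ((2 * dualM q l) ^ 2)
  rw [mul_zero] at h2
  rw [ContinuousWithinAt, tendsto_iff_dist_tendsto_zero]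
  refine squeeze_zero' (Eventually.of_forall fun _ => dist_nonneg) ?_ h2
  filter_upwards [self_mem_nhdsWithin] with z hz
  rw [Real.dist_eq, abs_le]
  have e1 := dualR_sub_le E (H.nn s hs) (H.nn z hz) q hl
  have e2 := dualR_sub_le E (H.nn z hz) (H.nn s hs) q hl
  rw [netDist_comm] at e2
  constructor <;> linarith

theorem NetFlow.dual_upper_reg {c c' : ℝ → V → V → ℝ} {r : ℝ → V → ℝ} {E G : Set V} {ε : ℝ}
    (H : NetFlow c c' r E G ε) (q : V → ℝ) {T D W R0 : ℝ} (hT : 0 ≤ T) (hD : 0 ≤ D)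
    (hW0 : 0 ≤ W) (hR00 : 0 ≤ R0)
    (hq : ∀ s, 0 ≤ s → s ≤ T → ∑ z, r s z * (q z ^ 2 / netV (c s) z) ≤ D * Real.exp s)
    (hW : ∀ s, 0 ≤ s → s ≤ T → ∑ z, r s z * (netV (c s) z)⁻¹ ≤ W)
    (hR0 : ∀ u : V → ℝ, (∀ x ∈ E, u x = 0) → 2 * ∑ x, q x * u x - netK (c 0) u ≤ R0)
    {l : ℝ} (hl : 0 < l) {η : ℝ} (hη : 0 < η) :
    dualR E (c T) q l ≤ Real.exp ((4 * ε + (1 + η⁻¹) * l * W + η) * T)
      * (R0 + η + (1 + η) * D * (Real.exp T - 1)) := by
  set K := 4 * ε + (1 + η⁻¹) * l * W with hK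
  have hε := H.eps
  have hK0 : 0 ≤ K := by rw [hK]; positivity
  have hf : ContinuousOn (fun s => dualR E (c s) q l) (Set.Icc 0 T) :=
    (H.continuousOn_dualR q hl).mono Set.Icc_subset_Ici_self
  have hRnn : ∀ s, 0 ≤ s → 0 ≤ dualR E (c s) q l := by
    intro s hs
    have h0E : (0 : V → ℝ) ∈ dualAdm E := fun x _ => rfl
    have := dualJ_le_dualR (H.nn s hs) q hl h0E
    simpa [dualJ, netK] using this
  refine image_le_of_liminf_slope_right_lt_deriv_boundary' (f := fun s => dualR E (c s) q l)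
    (f' := fun s => (1 + η) * (D * Real.exp s) + K * dualR E (c s) q l)
    (a := 0) (b := T) hf
    (B := fun s => Real.exp ((K + η) * s) * (R0 + η + (1 + η) * D * (Real.exp s - 1)))
    (B' := fun s => (K + η) * (Real.exp ((K + η) * s) * (R0 + η + (1 + η) * D * (Real.exp s - 1)))
      + Real.exp ((K + η) * s) * ((1 + η) * D * Real.exp s)) ?_ ?_ ?_ ?_ ?_ (x := T) ⟨hT, le_rfl⟩
  · -- slope
    intro s hs b hb
    have hb' : ((1 + η) * ∑ z, r s z * (q z ^ 2 / netV (c s) z)
         + (1 + η⁻¹) * (l * dualR E (c s) q l) * ∑ z, r s z * (netV (c s) z)⁻¹)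
      + 4 * ε * dualR E (c s) q l < b := by
      refine lt_of_le_of_lt ?_ hb
      have e1 := mul_le_mul_of_nonneg_left (hq s hs.1 hs.2.le) (by positivity : 0 ≤ 1 + η)
      have hRs := hRnn s hs.1
      have e2 := mul_le_mul_of_nonneg_left (hW s hs.1 hs.2.le)
        (by positivity : 0 ≤ (1 + η⁻¹) * (l * dualR E (c s) q l))
      rw [hK]
      have e3 : (4 * ε + (1 + η⁻¹) * l * W) * dualR E (c s) q l
          = 4 * ε * dualR E (c s) q l + (1 + η⁻¹) * (l * dualR E (c s) q l) * W := by ring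
      rw [e3]
      linarith
    have := H.dual_dini q hl hη hs.1 hb'
    refine Eventually.frequently (this.mono fun z hz => ?_)
    rw [slope_def_field, div_eq_inv_mul]
    exact hz
  · -- initial value
    obtain ⟨u, huE, hu, _, _⟩ := exists_max E (H.nn 0 le_rfl) q hl
    have e1 := hR0 u huE
    have e2 : 0 ≤ l * ∑ x, u x ^ 2 := mul_nonneg hl.le (Finset.sum_nonneg fun _ _ => sq_nonneg _)
    simp only [mul_zero, Real.exp_zero, one_mul, sub_self, add_zero]
    rw [← hu]
    unfold dualJ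
    linarith
  · fun_prop
  · intro s _
    have h1 : HasDerivAt (fun s : ℝ => Real.exp ((K + η) * s)) (Real.exp ((K + η) * s) * (K + η)) s := by
      have := ((hasDerivAt_id s).const_mul (K + η)).exp
      simpa using this
    have h2 : HasDerivAt (fun s : ℝ => R0 + η + (1 + η) * D * (Real.exp s - 1))
        ((1 + η) * D * Real.exp s) s :=
      (((Real.hasDerivAt_exp s).sub_const 1).const_mul _).const_add _
    have h3 := h1.mul h2
    refine (h3.congr_deriv ?_).hasDerivWithinAt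
    ring
  · intro s hs heq
    have hs0 := hs.1

    rw [heq]
    have hBpos : 0 < Real.exp ((K + η) * s) * (R0 + η + (1 + η) * D * (Real.exp s - 1)) := by
      have : 0 ≤ (1 + η) * D * (Real.exp s - 1) := by
        have := Real.one_le_exp hs0
        have h' : 0 ≤ Real.exp s - 1 := by linarith
        positivity
      have h2 : 0 < R0 + η + (1 + η) * D * (Real.exp s - 1) := by linarith
      positivity
    have h1 : (1 + η) * (D * Real.exp s) ≤ Real.exp ((K + η) * s) * ((1 + η) * D * Real.exp s) := by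
      have h2 : 1 ≤ Real.exp ((K + η) * s) := Real.one_le_exp (by positivity)
      have h3 : 0 ≤ (1 + η) * D * Real.exp s := by positivity
      nlinarith
    nlinarith [mul_pos hη hBpos]

/-- **Network ODE, dual form** (note 9886, step (3)). -/
theorem NetFlow.dual_upper {c c' : ℝ → V → V → ℝ} {r : ℝ → V → ℝ} {E G : Set V} {ε : ℝ}
    (H : NetFlow c c' r E G ε) (q : V → ℝ) {T D W R0 : ℝ} (hT : 0 ≤ T) (hD : 0 ≤ D)
    (hq : ∀ s, 0 ≤ s → s ≤ T → ∑ z, r s z * (q z ^ 2 / netV (c s) z) ≤ D * Real.exp s)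
    (hW : ∀ s, 0 ≤ s → s ≤ T → ∑ z, r s z * (netV (c s) z)⁻¹ ≤ W)
    (hR0 : ∀ u : V → ℝ, (∀ x ∈ E, u x = 0) → 2 * ∑ x, q x * u x - netK (c 0) u ≤ R0)
    {u : V → ℝ} (hu : ∀ x ∈ E, u x = 0) :
    2 * ∑ x, q x * u x - netK (c T) u ≤ Real.exp (4 * ε * T) * (R0 + D * (Real.exp T - 1)) := by
  have hR00 : 0 ≤ R0 := by
    have := hR0 0 (fun _ _ => rfl)
    simpa [netK] using this
  have hW' : ∀ s, 0 ≤ s → s ≤ T → ∑ z, r s z * (netV (c s) z)⁻¹ ≤ max W 0 :=
    fun s h1 h2 => (hW s h1 h2).trans (le_max_left _ _)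
  have hreg : ∀ t : ℝ, 0 < t → 2 * ∑ x, q x * u x - netK (c T) u - t ^ 2 * ∑ x, u x ^ 2 ≤
      Real.exp ((4 * ε + (t ^ 2 + t) * max W 0 + t) * T)
      * (R0 + t + (1 + t) * D * (Real.exp T - 1)) := by
    intro t ht
    have h1 := H.dual_upper_reg q hT hD (le_max_right W 0) hR00 hq hW' hR0 (l := t ^ 2)
      (by positivity) ht
    have h2 := dualJ_le_dualR (H.nn T hT) q (l := t ^ 2) (by positivity) hu
    have h3 : (1 + t⁻¹) * t ^ 2 = t ^ 2 + t := by field_simp
    rw [h3] at h1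
    unfold dualJ at h2
    exact h2.trans h1
  have hl1 : Tendsto (fun t : ℝ => 2 * ∑ x, q x * u x - netK (c T) u - t ^ 2 * ∑ x, u x ^ 2)
      (𝓝[>] 0) (𝓝 (2 * ∑ x, q x * u x - netK (c T) u - 0 ^ 2 * ∑ x, u x ^ 2)) := by
    refine Tendsto.mono_left ?_ nhdsWithin_le_nhds
    exact (Continuous.tendsto (by fun_prop) 0)
  have hl2 : Tendsto (fun t : ℝ => Real.exp ((4 * ε + (t ^ 2 + t) * max W 0 + t) * T)
      * (R0 + t + (1 + t) * D * (Real.exp T - 1))) (𝓝[>] 0)
      (𝓝 (Real.exp ((4 * ε + (0 ^ 2 + 0) * max W 0 + 0) * T)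
      * (R0 + 0 + (1 + 0) * D * (Real.exp T - 1)))) := by
    refine Tendsto.mono_left ?_ nhdsWithin_le_nhds
    have hc : Continuous (fun t : ℝ => Real.exp ((4 * ε + (t ^ 2 + t) * max W 0 + t) * T)
      * (R0 + t + (1 + t) * D * (Real.exp T - 1))) := by fun_prop
    exact hc.tendsto 0
  have hle := le_of_tendsto_of_tendsto hl1 hl2
    (by filter_upwards [self_mem_nhdsWithin] with t ht using hreg t ht)
  simpa using hle

end P361.LRO
end

section

/-!
# Network ODE (note 9886, step (3)): the forms `LB` and `RB`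
-/

namespace P361.LRO

open Finset Set Filter Topology

variable {V : Type*} [Fintype V] [DecidableEq V]

omit [DecidableEq V] in
theorem sq_le_iff_quad {E : Set V} {c : V → V → ℝ} (hc : ∀ x y, 0 ≤ c x y) {q : V → ℝ} {R : ℝ}
    (hR : 0 ≤ R) :
    (∀ u : V → ℝ, (∀ x ∈ E, u x = 0) → (∑ x, q x * u x) ^ 2 ≤ R * netK c u) ↔
    (∀ u : V → ℝ, (∀ x ∈ E, u x = 0) → 2 * ∑ x, q x * u x - netK c u ≤ R) := by
  constructor
  · intro h u hu
    have h1 := h u hu
    have hK := netK_nonneg hc u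
    nlinarith [sq_nonneg (R - netK c u), sq_nonneg (∑ x, q x * u x - (R + netK c u) / 2),
      abs_le_of_sq_le_sq' (show (∑ x, q x * u x) ^ 2 ≤ ((R + netK c u) / 2) ^ 2 by
        nlinarith [sq_nonneg (R - netK c u)]) (by linarith)]
  · intro h u hu
    have hK := netK_nonneg hc u
    have hs : ∀ t : ℝ, 2 * t * ∑ x, q x * u x - t ^ 2 * netK c u ≤ R := by
      intro t
      have h1 := h (fun x => t * u x) (fun x hx => by rw [hu x hx, mul_zero])
      have h2 : ∑ x, q x * (t * u x) = t * ∑ x, q x * u x := by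
        rw [Finset.mul_sum]
        exact Finset.sum_congr rfl fun x _ => by ring
      have h3 : netK c (fun x => t * u x) = t ^ 2 * netK c u := by
        unfold netK
        have : ∀ x y, c x y * (t * u x - t * u y) ^ 2 = t ^ 2 * (c x y * (u x - u y) ^ 2) :=
          fun x y => by ring
        simp only [this, ← Finset.mul_sum]
        ring
      rw [h2, h3] at h1
      linarith
    set S := ∑ x, q x * u x with hS
    rcases hK.lt_or_eq with hK0 | hK0
    · have h1 := hs (S / netK c u)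
      have h2 : 2 * (S / netK c u) * S - (S / netK c u) ^ 2 * netK c u = S ^ 2 / netK c u := by
        field_simp
        ring
      rw [h2, div_le_iff₀ hK0] at h1
      exact h1
    · rw [← hK0, mul_zero]
      by_contra hcon
      have hS2 : 0 < S ^ 2 := not_le.mp hcon
      have hS0 : S ≠ 0 := fun h => by rw [h] at hS2; simp at hS2
      have h1 := hs ((R + 1) / (2 * S))
      rw [← hK0] at h1
      have h2 : 2 * ((R + 1) / (2 * S)) * S - ((R + 1) / (2 * S)) ^ 2 * 0 = R + 1 := by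
        field_simp
        ring
      rw [h2] at h1
      linarith

/-- Dual ODE for upper bounds of the resistance, `u = 0` on the electrode. -/
theorem NetFlow.RB_lower0 {c c' : ℝ → V → V → ℝ} {r : ℝ → V → ℝ} {E G : Set V} {ε : ℝ}
    (H : NetFlow c c' r E G ε) (q : V → ℝ) {T D W R : ℝ} (hT : 0 ≤ T) (hD : 0 ≤ D) (hR : 0 ≤ R)
    (hq : ∀ s, 0 ≤ s → s ≤ T → ∑ z, r s z * (q z ^ 2 / netV (c s) z) ≤ D * Real.exp s)
    (hW : ∀ s, 0 ≤ s → s ≤ T → ∑ z, r s z * (netV (c s) z)⁻¹ ≤ W)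
    (hR0 : ∀ u : V → ℝ, (∀ x ∈ E, u x = 0) → (∑ x, q x * u x) ^ 2 ≤ R * netK (c 0) u)
    {u : V → ℝ} (hu : ∀ x ∈ E, u x = 0) :
    (∑ x, q x * u x) ^ 2 ≤
      (Real.exp (4 * ε * T) * (R + D * (Real.exp T - 1))) * netK (c T) u := by
  have hRT : 0 ≤ Real.exp (4 * ε * T) * (R + D * (Real.exp T - 1)) := by
    have : 0 ≤ Real.exp T - 1 := by linarith [Real.one_le_exp hT]
    positivity
  refine (sq_le_iff_quad (H.nn T hT) hRT).mpr ?_ u hu
  intro u hu
  exact H.dual_upper q hT hD hq hW ((sq_le_iff_quad (H.nn 0 le_rfl) hR).mp hR0) hu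

omit [DecidableEq V] in
theorem netK_one_sub (c : V → V → ℝ) (a : V → ℝ) : netK c (fun x => 1 - a x) = netK c a := by
  unfold netK
  congr 1
  exact Finset.sum_congr rfl fun x _ => Finset.sum_congr rfl fun y _ => by ring

/-- Dual ODE for upper bounds of the resistance, `a = 1` on the electrode, unit charge `q`. -/
theorem NetFlow.RB_lower {c c' : ℝ → V → V → ℝ} {r : ℝ → V → ℝ} {E G : Set V} {ε : ℝ}
    (H : NetFlow c c' r E G ε) (q : V → ℝ) (hq1 : ∑ x, q x = 1)
    {T D W R : ℝ} (hT : 0 ≤ T) (hD : 0 ≤ D) (hR : 0 ≤ R)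
    (hq : ∀ s, 0 ≤ s → s ≤ T → ∑ z, r s z * (q z ^ 2 / netV (c s) z) ≤ D * Real.exp s)
    (hW : ∀ s, 0 ≤ s → s ≤ T → ∑ z, r s z * (netV (c s) z)⁻¹ ≤ W)
    (hR0 : ∀ a : V → ℝ, (∀ x ∈ E, a x = 1) → (1 - ∑ x, q x * a x) ^ 2 ≤ R * netK (c 0) a)
    {a : V → ℝ} (ha : ∀ x ∈ E, a x = 1) :
    (1 - ∑ x, q x * a x) ^ 2 ≤
      (Real.exp (4 * ε * T) * (R + D * (Real.exp T - 1))) * netK (c T) a := by
  have hconv : ∀ a : V → ℝ, ∑ x, q x * (1 - a x) = 1 - ∑ x, q x * a x := by
    intro a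
    have h1 : ∑ x, q x * (1 - a x) = ∑ x, q x - ∑ x, q x * a x := by
      rw [← Finset.sum_sub_distrib]
      exact Finset.sum_congr rfl fun x _ => by ring
    rw [h1, hq1]
  have h := H.RB_lower0 q hT hD hR hq hW (fun u hu => by
    have h1 := hR0 (fun x => 1 - u x) (fun x hx => by simp [hu x hx])
    rw [netK_one_sub] at h1
    have h2 := hconv (fun x => 1 - u x)
    simp only [sub_sub_cancel] at h2
    rw [h2]
    exact h1) (u := fun x => 1 - a x) (fun x hx => by simp [ha x hx])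
  rw [netK_one_sub, hconv] at h
  exact h

end P361.LRO
end

section

/-!
P361, note 9886, step (3) for the charge network of `Defs.lean` (Part A): lowering the node
parameters `θ` along `max (θ') (e^{-s} θ)`.
-/

namespace Vale.Agent.P361.LRO.Net

open Finset Filter Topology
open Vale.Agent.P361.LRO

set_option linter.unusedSectionVars false

variable {X : Type} [Fintype X] [DecidableEq X]

/-- The properties of the law of the rings used by the network part. -/
structure Good (μ : Equiv.Perm X → ℝ) : Prop where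
  nn : ∀ π, 0 ≤ μ π
  pos : 0 < ∑ π, μ π
  ccnn : ∀ θ : X → ℝ, (∀ x, 0 ≤ θ x ∧ θ x ≤ 1) → ∀ x y, x ≠ y → 0 ≤ cc μ θ x y
  vle : ∀ θ : X → ℝ, (∀ x, 0 ≤ θ x ∧ θ x ≤ 1) → ∀ z, vv μ θ z ≤ θ z
  one : OneNode μ

/-! ### Elementary facts -/

theorem wt_nonneg {θ : X → ℝ} (hθ : ∀ x, 0 ≤ θ x) (π : Equiv.Perm X) (s : X → Fin 2) :
    0 ≤ wt θ π s := by
  unfold wt
  refine Finset.prod_nonneg fun x _ => ?_
  split_ifs
  · exact zero_le_one
  · exact hθ x

theorem ZZ_pos {μ : Equiv.Perm X → ℝ} (h0 : ∀ π, 0 ≤ μ π) (h1 : 0 < ∑ π, μ π) {θ : X → ℝ}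
    (hθ : ∀ x, 0 ≤ θ x) : 0 < ZZ μ θ := by
  unfold ZZ
  refine lt_of_lt_of_le h1 (Finset.sum_le_sum fun π _ => ?_)
  have h2 : μ π * wt θ π (fun _ => 0) = μ π := by simp [wt]
  calc μ π = μ π * wt θ π (fun _ => 0) := h2.symm
    _ ≤ ∑ s, μ π * wt θ π s :=
      Finset.single_le_sum (f := fun s => μ π * wt θ π s)
        (fun s _ => mul_nonneg (h0 π) (wt_nonneg hθ π s)) (Finset.mem_univ _)

theorem sum_jj (π : Equiv.Perm X) (s : X → Fin 2) : ∑ x, jj π s x = 0 := by
  unfold jj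
  rw [Finset.sum_sub_distrib, Equiv.sum_comp π (fun x => ((s x : ℕ) : ℝ)), sub_self]

theorem jj_sq (π : Equiv.Perm X) (s : X → Fin 2) (x : X) :
    jj π s x ^ 2 = if s x = s (π x) then 0 else 1 := by
  unfold jj
  generalize s x = u
  generalize s (π x) = v
  fin_cases u <;> fin_cases v <;> norm_num

/-! ### Linearity of the expectation -/

theorem EE_add (μ : Equiv.Perm X → ℝ) (θ : X → ℝ) (f g : Equiv.Perm X → (X → Fin 2) → ℝ) :
    EE μ θ (fun π s => f π s + g π s) = EE μ θ f + EE μ θ g := by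
  unfold EE
  rw [← add_div, ← Finset.sum_add_distrib]
  congr 1
  refine Finset.sum_congr rfl fun π _ => ?_
  rw [← Finset.sum_add_distrib]
  exact Finset.sum_congr rfl fun s _ => by ring

theorem EE_const_mul (μ : Equiv.Perm X → ℝ) (θ : X → ℝ) (k : ℝ)
    (f : Equiv.Perm X → (X → Fin 2) → ℝ) :
    EE μ θ (fun π s => k * f π s) = k * EE μ θ f := by
  unfold EE
  rw [← mul_div_assoc, Finset.mul_sum]
  congr 1
  refine Finset.sum_congr rfl fun π _ => ?_
  rw [Finset.mul_sum]
  exact Finset.sum_congr rfl fun s _ => by ring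

theorem EE_sum {ι : Type*} (A : Finset ι) (μ : Equiv.Perm X → ℝ) (θ : X → ℝ)
    (f : ι → Equiv.Perm X → (X → Fin 2) → ℝ) :
    EE μ θ (fun π s => ∑ i ∈ A, f i π s) = ∑ i ∈ A, EE μ θ (f i) := by
  classical
  induction A using Finset.induction_on with
  | empty => simp [EE]
  | insert i A hi ih =>
    simp only [Finset.sum_insert hi]
    rw [EE_add, ih]

/-- Pointwise form of `K(a) = ∑_{u<v} c_uv (a_u - a_v)²`. -/
theorem jj_square (π : Equiv.Perm X) (s : X → Fin 2) (a : X → ℝ) :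
    (∑ x, a x * jj π s x) ^ 2 =
      (1 / 2) * ∑ x, ∑ y, (-(jj π s x * jj π s y)) * (a x - a y) ^ 2 := by
  have h0 := sum_jj π s
  have e : ∀ x y : X, (-(jj π s x * jj π s y)) * (a x - a y) ^ 2 =
      -(a x ^ 2 * jj π s x) * jj π s y - jj π s x * (a y ^ 2 * jj π s y)
        + 2 * ((a x * jj π s x) * (a y * jj π s y)) := fun x y => by ring
  simp only [e, Finset.sum_add_distrib, Finset.sum_sub_distrib, ← Finset.mul_sum,
    ← Finset.sum_mul, h0]
  ring

/-- Off-diagonal conductances. -/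
noncomputable def c0 (μ : Equiv.Perm X → ℝ) (θ : X → ℝ) (x y : X) : ℝ :=
  if x = y then 0 else cc μ θ x y

theorem netK_offdiag (c : X → X → ℝ) (a : X → ℝ) :
    P361.LRO.netK (fun x y => if x = y then 0 else c x y) a =
      (1 / 2) * ∑ x, ∑ y, c x y * (a x - a y) ^ 2 := by
  unfold P361.LRO.netK
  congr 1
  refine Finset.sum_congr rfl fun x _ => Finset.sum_congr rfl fun y _ => ?_
  by_cases h : x = y
  · subst h; simp
  · simp [h]

/-- `K` of a bilinear functional. -/
theorem netK_EE (μ : Equiv.Perm X → ℝ) (θ : X → ℝ) (R : Equiv.Perm X → (X → Fin 2) → ℝ)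
    (a : X → ℝ) :
    (1 / 2) * ∑ x, ∑ y, (-(EE μ θ fun π s => R π s * (jj π s x * jj π s y))) * (a x - a y) ^ 2 =
      EE μ θ (fun π s => R π s * (∑ x, a x * jj π s x) ^ 2) := by
  have h1 : (fun (π : Equiv.Perm X) (s : X → Fin 2) => R π s * (∑ x, a x * jj π s x) ^ 2) =
      fun π s => ∑ x, ∑ y, ((-(1 / 2) * (a x - a y) ^ 2) *
        (R π s * (jj π s x * jj π s y))) := by
    funext π s
    rw [jj_square, Finset.mul_sum, Finset.mul_sum]
    refine Finset.sum_congr rfl fun x _ => ?_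
    rw [Finset.mul_sum, Finset.mul_sum]
    exact Finset.sum_congr rfl fun y _ => by ring
  rw [h1, EE_sum, Finset.mul_sum]
  refine Finset.sum_congr rfl fun x _ => ?_
  rw [EE_sum, Finset.mul_sum]
  refine Finset.sum_congr rfl fun y _ => ?_
  rw [EE_const_mul]
  ring

theorem netK_c0 (μ : Equiv.Perm X → ℝ) (θ : X → ℝ) (a : X → ℝ) :
    P361.LRO.netK (c0 μ θ) a = KK μ θ a := by
  have h := netK_EE μ θ (fun _ _ => 1) a
  simp only [one_mul] at h
  unfold c0
  rw [netK_offdiag]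
  exact h

/-- `K(a) = (1/2) ∑ ∑ c_xy (a_x - a_y)²`. -/
theorem KK_eq (μ : Equiv.Perm X → ℝ) (θ : X → ℝ) (a : X → ℝ) :
    KK μ θ a = (1 / 2) * ∑ x, ∑ y, cc μ θ x y * (a x - a y) ^ 2 := by
  rw [← netK_c0]; unfold c0; rw [netK_offdiag]

theorem cc_self (μ : Equiv.Perm X → ℝ) (θ : X → ℝ) (z : X) : cc μ θ z z = - vv μ θ z := by
  unfold cc vv
  simp only [pow_two]

theorem cc_comm (μ : Equiv.Perm X → ℝ) (θ : X → ℝ) (x y : X) : cc μ θ x y = cc μ θ y x := by
  unfold cc
  simp only [mul_comm]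

theorem sum_cc (μ : Equiv.Perm X → ℝ) (θ : X → ℝ) (z : X) : ∑ x, cc μ θ z x = 0 := by
  unfold cc
  rw [Finset.sum_neg_distrib, ← EE_sum]
  have : (fun (π : Equiv.Perm X) (s : X → Fin 2) => ∑ i, jj π s z * jj π s i) =
      fun _ _ => 0 := by
    funext π s
    rw [← Finset.mul_sum, sum_jj, mul_zero]
  rw [this]
  simp [EE]

theorem netV_c0 (μ : Equiv.Perm X → ℝ) (θ : X → ℝ) (z : X) :
    P361.LRO.netV (c0 μ θ) z = vv μ θ z := by
  unfold P361.LRO.netV c0
  have h1 : ∑ x, (if z = x then (0 : ℝ) else cc μ θ z x) =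
      ∑ x, cc μ θ z x - ∑ x, (if z = x then cc μ θ z x else 0) := by
    rw [← Finset.sum_sub_distrib]
    refine Finset.sum_congr rfl fun x _ => ?_
    by_cases h : z = x <;> simp [h]
  rw [h1, sum_cc, Finset.sum_ite_eq]
  simp [cc_self]

theorem netQ_c0 (μ : Equiv.Perm X → ℝ) (θ : X → ℝ) (a : X → ℝ) (z : X) :
    P361.LRO.netQ (c0 μ θ) a z = - ∑ x, cc μ θ z x * (a x - a z) := by
  unfold P361.LRO.netQ c0
  rw [← Finset.sum_neg_distrib]
  refine Finset.sum_congr rfl fun x _ => ?_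
  by_cases h : z = x
  · subst h; simp
  · simp [h]; ring

theorem netStar_c0 (μ : Equiv.Perm X → ℝ) (θ : X → ℝ) (a : X → ℝ) (z : X) :
    P361.LRO.netStar (c0 μ θ) a z = ∑ x, cc μ θ z x * (a x - a z) ^ 2 := by
  unfold P361.LRO.netStar c0
  refine Finset.sum_congr rfl fun x _ => ?_
  by_cases h : z = x
  · subst h; simp
  · simp [h]

/-! ### Derivatives along a path of parameters -/

section Deriv

variable {θs : ℝ → X → ℝ} {r : X → ℝ} {s₀ : ℝ} {S : Set ℝ}

/-- `∑_z r_z j_z²`. -/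
noncomputable def RR (r : X → ℝ) (π : Equiv.Perm X) (s : X → Fin 2) : ℝ :=
  ∑ z, r z * jj π s z ^ 2

theorem wt_hasDeriv (h : ∀ x, HasDerivWithinAt (fun t => θs t x) (-(r x * θs s₀ x)) S s₀)
    (π : Equiv.Perm X) (s : X → Fin 2) :
    HasDerivWithinAt (fun t => wt (θs t) π s) (-(RR r π s * wt (θs s₀) π s)) S s₀ := by
  have h1 : ∀ x ∈ (Finset.univ : Finset X),
      HasDerivWithinAt (fun t => if s x = s (π x) then (1 : ℝ) else θs t x)
        (-(r x * jj π s x ^ 2 * (if s x = s (π x) then (1 : ℝ) else θs s₀ x))) S s₀ := by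
    intro x _
    rw [jj_sq]
    by_cases hx : s x = s (π x)
    · simp only [hx, if_true]
      simpa using hasDerivWithinAt_const s₀ S (1 : ℝ)
    · simp only [hx, if_false]
      simpa using h x
  have h2 := HasDerivWithinAt.fun_finsetProd h1
  unfold wt
  refine h2.congr_deriv ?_
  simp only [smul_eq_mul]
  unfold RR
  rw [Finset.sum_mul, ← Finset.sum_neg_distrib]
  refine Finset.sum_congr rfl fun x hx => ?_
  rw [← Finset.mul_prod_erase Finset.univ _ hx]
  ring

/-- Numerator of the expectation. -/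
noncomputable def NN (μ : Equiv.Perm X → ℝ) (θ : X → ℝ)
    (f : Equiv.Perm X → (X → Fin 2) → ℝ) : ℝ :=
  ∑ π, ∑ s, μ π * wt θ π s * f π s

theorem EE_eq (μ : Equiv.Perm X → ℝ) (θ : X → ℝ) (f : Equiv.Perm X → (X → Fin 2) → ℝ) :
    EE μ θ f = NN μ θ f / ZZ μ θ := rfl

theorem NN_hasDeriv (μ : Equiv.Perm X → ℝ)
    (h : ∀ x, HasDerivWithinAt (fun t => θs t x) (-(r x * θs s₀ x)) S s₀)
    (f : Equiv.Perm X → (X → Fin 2) → ℝ) :
    HasDerivWithinAt (fun t => NN μ (θs t) f)
      (-NN μ (θs s₀) (fun π s => RR r π s * f π s)) S s₀ := by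
  unfold NN
  have h1 := HasDerivWithinAt.fun_sum (u := (Finset.univ : Finset (Equiv.Perm X)))
    (A := fun π t => ∑ s, μ π * wt (θs t) π s * f π s)
    (A' := fun π => ∑ s, μ π * (-(RR r π s * wt (θs s₀) π s)) * f π s) (s := S) (x := s₀)
    (fun π _ => HasDerivWithinAt.fun_sum
      (fun s _ => ((wt_hasDeriv h π s).const_mul (μ π)).mul_const (f π s)))
  refine h1.congr_deriv ?_
  rw [← Finset.sum_neg_distrib]
  refine Finset.sum_congr rfl fun π _ => ?_
  rw [← Finset.sum_neg_distrib]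
  exact Finset.sum_congr rfl fun s _ => by ring

theorem ZZ_eq (μ : Equiv.Perm X → ℝ) (θ : X → ℝ) : ZZ μ θ = NN μ θ (fun _ _ => 1) := by
  unfold ZZ NN; simp

theorem EE_hasDeriv {μ : Equiv.Perm X → ℝ}
    (h : ∀ x, HasDerivWithinAt (fun t => θs t x) (-(r x * θs s₀ x)) S s₀)
    (hZ : ZZ μ (θs s₀) ≠ 0) (f : Equiv.Perm X → (X → Fin 2) → ℝ) :
    HasDerivWithinAt (fun t => EE μ (θs t) f)
      (-(EE μ (θs s₀) (fun π s => RR r π s * f π s) -
        EE μ (θs s₀) (RR r) * EE μ (θs s₀) f)) S s₀ := by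
  have h1 := NN_hasDeriv μ h f
  have h2 := NN_hasDeriv μ h (fun _ _ => (1 : ℝ))
  have h3 : (fun t => EE μ (θs t) f) =
      fun t => NN μ (θs t) f / NN μ (θs t) (fun _ _ => 1) := by
    funext t; rw [EE_eq, ZZ_eq]
  rw [h3]
  have hZ' : NN μ (θs s₀) (fun _ _ => 1) ≠ 0 := by rwa [← ZZ_eq]
  refine (h1.div h2 hZ').congr_deriv ?_
  rw [EE_eq, EE_eq, EE_eq, ZZ_eq]
  simp only [mul_one]
  have h4 : NN μ (θs s₀) (fun π s => RR r π s) = NN μ (θs s₀) (RR r) := rfl
  rw [h4]
  field_simp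
  ring

end Deriv

theorem wt_continuous (π : Equiv.Perm X) (s : X → Fin 2) :
    Continuous fun θ : X → ℝ => wt θ π s := by
  unfold wt
  refine continuous_finsetProd _ fun x _ => ?_
  by_cases hx : s x = s (π x)
  · simp only [hx, if_true]; exact continuous_const
  · simp only [hx, if_false]; exact continuous_apply x

theorem NN_continuous (μ : Equiv.Perm X → ℝ) (f : Equiv.Perm X → (X → Fin 2) → ℝ) :
    Continuous fun θ : X → ℝ => NN μ θ f := by
  unfold NN
  refine continuous_finsetSum _ fun π _ => continuous_finsetSum _ fun s _ => ?_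
  exact (continuous_const.mul (wt_continuous π s)).mul continuous_const

/-- The lowering path. -/
noncomputable def path (θ θ' : X → ℝ) (s : ℝ) (x : X) : ℝ := max (θ' x) (Real.exp (-s) * θ x)

/-- The rates of the lowering path. -/
noncomputable def rate (θ θ' : X → ℝ) (s : ℝ) (x : X) : ℝ :=
  if θ' x < Real.exp (-s) * θ x then 1 else 0

theorem path_hasDeriv {θ θ' : X → ℝ} (hθ : ∀ x, 0 ≤ θ x) (s : ℝ) (x : X) :
    HasDerivWithinAt (fun t => path θ θ' t x) (-(rate θ θ' s x * path θ θ' s x))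
      (Set.Ici s) s := by
  have he : HasDerivAt (fun t : ℝ => Real.exp (-t) * θ x) (-(Real.exp (-s) * θ x)) s := by
    have h1 : HasDerivAt (fun t : ℝ => Real.exp (-t)) (-Real.exp (-s)) s := by
      have := (hasDerivAt_id s).neg.exp
      simpa using this
    exact (h1.mul_const (θ x)).congr_deriv (by ring)
  unfold path rate
  by_cases h : θ' x < Real.exp (-s) * θ x
  · simp only [h, if_true, one_mul, max_eq_right h.le]
    have hev : ∀ᶠ t in 𝓝[Set.Ici s] s, max (θ' x) (Real.exp (-t) * θ x) =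
        Real.exp (-t) * θ x := by
      have hc : ContinuousAt (fun t : ℝ => Real.exp (-t) * θ x) s := he.continuousAt
      have := hc.eventually (lt_mem_nhds h)
      exact (this.filter_mono nhdsWithin_le_nhds).mono fun t ht => max_eq_right ht.le
    exact he.hasDerivWithinAt.congr_of_eventuallyEq hev (by simp [max_eq_right h.le])
  · simp only [h, if_false, zero_mul, neg_zero]
    have h' := not_lt.mp h
    have hev : ∀ t ∈ Set.Ici s, max (θ' x) (Real.exp (-t) * θ x) = θ' x := by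
      intro t ht
      apply max_eq_left
      refine le_trans ?_ h'
      exact mul_le_mul_of_nonneg_right (Real.exp_le_exp.mpr (neg_le_neg ht)) (hθ x)
    exact (hasDerivWithinAt_const s (Set.Ici s) (θ' x)).congr hev (hev s Set.self_mem_Ici)

theorem path_zero {θ θ' : X → ℝ} (h : ∀ x, θ' x ≤ θ x) : path θ θ' 0 = θ := by
  funext x
  simp [path, h x]

theorem path_nonneg {θ θ' : X → ℝ} (h0 : ∀ x, 0 ≤ θ' x) (s : ℝ) (x : X) : 0 ≤ path θ θ' s x :=
  (h0 x).trans (le_max_left _ _)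

theorem path_le {θ θ' : X → ℝ} (h0 : ∀ x, 0 ≤ θ' x) (h : ∀ x, θ' x ≤ θ x) {s : ℝ} (hs : 0 ≤ s)
    (x : X) : path θ θ' s x ≤ θ x := by
  refine max_le (h x) ?_
  have h1 : Real.exp (-s) ≤ 1 := Real.exp_le_one_iff.mpr (by linarith)
  have h2 : 0 ≤ θ x := (h0 x).trans (h x)
  nlinarith

theorem path_continuous (θ θ' : X → ℝ) : Continuous fun s => path θ θ' s := by
  refine continuous_pi fun x => ?_
  unfold path
  fun_prop

/-- Derivative of the off-diagonal conductances. -/
noncomputable def c0' (μ : Equiv.Perm X → ℝ) (θ : X → ℝ) (r : X → ℝ) (x y : X) : ℝ :=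
  if x = y then 0 else
    EE μ θ (fun π s => RR r π s * (jj π s x * jj π s y)) -
      EE μ θ (RR r) * EE μ θ (fun π s => jj π s x * jj π s y)

theorem EE_RR (μ : Equiv.Perm X → ℝ) (θ : X → ℝ) (r : X → ℝ)
    (f : Equiv.Perm X → (X → Fin 2) → ℝ) :
    EE μ θ (fun π s => RR r π s * f π s) =
      ∑ z, r z * EE μ θ (fun π s => jj π s z ^ 2 * f π s) := by
  have h1 : (fun (π : Equiv.Perm X) (s : X → Fin 2) => RR r π s * f π s) =
      fun π s => ∑ z, r z * (jj π s z ^ 2 * f π s) := by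
    funext π s
    unfold RR
    rw [Finset.sum_mul]
    exact Finset.sum_congr rfl fun z _ => by ring
  rw [h1, EE_sum]
  exact Finset.sum_congr rfl fun z _ => EE_const_mul _ _ _ _

theorem netK_c0' (μ : Equiv.Perm X → ℝ) (θ : X → ℝ) (r : X → ℝ) (a : X → ℝ) :
    P361.LRO.netK (c0' μ θ r) a =
      - ∑ z, r z * (EE μ θ (fun π s => jj π s z ^ 2 * (∑ x, a x * jj π s x) ^ 2) -
        vv μ θ z * KK μ θ a) := by
  unfold c0'
  rw [netK_offdiag]
  have h1 := netK_EE μ θ (RR r) a
  have h2 := KK_eq μ θ a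
  have h3 : (1 / 2) * ∑ x, ∑ y,
      (EE μ θ (fun π s => RR r π s * (jj π s x * jj π s y)) -
        EE μ θ (RR r) * EE μ θ (fun π s => jj π s x * jj π s y)) * (a x - a y) ^ 2 =
      -((1 / 2) * ∑ x, ∑ y,
        (-(EE μ θ fun π s => RR r π s * (jj π s x * jj π s y))) * (a x - a y) ^ 2) +
      EE μ θ (RR r) * ((1 / 2) * ∑ x, ∑ y, cc μ θ x y * (a x - a y) ^ 2) := by
    unfold cc
    simp only [Finset.mul_sum, ← Finset.sum_neg_distrib, ← Finset.sum_add_distrib]
    exact Finset.sum_congr rfl fun x _ => Finset.sum_congr rfl fun y _ => by ring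
  rw [h3, h1, ← h2, EE_RR]
  have h4 : EE μ θ (RR r) = ∑ z, r z * vv μ θ z := by
    have := EE_RR μ θ r (fun _ _ => 1)
    simp only [mul_one] at this
    exact this
  rw [h4, Finset.sum_mul, ← Finset.sum_neg_distrib, ← Finset.sum_neg_distrib,
    ← Finset.sum_add_distrib]
  exact Finset.sum_congr rfl fun z _ => by ring

theorem c0_hasDeriv {μ : Equiv.Perm X → ℝ} (hμ : Good μ) {θ θ' : X → ℝ} (h0 : ∀ x, 0 ≤ θ' x)
    (h : ∀ x, θ' x ≤ θ x) (s : ℝ) (x y : X) :
    HasDerivWithinAt (fun t => c0 μ (path θ θ' t) x y)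
      (c0' μ (path θ θ' s) (rate θ θ' s) x y) (Set.Ici s) s := by
  have hθ : ∀ x, 0 ≤ θ x := fun x => (h0 x).trans (h x)
  by_cases hxy : x = y
  · simp only [c0, c0', hxy, if_true]
    exact hasDerivWithinAt_const _ _ _
  · simp only [c0, c0', hxy, if_false]
    have hZ : ZZ μ (path θ θ' s) ≠ 0 := (ZZ_pos hμ.nn hμ.pos (path_nonneg h0 s)).ne'
    have h1 := EE_hasDeriv (μ := μ) (S := Set.Ici s) (fun x => path_hasDeriv hθ s x) hZ
      (fun π s => jj π s x * jj π s y)
    have h2 := h1.neg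
    simp only [neg_neg] at h2
    exact h2

theorem EE_continuousOn {μ : Equiv.Perm X → ℝ} (hμ : Good μ)
    (f : Equiv.Perm X → (X → Fin 2) → ℝ) :
    ContinuousOn (fun θ : X → ℝ => EE μ θ f) {θ | ∀ x, 0 ≤ θ x} := by
  have h3 : (fun θ : X → ℝ => EE μ θ f) =
      fun θ => NN μ θ f / NN μ θ (fun _ _ => 1) := by
    funext t; rw [EE_eq, ZZ_eq]
  rw [h3]
  refine (NN_continuous μ f).continuousOn.div (NN_continuous μ _).continuousOn ?_
  intro θ hθ
  rw [← ZZ_eq]
  exact (ZZ_pos hμ.nn hμ.pos hθ).ne'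

theorem sqrt_mag_le {m ε : ℝ} (hε : 0 ≤ ε) (h : 1 - ε ^ 2 ≤ m) : Real.sqrt (1 - m ^ 2) ≤ 2 * ε := by
  rw [Real.sqrt_le_left (by positivity)]
  nlinarith [sq_nonneg ε, sq_nonneg (m - 1)]

/-- The lowering path is a `NetFlow`. -/
theorem netFlow {μ : Equiv.Perm X → ℝ} (hμ : Good μ) {θ θ' : X → ℝ} {E G : Finset X} {ε : ℝ}
    (hε : 0 ≤ ε) (h0 : ∀ x, 0 ≤ θ' x) (h : ∀ x, θ' x ≤ θ x) (h1 : ∀ x, θ x ≤ 1)
    (hE : ∀ x ∈ E, θ' x = θ x) (hG : ∀ x ∈ G, θ' x = θ x) (hEG : Disjoint E G)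
    (hmag : ∀ s, 0 ≤ s → ∀ z, θ' z < θ z →
      Real.sqrt (1 - mag μ (path θ θ' s) z ^ 2) ≤ 2 * ε) :
    P361.LRO.NetFlow (fun s => c0 μ (path θ θ' s)) (fun s => c0' μ (path θ θ' s) (rate θ θ' s))
      (rate θ θ') (E : Set X) (G : Set X) ε := by
  have hp0 : ∀ s x, 0 ≤ path θ θ' s x := fun s x => path_nonneg h0 s x
  have hp1 : ∀ s, 0 ≤ s → ∀ x, path θ θ' s x ≤ 1 := fun s hs x =>
    (path_le h0 h hs x).trans (h1 x)
  have hrate : ∀ s, 0 ≤ s → ∀ z, θ' z = θ z → rate θ θ' s z = 0 := by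
    intro s hs z hz
    unfold rate
    rw [if_neg]
    rw [hz, not_lt]
    have h1 : Real.exp (-s) ≤ 1 := Real.exp_le_one_iff.mpr (by linarith)
    have h2 : 0 ≤ θ z := (h0 z).trans (h z)
    nlinarith
  refine ⟨by exact_mod_cast hEG, ?_, ?_, ?_, ?_, ?_, ?_, ?_, ?_, hε, ?_⟩
  · intro s hs x y
    show 0 ≤ c0 μ (path θ θ' s) x y
    unfold c0
    split_ifs with hxy
    · exact le_rfl
    · exact hμ.ccnn _ (fun x => ⟨hp0 s x, hp1 s hs x⟩) x y hxy
  · intro s _ x y
    show c0 μ (path θ θ' s) x y = c0 μ (path θ θ' s) y x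
    unfold c0
    by_cases hxy : x = y
    · simp [hxy]
    · simp only [hxy, Ne.symm hxy, if_false]
      exact cc_comm _ _ _ _
  · intro x y
    show ContinuousOn (fun s => c0 μ (path θ θ' s) x y) (Set.Ici 0)
    unfold c0
    by_cases hxy : x = y
    · simp only [hxy, if_true]; exact continuousOn_const
    · simp only [hxy, if_false]
      unfold cc
      refine ContinuousOn.neg ?_
      exact (EE_continuousOn hμ _).comp (path_continuous θ θ').continuousOn
        (fun s _ => fun x => hp0 s x)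
  · intro s _ x y
    exact c0_hasDeriv hμ h0 h s x y
  · intro s _ z
    unfold rate; split_ifs <;> norm_num
  · intro s _ z
    unfold rate; split_ifs <;> norm_num
  · intro s hs z hz
    exact hrate s hs z (hE z (by exact_mod_cast hz))
  · intro s hs z hz
    exact hrate s hs z (hG z (by exact_mod_cast hz))
  · intro s hs a
    show _ ≤ P361.LRO.netK (c0' μ (path θ θ' s) (rate θ θ' s)) a
    rw [netK_c0', neg_le_neg_iff]
    refine Finset.sum_le_sum fun z _ => ?_
    show _ ≤ rate θ θ' s z * ((P361.LRO.netQ (c0 μ (path θ θ' s)) a z) ^ 2 /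
      P361.LRO.netV (c0 μ (path θ θ' s)) z + 2 * ε * P361.LRO.netStar (c0 μ (path θ θ' s)) a z)
    by_cases hz : θ' z < Real.exp (-s) * θ z
    · have hr : rate θ θ' s z = 1 := by simp [rate, hz]
      rw [hr, one_mul, one_mul, netQ_c0, netV_c0, netStar_c0]
      have hzpos : 0 < path θ θ' s z := lt_of_lt_of_le (lt_of_le_of_lt (h0 z) hz)
        (le_max_right _ _)
      have hzl : θ' z < θ z := by
        refine lt_of_lt_of_le hz ?_
        have h1 : Real.exp (-s) ≤ 1 := Real.exp_le_one_iff.mpr (by linarith)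
        have h2 : 0 ≤ θ z := (h0 z).trans (h z)
        nlinarith
      have h3 := hμ.one (path θ θ' s) (fun x => ⟨hp0 s x, hp1 s hs x⟩) z hzpos a
      have h4 := hmag s hs z hzl
      have h5 : 0 ≤ ∑ x, cc μ (path θ θ' s) z x * (a x - a z) ^ 2 := by
        refine Finset.sum_nonneg fun x _ => ?_
        by_cases hxz : z = x
        · subst hxz; simp
        · exact mul_nonneg (hμ.ccnn _ (fun x => ⟨hp0 s x, hp1 s hs x⟩) z x hxz) (sq_nonneg _)
      rw [neg_sq]
      refine h3.trans ?_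
      have h6 := mul_le_mul_of_nonneg_right h4 h5
      linarith
    · have hr : rate θ θ' s z = 0 := by simp [rate, hz]
      rw [hr, zero_mul, zero_mul]

theorem LB_iff_netCap {μ : Equiv.Perm X → ℝ} (hμ : Good μ) {θ : X → ℝ}
    (hθ : ∀ x, 0 ≤ θ x ∧ θ x ≤ 1) {E G : Finset X} (hEG : Disjoint E G) (C : ℝ) :
    LB μ θ E G C ↔ C ≤ P361.LRO.netCap (c0 μ θ) (E : Set X) (G : Set X) := by
  have hnn : ∀ x y, 0 ≤ c0 μ θ x y := by
    intro x y
    unfold c0
    split_ifs with hxy
    · exact le_rfl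
    · exact hμ.ccnn _ hθ x y hxy
  have hd : Disjoint (E : Set X) (G : Set X) := by exact_mod_cast hEG
  constructor
  · intro hLB
    obtain ⟨u, hu, h1, _⟩ := P361.LRO.exists_min (c0 μ θ) hd
    rw [← h1, netK_c0]
    exact hLB u (fun x hx => hu.2.1 x (by exact_mod_cast hx))
      (fun x hx => hu.2.2 x (by exact_mod_cast hx))
  · intro hC a ha1 ha0
    rw [← netK_c0]
    exact hC.trans (P361.LRO.netCap_le' hnn (fun x hx => ha1 x (by exact_mod_cast hx))
      (fun x hx => ha0 x (by exact_mod_cast hx)))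

/-- The end of the path is reached at a finite time. -/
theorem exists_time {θ θ' : X → ℝ} (h0 : ∀ x, 0 ≤ θ' x) (h : ∀ x, θ' x ≤ θ x)
    (hpos : ∀ x, θ' x < θ x → 0 < θ' x) : ∃ T : ℝ, 0 ≤ T ∧ path θ θ' T = θ' := by
  have h1 : ∀ x, ∀ᶠ T : ℝ in atTop, Real.exp (-T) * θ x ≤ θ' x := by
    intro x
    rcases (h x).lt_or_eq with hx | hx
    · have ht : Tendsto (fun T : ℝ => Real.exp (-T) * θ x) atTop (𝓝 (0 * θ x)) :=
        (Real.tendsto_exp_neg_atTop_nhds_zero).mul_const _
      rw [zero_mul] at ht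
      exact (ht.eventually (gt_mem_nhds (hpos x hx))).mono fun T hT => le_of_lt hT
    · filter_upwards [eventually_ge_atTop (0 : ℝ)] with T hT
      rw [hx]
      have h1 : Real.exp (-T) ≤ 1 := Real.exp_le_one_iff.mpr (by linarith)
      have h2 : 0 ≤ θ x := (h0 x).trans (h x)
      nlinarith
  obtain ⟨T, hT, hT0⟩ := ((eventually_all.mpr h1).and (eventually_ge_atTop (0 : ℝ))).exists
  exact ⟨T, hT0, funext fun x => max_eq_left (hT x)⟩

/-- **Lowering, primal form** (`2 ε` bounds `sqrt (1 - M²)`). -/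
theorem LB_lower' {μ : Equiv.Perm X → ℝ} (hμ : Good μ) {θ θ' : X → ℝ} {E G : Finset X}
    {ε S B C : ℝ} (hε : 0 ≤ ε) (h0 : ∀ x, 0 ≤ θ' x) (h : ∀ x, θ' x ≤ θ x) (h1 : ∀ x, θ x ≤ 1)
    (hE : ∀ x ∈ E, θ' x = θ x) (hG : ∀ x ∈ G, θ' x = θ x) (hEG : Disjoint E G)
    (hpos : ∀ x, θ' x < θ x → 0 < θ' x)
    (hmag : ∀ s, 0 ≤ s → ∀ z, θ' z < θ z →
      Real.sqrt (1 - mag μ (path θ θ' s) z ^ 2) ≤ 2 * ε)
    (hS : 0 ≤ S) (hB : ∑ z, (if θ' z < θ z then θ z else 0) ≤ B) (hC : LB μ θ E G C) :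
    LB μ θ' E G (Real.exp (-(4 * ε * S)) * C - 2 * ε * B * Real.exp (-S)) := by
  have H := netFlow hμ hε h0 h h1 hE hG hEG hmag
  obtain ⟨T, hT0, hT⟩ := exists_time h0 h hpos
  have hθ0 : ∀ x, 0 ≤ θ x := fun x => (h0 x).trans (h x)
  have hB0 : 0 ≤ B := by
    refine le_trans (Finset.sum_nonneg fun z _ => ?_) hB
    split_ifs
    · exact hθ0 z
    · exact le_rfl
  have hBB : ∀ s, 0 ≤ s →
      ∑ z, rate θ θ' s z * P361.LRO.netV (c0 μ (path θ θ' s)) z ≤ B * Real.exp (-s) := by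
    intro s hs
    have h2 : B * Real.exp (-s) ≥ (∑ z, (if θ' z < θ z then θ z else 0)) * Real.exp (-s) :=
      mul_le_mul_of_nonneg_right hB (Real.exp_pos _).le
    refine le_trans ?_ h2
    rw [Finset.sum_mul]
    refine Finset.sum_le_sum fun z _ => ?_
    rw [netV_c0]
    have hexp : Real.exp (-s) ≤ 1 := Real.exp_le_one_iff.mpr (by linarith)
    by_cases hz : θ' z < Real.exp (-s) * θ z
    · have hzl : θ' z < θ z := by
        refine lt_of_lt_of_le hz ?_
        have h2 : 0 ≤ θ z := hθ0 z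
        nlinarith
      have h3 := hμ.vle (path θ θ' s)
        (fun x => ⟨path_nonneg h0 s x, (path_le h0 h hs x).trans (h1 x)⟩) z
      have h4 : path θ θ' s z = Real.exp (-s) * θ z := by
        simp [path, max_eq_right hz.le]
      simp only [rate, hz, hzl, if_true, one_mul]
      rw [h4] at h3
      linarith
    · simp only [rate, hz, if_false, zero_mul]
      refine mul_nonneg ?_ (Real.exp_pos _).le
      split_ifs
      · exact hθ0 z
      · exact le_rfl
  have key := H.cap_lower hB0 hBB hS hT0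
  have hθ1 : ∀ x, 0 ≤ θ x ∧ θ x ≤ 1 := fun x => ⟨hθ0 x, h1 x⟩
  have hθ'1 : ∀ x, 0 ≤ θ' x ∧ θ' x ≤ 1 := fun x => ⟨h0 x, (h x).trans (h1 x)⟩
  rw [LB_iff_netCap hμ hθ'1 hEG]
  rw [LB_iff_netCap hμ hθ1 hEG] at hC
  simp only [hT, path_zero h] at key
  refine le_trans ?_ key
  have := mul_le_mul_of_nonneg_left hC (Real.exp_pos (-(4 * ε * S))).le
  linarith

/-- **Lowering, primal form.** -/
theorem LB_lower {μ : Equiv.Perm X → ℝ} (hμ : Good μ) {θ θ' : X → ℝ} {E G : Finset X}
    {ε S B C : ℝ} (hε : 0 ≤ ε) (h0 : ∀ x, 0 ≤ θ' x) (h : ∀ x, θ' x ≤ θ x) (h1 : ∀ x, θ x ≤ 1)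
    (hE : ∀ x ∈ E, θ' x = θ x) (hG : ∀ x ∈ G, θ' x = θ x) (hEG : Disjoint E G)
    (hpos : ∀ x, θ' x < θ x → 0 < θ' x)
    (hmag : ∀ s, 0 ≤ s → ∀ z, θ' z < θ z → 1 - ε ^ 2 ≤ mag μ (path θ θ' s) z)
    (hS : 0 ≤ S) (hB : ∑ z, (if θ' z < θ z then θ z else 0) ≤ B) (hC : LB μ θ E G C) :
    LB μ θ' E G (Real.exp (-(4 * ε * S)) * C - 2 * ε * B * Real.exp (-S)) :=
  LB_lower' hμ hε h0 h h1 hE hG hEG hpos
    (fun s hs z hz => sqrt_mag_le hε (hmag s hs z hz)) hS hB hC

/-! ### Dual form -/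

/-- `v_z = θ M / (1 + θ M)`. -/
theorem vv_mag {μ : Equiv.Perm X → ℝ} (hμ : Good μ) {θ : X → ℝ} (hθ : ∀ x, 0 ≤ θ x) (z : X) :
    vv μ θ z = θ z * mag μ θ z / (1 + θ z * mag μ θ z) := by
  set A : ℝ := ∑ π, ∑ s, if s z = s (π z) then 0 else μ π * wt (Function.update θ z 1) π s with hA
  set B : ℝ := ∑ π, ∑ s : X → Fin 2, if s z = s (π z) then μ π * wt θ π s else 0 with hB
  have hwt : ∀ (π : Equiv.Perm X) (s : X → Fin 2), ¬ s z = s (π z) →
      wt θ π s = θ z * wt (Function.update θ z 1) π s := by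
    intro π s hs
    unfold wt
    rw [← Finset.mul_prod_erase Finset.univ _ (Finset.mem_univ z),
      ← Finset.mul_prod_erase (s := Finset.univ)
        (f := fun x => if s x = s (π x) then (1 : ℝ) else Function.update θ z 1 x)
        (Finset.mem_univ z)]
    simp only [hs, if_false, Function.update_self, one_mul]
    congr 1
    refine Finset.prod_congr rfl fun x hx => ?_
    rw [Function.update_of_ne (Finset.ne_of_mem_erase hx)]
  have hnum : ∑ π, ∑ s, μ π * wt θ π s * jj π s z ^ 2 = θ z * A := by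
    rw [hA, Finset.mul_sum]
    refine Finset.sum_congr rfl fun π _ => ?_
    rw [Finset.mul_sum]
    refine Finset.sum_congr rfl fun s _ => ?_
    rw [jj_sq]
    by_cases hs : s z = s (π z)
    · simp [hs]
    · simp only [hs, if_false, hwt π s hs]; ring
  have hZ : ZZ μ θ = B + θ z * A := by
    rw [hA, hB, Finset.mul_sum, ← Finset.sum_add_distrib]
    unfold ZZ
    refine Finset.sum_congr rfl fun π _ => ?_
    rw [Finset.mul_sum, ← Finset.sum_add_distrib]
    refine Finset.sum_congr rfl fun s _ => ?_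
    by_cases hs : s z = s (π z)
    · simp [hs]
    · simp only [hs, if_false, hwt π s hs]; ring
  have hBpos : 0 < B := by
    refine lt_of_lt_of_le hμ.pos ?_
    rw [hB]
    refine Finset.sum_le_sum fun π _ => ?_
    have h3 : ∀ s ∈ (Finset.univ : Finset (X → Fin 2)),
        0 ≤ (if s z = s (π z) then μ π * wt θ π s else 0) := by
      intro s _
      split_ifs
      · exact mul_nonneg (hμ.nn π) (wt_nonneg hθ π s)
      · exact le_rfl
    have h4 := Finset.single_le_sum h3 (Finset.mem_univ (fun _ : X => (0 : Fin 2)))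
    simpa [wt] using h4
  have hmag : mag μ θ z = A / B := rfl
  have hZpos : 0 < ZZ μ θ := ZZ_pos hμ.nn hμ.pos hθ
  have hvv : vv μ θ z = θ z * A / (B + θ z * A) := by
    unfold vv EE
    rw [hnum, hZ]
  rw [hvv, hmag]
  rw [hZ] at hZpos
  have h1 : 1 + θ z * (A / B) = (B + θ z * A) / B := by field_simp
  rw [h1]
  field_simp

theorem vv_ge {μ : Equiv.Perm X → ℝ} (hμ : Good μ) {θ : X → ℝ} (hθ : ∀ x, 0 ≤ θ x ∧ θ x ≤ 1)
    (z : X) (hm : 1 / 2 ≤ mag μ θ z) : θ z / 4 ≤ vv μ θ z := by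
  rw [vv_mag hμ (fun x => (hθ x).1) z]
  have h1 := (hθ z).1
  have h2 := (hθ z).2
  set m := mag μ θ z with hm'
  have h3 : 0 < 1 + θ z * m := by nlinarith
  rw [div_le_div_iff₀ (by norm_num) h3]
  nlinarith [mul_nonneg h1 (sub_nonneg.mpr hm), mul_nonneg h1 h1,
    mul_nonneg (mul_nonneg h1 (sub_nonneg.mpr h2)) (sub_nonneg.mpr hm)]

/-- **Lowering, dual form.** -/
theorem ode_RB {μ : Equiv.Perm X → ℝ} (hμ : Good μ) {θ0 θ1 : X → ℝ}
    (h0 : ∀ x, 0 ≤ θ0 x) (h01 : ∀ x, θ0 x ≤ θ1 x) (h1 : ∀ x, θ1 x ≤ 1)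
    {E : Finset X}
    (hE : ∀ x ∈ E, θ0 x = θ1 x) {q : X → ℝ} (hq1 : ∑ x, q x = 1) {τ : ℝ} (hτ : 0 ≤ τ)
    (hmag : ∀ s : ℝ, 0 ≤ s → ∀ z, θ0 z < θ1 z →
      Real.sqrt (1 - mag μ (fun x => max (θ0 x) (Real.exp (-s) * θ1 x)) z ^ 2) ≤ τ ∧
        1 / 2 ≤ mag μ (fun x => max (θ0 x) (Real.exp (-s) * θ1 x)) z)
    {R : ℝ} (hR0 : 0 ≤ R) (hR : RB μ θ1 E q R) {S : ℝ} (hS : 0 ≤ S)
    (hS1 : ∀ x, θ1 x ≤ Real.exp S * θ0 x) :
    RB μ θ0 E q (Real.exp (2 * τ * S) *
      (R + 4 * (Real.exp S - 1) *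
        ∑ z ∈ univ.filter (fun z => θ0 z < θ1 z), q z ^ 2 / θ1 z)) := by
  have H := netFlow hμ (θ := θ1) (θ' := θ0) (E := E) (G := ∅) (ε := τ / 2) (by positivity)
    h0 h01 h1 hE (by simp) (by simp)
    (fun s hs z hz => by
      have := (hmag s hs z hz).1
      rw [show 2 * (τ / 2) = τ by ring]
      exact this)
  have hθ1 : ∀ x, 0 ≤ θ1 x := fun x => (h0 x).trans (h01 x)
  have hend : path θ1 θ0 S = θ0 := by
    funext x
    refine max_eq_left ?_
    have h3 := mul_le_mul_of_nonneg_left (hS1 x) (Real.exp_pos (-S)).le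
    rw [← mul_assoc, ← Real.exp_add, neg_add_cancel, Real.exp_zero, one_mul] at h3
    exact h3
  have hvz : ∀ s, 0 ≤ s → ∀ z, θ0 z < Real.exp (-s) * θ1 z →
      θ0 z < θ1 z ∧ 0 < θ1 z ∧ Real.exp (-s) * θ1 z / 4 ≤ vv μ (path θ1 θ0 s) z := by
    intro s hs z hz
    have hexp : Real.exp (-s) ≤ 1 := Real.exp_le_one_iff.mpr (by linarith)
    have hzl : θ0 z < θ1 z := by
      refine lt_of_lt_of_le hz ?_
      nlinarith [hθ1 z]
    have h4 : path θ1 θ0 s z = Real.exp (-s) * θ1 z := by simp [path, max_eq_right hz.le]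
    refine ⟨hzl, (h0 z).trans_lt hzl, ?_⟩
    have h5 := vv_ge hμ (θ := path θ1 θ0 s)
      (fun x => ⟨path_nonneg h0 s x, (path_le h0 h01 hs x).trans (h1 x)⟩) z (hmag s hs z hzl).2
    rwa [h4] at h5
  set D : ℝ := 4 * ∑ z ∈ univ.filter (fun z => θ0 z < θ1 z), q z ^ 2 / θ1 z with hD
  have hD0 : 0 ≤ D := by
    rw [hD]
    refine mul_nonneg (by norm_num) (Finset.sum_nonneg fun z _ => ?_)
    exact div_nonneg (sq_nonneg _) (hθ1 z)
  have hq : ∀ s, 0 ≤ s → s ≤ S → ∑ z, rate θ1 θ0 s z *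
      (q z ^ 2 / P361.LRO.netV (c0 μ (path θ1 θ0 s)) z) ≤ D * Real.exp s := by
    intro s hs _
    rw [hD, Finset.sum_filter, mul_assoc, Finset.sum_mul, Finset.mul_sum]
    refine Finset.sum_le_sum fun z _ => ?_
    rw [netV_c0]
    by_cases hz : θ0 z < Real.exp (-s) * θ1 z
    · obtain ⟨hzl, hpz, hv⟩ := hvz s hs z hz
      simp only [rate, hz, hzl, if_true, one_mul]
      have hpos1 : 0 < Real.exp (-s) * θ1 z / 4 := by positivity
      calc q z ^ 2 / vv μ (path θ1 θ0 s) z ≤ q z ^ 2 / (Real.exp (-s) * θ1 z / 4) :=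
            div_le_div_of_nonneg_left (sq_nonneg _) hpos1 hv
        _ = 4 * (q z ^ 2 / θ1 z * Real.exp s) := by
            rw [Real.exp_neg]
            have := Real.exp_pos s
            field_simp
    · simp only [rate, hz, if_false, zero_mul]
      split_ifs
      · exact mul_nonneg (by norm_num) (mul_nonneg (div_nonneg (sq_nonneg _) (hθ1 z))
          (Real.exp_pos _).le)
      · simp
  have hW : ∀ s, 0 ≤ s → s ≤ S → ∑ z, rate θ1 θ0 s z *
      (P361.LRO.netV (c0 μ (path θ1 θ0 s)) z)⁻¹ ≤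
      ∑ z ∈ univ.filter (fun z => θ0 z < θ1 z), 4 * Real.exp S / θ1 z := by
    intro s hs hsS
    rw [Finset.sum_filter]
    refine Finset.sum_le_sum fun z _ => ?_
    rw [netV_c0]
    by_cases hz : θ0 z < Real.exp (-s) * θ1 z
    · obtain ⟨hzl, hpz, hv⟩ := hvz s hs z hz
      simp only [rate, hz, hzl, if_true, one_mul]
      have hpos1 : 0 < Real.exp (-s) * θ1 z / 4 := by positivity
      calc (vv μ (path θ1 θ0 s) z)⁻¹ ≤ (Real.exp (-s) * θ1 z / 4)⁻¹ :=
            inv_anti₀ hpos1 hv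
        _ = 4 * Real.exp s / θ1 z := by
            rw [Real.exp_neg]
            have := Real.exp_pos s
            field_simp
        _ ≤ 4 * Real.exp S / θ1 z := by
            have := Real.exp_le_exp.mpr hsS
            gcongr
    · simp only [rate, hz, if_false, zero_mul]
      split_ifs
      · have := hθ1 z
        positivity
      · exact le_rfl
  intro a ha
  have key := H.RB_lower q hq1 (T := S) (D := D) (R := R) hS hD0 hR0 hq hW
    (fun a ha => by
      rw [path_zero h01, netK_c0]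
      exact hR a (fun x hx => ha x (by exact_mod_cast hx)))
    (a := a) (fun x hx => ha x (by exact_mod_cast hx))
  rw [hend, netK_c0] at key
  refine key.trans (le_of_eq ?_)
  rw [hD, show 4 * (τ / 2) * S = 2 * τ * S by ring]
  ring

end Vale.Agent.P361.LRO.Net
end

section

/-!
P361 LRO: the physical network satisfies `Ind.Local` (block (4) → block (6)).
-/

namespace Vale.Agent.P361.LRO.Ind

open Finset Vale.Agent.P361.LRO _root_.P361.LRO

noncomputable section

theorem isLaw_phys' {V : Type} [Fintype V] [DecidableEq V] (L : List (V × V)) {β : ℝ}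
    (hβ : 0 ≤ β) {N : ℕ} (hN : β ≤ N) : IsLaw (phys L β N) := by
  refine ⟨gates L N (β / (2 * N)), base N, ?_, rfl⟩
  intro g hg
  unfold gates at hg
  rw [List.mem_flatMap] at hg
  obtain ⟨k, _, hk⟩ := hg
  rw [List.mem_map] at hk
  obtain ⟨e, _, rfl⟩ := hk
  refine ⟨by positivity, ?_⟩
  by_cases hN0 : (N : ℝ) = 0
  · rw [hN0]; simp
  · have hNp : (0:ℝ) < N := lt_of_le_of_ne (Nat.cast_nonneg N) (Ne.symm hN0)
    rw [div_le_div_iff₀ (by positivity) (by norm_num)]
    linarith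

end

end Vale.Agent.P361.LRO.Ind
end

section

/-!
# P361 LRO, block (6), package GEOA: points and cubes of the torus (helper515)
-/

namespace Vale.Agent.P361.LRO.Ind

open Finset Vale.Agent.P361.LRO _root_.P361.LRO

/-- the three offsets as natural numbers -/
private theorem gA_eq {n : ℕ} (o : Tor n) (r : ℕ) (y : Fin 3 → Fin r) :
    (o + fun i => ((y i : ℕ) : ZMod n)) = pt n o (y 0) (y 1) (y 2) := by
  unfold pt
  congr 1
  funext i
  fin_cases i <;> simp

theorem mem_cube_iff {n : ℕ} [NeZero n] (o x : Tor n) (r : ℕ) :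
    x ∈ cube n o r ↔ ∃ a < r, ∃ b < r, ∃ c < r, x = pt n o a b c := by
  unfold cube
  constructor
  · intro h
    rw [Finset.mem_image] at h
    obtain ⟨y, -, rfl⟩ := h
    exact ⟨y 0, (y 0).isLt, y 1, (y 1).isLt, y 2, (y 2).isLt, gA_eq o r y⟩
  · rintro ⟨a, ha, b, hb, c, hc, rfl⟩
    rw [Finset.mem_image]
    refine ⟨![⟨a, ha⟩, ⟨b, hb⟩, ⟨c, hc⟩], Finset.mem_univ _, ?_⟩
    rw [gA_eq]
    simp

theorem pt_inj {n : ℕ} [NeZero n] (o : Tor n) {a b c a' b' c' : ℕ} (ha : a < n) (hb : b < n)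
    (hc : c < n) (ha' : a' < n) (hb' : b' < n) (hc' : c' < n)
    (h : pt n o a b c = pt n o a' b' c') : a = a' ∧ b = b' ∧ c = c' := by
  unfold pt at h
  have h' := add_left_cancel h
  have key : ∀ {u v : ℕ}, u < n → v < n → ((u : ZMod n) = (v : ZMod n)) → u = v := by
    intro u v hu hv e
    have := congrArg ZMod.val e
    rwa [ZMod.val_natCast_of_lt hu, ZMod.val_natCast_of_lt hv] at this
  refine ⟨key ha ha' ?_, key hb hb' ?_, key hc hc' ?_⟩
  · have := congrFun h' 0
    simpa using this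
  · have := congrFun h' 1
    simpa using this
  · have := congrFun h' 2
    simpa using this

/-- the parametrization of a cube is injective -/
theorem gA_cube_eq {n : ℕ} [NeZero n] (o : Tor n) (r : ℕ) :
    cube n o r = (range r ×ˢ range r ×ˢ range r).image fun t => pt n o t.1 t.2.1 t.2.2 := by
  ext x
  rw [mem_cube_iff, Finset.mem_image]
  constructor
  · rintro ⟨a, ha, b, hb, c, hc, rfl⟩
    exact ⟨(a, b, c), by simp [ha, hb, hc], rfl⟩
  · rintro ⟨⟨a, b, c⟩, ht, rfl⟩
    simp only [Finset.mem_product, Finset.mem_range] at ht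
    exact ⟨a, ht.1, b, ht.2.1, c, ht.2.2, rfl⟩

theorem gA_injOn {n : ℕ} [NeZero n] (o : Tor n) (r : ℕ) (hr : r ≤ n) :
    Set.InjOn (fun t : ℕ × ℕ × ℕ => pt n o t.1 t.2.1 t.2.2)
      ((range r ×ˢ range r ×ˢ range r : Finset (ℕ × ℕ × ℕ)) : Set (ℕ × ℕ × ℕ)) := by
  rintro ⟨a, b, c⟩ ht ⟨a', b', c'⟩ ht' h
  simp only [Finset.coe_product, Finset.coe_range, Set.mem_prod, Set.mem_Iio] at ht ht'
  obtain ⟨h1, h2, h3⟩ := pt_inj o (lt_of_lt_of_le ht.1 hr) (lt_of_lt_of_le ht.2.1 hr)
    (lt_of_lt_of_le ht.2.2 hr) (lt_of_lt_of_le ht'.1 hr) (lt_of_lt_of_le ht'.2.1 hr)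
    (lt_of_lt_of_le ht'.2.2 hr) h
  rw [h1, h2, h3]

theorem sum_cube {n : ℕ} [NeZero n] (o : Tor n) (r : ℕ) (hr : r ≤ n) (f : Tor n → ℝ) :
    ∑ x ∈ cube n o r, f x = ∑ a ∈ range r, ∑ b ∈ range r, ∑ c ∈ range r, f (pt n o a b c) := by
  rw [gA_cube_eq, Finset.sum_image (gA_injOn o r hr), Finset.sum_product]
  refine Finset.sum_congr rfl fun a _ => ?_
  rw [Finset.sum_product]

theorem card_cube {n : ℕ} [NeZero n] (o : Tor n) (r : ℕ) (hr : r ≤ n) :
    (cube n o r).card = r ^ 3 := by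
  rw [gA_cube_eq, Finset.card_image_of_injOn (gA_injOn o r hr), Finset.card_product,
    Finset.card_product, Finset.card_range]
  ring

theorem pt_pt {n : ℕ} (o : Tor n) (a b c a' b' c' : ℕ) :
    pt n (pt n o a b c) a' b' c' = pt n o (a + a') (b + b') (c + c') := by
  unfold pt
  rw [add_assoc]
  congr 1
  funext i
  fin_cases i <;> simp

end Vale.Agent.P361.LRO.Ind
end

section

/-!
# P361, long range order, block SR: the derivative of the stiffness in the slice parameters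

Omega-form: `W : Ω → ℝ` is the law at `θ = 1`, `n : Ω → V → ℕ` the exponents, `j = n - 1` the
charges; the law at `θ` has the weight `W ω * ∏ x, if n ω x = 1 then 1 else θ x`.
-/

namespace Vale.Agent.P361.LRO.SR

open Finset
open scoped BigOperators

noncomputable section

variable {Ω V : Type*} [Fintype Ω] [Fintype V] [DecidableEq V]

/-- charge -/
def jc (n : Ω → V → ℕ) (ω : Ω) (x : V) : ℝ := (n ω x : ℝ) - 1

/-- weight at `θ` -/
def wθ (W : Ω → ℝ) (n : Ω → V → ℕ) (θ : V → ℝ) (ω : Ω) : ℝ :=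
  W ω * ∏ x, (if n ω x = 1 then 1 else θ x)

/-- partition function at `θ` -/
def Zθ (W : Ω → ℝ) (n : Ω → V → ℕ) (θ : V → ℝ) : ℝ := ∑ ω, wθ W n θ ω

/-- expectation at `θ` -/
def Eθ (W : Ω → ℝ) (n : Ω → V → ℕ) (θ : V → ℝ) (f : Ω → ℝ) : ℝ :=
  (∑ ω, wθ W n θ ω * f ω) / Zθ W n θ

/-- conductances `- E[j_x j_y]` -/
def cθ (W : Ω → ℝ) (n : Ω → V → ℕ) (θ : V → ℝ) (x y : V) : ℝ :=
  - Eθ W n θ (fun ω => jc n ω x * jc n ω y)

/-- `v_z = E[j_z^2]`. -/
def vθ (W : Ω → ℝ) (n : Ω → V → ℕ) (θ : V → ℝ) (z : V) : ℝ :=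
  Eθ W n θ (fun ω => jc n ω z ^ 2)

section Deriv

variable (W : Ω → ℝ) (n : Ω → V → ℕ)

lemma jc_sq (hn : ∀ ω x, n ω x ≤ 2) (ω : Ω) (x : V) :
    jc n ω x ^ 2 = if n ω x = 1 then 0 else 1 := by
  have h := hn ω x
  unfold jc
  interval_cases hh : n ω x <;> norm_num

end Deriv

section OneNode

variable (W : Ω → ℝ) (n : Ω → V → ℕ)

/-- sum over the event `A = {j_z ≠ 0}` with the slice parameter at `z` set to `1`. -/
def QA (θ : V → ℝ) (z : V) (X : Ω → ℝ) : ℝ :=
  ∑ ω, if n ω z = 1 then 0 else wθ W n (Function.update θ z 1) ω * X ω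

/-- sum over the event `B = {j_z = 0}`. -/
def QB (θ : V → ℝ) (z : V) (X : Ω → ℝ) : ℝ :=
  ∑ ω, if n ω z = 1 then wθ W n (Function.update θ z 1) ω * X ω else 0

lemma wθ_update (θ : V → ℝ) (z : V) (ω : Ω) :
    wθ W n θ ω = (if n ω z = 1 then 1 else θ z) * wθ W n (Function.update θ z 1) ω := by
  unfold wθ
  rw [← Finset.mul_prod_erase Finset.univ (fun x => (if n ω x = 1 then (1:ℝ) else θ x))
    (Finset.mem_univ z),
    ← Finset.mul_prod_erase Finset.univ
      (fun x => (if n ω x = 1 then (1:ℝ) else Function.update θ z 1 x)) (Finset.mem_univ z)]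
  have h : ∏ x ∈ Finset.univ.erase z, (if n ω x = 1 then (1:ℝ) else Function.update θ z 1 x)
      = ∏ x ∈ Finset.univ.erase z, (if n ω x = 1 then (1:ℝ) else θ x) := by
    refine Finset.prod_congr rfl fun x hx => ?_
    rw [Function.update_of_ne (Finset.ne_of_mem_erase hx)]
  rw [h]
  simp only [Function.update_self, ite_self]
  ring

lemma sum_split (θ : V → ℝ) (z : V) (X : Ω → ℝ) :
    ∑ ω, wθ W n θ ω * X ω = QB W n θ z X + θ z * QA W n θ z X := by
  unfold QA QB
  rw [Finset.mul_sum, ← Finset.sum_add_distrib]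
  refine Finset.sum_congr rfl fun ω _ => ?_
  rw [wθ_update W n θ z ω]
  split_ifs <;> ring

lemma Zθ_split (θ : V → ℝ) (z : V) :
    Zθ W n θ = QB W n θ z (fun _ => 1) + θ z * QA W n θ z (fun _ => 1) := by
  rw [← sum_split]
  unfold Zθ
  simp

lemma sum_jsq (hn : ∀ ω x, n ω x ≤ 2) (θ : V → ℝ) (z : V) (X : Ω → ℝ) :
    ∑ ω, wθ W n θ ω * (jc n ω z ^ 2 * X ω) = θ z * QA W n θ z X := by
  unfold QA
  rw [Finset.mul_sum]
  refine Finset.sum_congr rfl fun ω _ => ?_
  rw [wθ_update W n θ z ω, jc_sq n hn]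
  split_ifs <;> ring

lemma sum_jz (hn : ∀ ω x, n ω x ≤ 2) (θ : V → ℝ) (z : V) (X : Ω → ℝ) :
    ∑ ω, wθ W n θ ω * (jc n ω z * X ω) = θ z * QA W n θ z (fun ω => jc n ω z * X ω) := by
  rw [← sum_jsq W n hn]
  refine Finset.sum_congr rfl fun ω _ => ?_
  have h : jc n ω z ^ 2 * (jc n ω z * X ω) = jc n ω z * X ω := by
    have h := jc_sq n hn ω z
    by_cases h1 : n ω z = 1
    · have : jc n ω z = 0 := by simp [jc, h1]
      rw [this]; ring
    · rw [if_neg h1] at h
      rw [h, one_mul]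
  rw [h]

/-- (D2) the one-node inequality in covariance form, from Theorem 1 of note 8371
(hypothesis `hT1`: `E_A - E_B ≤ abar² + δ (L - abar²)` with `π x = E_A[-j_z j_x]`). -/
theorem cov_le (hn : ∀ ω x, n ω x ≤ 2) (θ : V → ℝ) (z : V) (a : V → ℝ) (δ : ℝ)
    (hθ : 0 ≤ θ z) (hA : 0 ≤ QA W n θ z (fun _ => 1)) (hB : 0 < QB W n θ z (fun _ => 1))
    (hA0 : QA W n θ z (fun _ => 1) = 0 → ∀ X, QA W n θ z X = 0)
    (hT1 : 0 < QA W n θ z (fun _ => 1) →
      QA W n θ z (fun ω => (∑ x, a x * jc n ω x) ^ 2) / QA W n θ z (fun _ => 1)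
        - QB W n θ z (fun ω => (∑ x, a x * jc n ω x) ^ 2) / QB W n θ z (fun _ => 1)
      ≤ (∑ x, QA W n θ z (fun ω => - (jc n ω z * jc n ω x)) / QA W n θ z (fun _ => 1)
            * (a x - a z)) ^ 2
        + δ * (∑ x, QA W n θ z (fun ω => - (jc n ω z * jc n ω x)) / QA W n θ z (fun _ => 1)
            * (a x - a z) ^ 2
          - (∑ x, QA W n θ z (fun ω => - (jc n ω z * jc n ω x)) / QA W n θ z (fun _ => 1)
            * (a x - a z)) ^ 2)) :
    Eθ W n θ (fun ω => jc n ω z ^ 2 * (∑ x, a x * jc n ω x) ^ 2)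
      - Eθ W n θ (fun ω => jc n ω z ^ 2) * Eθ W n θ (fun ω => (∑ x, a x * jc n ω x) ^ 2)
    ≤ (1 - vθ W n θ z) * ((1 - δ) * ((∑ x, cθ W n θ z x * (a x - a z)) ^ 2 / vθ W n θ z)
        + δ * ∑ x, cθ W n θ z x * (a x - a z) ^ 2) := by
  set wA := QA W n θ z (fun _ => 1) with hwA
  set wB := QB W n θ z (fun _ => 1) with hwB
  set t := θ z with ht
  set P := QA W n θ z (fun ω => (∑ x, a x * jc n ω x) ^ 2) with hP
  set R := QB W n θ z (fun ω => (∑ x, a x * jc n ω x) ^ 2) with hR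
  have hZ : Zθ W n θ = wB + t * wA := Zθ_split W n θ z
  have hZpos : 0 < wB + t * wA := by positivity
  have e1 : Eθ W n θ (fun ω => jc n ω z ^ 2 * (∑ x, a x * jc n ω x) ^ 2) = t * P / (wB + t * wA) := by
    unfold Eθ; rw [sum_jsq W n hn, hZ]
  have e2 : Eθ W n θ (fun ω => jc n ω z ^ 2) = t * wA / (wB + t * wA) := by
    unfold Eθ
    have := sum_jsq W n hn θ z (fun _ => 1)
    simp only [mul_one] at this
    rw [this, hZ]
  have e3 : Eθ W n θ (fun ω => (∑ x, a x * jc n ω x) ^ 2) = (R + t * P) / (wB + t * wA) := by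
    unfold Eθ; rw [sum_split W n θ z, hZ]
  have e4 : ∀ x, cθ W n θ z x
      = t * QA W n θ z (fun ω => - (jc n ω z * jc n ω x)) / (wB + t * wA) := by
    intro x
    unfold cθ Eθ
    rw [sum_jz W n hn, hZ, ← neg_div]
    congr 1
    have : QA W n θ z (fun ω => - (jc n ω z * jc n ω x)) = - QA W n θ z (fun ω => jc n ω z * jc n ω x) := by
      unfold QA
      rw [← Finset.sum_neg_distrib]
      refine Finset.sum_congr rfl fun ω _ => ?_
      split_ifs <;> ring
    rw [this]; ring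
  have ev : vθ W n θ z = t * wA / (wB + t * wA) := by
    unfold vθ; exact e2
  rcases hA.eq_or_lt with hA' | hA'
  · -- wA = 0
    have hz := hA0 hA'.symm
    have hP0 : P = 0 := hz _
    have hc0 : ∀ x, cθ W n θ z x = 0 := by
      intro x; rw [e4, hz]; simp
    rw [e1, e2, hP0, ← hA']
    simp [hc0]
  rcases hθ.eq_or_lt with ht' | ht'
  · have hc0 : ∀ x, cθ W n θ z x = 0 := by
      intro x; rw [e4, ← ht']; simp
    rw [e1, e2, ← ht']
    simp [hc0]
  · have hT := hT1 hA'
    set π : V → ℝ := fun x => QA W n θ z (fun ω => - (jc n ω z * jc n ω x)) / wA with hπ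
    have hc : ∀ x, cθ W n θ z x = (t * wA / (wB + t * wA)) * π x := by
      intro x; rw [e4, hπ]; field_simp
    have hF : ∑ x, cθ W n θ z x * (a x - a z) = (t * wA / (wB + t * wA)) * ∑ x, π x * (a x - a z) := by
      rw [Finset.mul_sum]; refine Finset.sum_congr rfl fun x _ => ?_; rw [hc]; ring
    have hS : ∑ x, cθ W n θ z x * (a x - a z) ^ 2
        = (t * wA / (wB + t * wA)) * ∑ x, π x * (a x - a z) ^ 2 := by
      rw [Finset.mul_sum]; refine Finset.sum_congr rfl fun x _ => ?_; rw [hc]; ring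
    rw [e1, e2, e3, ev, hF, hS]
    set ab := ∑ x, π x * (a x - a z)
    set L := ∑ x, π x * (a x - a z) ^ 2
    set v := t * wA / (wB + t * wA) with hv
    have hv0 : 0 < v := by positivity
    have h1v : 1 - v = wB / (wB + t * wA) := by rw [hv]; field_simp; ring
    have hlhs : t * P / (wB + t * wA) - v * ((R + t * P) / (wB + t * wA))
        = (1 - v) * v * (P / wA - R / wB) := by
      rw [h1v, hv]; field_simp; ring
    have hrhs : (1 - v) * ((1 - δ) * ((v * ab) ^ 2 / v) + δ * (v * L))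
        = (1 - v) * v * (ab ^ 2 + δ * (L - ab ^ 2)) := by
      field_simp; ring
    rw [hlhs, hrhs]
    apply mul_le_mul_of_nonneg_left hT
    have : 0 ≤ 1 - v := by rw [h1v]; positivity
    positivity

end OneNode

end

end Vale.Agent.P361.LRO.SR
end

section

/-!
P361, LRO: basic facts on the charge network of `Defs.lean`, part A (helper169).

`SA μ θ z f`, `SB μ θ z f`: unnormalised sums over the configurations with / without a jump at the
node `z`, the slice weight at `z` removed.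
-/

namespace Vale.Agent.P361.LRO

open Finset

noncomputable section

variable {X : Type} [Fintype X] [DecidableEq X]

/-! ### The law -/

theorem law_nonneg (l : List (X × X × ℝ)) (hl : ∀ g ∈ l, 0 ≤ g.2.2 ∧ g.2.2 ≤ 1)
    (σ π : Equiv.Perm X) : 0 ≤ law l σ π := by
  induction l generalizing π with
  | nil =>
    simp only [law]
    by_cases h : π = σ
    · subst h; simp
    · simp [Pi.single_eq_of_ne h]
  | cons g l ih =>
    simp only [law]
    have hg := hl g (by simp)
    have ih' := fun π => ih (fun g' hg' => hl g' (by simp [hg'])) π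
    have h1 := mul_nonneg (sub_nonneg.mpr hg.2) (ih' π)
    have h2 := mul_nonneg hg.1 (ih' (Equiv.swap g.1 g.2.1 * π))
    linarith

theorem law_sum (l : List (X × X × ℝ)) (σ : Equiv.Perm X) : ∑ π, law l σ π = 1 := by
  induction l with
  | nil =>
    simp only [law]
    rw [Finset.sum_eq_single σ]
    · simp
    · intro π _ h; simp [Pi.single_eq_of_ne h]
    · intro h; exact absurd (Finset.mem_univ σ) h
  | cons g l ih =>
    simp only [law]
    rw [Finset.sum_add_distrib, ← Finset.mul_sum, ← Finset.mul_sum, ih]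
    have h : ∑ π, law l σ (Equiv.swap g.1 g.2.1 * π) = ∑ π, law l σ π :=
      Equiv.sum_comp (Equiv.mulLeft (Equiv.swap g.1 g.2.1)) (fun π => law l σ π)
    rw [h, ih]; ring

theorem IsLaw.nonneg {μ : Equiv.Perm X → ℝ} (h : IsLaw μ) (π : Equiv.Perm X) : 0 ≤ μ π := by
  obtain ⟨l, σ, hl, rfl⟩ := h
  exact law_nonneg l (fun g hg => ⟨(hl g hg).1, (hl g hg).2.trans (by norm_num)⟩) σ π

theorem IsLaw.sum {μ : Equiv.Perm X → ℝ} (h : IsLaw μ) : ∑ π, μ π = 1 := by
  obtain ⟨l, σ, _, rfl⟩ := h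
  exact law_sum l σ

/-! ### Weights -/

omit [DecidableEq X] in
theorem wt_nonneg {θ : X → ℝ} (hθ : ∀ x, 0 ≤ θ x) (π : Equiv.Perm X) (s : X → Fin 2) :
    0 ≤ wt θ π s :=
  Finset.prod_nonneg fun x _ => by split_ifs <;> simp [hθ x]

omit [DecidableEq X] in
theorem wt_const (θ : X → ℝ) (π : Equiv.Perm X) (i : Fin 2) : wt θ π (fun _ => i) = 1 := by
  simp [wt]

theorem wt_eq_mul_erase (θ : X → ℝ) (π : Equiv.Perm X) (s : X → Fin 2) (z : X) :
    wt θ π s = (if s z = s (π z) then 1 else θ z) *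
      ∏ x ∈ univ.erase z, (if s x = s (π x) then 1 else θ x) := by
  unfold wt
  exact (Finset.mul_prod_erase univ (fun x => if s x = s (π x) then (1:ℝ) else θ x)
    (Finset.mem_univ z)).symm

/-! ### Charges -/

omit [Fintype X] [DecidableEq X] in
theorem jj_eq_zero {π : Equiv.Perm X} {s : X → Fin 2} {x : X} (h : s x = s (π x)) :
    jj π s x = 0 := by
  unfold jj; rw [h]; ring

/-! ### Unnormalised sums -/

/-- `∑ μ wt f`. -/
def SS (μ : Equiv.Perm X → ℝ) (θ : X → ℝ) (f : Equiv.Perm X → (X → Fin 2) → ℝ) : ℝ :=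
  ∑ π, ∑ s, μ π * wt θ π s * f π s

/-- Jump at `z`, slice weight of `z` removed. -/
def SA (μ : Equiv.Perm X → ℝ) (θ : X → ℝ) (z : X)
    (f : Equiv.Perm X → (X → Fin 2) → ℝ) : ℝ :=
  ∑ π, ∑ s, if s z = s (π z) then 0 else μ π * wt (Function.update θ z 1) π s * f π s

/-- No jump at `z`. -/
def SB (μ : Equiv.Perm X → ℝ) (θ : X → ℝ) (z : X)
    (f : Equiv.Perm X → (X → Fin 2) → ℝ) : ℝ :=
  ∑ π, ∑ s, if s z = s (π z) then μ π * wt θ π s * f π s else 0

/-- the constant function `1` -/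
def one' : Equiv.Perm X → (X → Fin 2) → ℝ := fun _ _ => 1

theorem ZZ_eq (μ : Equiv.Perm X → ℝ) (θ : X → ℝ) : ZZ μ θ = SS μ θ one' := by
  simp [ZZ, SS, one']

theorem EE_eq (μ : Equiv.Perm X → ℝ) (θ : X → ℝ) (f : Equiv.Perm X → (X → Fin 2) → ℝ) :
    EE μ θ f = SS μ θ f / SS μ θ one' := by
  rw [EE, ZZ_eq]; rfl

theorem mag_eq (μ : Equiv.Perm X → ℝ) (θ : X → ℝ) (z : X) :
    mag μ θ z = SA μ θ z one' / SB μ θ z one' := by
  simp [mag, SA, SB, one']

theorem SS_nonneg {μ : Equiv.Perm X → ℝ} (hμ : ∀ π, 0 ≤ μ π) {θ : X → ℝ} (hθ : ∀ x, 0 ≤ θ x)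
    {f : Equiv.Perm X → (X → Fin 2) → ℝ} (hf : ∀ π s, 0 ≤ f π s) : 0 ≤ SS μ θ f :=
  Finset.sum_nonneg fun π _ => Finset.sum_nonneg fun s _ =>
    mul_nonneg (mul_nonneg (hμ π) (wt_nonneg hθ π s)) (hf π s)

theorem SS_one_pos {μ : Equiv.Perm X → ℝ} (hμ : ∀ π, 0 ≤ μ π) (hμ1 : ∑ π, μ π = 1) {θ : X → ℝ}
    (hθ : ∀ x, 0 ≤ θ x) : 1 ≤ SS μ θ one' := by
  rw [← hμ1]
  unfold SS one'
  refine Finset.sum_le_sum fun π _ => ?_
  have h : μ π * wt θ π (fun _ => 0) * 1 = μ π := by
    simp [wt_const]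
  calc μ π = _ := h.symm
    _ ≤ _ := Finset.single_le_sum (f := fun s : X → Fin 2 => μ π * wt θ π s * 1) (fun s _ =>
          mul_nonneg (mul_nonneg (hμ π) (wt_nonneg hθ π s)) zero_le_one) (Finset.mem_univ _)

theorem ZZ_pos {μ : Equiv.Perm X → ℝ} (h : IsLaw μ) {θ : X → ℝ} (hθ : ∀ x, 0 ≤ θ x) :
    0 < ZZ μ θ := by
  rw [ZZ_eq]
  exact lt_of_lt_of_le one_pos (SS_one_pos h.nonneg h.sum hθ)

/-! ### The quadratic form -/

end

end Vale.Agent.P361.LRO
end

section

/-! P361 LRO, dictionary: thermal ratios with an extra slice, and the statement of the limit of the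
magnetisation at the nodes of the circuit. -/

namespace Vale.Agent.P361.LRO

open Finset Matrix

noncomputable section

variable {V : Type} [Fintype V] [DecidableEq V]

/-- The extra slice `∏ (1 + T_x σ³_x)`. -/
def layT (T : V → ℝ) : Matrix (V → Fin 2) (V → Fin 2) ℝ :=
  Matrix.diagonal fun σ => ∏ x, (1 + T x * (if σ x = 0 then 1 else -1))

/-- The magnetisation at `x` at time `t` (`s + t = β`) with the extra slice `T` at time `0`. -/
def mT (L : List (V × V)) (h T : V → ℝ) (s t : ℝ) (x : V) : ℝ :=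
  trace (layT T * NormedSpace.exp (-s • ham L h) * szM x * NormedSpace.exp (-t • ham L h)) /
    trace (layT T * NormedSpace.exp (-s • ham L h) * NormedSpace.exp (-t • ham L h))

/-- (D3) The limit of the magnetisation at the nodes, uniformly in the fields. -/
def MagLim (L : List (V × V)) (β : ℝ) : Prop :=
  ∃ (C : ℝ) (N0 : ℕ), ∀ N : ℕ, N0 ≤ N → ∀ h T : V → ℝ, (∀ x, 0 ≤ h x ∧ h x ≤ 1) →
    (∀ x, 0 ≤ T x ∧ T x ≤ 1) → ∀ z : Fin (N + 1) × V, z.1 ≠ 0 →
      |mag (phys L β N) (th β N h T) z -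
        mT L h T (β * (1 - ((z.1 : ℕ) : ℝ) / N)) (β * (((z.1 : ℕ) : ℝ) / N)) z.2| ≤ C / N

end

end Vale.Agent.P361.LRO
end

section

/-!
P361, step (5): the extra slice `T` changes the density of down spins by a bounded factor only
(Jensen).
-/

namespace Vale.Agent.P361.LRO

open Finset Matrix

theorem tilt_gen {Ω : Type*} [Fintype Ω] (w f N : Ω → ℝ) (hw : ∀ ω, 0 ≤ w ω)
    (hf : ∀ ω, 0 ≤ f ω) (hN : ∀ ω, 0 ≤ N ω) {k : ℝ} (hk : 0 ≤ k) (hW : 0 < ∑ ω, w ω) :
    (∑ ω, w ω * Real.exp (-(k * N ω)) * f ω) / (∑ ω, w ω * Real.exp (-(k * N ω))) ≤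
      Real.exp (k * ((∑ ω, w ω * N ω) / ∑ ω, w ω)) * ((∑ ω, w ω * f ω) / ∑ ω, w ω) := by
  set W := ∑ ω, w ω with hWd
  set m := (∑ ω, w ω * N ω) / W with hm
  -- Jensen
  have hJ : W * Real.exp (-(k * m)) ≤ ∑ ω, w ω * Real.exp (-(k * N ω)) := by
    have h1 : ∀ ω, w ω * (Real.exp (-(k * m)) * (1 + (k * m - k * N ω))) ≤
        w ω * Real.exp (-(k * N ω)) := by
      intro ω
      refine mul_le_mul_of_nonneg_left ?_ (hw ω)
      have h2 := Real.add_one_le_exp (k * m - k * N ω)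
      have h3 : Real.exp (-(k * N ω)) = Real.exp (-(k * m)) * Real.exp (k * m - k * N ω) := by
        rw [← Real.exp_add]; congr 1; ring
      rw [h3]
      exact mul_le_mul_of_nonneg_left (by linarith) (Real.exp_pos _).le
    have h4 := Finset.sum_le_sum fun ω (_ : ω ∈ (univ : Finset Ω)) => h1 ω
    have h5 : ∑ ω, w ω * (Real.exp (-(k * m)) * (1 + (k * m - k * N ω))) =
        W * Real.exp (-(k * m)) := by
      have h6 : ∀ ω, w ω * (Real.exp (-(k * m)) * (1 + (k * m - k * N ω))) =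
          Real.exp (-(k * m)) * ((1 + k * m) * w ω - k * (w ω * N ω)) := fun ω => by ring
      rw [Finset.sum_congr rfl fun ω _ => h6 ω, ← Finset.mul_sum, Finset.sum_sub_distrib,
        ← Finset.mul_sum, ← Finset.mul_sum]
      have h7 : ∑ ω, w ω * N ω = m * W := by
        rw [hm, div_mul_cancel₀ _ hW.ne']
      rw [h7, ← hWd]; ring
    rwa [h5] at h4
  have hD : 0 < ∑ ω, w ω * Real.exp (-(k * N ω)) :=
    lt_of_lt_of_le (mul_pos hW (Real.exp_pos _)) hJ
  have hnum : ∑ ω, w ω * Real.exp (-(k * N ω)) * f ω ≤ ∑ ω, w ω * f ω := by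
    refine Finset.sum_le_sum fun ω _ => ?_
    refine mul_le_mul_of_nonneg_right ?_ (hf ω)
    have : Real.exp (-(k * N ω)) ≤ 1 := Real.exp_le_one_iff.2 (by
      have := mul_nonneg hk (hN ω); linarith)
    calc w ω * Real.exp (-(k * N ω)) ≤ w ω * 1 := mul_le_mul_of_nonneg_left this (hw ω)
      _ = w ω := mul_one _
  have hF : 0 ≤ ∑ ω, w ω * f ω := Finset.sum_nonneg fun ω _ => mul_nonneg (hw ω) (hf ω)
  rw [div_le_iff₀ hD]
  calc ∑ ω, w ω * Real.exp (-(k * N ω)) * f ω ≤ ∑ ω, w ω * f ω := hnum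
    _ = Real.exp (k * m) * ((∑ ω, w ω * f ω) / W) * (W * Real.exp (-(k * m))) := by
        rw [Real.exp_neg]
        field_simp
    _ ≤ _ := mul_le_mul_of_nonneg_left hJ
        (mul_nonneg (Real.exp_pos _).le (div_nonneg hF hW.le))

variable {ι : Type*} [Fintype ι] [DecidableEq ι]

theorem trace_diag4 (e d : ι → ℝ) (A B : Matrix ι ι ℝ) :
    trace (diagonal e * A * diagonal d * B) = ∑ p : ι × ι, (A p.1 p.2 * B p.2 p.1) * e p.1 * d p.2 := by
  rw [Fintype.sum_prod_type, Matrix.trace]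
  refine Finset.sum_congr rfl fun i _ => ?_
  rw [Matrix.diag_apply, Matrix.mul_apply]
  refine Finset.sum_congr rfl fun j _ => ?_
  rw [Matrix.mul_diagonal, Matrix.diagonal_mul]
  ring

/-- Matrix form of the tilt bound: `A`, `B` entrywise nonnegative, `N` the number of down spins of
the block at the extra slice, `d` the observable at any other slice. -/
theorem tilt_matrix (A B : Matrix ι ι ℝ) (hA : ∀ i j, 0 ≤ A i j) (hB : ∀ i j, 0 ≤ B i j)
    (N d : ι → ℝ) (hN : ∀ i, 0 ≤ N i) (hd : ∀ i, 0 ≤ d i) {k : ℝ} (hk : 0 ≤ k)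
    (hAB : 0 < trace (A * B)) :
    trace (diagonal (fun i => Real.exp (-(k * N i))) * A * diagonal d * B) /
        trace (diagonal (fun i => Real.exp (-(k * N i))) * A * B) ≤
      Real.exp (k * (trace (diagonal N * A * B) / trace (A * B))) *
        (trace (A * diagonal d * B) / trace (A * B)) := by
  have h1 : ∀ e : ι → ℝ, trace (diagonal e * A * B) = ∑ p : ι × ι, (A p.1 p.2 * B p.2 p.1) * e p.1 := by
    intro e
    have := trace_diag4 e (fun _ => 1) A B
    rw [Matrix.diagonal_one, Matrix.mul_one] at this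
    rw [this]
    exact Finset.sum_congr rfl fun p _ => by ring
  have h2 : trace (A * B) = ∑ p : ι × ι, (A p.1 p.2 * B p.2 p.1) := by
    have := h1 (fun _ => 1)
    rw [Matrix.diagonal_one, Matrix.one_mul] at this
    rw [this]
    exact Finset.sum_congr rfl fun p _ => by ring
  have h3 : trace (A * diagonal d * B) = ∑ p : ι × ι, (A p.1 p.2 * B p.2 p.1) * d p.2 := by
    have := trace_diag4 (fun _ => 1) d A B
    rw [Matrix.diagonal_one, Matrix.one_mul] at this
    rw [this]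
    exact Finset.sum_congr rfl fun p _ => by ring
  rw [trace_diag4, h1, h1, h2, h3]
  have := tilt_gen (fun p : ι × ι => A p.1 p.2 * B p.2 p.1) (fun p => d p.2) (fun p => N p.1)
    (fun p => mul_nonneg (hA _ _) (hB _ _)) (fun p => hd _) (fun p => hN _) hk (by rwa [← h2])
  exact this

end Vale.Agent.P361.LRO
end

section

/-!
P361, step (5): lower bound for the magnetization in the presence of the extra slice `T`, in the
limit `N → ∞` and for the circuit (from the Trotter limit `D3`).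
-/

namespace Vale.Agent.P361.LRO

open Finset Matrix

noncomputable section

section Exp

variable {α : Type*} [Fintype α] [DecidableEq α]

theorem exp_entry_hasSum (A : Matrix α α ℝ) (a a' : α) :
    HasSum (fun m : ℕ => ((m.factorial : ℝ)⁻¹) * (A ^ m) a a') ((NormedSpace.exp A) a a') := by
  have h : HasSum (fun m : ℕ => ((m.factorial : ℝ)⁻¹) • A ^ m) (NormedSpace.exp A) := by
    open scoped Norms.Operator in exact NormedSpace.exp_series_hasSum_exp' A
  have h1 := Pi.hasSum.1 h a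
  have h2 := Pi.hasSum.1 h1 a'
  exact h2

theorem pow_entry_nonneg {A : Matrix α α ℝ} (h : ∀ a a', 0 ≤ A a a') (m : ℕ) (a a' : α) :
    0 ≤ (A ^ m) a a' := by
  induction m generalizing a a' with
  | zero => rw [pow_zero, Matrix.one_apply]; split_ifs <;> norm_num
  | succ m ih =>
    rw [pow_succ, Matrix.mul_apply]
    exact sum_nonneg fun b _ => mul_nonneg (ih _ _) (h _ _)

theorem exp_entry_ge_one {A : Matrix α α ℝ} (h : ∀ a a', 0 ≤ A a a') (a a' : α) :
    (1 : Matrix α α ℝ) a a' ≤ (NormedSpace.exp A) a a' := by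
  have h1 := exp_entry_hasSum A a a'
  have h2 := le_hasSum h1 0 fun m _ => mul_nonneg (by positivity) (pow_entry_nonneg h m a a')
  simpa using h2

theorem exp_add_const (A : Matrix α α ℝ) (s : ℝ) :
    NormedSpace.exp (s • (1 : Matrix α α ℝ) + A) = Real.exp s • NormedSpace.exp A := by
  have hc : Commute (s • (1 : Matrix α α ℝ)) A := (Commute.one_left A).smul_left s
  rw [Matrix.exp_add_of_commute _ _ hc]
  have h1 : (s • (1 : Matrix α α ℝ)) = diagonal fun _ => s := by
    rw [Matrix.smul_one_eq_diagonal]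
  have h2 : NormedSpace.exp (fun _ : α => s) = fun _ => Real.exp s := by
    rw [Pi.exp_def]; funext i; rw [Real.exp_eq_exp_ℝ]
  rw [h1, Matrix.exp_diagonal, h2, ← Matrix.smul_one_eq_diagonal, Matrix.smul_mul, Matrix.one_mul]

/-- Exponentials of matrices with nonnegative off-diagonal entries. -/
theorem exp_offdiag {A : Matrix α α ℝ} (h : ∀ a a', a ≠ a' → 0 ≤ A a a') :
    (∀ a a', 0 ≤ NormedSpace.exp A a a') ∧ ∀ a, 0 < NormedSpace.exp A a a := by
  set c : ℝ := ∑ a, |A a a| with hc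
  have h1 : ∀ a a', 0 ≤ (c • (1 : Matrix α α ℝ) + A) a a' := by
    intro a a'
    rw [Matrix.add_apply, Matrix.smul_apply]
    by_cases e : a = a'
    · subst e
      rw [Matrix.one_apply_eq, smul_eq_mul, mul_one]
      have h4 : |A a a| ≤ c := Finset.single_le_sum (f := fun a => |A a a|)
        (fun a _ => abs_nonneg _) (Finset.mem_univ a)
      have h3 := neg_abs_le (A a a)
      linarith
    · rw [Matrix.one_apply_ne e, smul_zero, zero_add]
      exact h a a' e
  have h2 : NormedSpace.exp A = Real.exp (-c) • NormedSpace.exp (c • (1 : Matrix α α ℝ) + A) := by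
    rw [exp_add_const, smul_smul, ← Real.exp_add, neg_add_cancel, Real.exp_zero, one_smul]
  have h3 := exp_entry_ge_one h1
  constructor
  · intro a a'
    rw [h2, Matrix.smul_apply]
    refine mul_nonneg (Real.exp_pos _).le (le_trans ?_ (h3 a a'))
    rw [Matrix.one_apply]; split_ifs <;> norm_num
  · intro a
    rw [h2, Matrix.smul_apply]
    refine mul_pos (Real.exp_pos _) (lt_of_lt_of_le ?_ (h3 a a))
    rw [Matrix.one_apply_eq]; norm_num

end Exp

variable {V : Type} [Fintype V] [DecidableEq V]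

theorem hM_offdiag (x y : V) {σ τ : V → Fin 2} (hne : σ ≠ τ) : hM x y σ τ ≤ 0 := by
  unfold hM swapM
  rw [Matrix.smul_apply, Matrix.sub_apply, Matrix.one_apply_ne hne, Matrix.of_apply, smul_eq_mul]
  split_ifs <;> norm_num

theorem ham_offdiag (L : List (V × V)) (h : V → ℝ) {σ τ : V → Fin 2} (hne : σ ≠ τ) :
    ham L h σ τ ≤ 0 := by
  unfold ham
  rw [Matrix.sub_apply]
  have h1 : ∀ L : List (V × V), (L.map fun e => hM e.1 e.2).sum σ τ ≤ 0 := by
    intro L
    induction L with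
    | nil => simp
    | cons e L ih =>
      rw [List.map_cons, List.sum_cons, Matrix.add_apply]
      have := hM_offdiag e.1 e.2 hne
      linarith
  have h2 : (∑ x, (h x / 2) • szM x) σ τ = 0 := by
    rw [Matrix.sum_apply]
    refine Finset.sum_eq_zero fun x _ => ?_
    rw [Matrix.smul_apply, szM, Matrix.diagonal_apply_ne _ hne, smul_zero]
  rw [h2, sub_zero]
  exact h1 L

theorem exp_ham (L : List (V × V)) (h : V → ℝ) {s : ℝ} (hs : 0 ≤ s) :
    (∀ σ τ, 0 ≤ NormedSpace.exp (-s • ham L h) σ τ) ∧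
      ∀ σ, 0 < NormedSpace.exp (-s • ham L h) σ σ := by
  refine exp_offdiag fun σ τ hne => ?_
  rw [Matrix.smul_apply, smul_eq_mul]
  have := ham_offdiag L h hne
  nlinarith

/-- Number of down spins in `b`. -/
def nb (b : Finset V) (σ : V → Fin 2) : ℝ := ∑ x ∈ b, if σ x = 0 then 0 else 1

omit [Fintype V] [DecidableEq V] in
theorem nb_nonneg (b : Finset V) (σ : V → Fin 2) : 0 ≤ nb b σ :=
  Finset.sum_nonneg fun x _ => by split_ifs <;> norm_num

theorem one_sub_tanh (u : ℝ) : 1 - Real.tanh u = (1 + Real.tanh u) * Real.exp (-(2 * u)) := by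
  rw [Real.tanh_eq_sinh_div_cosh]
  have hc : Real.cosh u ≠ 0 := (Real.cosh_pos u).ne'
  have h1 : (1 + Real.sinh u / Real.cosh u) = Real.exp u / Real.cosh u := by
    rw [← Real.cosh_add_sinh]; field_simp
  have h2 : (1 - Real.sinh u / Real.cosh u) = Real.exp (-u) / Real.cosh u := by
    rw [← Real.cosh_sub_sinh]; field_simp
  rw [h1, h2, div_mul_eq_mul_div, ← Real.exp_add]
  congr 2
  ring

theorem layT_blk (K : ℝ) (b : Finset V) (hb : b.Nonempty) :
    layT (blk K b) = (1 + Real.tanh (K / (2 * b.card))) ^ b.card •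
      diagonal fun σ => Real.exp (-(K / b.card * nb b σ)) := by
  have hb0 : (b.card : ℝ) ≠ 0 := by exact_mod_cast hb.card_pos.ne'
  set θ := Real.tanh (K / (2 * b.card)) with hθ
  have h1 : 1 - θ = (1 + θ) * Real.exp (-(K / b.card)) := by
    rw [hθ, one_sub_tanh]
    congr 2
    field_simp
  unfold layT
  rw [← Matrix.diagonal_smul]
  congr 1
  funext σ
  rw [Pi.smul_apply, smul_eq_mul]
  have h2 : ∀ x, (1 + blk K b x * (if σ x = 0 then (1 : ℝ) else -1)) =
      if x ∈ b then (1 + θ) * Real.exp (-(K / b.card * if σ x = 0 then 0 else 1)) else 1 := by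
    intro x
    unfold blk
    by_cases hx : x ∈ b
    · rw [if_pos hx, if_pos hx]
      by_cases h3 : σ x = 0
      · rw [if_pos h3, if_pos h3, mul_one, mul_zero, neg_zero, Real.exp_zero, mul_one]
      · rw [if_neg h3, if_neg h3, mul_one, ← h1]; ring
    · rw [if_neg hx, if_neg hx]; ring
  rw [Finset.prod_congr rfl fun x _ => h2 x, Finset.prod_ite_mem, Finset.univ_inter,
    Finset.prod_mul_distrib, Finset.prod_const, ← Real.exp_sum]
  congr 2
  unfold nb
  rw [Finset.mul_sum, ← Finset.sum_neg_distrib]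

/-- projection on down at `x` -/
def dn (x : V) (σ : V → Fin 2) : ℝ := if σ x = 0 then 0 else 1

omit [DecidableEq V] in
theorem szM_eq (x : V) : szM x = 1 - (2 : ℝ) • diagonal (dn x) := by
  unfold szM dn
  rw [← Matrix.diagonal_one, ← Matrix.diagonal_smul, Matrix.diagonal_sub]
  congr 1
  funext σ
  rw [Pi.smul_apply, smul_eq_mul]
  split_ifs <;> norm_num

omit [DecidableEq V] in
theorem half_eq (x : V) : (1 / 2 : ℝ) • (1 - szM x) = diagonal (dn x) := by
  rw [szM_eq, sub_sub_cancel, smul_smul]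
  norm_num

theorem rho_eq (L : List (V × V)) (β : ℝ) (h : V → ℝ) (x : V) :
    rho L β h x = trace (NormedSpace.exp (-β • ham L h) * diagonal (dn x)) /
      trace (NormedSpace.exp (-β • ham L h)) := by
  unfold rho gib
  rw [half_eq]

theorem exp_split (L : List (V × V)) (h : V → ℝ) {s t β : ℝ} (e : s + t = β) :
    NormedSpace.exp (-s • ham L h) * NormedSpace.exp (-t • ham L h) =
      NormedSpace.exp (-β • ham L h) := by
  rw [← Matrix.exp_add_of_commute, ← add_smul]
  · congr 2; linarith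
  · exact ((Commute.refl (ham L h)).smul_left _).smul_right _

/-- Main bound in the limit `N = ∞`. -/
theorem mT_ge (L : List (V × V)) {β K η : ℝ} (h : V → ℝ) (b : Finset V) (hb : b.Nonempty)
    (hK : 0 ≤ K) {s t : ℝ} (hs : 0 ≤ s) (ht : 0 ≤ t) (e : s + t = β)
    (hr : ∀ x, rho L β h x ≤ η) (x : V) :
    1 - 2 * (Real.exp (K * η) * η) ≤ mT L h (blk K b) s t x := by
  have hb0 : (0 : ℝ) < b.card := by exact_mod_cast hb.card_pos
  set A := NormedSpace.exp (-s • ham L h) with hA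
  set B := NormedSpace.exp (-t • ham L h) with hB
  set k := K / (b.card : ℝ) with hk
  have hk0 : 0 ≤ k := div_nonneg hK hb0.le
  have hA0 := exp_ham L h hs
  have hB0 := exp_ham L h ht
  rw [← hA] at hA0
  rw [← hB] at hB0
  have hβ : 0 ≤ β := by linarith
  have hE0 := exp_ham L h hβ
  set c := (1 + Real.tanh (K / (2 * b.card))) ^ b.card with hc
  have hc0 : 0 < c := pow_pos (by have := Real.neg_one_lt_tanh (K / (2 * b.card)); linarith) _
  set D := diagonal fun σ : V → Fin 2 => Real.exp (-(k * nb b σ)) with hD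
  have hlay : layT (blk K b) = c • D := layT_blk K b hb
  -- positivity
  have hpos : 0 < trace (D * A * B) := by
    have := trace_diag4 (fun σ : V → Fin 2 => Real.exp (-(k * nb b σ))) (fun _ => 1) A B
    rw [Matrix.diagonal_one, Matrix.mul_one] at this
    rw [hD, this]
    refine Finset.sum_pos' (fun p _ => ?_) ⟨(fun _ => 0, fun _ => 0), Finset.mem_univ _, ?_⟩
    · exact mul_nonneg (mul_nonneg (mul_nonneg (hA0.1 _ _) (hB0.1 _ _)) (Real.exp_pos _).le)
        zero_le_one
    · exact mul_pos (mul_pos (mul_pos (hA0.2 _) (hB0.2 _)) (Real.exp_pos _)) zero_lt_one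
  have hAB : A * B = NormedSpace.exp (-β • ham L h) := exp_split L h e
  have hABpos : 0 < trace (A * B) := by
    rw [hAB]
    exact Finset.sum_pos (fun σ _ => hE0.2 σ) Finset.univ_nonempty
  -- the ratio
  have h1 : mT L h (blk K b) s t x =
      1 - 2 * (trace (D * A * diagonal (dn x) * B) / trace (D * A * B)) := by
    unfold mT
    rw [← hA, ← hB, hlay, szM_eq]
    have e1 : c • D * A * (1 - (2 : ℝ) • diagonal (dn x)) * B =
        c • (D * A * B) - (2 * c) • (D * A * diagonal (dn x) * B) := by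
      rw [Matrix.mul_sub, Matrix.sub_mul, Matrix.mul_one]
      simp only [Matrix.smul_mul, Matrix.mul_smul, smul_smul]
    have e2 : c • D * A * B = c • (D * A * B) := by simp only [Matrix.smul_mul]
    rw [e1, e2, Matrix.trace_sub, Matrix.trace_smul, Matrix.trace_smul, smul_eq_mul, smul_eq_mul]
    field_simp
  have h2 := tilt_matrix A B hA0.1 hB0.1 (nb b) (dn x) (nb_nonneg b)
    (fun σ => by unfold dn; split_ifs <;> norm_num) hk0 hABpos
  have h3 : trace (A * diagonal (dn x) * B) / trace (A * B) = rho L β h x := by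
    have e1 : B * A = A * B := by
      rw [hAB, hA, hB, exp_split L h (β := β) (by linarith)]
    rw [rho_eq, ← hAB, Matrix.trace_mul_comm (A * diagonal (dn x)) B, ← Matrix.mul_assoc, e1]
  have h4 : trace (diagonal (nb b) * A * B) / trace (A * B) ≤ b.card * η := by
    have e1 : diagonal (nb b) = ∑ y ∈ b, diagonal (dn y) := by
      ext σ τ
      rw [Matrix.sum_apply]
      by_cases hst : σ = τ
      · subst hst
        simp only [Matrix.diagonal_apply_eq]
        rfl
      · simp only [Matrix.diagonal_apply_ne _ hst, Finset.sum_const_zero]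
    have e2 : trace (diagonal (nb b) * A * B) = ∑ y ∈ b, trace (A * B * diagonal (dn y)) := by
      rw [Matrix.mul_assoc, e1, Finset.sum_mul, Matrix.trace_sum]
      exact Finset.sum_congr rfl fun y _ => Matrix.trace_mul_comm _ _
    rw [e2, Finset.sum_div]
    calc ∑ y ∈ b, trace (A * B * diagonal (dn y)) / trace (A * B) = ∑ y ∈ b, rho L β h y := by
          refine Finset.sum_congr rfl fun y _ => ?_
          rw [rho_eq, hAB]
      _ ≤ ∑ _y ∈ b, η := Finset.sum_le_sum fun y _ => hr y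
      _ = b.card * η := by rw [Finset.sum_const, nsmul_eq_mul]
  have h5 : 0 ≤ rho L β h x := by
    rw [← h3]
    refine div_nonneg ?_ hABpos.le
    have := trace_diag4 (fun _ : V → Fin 2 => 1) (dn x) A B
    rw [Matrix.diagonal_one, Matrix.one_mul] at this
    rw [this]
    refine Finset.sum_nonneg fun p _ => ?_
    refine mul_nonneg (mul_nonneg (mul_nonneg (hA0.1 _ _) (hB0.1 _ _)) zero_le_one) ?_
    unfold dn; split_ifs <;> norm_num
  have h6 : k * (trace (diagonal (nb b) * A * B) / trace (A * B)) ≤ K * η := by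
    calc k * (trace (diagonal (nb b) * A * B) / trace (A * B)) ≤ k * (b.card * η) :=
          mul_le_mul_of_nonneg_left h4 hk0
      _ = K * η := by rw [hk]; field_simp
  have h7 : trace (D * A * diagonal (dn x) * B) / trace (D * A * B) ≤ Real.exp (K * η) * η := by
    refine h2.trans ?_
    rw [h3]
    exact mul_le_mul (Real.exp_le_exp.2 h6) (hr x) h5 (Real.exp_pos _).le
  rw [h1]
  linarith

omit [Fintype V] in
theorem blk_mem {K : ℝ} (hK : 0 ≤ K) (b : Finset V) (x : V) : 0 ≤ blk K b x ∧ blk K b x ≤ 1 := by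
  unfold blk
  split_ifs
  · refine ⟨?_, (Real.tanh_lt_one _).le⟩
    rw [Real.tanh_eq_sinh_div_cosh]
    exact div_nonneg (Real.sinh_nonneg_iff.2 (by positivity)) (Real.cosh_pos _).le
  · norm_num

theorem trMag_of {L : List (V × V)} {β K : ℝ} {b : Finset V} (hD : MagLim L β) (hβ : 0 < β)
    (hb : b.Nonempty) (hK : 0 ≤ K) {η : ℝ} (hη : 0 < η) :
    ∃ N0 : ℕ, ∀ N : ℕ, N0 ≤ N → ∀ h : V → ℝ, (∀ x, 0 ≤ h x ∧ h x ≤ 1) →
      (∀ x, rho L β h x ≤ η) → ∀ z : Fin (N + 1) × V, z.1 ≠ 0 →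
        1 - 4 * Real.exp (K * η) * η ≤ mag (phys L β N) (th β N h (blk K b)) z := by
  obtain ⟨C, N1, hC⟩ := hD
  have hδ : 0 < 2 * (Real.exp (K * η) * η) := by positivity
  obtain ⟨N0, hN0⟩ := exists_nat_gt (C / (2 * (Real.exp (K * η) * η)))
  refine ⟨N1 + N0 + 1, fun N hN h hh hr z hz => ?_⟩
  have hNpos : (0 : ℝ) < N := by exact_mod_cast (by omega : 0 < N)
  have h1 := hC N (by omega) h (blk K b) hh (blk_mem hK b) z hz
  have hs : 0 ≤ β * (((z.1 : ℕ) : ℝ) / N) := by positivity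
  have hz1 : ((z.1 : ℕ) : ℝ) / N ≤ 1 := by
    rw [div_le_one hNpos]
    exact_mod_cast Nat.lt_succ_iff.1 z.1.2
  have ht : 0 ≤ β * (1 - ((z.1 : ℕ) : ℝ) / N) := mul_nonneg hβ.le (by linarith)
  have e : β * (1 - ((z.1 : ℕ) : ℝ) / N) + β * (((z.1 : ℕ) : ℝ) / N) = β := by ring
  have h2 := mT_ge L h b hb hK ht hs e hr z.2
  have h3 : C / N ≤ 2 * (Real.exp (K * η) * η) := by
    rw [div_le_iff₀ hNpos]
    rw [div_lt_iff₀ hδ] at hN0
    have h4 : (N0 : ℝ) ≤ N := by exact_mod_cast (by omega : N0 ≤ N)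
    nlinarith
  have h5 := (abs_le.1 h1).1
  nlinarith

end

end Vale.Agent.P361.LRO
end

section

/-! P361 LRO, dictionary: permutation network <-> products of matrices, definitions. -/

namespace Vale.Agent.P361.LRO.Dict

open Finset Matrix

noncomputable section

variable {R : Type*} [CommRing R] [Algebra ℝ R]

section A

variable {X : Type} [Fintype X] [DecidableEq X]

/-- Loop sum of a random permutation with a general `2 × 2` matrix at every node. -/
def NZ (μ : Equiv.Perm X → ℝ) (A : X → Matrix (Fin 2) (Fin 2) R) : R :=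
  ∑ π, μ π • ∑ s : X → Fin 2, ∏ z, A z (s z) (s (π z))

end A

section B

variable {V : Type} [Fintype V] [DecidableEq V]

/-- tensor product of one-site matrices -/
def layM (A : V → Matrix (Fin 2) (Fin 2) R) : Matrix (V → Fin 2) (V → Fin 2) R :=
  Matrix.of fun σ τ => ∏ x, A x (σ x) (τ x)

/-- the swap, with entries in `R` (`= swapM` for `R = ℝ`) -/
def swapR (x y : V) : Matrix (V → Fin 2) (V → Fin 2) R :=
  Matrix.of fun σ τ => if σ = τ ∘ Equiv.swap x y then 1 else 0

theorem swapR_real (x y : V) : (swapR x y : Matrix (V → Fin 2) (V → Fin 2) ℝ) = swapM x y := rfl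

/-- one gate -/
def gatR (x y : V) (p : ℝ) : Matrix (V → Fin 2) (V → Fin 2) R :=
  (1 - p) • (1 : Matrix (V → Fin 2) (V → Fin 2) R) + p • swapR x y

/-- all gates between two layers -/
def gatM (L : List (V × V)) (p : ℝ) : Matrix (V → Fin 2) (V → Fin 2) R :=
  (L.reverse.map fun e => gatR e.1 e.2 p).prod

/-- `down f n = f n * f (n-1) * ⋯ * f 1`. -/
def down {M : Type*} [Monoid M] (f : ℕ → M) : ℕ → M
  | 0 => 1
  | n + 1 => f (n + 1) * down f n

end B

end

end Vale.Agent.P361.LRO.Dict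
end

section

/-! P361 LRO, dictionary: permutation network <-> products of matrices. -/

namespace Vale.Agent.P361.LRO.Dict

open Finset Matrix

variable {R : Type*} [CommRing R] [Algebra ℝ R]

section A

variable {X : Type} [Fintype X] [DecidableEq X]

/-- a gate acting on a kernel -/
def gateOp (g : X × X × ℝ) (T : (X → Fin 2) → (X → Fin 2) → R) :
    (X → Fin 2) → (X → Fin 2) → R :=
  fun s t => (1 - g.2.2) • T s t + g.2.2 • T (s ∘ Equiv.swap g.1 g.2.1) t

/-- all gates of a list, the first one acts first -/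
def actL (l : List (X × X × ℝ)) (T : (X → Fin 2) → (X → Fin 2) → R) :
    (X → Fin 2) → (X → Fin 2) → R :=
  l.foldl (fun T g => gateOp g T) T

theorem law_sum (l : List (X × X × ℝ)) (σ : Equiv.Perm X)
    (T : (X → Fin 2) → (X → Fin 2) → R) :
    ∑ π, law l σ π • ∑ s : X → Fin 2, T s (s ∘ π) = ∑ s : X → Fin 2, actL l T s (s ∘ σ) := by
  induction l generalizing T with
  | nil =>
    simp only [law, actL, List.foldl_nil]
    rw [Finset.sum_eq_single σ]
    · simp
    · intro π _ hπ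
      rw [Pi.single_eq_of_ne hπ, zero_smul]
    · simp
  | cons g l ih =>
    have h1 : actL (g :: l) T = actL l (gateOp g T) := rfl
    rw [h1, ← ih]
    simp only [law, add_smul, Finset.sum_add_distrib, gateOp, smul_add]
    congr 1
    · refine Finset.sum_congr rfl fun π _ => ?_
      rw [← Finset.smul_sum, smul_smul, mul_comm]
    · rw [← Equiv.sum_comp (Equiv.mulLeft (Equiv.swap g.1 g.2.1))]
      refine Finset.sum_congr rfl fun π _ => ?_
      simp only [Equiv.coe_mulLeft]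
      rw [← mul_assoc, Equiv.swap_mul_self, one_mul, mul_comm, mul_smul]
      rw [← Finset.smul_sum]
      congr 2
      rw [← Equiv.sum_comp (Equiv.arrowCongr (Equiv.swap g.1 g.2.1) (Equiv.refl (Fin 2)))]
      refine Finset.sum_congr rfl fun s _ => ?_
      have e1 : (Equiv.arrowCongr (Equiv.swap g.1 g.2.1) (Equiv.refl (Fin 2))) s
          = s ∘ Equiv.swap g.1 g.2.1 := by
        funext x; simp [Equiv.arrowCongr]
      rw [e1]
      congr 1
      funext x
      simp
  
end A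

end Vale.Agent.P361.LRO.Dict
end

section

/-!
P361, bridge between the charge networks and words of matrices: tensor products, permutation
matrices, the sum over the random permutation.
-/

namespace Vale.Agent.P361.LRO.Br

open Finset Matrix

noncomputable section

section tens

set_option linter.unusedSectionVars false

variable {X : Type} [Fintype X] [DecidableEq X] {R : Type*} [CommRing R]

/-- Tensor product of the matrices `A x`. -/
def tens (A : X → Matrix (Fin 2) (Fin 2) R) : Matrix (X → Fin 2) (X → Fin 2) R :=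
  Matrix.of fun s t => ∏ x, A x (s x) (t x)

theorem tens_apply (A : X → Matrix (Fin 2) (Fin 2) R) (s t : X → Fin 2) :
    tens A s t = ∏ x, A x (s x) (t x) := rfl

theorem tens_mul (A B : X → Matrix (Fin 2) (Fin 2) R) :
    tens A * tens B = tens fun x => A x * B x := by
  ext s t
  rw [Matrix.mul_apply, tens_apply]
  simp only [tens_apply, Matrix.mul_apply]
  rw [Finset.prod_univ_sum, Fintype.piFinset_univ]
  exact Finset.sum_congr rfl fun u _ => (Finset.prod_mul_distrib).symm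

theorem tens_one : tens (fun _ : X => (1 : Matrix (Fin 2) (Fin 2) R)) = 1 := by
  ext s t
  rw [tens_apply]
  by_cases h : s = t
  · subst h
    simp
  · rw [Matrix.one_apply_ne h]
    obtain ⟨x, hx⟩ := Function.ne_iff.1 h
    exact Finset.prod_eq_zero (Finset.mem_univ x) (Matrix.one_apply_ne hx)

/-- Permutation matrix. -/
def permM (σ : Equiv.Perm X) : Matrix (X → Fin 2) (X → Fin 2) R :=
  Matrix.of fun s t => if s = t ∘ σ then 1 else 0

theorem permM_apply (σ : Equiv.Perm X) (s t : X → Fin 2) :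
    (permM σ : Matrix (X → Fin 2) (X → Fin 2) R) s t = if s = t ∘ σ then 1 else 0 := rfl

theorem mul_permM (M : Matrix (X → Fin 2) (X → Fin 2) R) (σ : Equiv.Perm X) (s t : X → Fin 2) :
    (M * (permM σ : Matrix (X → Fin 2) (X → Fin 2) R)) s t = M s (t ∘ σ) := by
  rw [Matrix.mul_apply]
  simp only [permM_apply, mul_ite, mul_one, mul_zero]
  rw [Finset.sum_ite_eq' Finset.univ (t ∘ σ) (fun u => M s u), if_pos (Finset.mem_univ _)]

theorem permM_mul_apply (M : Matrix (X → Fin 2) (X → Fin 2) R) (σ : Equiv.Perm X)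
    (s t : X → Fin 2) : ((permM σ : Matrix (X → Fin 2) (X → Fin 2) R) * M) s t =
      M (s ∘ (σ⁻¹ : Equiv.Perm X)) t := by
  rw [Matrix.mul_apply]
  simp only [permM_apply, ite_mul, one_mul, zero_mul]
  have h : ∀ u : X → Fin 2, s = u ∘ σ ↔ u = s ∘ (σ⁻¹ : Equiv.Perm X) := by
    intro u
    constructor
    · rintro rfl
      funext x
      simp
    · rintro rfl
      funext x
      simp
  simp only [h]
  rw [Finset.sum_ite_eq' Finset.univ (s ∘ ⇑σ⁻¹) (fun u => M u t), if_pos (Finset.mem_univ _)]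

/-- Permutations move the factors. -/
theorem permM_tens (σ : Equiv.Perm X) (A : X → Matrix (Fin 2) (Fin 2) R) :
    (permM σ : Matrix (X → Fin 2) (X → Fin 2) R) * tens A =
      tens (fun x => A (σ x)) * permM σ := by
  ext s t
  rw [permM_mul_apply, mul_permM, tens_apply, tens_apply]
  refine (Fintype.prod_equiv σ _ _ fun x => ?_).symm
  simp

/-- All nodes in the same basis. -/
theorem permM_comm (σ : Equiv.Perm X) (U : Matrix (Fin 2) (Fin 2) R) :
    (permM σ : Matrix (X → Fin 2) (X → Fin 2) R) * tens (fun _ => U) =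
      tens (fun _ => U) * permM σ := permM_tens σ _

theorem trace_perm (A : X → Matrix (Fin 2) (Fin 2) R) (π : Equiv.Perm X) :
    Matrix.trace (tens A * permM π) = ∑ s : X → Fin 2, ∏ z, A z (s z) (s (π z)) := by
  rw [Matrix.trace]
  refine Finset.sum_congr rfl fun s _ => ?_
  rw [Matrix.diag_apply, mul_permM, tens_apply]
  rfl

variable [Algebra ℝ R]

/-- The partition function with the node matrices `A`. -/
def NZ (μ : Equiv.Perm X → ℝ) (A : X → Matrix (Fin 2) (Fin 2) R) : R :=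
  ∑ π, μ π • ∑ s : X → Fin 2, ∏ z, A z (s z) (s (π z))

/-- The average of the permutation matrices. -/
def avM (μ : Equiv.Perm X → ℝ) : Matrix (X → Fin 2) (X → Fin 2) R := ∑ π, μ π • permM π

theorem NZ_eq (μ : Equiv.Perm X → ℝ) (A : X → Matrix (Fin 2) (Fin 2) R) :
    NZ μ A = Matrix.trace (tens A * avM μ) := by
  unfold NZ avM
  rw [Matrix.mul_sum, Matrix.trace_sum]
  refine Finset.sum_congr rfl fun π _ => ?_
  rw [Matrix.mul_smul, Matrix.trace_smul, trace_perm]

theorem avM_comm (μ : Equiv.Perm X → ℝ) (U : Matrix (Fin 2) (Fin 2) R) :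
    avM μ * tens (fun _ : X => U) = tens (fun _ => U) * avM μ := by
  unfold avM
  rw [Matrix.sum_mul, Matrix.mul_sum]
  refine Finset.sum_congr rfl fun π _ => ?_
  rw [Matrix.smul_mul, Matrix.mul_smul, permM_comm]

/-- **Change of basis.** -/
theorem NZ_conj (μ : Equiv.Perm X → ℝ) (A : X → Matrix (Fin 2) (Fin 2) R)
    {U W : Matrix (Fin 2) (Fin 2) R} (h : W * U = 1) :
    NZ μ (fun x => U * A x * W) = NZ μ A := by
  rw [NZ_eq, NZ_eq, ← tens_mul, ← tens_mul, Matrix.mul_assoc, ← avM_comm, ← Matrix.mul_assoc,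
    Matrix.trace_mul_comm, ← Matrix.mul_assoc, ← Matrix.mul_assoc, tens_mul]
  simp only [h]
  rw [tens_one, Matrix.one_mul]

end tens

end

end Vale.Agent.P361.LRO.Br
end

section

/-! P361 LRO: uniform (quantitative) Lie-Trotter. -/

namespace Vale.Agent.P361.LRO.Trot

open Filter Topology NormedSpace

section powers

variable {𝔸 : Type*} [NormedRing 𝔸]

/-- telescoping estimate for powers -/
theorem norm_pow_sub_pow_le {a b : 𝔸} {M : ℝ} (hM : 1 ≤ M) (ha : ‖a‖ ≤ M) (hb : ‖b‖ ≤ M) (m : ℕ)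
    (h1 : ‖(1 : 𝔸)‖ ≤ 1) : ‖a ^ m - b ^ m‖ ≤ m * M ^ m * ‖a - b‖ := by
  have hpa : ∀ k : ℕ, ‖a ^ k‖ ≤ M ^ k := by
    intro k
    induction k with
    | zero => simpa using h1
    | succ k ih =>
      rw [pow_succ, pow_succ]
      refine (norm_mul_le _ _).trans ?_
      gcongr
  induction m with
  | zero => simp
  | succ m ih =>
    have e : a ^ (m + 1) - b ^ (m + 1) = a ^ m * (a - b) + (a ^ m - b ^ m) * b := by
      rw [pow_succ, pow_succ]; noncomm_ring
    rw [e]
    have h2 : ‖a ^ m * (a - b)‖ ≤ M ^ m * ‖a - b‖ := by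
      refine (norm_mul_le _ _).trans ?_
      gcongr
      exact hpa m
    have h3 : ‖(a ^ m - b ^ m) * b‖ ≤ (m * M ^ m * ‖a - b‖) * M := by
      refine (norm_mul_le _ _).trans ?_
      gcongr
    have hM0 : 0 ≤ M := zero_le_one.trans hM
    calc ‖a ^ m * (a - b) + (a ^ m - b ^ m) * b‖
        ≤ M ^ m * ‖a - b‖ + (m * M ^ m * ‖a - b‖) * M := (norm_add_le _ _).trans (add_le_add h2 h3)
      _ ≤ (M ^ m * M) * ‖a - b‖ + (m * M ^ m * ‖a - b‖) * M := by
          gcongr
          exact le_mul_of_one_le_right (by positivity) hM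
      _ = ((m + 1 : ℕ) : ℝ) * M ^ (m + 1) * ‖a - b‖ := by
          push_cast
          ring

end powers

variable {𝔸 : Type*} [NormedRing 𝔸] [NormedAlgebra ℝ 𝔸] [CompleteSpace 𝔸]

omit [CompleteSpace 𝔸] in
/-- norm of the exponential -/
theorem norm_exp_le (h1 : ‖(1 : 𝔸)‖ ≤ 1) (x : 𝔸) : ‖exp x‖ ≤ Real.exp ‖x‖ := by
  have h2 : ∀ n : ℕ, ‖((n.factorial : ℝ)⁻¹) • x ^ n‖ ≤ ‖x‖ ^ n / n.factorial := by
    intro n
    rw [norm_smul, norm_inv, Real.norm_natCast, div_eq_inv_mul]
    gcongr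
    rcases Nat.eq_zero_or_pos n with hn | hn
    · subst hn; simpa using h1
    · exact norm_pow_le' x hn
  have hs : Summable fun n : ℕ => ‖x‖ ^ n / (n.factorial : ℝ) := Real.summable_pow_div_factorial _
  rw [exp_eq_tsum ℝ, Real.exp_eq_exp_ℝ, exp_eq_tsum_div]
  exact tsum_of_norm_bounded hs.hasSum h2

/-- first order remainder of the exponential -/
theorem norm_exp_sub_one_sub_le (x : 𝔸) :
    ‖exp x - 1 - x‖ ≤ Real.exp ‖x‖ - 1 - ‖x‖ := by
  have h2 : ∀ n : ℕ, ‖(((n + 2).factorial : ℝ)⁻¹) • x ^ (n + 2)‖ ≤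
      ‖x‖ ^ (n + 2) / (n + 2).factorial := by
    intro n
    rw [norm_smul, norm_inv, Real.norm_natCast, div_eq_inv_mul]
    gcongr
    exact norm_pow_le' x (by omega)
  have hs : Summable fun n : ℕ => ‖x‖ ^ n / (n.factorial : ℝ) := Real.summable_pow_div_factorial _
  have hx : Summable fun n : ℕ => ((n.factorial : ℝ)⁻¹) • x ^ n := expSeries_summable' (𝕂 := ℝ) x
  have e : exp x - 1 - x = ∑' n : ℕ, (((n + 2).factorial : ℝ)⁻¹) • x ^ (n + 2) := by
    rw [exp_eq_tsum ℝ]
    have h5 := hx.sum_add_tsum_nat_add 2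
    simp only [Finset.sum_range_succ, Finset.range_zero, Finset.sum_empty, zero_add,
      Nat.factorial_zero, Nat.cast_one, inv_one, pow_zero, one_smul, Nat.factorial_one,
      pow_one] at h5
    show (∑' n : ℕ, ((n.factorial : ℝ)⁻¹) • x ^ n) - 1 - x = _
    rw [← h5]
    abel
  have e' : Real.exp ‖x‖ - 1 - ‖x‖ = ∑' n : ℕ, ‖x‖ ^ (n + 2) / ((n + 2).factorial : ℝ) := by
    rw [Real.exp_eq_exp_ℝ, exp_eq_tsum_div]
    have h5 := hs.sum_add_tsum_nat_add 2
    simp only [Finset.sum_range_succ, Finset.range_zero, Finset.sum_empty, zero_add,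
      Nat.factorial_zero, Nat.cast_one, div_one, pow_zero, Nat.factorial_one,
      pow_one] at h5
    show (∑' n : ℕ, ‖x‖ ^ n / (n.factorial : ℝ)) - 1 - ‖x‖ = _
    rw [← h5]
    ring
  rw [e, e']
  exact tsum_of_norm_bounded ((summable_nat_add_iff 2).2 hs).hasSum h2

/-- zeroth order remainder of the exponential -/
theorem norm_exp_sub_one_le (x : 𝔸) : ‖exp x - 1‖ ≤ Real.exp ‖x‖ - 1 := by
  have h := norm_exp_sub_one_sub_le x
  have e : exp x - 1 = (exp x - 1 - x) + x := by abel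
  rw [e]
  linarith [norm_add_le (exp x - 1 - x) x]

/-- `e^x - 1 - x ≤ x² e^x`. -/
theorem exp_rem_le {x : ℝ} (hx : 0 ≤ x) : Real.exp x - 1 - x ≤ x ^ 2 * Real.exp x := by
  have h0 : 1 - x ≤ Real.exp (-x) := by
    have := Real.add_one_le_exp (-x)
    linarith
  have h1 : Real.exp x - 1 ≤ x * Real.exp x := by
    have h2 : (1 - x) * Real.exp x ≤ Real.exp (-x) * Real.exp x :=
      mul_le_mul_of_nonneg_right h0 (Real.exp_pos _).le
    rw [← Real.exp_add, neg_add_cancel, Real.exp_zero] at h2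
    linarith
  have h3 : x * (Real.exp x - 1) ≤ x * (x * Real.exp x) := mul_le_mul_of_nonneg_left h1 hx
  nlinarith

omit [CompleteSpace 𝔸] [NormedAlgebra ℝ 𝔸] in
theorem norm_list_sum_le (l : List 𝔸) : ‖l.sum‖ ≤ (l.map norm).sum := by
  induction l with
  | nil => simp
  | cons A l ih =>
    rw [List.sum_cons, List.map_cons, List.sum_cons]
    exact (norm_add_le _ _).trans (add_le_add le_rfl ih)

end Vale.Agent.P361.LRO.Trot
end

section

/-!
P361 LRO: the structure `Low` of block (6) from the network ODE (step (3)) on the physical circuit.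
-/

namespace Vale.Agent.P361.LRO.Net

open Finset Filter Topology
open Vale.Agent.P361.LRO Vale.Agent.P361.LRO.Ind

set_option linter.unusedSectionVars false

variable {n : ℕ} [NeZero n]

theorem Fam.lower {h0 lam : ℝ} (hlam : 0 ≤ h0) {h h' : Tor n → ℝ} (hh : Fam n h0 lam h)
    (hh' : Fam n h0 lam h') {s : ℝ} (hs : 0 ≤ s) :
    Fam n h0 lam fun x => max (h' x) (Real.exp (-s) * h x) := by
  have he : Real.exp (-s) ≤ 1 := Real.exp_le_one_iff.mpr (by linarith)
  have he0 : 0 < Real.exp (-s) := Real.exp_pos _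
  refine ⟨fun x => ⟨(hh'.1 x).1.trans (le_max_left _ _), max_le (hh'.1 x).2 ?_⟩, fun x i => ?_⟩
  · have h1 := (hh.1 x).2
    have h2 := hlam.trans (hh.1 x).1
    nlinarith
  · have hl : 0 < Real.exp lam := Real.exp_pos _
    constructor
    · refine max_le ?_ ?_
      · exact ((hh'.2 x i).1).trans (mul_le_mul_of_nonneg_left (le_max_left _ _) hl.le)
      · have h3 := mul_le_mul_of_nonneg_left (hh.2 x i).1 he0.le
        refine h3.trans ?_
        have h4 := le_max_right (h' (x + Pi.single i 1)) (Real.exp (-s) * h (x + Pi.single i 1))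
        calc Real.exp (-s) * (Real.exp lam * h (x + Pi.single i 1))
            = Real.exp lam * (Real.exp (-s) * h (x + Pi.single i 1)) := by ring
          _ ≤ _ := mul_le_mul_of_nonneg_left h4 hl.le
    · refine max_le ?_ ?_
      · exact ((hh'.2 x i).2).trans (mul_le_mul_of_nonneg_left (le_max_left _ _) hl.le)
      · have h3 := mul_le_mul_of_nonneg_left (hh.2 x i).2 he0.le
        refine h3.trans ?_
        have h4 := le_max_right (h' x) (Real.exp (-s) * h x)
        calc Real.exp (-s) * (Real.exp lam * h x)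
            = Real.exp lam * (Real.exp (-s) * h x) := by ring
          _ ≤ _ := mul_le_mul_of_nonneg_left h4 hl.le

end Vale.Agent.P361.LRO.Net
end

section

/-!
P361 LRO, stage 3: the structure `Low` for an arbitrary good law, and for the scaled fields
`h = g / β` (slice parameters `g / (2N)`).
-/

namespace Vale.Agent.P361.LRO.Net

open Finset Filter Topology
open Vale.Agent.P361.LRO Vale.Agent.P361.LRO.Ind

set_option linter.unusedSectionVars false

variable {n : ℕ} [NeZero n]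

/-- The physical network in the scaled field `g` (physical field `g / β`). -/
noncomputable def cphys3 (n : ℕ) [NeZero n] (β : ℝ) (N : ℕ) (K : ℝ) (b : Finset (Tor n))
    (g : Tor n → ℝ) : Nd n N → Nd n N → ℝ :=
  c0 (phys (edges n) β N) (th 1 N g (blk K b))

end Vale.Agent.P361.LRO.Net
end

section

/-!
P361 LRO, all spins: merging nodes of a network.
-/

namespace Vale.Agent.P361.LRO.GenS

open Finset _root_.P361.LRO Vale.Agent.P361.LRO

set_option linter.unusedSectionVars false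

variable {X X' : Type} [Fintype X] [DecidableEq X] [Fintype X'] [DecidableEq X']

/-- Merge the nodes with the same image. -/
noncomputable def mgC (f : X → X') (c : X → X → ℝ) (u v : X') : ℝ :=
  if u = v then 0 else ∑ x, ∑ y, if f x = u ∧ f y = v then c x y else 0

theorem netK_mgC (f : X → X') (c : X → X → ℝ) (a : X' → ℝ) :
    netK (mgC f c) a = netK c (fun x => a (f x)) := by
  unfold netK mgC
  congr 1
  have h1 : ∀ u v : X', (if u = v then (0 : ℝ) else
      ∑ x, ∑ y, if f x = u ∧ f y = v then c x y else 0) * (a u - a v) ^ 2 =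
      ∑ x, ∑ y, if f x = u ∧ f y = v then c x y * (a (f x) - a (f y)) ^ 2 else 0 := by
    intro u v
    by_cases huv : u = v
    · subst huv
      rw [if_pos rfl, zero_mul]
      symm
      refine Finset.sum_eq_zero fun x _ => Finset.sum_eq_zero fun y _ => ?_
      split_ifs with h
      · rw [h.1, h.2, sub_self]; ring
      · rfl
    · rw [if_neg huv, Finset.sum_mul]
      refine Finset.sum_congr rfl fun x _ => ?_
      rw [Finset.sum_mul]
      refine Finset.sum_congr rfl fun y _ => ?_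
      split_ifs with h
      · rw [h.1, h.2]
      · rw [zero_mul]
  simp only [h1]
  have h2 : ∀ u : X', ∑ v : X', ∑ x, ∑ y,
      (if f x = u ∧ f y = v then c x y * (a (f x) - a (f y)) ^ 2 else 0) =
      ∑ x, if f x = u then ∑ y, c x y * (a (f x) - a (f y)) ^ 2 else 0 := by
    intro u
    rw [Finset.sum_comm]
    refine Finset.sum_congr rfl fun x _ => ?_
    rw [Finset.sum_comm]
    by_cases hx : f x = u
    · simp [hx]
    · simp [hx]
  simp only [h2]
  rw [Finset.sum_comm]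
  refine Finset.sum_congr rfl fun x _ => ?_
  simp

theorem mgC_symm {f : X → X'} {c : X → X → ℝ} (hc : ∀ x y, c x y = c y x) (u v : X') :
    mgC f c u v = mgC f c v u := by
  unfold mgC
  by_cases h : u = v
  · subst h; rfl
  · rw [if_neg h, if_neg (Ne.symm h), Finset.sum_comm]
    refine Finset.sum_congr rfl fun x _ => Finset.sum_congr rfl fun y _ => ?_
    rw [hc x y]
    simp only [and_comm]

theorem mgC_nonneg {f : X → X'} {c : X → X → ℝ} (hc : ∀ x y, 0 ≤ c x y) (u v : X') :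
    0 ≤ mgC f c u v := by
  unfold mgC
  split_ifs
  · exact le_rfl
  · refine Finset.sum_nonneg fun x _ => Finset.sum_nonneg fun y _ => ?_
    split_ifs
    · exact hc x y
    · exact le_rfl

/-- Single pairs. -/
theorem le_mgC {f : X → X'} {c : X → X → ℝ} (hc : ∀ x y, 0 ≤ c x y) {x y : X}
    (h : f x ≠ f y) : c x y ≤ mgC f c (f x) (f y) := by
  unfold mgC
  rw [if_neg h]
  have h1 : ∀ x' ∈ (univ : Finset X), 0 ≤ ∑ y', if f x' = f x ∧ f y' = f y then c x' y' else 0 := by
    intro x' _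
    refine Finset.sum_nonneg fun y' _ => ?_
    split_ifs
    · exact hc _ _
    · exact le_rfl
  refine le_trans ?_ (Finset.single_le_sum h1 (Finset.mem_univ x))
  have h2 : ∀ y' ∈ (univ : Finset X), 0 ≤ if f x = f x ∧ f y' = f y then c x y' else 0 := by
    intro y' _
    split_ifs
    · exact hc _ _
    · exact le_rfl
  refine le_trans ?_ (Finset.single_le_sum h2 (Finset.mem_univ y))
  simp

/-- Sums over a fibre. -/
theorem sum_le_mgC {f : X → X'} {c : X → X → ℝ} (hc : ∀ x y, 0 ≤ c x y) {u : X'} {y : X}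
    (h : u ≠ f y) : ∑ x, (if f x = u then c x y else 0) ≤ mgC f c u (f y) := by
  unfold mgC
  rw [if_neg h]
  refine Finset.sum_le_sum fun x _ => ?_
  by_cases hx : f x = u
  · simp only [hx, if_true, true_and]
    have h2 : ∀ y' ∈ (univ : Finset X), 0 ≤ if f y' = f y then c x y' else 0 := by
      intro y' _
      split_ifs
      · exact hc _ _
      · exact le_rfl
    refine le_trans ?_ (Finset.single_le_sum h2 (Finset.mem_univ y))
    simp
  · simp [hx]

/-- Total conductance at a node with a one-point fibre. -/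
theorem sum_mgC_le {f : X → X'} {c : X → X → ℝ} (hc : ∀ x y, 0 ≤ c x y) {x : X}
    (h : ∀ y, f y = f x → y = x) : ∑ v, mgC f c (f x) v ≤ ∑ y, c x y := by
  have h1 : ∀ v, mgC f c (f x) v ≤ ∑ y, if f y = v then c x y else 0 := by
    intro v
    unfold mgC
    split_ifs with hv
    · refine Finset.sum_nonneg fun y _ => ?_
      split_ifs
      · exact hc _ _
      · exact le_rfl
    · rw [Finset.sum_eq_single x]
      · simp
      · intro y _ hy
        refine Finset.sum_eq_zero fun z _ => ?_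
        rw [if_neg]
        rintro ⟨h1, _⟩
        exact hy (h y h1)
      · intro hx
        exact absurd (Finset.mem_univ x) hx
  refine (Finset.sum_le_sum fun v _ => h1 v).trans ?_
  rw [Finset.sum_comm]
  refine Finset.sum_le_sum fun y _ => ?_
  simp

/-- Potentials may be changed at nodes without conductances. -/
theorem netK_congr_zero {c : X → X → ℝ} (hs : ∀ x y, c x y = c y x) {a a' : X → ℝ}
    (h : ∀ x, a x = a' x ∨ ∀ y, c x y = 0) : netK c a = netK c a' := by
  unfold netK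
  congr 1
  refine Finset.sum_congr rfl fun x _ => Finset.sum_congr rfl fun y _ => ?_
  rcases h x with hx | hx
  · rcases h y with hy | hy
    · rw [hx, hy]
    · rw [hs x y, hy x]; ring
  · rw [hx y]; ring

end Vale.Agent.P361.LRO.GenS
end

section

/-!
P361 LRO, all spins: the copies of a layer as slots of the layer.
-/

namespace Vale.Agent.P361.LRO.GenS

open Finset _root_.P361.LRO Vale.Agent.P361.LRO

noncomputable section

theorem slot_lt {s N : ℕ} {k : Fin (N + 1)} (hk : k ≠ 0) (i : Fin s) :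
    1 + ((k : ℕ) - 1) * s + i < N * s + 1 := by
  have h1 : 1 ≤ (k : ℕ) := Nat.one_le_iff_ne_zero.2 fun h => hk (Fin.ext h)
  have h2 : (k : ℕ) ≤ N := Nat.lt_succ_iff.1 k.2
  have h3 : ((k : ℕ) - 1) * s + s = k * s := by
    rw [← Nat.succ_mul]; congr 1; omega
  have h4 : (k : ℕ) * s ≤ N * s := Nat.mul_le_mul_right s h2
  have h5 := i.2
  omega

/-- Layer of the copy `i` of the layer `k`. -/
def slotL (s N : ℕ) (k : Fin (N + 1)) (i : Fin s) : Fin (N * s + 1) :=
  if hk : k = 0 then 0 else ⟨1 + ((k : ℕ) - 1) * s + i, slot_lt hk i⟩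

/-- The copies of a physical layer become slots; the copies of the extra slice are merged. -/
def slotF (n s N : ℕ) (z : Fin (N + 1) × (Tor n × Fin s)) : Ind.Nd n (N * s) :=
  (slotL s N z.1 z.2.2, z.2.1)

theorem slotL_zero {s N : ℕ} (i : Fin s) : slotL s N 0 i = 0 := by
  unfold slotL; rw [dif_pos rfl]

theorem slotL_val {s N : ℕ} {k : Fin (N + 1)} (hk : k ≠ 0) (i : Fin s) :
    (slotL s N k i : ℕ) = 1 + ((k : ℕ) - 1) * s + i := by
  unfold slotL; rw [dif_neg hk]

theorem slotL_ne {s N : ℕ} {k : Fin (N + 1)} (hk : k ≠ 0) (i : Fin s) : slotL s N k i ≠ 0 := by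
  intro h
  have h1 := slotL_val hk i
  rw [h, Fin.val_zero] at h1
  omega

/-- Every physical layer of the slots network is a slot. -/
theorem exists_slot {s N : ℕ} (hs : 0 < s) {l : Fin (N * s + 1)} (hl : l ≠ 0) :
    ∃ (k : Fin (N + 1)) (i : Fin s), k ≠ 0 ∧ slotL s N k i = l := by
  have h1 : 1 ≤ (l : ℕ) := Nat.one_le_iff_ne_zero.2 fun h => hl (Fin.ext h)
  have h2 : (l : ℕ) ≤ N * s := Nat.lt_succ_iff.1 l.2
  have h3 : ((l : ℕ) - 1) / s < N := by
    rw [Nat.div_lt_iff_lt_mul hs]; omega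
  have hk : (⟨((l : ℕ) - 1) / s + 1, by omega⟩ : Fin (N + 1)) ≠ 0 := by
    intro h
    have := congrArg Fin.val h
    simp at this
  refine ⟨⟨((l : ℕ) - 1) / s + 1, by omega⟩, ⟨((l : ℕ) - 1) % s, Nat.mod_lt _ hs⟩, hk, ?_⟩
  apply Fin.ext
  rw [slotL_val hk]
  show 1 + (((l : ℕ) - 1) / s + 1 - 1) * s + ((l : ℕ) - 1) % s = l
  rw [Nat.add_sub_cancel]
  have h4 := Nat.div_add_mod' ((l : ℕ) - 1) s
  omega

theorem slotL_inj {s N : ℕ} {k k' : Fin (N + 1)} {i i' : Fin s} (hk : k ≠ 0) (hk' : k' ≠ 0)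
    (h : slotL s N k i = slotL s N k' i') : k = k' ∧ i = i' := by
  have h1 := congrArg Fin.val h
  rw [slotL_val hk, slotL_val hk'] at h1
  have hs : 0 < s := Nat.lt_of_le_of_lt (Nat.zero_le _) i.2
  have e1 : (k : ℕ) - 1 = (k' : ℕ) - 1 := by
    have h2 : (((k : ℕ) - 1) * s + i) / s = (((k' : ℕ) - 1) * s + i') / s := by
      congr 1; omega
    rw [Nat.add_comm, Nat.add_mul_div_right _ _ hs, Nat.div_eq_of_lt i.2, Nat.add_comm _ (i' : ℕ),
      Nat.add_mul_div_right _ _ hs, Nat.div_eq_of_lt i'.2] at h2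
    omega
  have h1k : 1 ≤ (k : ℕ) := Nat.one_le_iff_ne_zero.2 fun h => hk (Fin.ext h)
  have h1k' : 1 ≤ (k' : ℕ) := Nat.one_le_iff_ne_zero.2 fun h => hk' (Fin.ext h)
  rw [e1] at h1
  exact ⟨Fin.ext (by omega), Fin.ext (by omega)⟩

/-- Physical nodes have one-point fibres. -/
theorem slotF_inj {n s N : ℕ} {x y : Fin (N + 1) × (Tor n × Fin s)} (hx : x.1 ≠ 0)
    (h : slotF n s N y = slotF n s N x) : y = x := by
  obtain ⟨k, x, i⟩ := x
  obtain ⟨l, y, j⟩ := y
  simp only [slotF, Prod.mk.injEq] at h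
  have hl : l ≠ 0 := by
    intro hl
    rw [hl, slotL_zero] at h
    exact slotL_ne hx i h.1.symm
  obtain ⟨h1, h2⟩ := slotL_inj hl hx h.1
  rw [h1, h2, h.2]

end

end Vale.Agent.P361.LRO.GenS
end

section

/-!
# P361 LRO, all spins: block (6), definitions of the coarse step (helper494)

Nodes `(k, (x, i))`, `i : Fin s` the copy.  Only neighbour conductances are used.
-/

namespace Vale.Agent.P361.LRO.GenS

open Finset Vale.Agent.P361.LRO _root_.P361.LRO

noncomputable section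

/-- Space-time nodes with copies. -/
abbrev NdS (n s N : ℕ) : Type := Fin (N + 1) × (Tor n × Fin s)

/-- Local information on the network `c` in the field `h` (output of block (4), all spins). -/
structure LocalS (n s N W : ℕ) [NeZero n] (β K c1 : ℝ) (b : Finset (Tor n)) (h : Tor n → ℝ)
    (c : NdS n s N → NdS n s N → ℝ) : Prop where
  symm : ∀ u v, c u v = c v u
  nonneg : ∀ u v, 0 ≤ c u v
  tot : ∀ (k : Fin (N + 1)) (x : Tor n) (i : Fin s), k ≠ 0 →
    ∑ v, c (k, (x, i)) v ≤ β * h x / (2 * N)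
  nbr : ∀ (k l : Fin (N + 1)) (x : Tor n) (e : Fin 3) (i j : Fin s), k ≠ 0 → l ≠ 0 →
    ((k : ℕ) + W ≤ l ∨ (l : ℕ) + W ≤ k) → (l : ℕ) ≤ k + 12 * W → (k : ℕ) ≤ l + 12 * W →
    h x = 1 → h (x + Pi.single e 1) = 1 →
    c1 * (β / N) ^ 2 ≤ c (k, (x, i)) (l, (x + Pi.single e 1, j))
  contact : ∀ (k : Fin (N + 1)) (x : Tor n) (j : Fin s), k ≠ 0 → (k : ℕ) ≤ W → x ∈ b → h x = 1 →
    c1 * (K / b.card) * (β / N) ≤ ∑ i, c (0, (x, i)) (k, (x, j))

end

end Vale.Agent.P361.LRO.GenS
end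

section

/-!
# P361 LRO, stage 3 for all spins: the slots encoding for cells x whole circle (helper494)

A network on the nodes with copies `(k, (x, i))`, `i : Fin s`, becomes a network on the nodes of the
slots, `N s` physical layers, one site per node; the copies of a node of the extra slice are
merged.  Long-window information on the first gives `Ind3.Local3` for the second.
-/

namespace Vale.Agent.P361.LRO.GenS

open Finset Vale.Agent.P361.LRO _root_.P361.LRO

noncomputable section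

/-- Long-window information on a network with copies (scaled field `g`, physical field
`g / (s β)`, so that the slice parameters are `g / (2 N s)`). -/
structure LocalC3 (n s N W : ℕ) [NeZero n] (e : ℕ) (K c1 : ℝ) (b : Finset (Tor n)) (g : Tor n → ℝ)
    (c : NdS n s N → NdS n s N → ℝ) : Prop where
  symm : ∀ u v, c u v = c v u
  nonneg : ∀ u v, 0 ≤ c u v
  tot : ∀ (k : Fin (N + 1)) (x : Tor n) (i : Fin s), k ≠ 0 →
    ∑ v, c (k, (x, i)) v ≤ g x / (2 * ((N * s : ℕ) : ℝ))
  long : ∀ (k l : Fin (N + 1)) (p x y : Tor n) (i j : Fin s), k ≠ 0 → (k : ℕ) + W ≤ l →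
    x ∈ cube n p (2 * 3 ^ e) → y ∈ cube n p (2 * 3 ^ e) → g x = 1 → g y = 1 →
    c1 / (((N * s : ℕ) : ℝ) ^ 2 * 27 ^ e) ≤ c (k, (x, i)) (l, (y, j))
  contact : ∀ (k : Fin (N + 1)) (p x y : Tor n) (j : Fin s), W ≤ (k : ℕ) →
    x ∈ b → x ∈ cube n p (2 * 3 ^ e) → y ∈ cube n p (2 * 3 ^ e) → g y = 1 →
    c1 * (K / b.card) / (((N * s : ℕ) : ℝ) * 27 ^ e) ≤ ∑ i, c (0, (x, i)) (k, (y, j))

theorem slot_gap {s N W : ℕ} {k l : Fin (N + 1)} {i j : Fin s} (hk : k ≠ 0) (hl : l ≠ 0)
    (h : (slotL s N k i : ℕ) + W * s ≤ (slotL s N l j : ℕ)) : (k : ℕ) + W ≤ l := by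
  rw [slotL_val hk, slotL_val hl] at h
  have hi := i.2
  have hj := j.2
  have hk1 : 1 ≤ (k : ℕ) := Nat.one_le_iff_ne_zero.2 fun h => hk (Fin.ext h)
  have hl1 : 1 ≤ (l : ℕ) := Nat.one_le_iff_ne_zero.2 fun h => hl (Fin.ext h)
  obtain ⟨k', hk'⟩ : ∃ k', (k : ℕ) = k' + 1 := ⟨(k : ℕ) - 1, by omega⟩
  obtain ⟨l', hl'⟩ : ∃ l', (l : ℕ) = l' + 1 := ⟨(l : ℕ) - 1, by omega⟩
  rw [hk', hl'] at h ⊢
  simp only [Nat.add_sub_cancel] at h
  by_contra hcon
  have h1 : l' + 1 ≤ k' + W := by omega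
  have h2 : (l' + 1) * s ≤ (k' + W) * s := Nat.mul_le_mul_right s h1
  have h3 : (l' + 1) * s = l' * s + s := by ring
  have h4 : (k' + W) * s = k' * s + W * s := by ring
  omega

theorem slot_far {s N W : ℕ} {k : Fin (N + 1)} {i : Fin s} (hk : k ≠ 0)
    (h : W * s ≤ (slotL s N k i : ℕ)) : W ≤ k := by
  rw [slotL_val hk] at h
  have hi := i.2
  have hk1 : 1 ≤ (k : ℕ) := Nat.one_le_iff_ne_zero.2 fun h => hk (Fin.ext h)
  obtain ⟨k', hk'⟩ : ∃ k', (k : ℕ) = k' + 1 := ⟨(k : ℕ) - 1, by omega⟩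
  rw [hk'] at h ⊢
  simp only [Nat.add_sub_cancel] at h
  by_contra hcon
  have h1 : k' + 2 ≤ W := by omega
  have h2 : (k' + 2) * s ≤ W * s := Nat.mul_le_mul_right s h1
  have h3 : (k' + 2) * s = k' * s + s + s := by ring
  omega

/-- The slots network satisfies the hypotheses of `Ind3.block3`. -/
theorem local3_slots {n s N W e : ℕ} [NeZero n] (hs : 0 < s) (hW : 0 < W) {K c1 : ℝ}
    {b : Finset (Tor n)} {g : Tor n → ℝ} {c : NdS n s N → NdS n s N → ℝ}
    (hc : LocalC3 n s N W e K c1 b g c) :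
    Ind3.Local3 n (N * s) (W * s) e K c1 b g (mgC (slotF n s N) c) := by
  have hsec : ∀ u : Ind.Nd n (N * s), u.1 ≠ 0 → ∃ (k : Fin (N + 1)) (i : Fin s), k ≠ 0 ∧
      slotF n s N (k, (u.2, i)) = u := by
    intro u hu
    obtain ⟨k, i, hk, h⟩ := exists_slot hs hu
    exact ⟨k, i, hk, Prod.ext h rfl⟩
  refine ⟨mgC_symm hc.symm, mgC_nonneg hc.nonneg, ?_, ?_, ?_⟩
  · intro k x hk
    obtain ⟨k', i, hk', h⟩ := hsec (k, x) hk
    have h1 := sum_mgC_le (f := slotF n s N) hc.nonneg (x := (k', (x, i)))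
      (fun y hy => slotF_inj hk' hy)
    rw [h] at h1
    exact h1.trans (hc.tot k' x i hk')
  · intro k l p x y hk hkl hx hy hgx hgy
    have hWs : 0 < W * s := Nat.mul_pos hW hs
    have hl : l ≠ 0 := by
      intro h
      rw [h, Fin.val_zero] at hkl
      omega
    obtain ⟨k', i, hk', h⟩ := hsec (k, x) hk
    obtain ⟨l', j, hl', h'⟩ := hsec (l, y) hl
    have e1 : slotL s N k' i = k := congrArg Prod.fst h
    have e2 : slotL s N l' j = l := congrArg Prod.fst h'
    have hgap : (k' : ℕ) + W ≤ l' := by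
      refine slot_gap hk' hl' (i := i) (j := j) ?_
      rw [e1, e2]; exact hkl
    have h1 := hc.long k' l' p x y i j hk' hgap hx hy hgx hgy
    refine h1.trans ?_
    have h2 := le_mgC (f := slotF n s N) hc.nonneg (x := (k', (x, i))) (y := (l', (y, j))) (by
      rw [h, h']
      intro h3
      have h4 : k = l := congrArg Prod.fst h3
      rw [h4] at hkl
      omega)
    rw [h, h'] at h2
    exact h2
  · intro k p x y hk hxb hx hy hgy
    have hWs : 0 < W * s := Nat.mul_pos hW hs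
    have hk0 : k ≠ 0 := by
      intro h
      rw [h, Fin.val_zero] at hk
      omega
    obtain ⟨k', j, hk', h⟩ := hsec (k, y) hk0
    have e1 : slotL s N k' j = k := congrArg Prod.fst h
    have hfar : W ≤ (k' : ℕ) := by
      refine slot_far hk' (i := j) ?_
      rw [e1]; exact hk
    have h1 := hc.contact k' p x y j hfar hxb hx hy hgy
    refine h1.trans ?_
    have h2 := sum_le_mgC (f := slotF n s N) hc.nonneg (u := ((0 : Fin (N * s + 1)), x))
      (y := (k', (y, j))) (by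
        rw [h]
        intro h3
        exact hk0 (congrArg Prod.fst h3).symm)
    rw [h] at h2
    refine le_trans ?_ h2
    have h3 : ∑ i, c (0, (x, i)) (k', (y, j)) =
        ∑ z ∈ (univ : Finset (Fin s)).image (fun i => ((0 : Fin (N + 1)), (x, i))),
          c z (k', (y, j)) := by
      rw [Finset.sum_image]
      intro i _ i' _ hii
      simpa using hii
    rw [h3, ← Finset.sum_filter]
    refine Finset.sum_le_sum_of_subset_of_nonneg ?_ fun z _ _ => hc.nonneg _ _
    intro z hz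
    rw [Finset.mem_image] at hz
    obtain ⟨i, -, rfl⟩ := hz
    rw [Finset.mem_filter]
    refine ⟨Finset.mem_univ _, ?_⟩
    show (slotL s N 0 i, x) = (0, x)
    rw [slotL_zero]

end

end Vale.Agent.P361.LRO.GenS
end

section

/-!
P361, step (5): the family `F(h0)` of field profiles (closure properties, bumps, retraction).
-/

namespace Vale.Agent.P361.LRO

open Finset

noncomputable section

variable {n : ℕ} {h0 h0' lam lam' : ℝ} {g h : Tor n → ℝ}

/-- `|log h_x - log h_y| ≤ lam` for nearest neighbours. -/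
def LipN (n : ℕ) (lam : ℝ) (h : Tor n → ℝ) : Prop :=
  ∀ (x : Tor n) (i : Fin 3), h x ≤ Real.exp lam * h (x + Pi.single i 1) ∧
    h (x + Pi.single i 1) ≤ Real.exp lam * h x

theorem Fam.lip (H : Fam n h0 lam h) : LipN n lam h := H.2

theorem Fam.ge (H : Fam n h0 lam h) (x : Tor n) : h0 ≤ h x := (H.1 x).1

theorem Fam.le_one (H : Fam n h0 lam h) (x : Tor n) : h x ≤ 1 := (H.1 x).2

theorem LipN.max (hg : LipN n lam g) (hh : LipN n lam h) : LipN n lam fun x => max (g x) (h x) := by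
  intro x i
  have e : 0 ≤ Real.exp lam := (Real.exp_pos _).le
  refine ⟨?_, ?_⟩
  · rw [mul_max_of_nonneg _ _ e]
    exact max_le_max (hg x i).1 (hh x i).1
  · rw [mul_max_of_nonneg _ _ e]
    exact max_le_max (hg x i).2 (hh x i).2

theorem lipN_const {c : ℝ} (hc : 0 ≤ c) (hl : 0 ≤ lam) : LipN n lam fun _ => c := by
  intro x i
  have : c ≤ Real.exp lam * c := le_mul_of_one_le_left hc (Real.one_le_exp hl)
  exact ⟨this, this⟩

/-! ### The family -/

theorem fam_const {c : ℝ} (h1 : h0 ≤ c) (h2 : c ≤ 1) (hc : 0 ≤ c) (hl : 0 ≤ lam) :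
    Fam n h0 lam fun _ => c :=
  ⟨fun _ => ⟨h1, h2⟩, lipN_const hc hl⟩

/-- `max g h` with `g` in the family, `h` log-Lipschitz and `≤ 1`. -/
theorem Fam.sup' (hg : Fam n h0 lam g) (hh : LipN n lam h) (h1 : ∀ x, h x ≤ 1) :
    Fam n h0 lam fun x => max (g x) (h x) :=
  ⟨fun x => ⟨(hg.ge x).trans (le_max_left _ _), max_le (hg.le_one x) (h1 x)⟩, hg.lip.max hh⟩

end

end Vale.Agent.P361.LRO
end

section

/-!
P361, low-temperature order, stage R2/R3: lower bound for the conductance between two nodes far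
apart in time (long windows).  One induction over the letters of the word between the two nodes.
-/

namespace Vale.Agent.P361.LRO.Bloch

open Finset Matrix

set_option linter.unusedSectionVars false

noncomputable section

variable {V : Type} [Fintype V] [DecidableEq V]

/-- Real matrices on the configurations. -/
abbrev MM (V : Type) : Type := Matrix (V → Fin 2) (V → Fin 2) ℝ

/-- Letters: gates and slices. -/
inductive Lt (V : Type) : Type
  | gate (a b : V) (p : ℝ) : Lt V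
  | node (z : V) (t : ℝ) : Lt V

/-- The matrix of a letter. -/
def mt : Lt V → MM V
  | .gate a b p => (1 - p) • (1 : MM V) + p • swapM a b
  | .node z t => 1 + t • szM z

/-- The matrix of a word. -/
def wd (w : List (Lt V)) : MM V := (w.map mt).prod

/-- Honest letters. -/
def Ok : Lt V → Prop
  | .gate _ _ p => 0 ≤ p ∧ p ≤ 1
  | .node _ t => 0 ≤ t ∧ t ≤ 1

/-- Entrywise order. -/
def Le (A B : MM V) : Prop := ∀ i j, A i j ≤ B i j

theorem Le.refl (A : MM V) : Le A A := fun _ _ => le_rfl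

theorem Le.trans {A B C : MM V} (h : Le A B) (h' : Le B C) : Le A C :=
  fun i j => (h i j).trans (h' i j)

theorem Le.add {A B C D : MM V} (h : Le A B) (h' : Le C D) : Le (A + C) (B + D) :=
  fun i j => add_le_add (h i j) (h' i j)

theorem Le.mul_right {A B C : MM V} (h : Le A B) (hC : Le 0 C) : Le (A * C) (B * C) := by
  intro i j
  simp only [Matrix.mul_apply]
  exact Finset.sum_le_sum fun k _ => mul_le_mul_of_nonneg_right (h i k) (hC k j)

theorem Le.mul_left {A B C : MM V} (h : Le A B) (hC : Le 0 C) : Le (C * A) (C * B) := by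
  intro i j
  simp only [Matrix.mul_apply]
  exact Finset.sum_le_sum fun k _ => mul_le_mul_of_nonneg_left (h k j) (hC i k)

theorem Le.smul {A B : MM V} (h : Le A B) {c : ℝ} (hc : 0 ≤ c) : Le (c • A) (c • B) :=
  fun i j => by simpa using mul_le_mul_of_nonneg_left (h i j) hc

theorem Le.zero_mul {A C : MM V} (h : Le 0 A) (hC : Le 0 C) : Le 0 (A * C) := by
  have := h.mul_right hC
  rwa [Matrix.zero_mul] at this

theorem Le.zero_smul {A : MM V} (h : Le 0 A) {c : ℝ} (hc : 0 ≤ c) : Le 0 (c • A) := by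
  have := h.smul hc
  rwa [_root_.smul_zero] at this

theorem Le.zero_add {A B : MM V} (h : Le 0 A) (h' : Le 0 B) : Le 0 (A + B) := by
  have := h.add h'
  rwa [_root_.add_zero] at this

theorem Le.sum {ι : Type*} {s : Finset ι} {f g : ι → MM V} (h : ∀ i ∈ s, Le (f i) (g i)) :
    Le (∑ i ∈ s, f i) (∑ i ∈ s, g i) := by
  intro i j
  simp only [Matrix.sum_apply]
  exact Finset.sum_le_sum fun k hk => h k hk i j

theorem Le.zero_sum {ι : Type*} {s : Finset ι} {f : ι → MM V} (h : ∀ i ∈ s, Le 0 (f i)) :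
    Le 0 (∑ i ∈ s, f i) := by
  intro i j
  simp only [Matrix.sum_apply, Matrix.zero_apply]
  exact Finset.sum_nonneg fun k hk => h k hk i j

theorem Le.trace {A B : MM V} (h : Le A B) : trace A ≤ trace B := by
  unfold Matrix.trace
  exact Finset.sum_le_sum fun i _ => h i i

theorem one_nonneg : Le (0 : MM V) 1 := by
  intro i j
  rw [Matrix.zero_apply, Matrix.one_apply]
  split_ifs <;> norm_num

theorem swapM_nonneg (a b : V) : Le (0 : MM V) (swapM a b) := by
  intro i j
  simp only [swapM, Matrix.zero_apply, Matrix.of_apply]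
  split_ifs <;> norm_num

theorem sxM_nonneg (x : V) : Le (0 : MM V) (sxM x) := by
  intro i j
  simp only [sxM, Matrix.zero_apply, Matrix.of_apply]
  split_ifs <;> norm_num

theorem node_nonneg (z : V) {t : ℝ} (h0 : 0 ≤ t) (h1 : t ≤ 1) : Le (0 : MM V) (1 + t • szM z) := by
  intro i j
  simp only [szM, Matrix.zero_apply, Matrix.add_apply, Matrix.smul_apply, Matrix.one_apply,
    Matrix.diagonal_apply, smul_eq_mul]
  split_ifs <;> linarith

theorem gate_nonneg (a b : V) {p : ℝ} (h0 : 0 ≤ p) (h1 : p ≤ 1) :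
    Le (0 : MM V) ((1 - p) • (1 : MM V) + p • swapM a b) :=
  (one_nonneg.zero_smul (by linarith)).zero_add ((swapM_nonneg a b).zero_smul h0)

theorem mt_nonneg {l : Lt V} (h : Ok l) : Le 0 (mt l) := by
  cases l with
  | gate a b p => exact gate_nonneg a b h.1 h.2
  | node z t => exact node_nonneg z h.1 h.2

theorem wd_nonneg {w : List (Lt V)} (h : ∀ l ∈ w, Ok l) : Le 0 (wd w) := by
  induction w with
  | nil => exact one_nonneg
  | cons l w ih =>
    unfold wd
    rw [List.map_cons, List.prod_cons]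
    exact (mt_nonneg (h l (by simp))).zero_mul (ih fun l' hl' => h l' (by simp [hl']))

/-- Projection on equal spins at `a, b`. -/
def eqM (a b : V) : MM V := Matrix.diagonal fun σ => if σ a = σ b then 1 else 0

theorem eqM_nonneg (a b : V) : Le (0 : MM V) (eqM a b) := by
  intro i j
  simp only [eqM, Matrix.zero_apply, Matrix.diagonal_apply]
  split_ifs <;> norm_num

theorem eqM_le_one (a b : V) : Le (eqM a b) (1 : MM V) := by
  intro i j
  simp only [eqM, Matrix.diagonal_apply, Matrix.one_apply]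
  split_ifs <;> norm_num

theorem eqM_le_swapM (a b : V) : Le (eqM a b) (swapM a b) := by
  intro i j
  simp only [eqM, Matrix.diagonal_apply, swapM, Matrix.of_apply]
  split_ifs with h1 h2 h3 h4
  · exact le_rfl
  · exfalso
    apply h3
    subst h1
    funext z
    simp only [Function.comp_apply]
    rcases eq_or_ne z a with rfl | hza
    · simp [h2]
    · rcases eq_or_ne z b with rfl | hzb
      · simp [h2]
      · rw [Equiv.swap_apply_of_ne_of_ne hza hzb]
  · norm_num
  · norm_num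
  · norm_num
  · norm_num

/-- exchange of unequal spins -/
def exM (a b : V) : MM V := swapM a b - eqM a b

/-- unequal spins -/
def neM (a b : V) : MM V := 1 - eqM a b

theorem exM_nonneg (a b : V) : Le (0 : MM V) (exM a b) := by
  intro i j
  have := eqM_le_swapM a b i j
  simp only [exM, Matrix.zero_apply, Matrix.sub_apply]
  linarith

theorem neM_nonneg (a b : V) : Le (0 : MM V) (neM a b) := by
  intro i j
  have := eqM_le_one a b i j
  simp only [neM, Matrix.zero_apply, Matrix.sub_apply]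
  linarith

/-! ### The walk -/

/-- `∑_{y, j < J} Y(y, j) σ¹_y` -/
def SS (J : ℕ) (Y : V → ℕ → MM V) : MM V := ∑ y, ∑ j ∈ range J, Y y j * sxM y

theorem sxM_mul_swapM (x a b : V) :
    (sxM x : MM V) * swapM a b = swapM a b * sxM (Equiv.swap a b x) := by
  ext σ τ
  have h1 : ((sxM x : MM V) * swapM a b) σ τ =
      if σ = Function.update (τ ∘ Equiv.swap a b) x (1 - (τ ∘ Equiv.swap a b) x) then 1 else 0 := by
    rw [Matrix.mul_apply, Finset.sum_eq_single (τ ∘ Equiv.swap a b)]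
    · simp [sxM, swapM]
    · intro ρ _ hρ
      simp [swapM, hρ]
    · intro h
      exact absurd (Finset.mem_univ _) h
  have h2 : (swapM a b * (sxM (Equiv.swap a b x) : MM V)) σ τ =
      if σ = (Function.update τ (Equiv.swap a b x) (1 - τ (Equiv.swap a b x))) ∘ Equiv.swap a b
        then 1 else 0 := by
    rw [Matrix.mul_apply, Finset.sum_eq_single
      (Function.update τ (Equiv.swap a b x) (1 - τ (Equiv.swap a b x)))]
    · simp [sxM, swapM]
    · intro ρ _ hρ
      simp [sxM, hρ]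
    · intro h
      exact absurd (Finset.mem_univ _) h
  have h3 : (Function.update τ (Equiv.swap a b x) (1 - τ (Equiv.swap a b x))) ∘ Equiv.swap a b =
      Function.update (τ ∘ Equiv.swap a b) x (1 - (τ ∘ Equiv.swap a b) x) := by
    funext z
    rcases eq_or_ne z x with rfl | hz
    · simp
    · have : Equiv.swap a b z ≠ Equiv.swap a b x := fun h => hz ((Equiv.swap a b).injective h)
      simp [Function.update_of_ne hz, Function.update_of_ne this]
  rw [h1, h2, h3]

theorem sxM_mul_szM {x z : V} (h : x ≠ z) : (sxM x : MM V) * szM z = szM z * sxM x := by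
  ext σ τ
  rw [szM, Matrix.mul_diagonal, Matrix.diagonal_mul]
  simp only [sxM, Matrix.of_apply]
  split_ifs with h1 h2 h3 h3
  · norm_num
  · exfalso
    apply h3
    rw [h1, Function.update_of_ne h.symm]
    exact h2
  · exfalso
    apply h2
    rw [h1, Function.update_of_ne h.symm] at h3
    exact h3
  · norm_num
  · norm_num
  · norm_num
  · norm_num
  · norm_num

theorem shift_le {A : ℕ → MM V} (hA : ∀ j, Le 0 (A j)) (J : ℕ) :
    Le (∑ j ∈ range J, if j = 0 then 0 else A (j - 1)) (∑ j ∈ range J, A j) := by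
  cases J with
  | zero => exact Le.refl _
  | succ J =>
    rw [Finset.sum_range_succ', Finset.sum_range_succ]
    simp only [Nat.add_eq_zero_iff, one_ne_zero, and_false, if_false, if_true, Nat.add_sub_cancel]
    exact (Le.refl _).add (hA J)

theorem sxM_mul_gate (y a b : V) (p : ℝ) :
    (sxM y : MM V) * ((1 - p) • (1 : MM V) + p • swapM a b) =
      (1 - p) • sxM y + p • (swapM a b * sxM (Equiv.swap a b y)) := by
  rw [Matrix.mul_add, Matrix.mul_smul, Matrix.mul_smul, Matrix.mul_one, sxM_mul_swapM]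

theorem wd_cons (l : Lt V) (w : List (Lt V)) : wd (l :: w) = mt l * wd w := by
  unfold wd
  rw [List.map_cons, List.prod_cons]

/-! ### The defects -/

/-- Start of the walk. -/
def q0 (x : V) (y : V) (j : ℕ) : ℝ := if y = x ∧ j = 0 then 1 else 0

end

end Vale.Agent.P361.LRO.Bloch
end

section

/-!
# P361, stage R3, heat kernel: one-dimensional lower bound

Poisson weights and the Skellam lower bound `e^{-2s} ∑_b s^b s^{b+j} / (b! (b+j)!) ≥ c_A / √s`
for `0 ≤ j ≤ A √s`, `s ≥ 1`.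
-/

namespace Vale.Agent.P361.LRO.Bloch.Ker

open Finset

noncomputable section

/-- Poisson weight. -/
def po (s : ℝ) (b : ℕ) : ℝ := Real.exp (-s) * (s ^ b / b.factorial)

theorem po_nonneg {s : ℝ} (hs : 0 ≤ s) (b : ℕ) : 0 ≤ po s b := by
  unfold po
  positivity

theorem fact_le {n : ℕ} (hn : 0 < n) :
    (n.factorial : ℝ) ≤ Real.exp 1 * √n * (n / Real.exp 1) ^ n := by
  obtain ⟨m, rfl⟩ : ∃ m, n = m + 1 := ⟨n - 1, by omega⟩
  have h : Stirling.stirlingSeq (m + 1) ≤ Stirling.stirlingSeq 1 :=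
    Stirling.stirlingSeq'_antitone (Nat.zero_le m)
  rw [Stirling.stirlingSeq_one, Stirling.stirlingSeq] at h
  have h2 : (0 : ℝ) < √2 := by positivity
  have hp : (0 : ℝ) < √(2 * ((m + 1 : ℕ) : ℝ)) * (((m + 1 : ℕ) : ℝ) / Real.exp 1) ^ (m + 1) := by
    positivity
  rw [div_le_iff₀ hp] at h
  refine h.trans (le_of_eq ?_)
  rw [Real.sqrt_mul (by norm_num)]
  field_simp

theorem fact_add_le (b i : ℕ) : (b + i).factorial ≤ b.factorial * (b + i) ^ i := by
  induction i with
  | zero => simp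
  | succ i ih =>
    rw [← add_assoc, Nat.factorial_succ]
    calc (b + i + 1) * (b + i).factorial ≤ (b + i + 1) * (b.factorial * (b + i) ^ i) :=
          Nat.mul_le_mul_left _ ih
      _ ≤ (b + i + 1) * (b.factorial * (b + i + 1) ^ i) :=
          Nat.mul_le_mul_left _ (Nat.mul_le_mul_left _ (Nat.pow_le_pow_left (Nat.le_succ _) _))
      _ = b.factorial * (b + i + 1) ^ (i + 1) := by ring

theorem po_floor {s : ℝ} (hs : 1 ≤ s) : Real.exp (-2) / √s ≤ po s ⌊s⌋₊ := by
  set b := ⌊s⌋₊ with hb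
  have hb1 : 1 ≤ b := by
    rw [hb]
    exact Nat.le_floor (by exact_mod_cast hs)
  have hs0 : 0 < s := by linarith
  have hbs : (b : ℝ) ≤ s := Nat.floor_le hs0.le
  have hsb : s < b + 1 := Nat.lt_floor_add_one s
  have hbp : (0 : ℝ) < b := by exact_mod_cast hb1
  have hf : (0 : ℝ) < b.factorial := by exact_mod_cast Nat.factorial_pos b
  have hsq : (0 : ℝ) < √s := Real.sqrt_pos.2 hs0
  unfold po
  rw [← mul_div_assoc, le_div_iff₀ hf]
  have h1 : Real.exp (-2) / √s * (b.factorial : ℝ) ≤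
      Real.exp (-2) / √s * (Real.exp 1 * √b * (b / Real.exp 1) ^ b) :=
    mul_le_mul_of_nonneg_left (fact_le hb1) (by positivity)
  refine h1.trans ?_
  have h2 : √(b : ℝ) ≤ √s := Real.sqrt_le_sqrt hbs
  have h3 : (b / Real.exp 1 : ℝ) ^ b ≤ s ^ b * Real.exp (-b) := by
    rw [div_pow, ← Real.exp_nat_mul, mul_one, Real.exp_neg, ← div_eq_mul_inv]
    gcongr
  have h4 : Real.exp (-2) / √s * (Real.exp 1 * √b * (b / Real.exp 1) ^ b) ≤
      Real.exp (-2) / √s * (Real.exp 1 * √s * (s ^ b * Real.exp (-b))) := by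
    gcongr
  refine h4.trans ?_
  have h5 : Real.exp (-2) / √s * (Real.exp 1 * √s * (s ^ b * Real.exp (-b))) =
      Real.exp (-(b + 1)) * s ^ b := by
    have e : Real.exp (-(b + 1) : ℝ) = Real.exp (-2) * Real.exp 1 * Real.exp (-b) := by
      rw [← Real.exp_add, ← Real.exp_add]
      congr 1
      ring
    rw [e]
    field_simp
  rw [h5]
  have h6 : Real.exp (-(b + 1) : ℝ) ≤ Real.exp (-s) := Real.exp_le_exp.2 (by linarith)
  gcongr

theorem po_add {s : ℝ} (hs : 1 ≤ s) (i : ℕ) :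
    po s ⌊s⌋₊ * Real.exp (-((i : ℝ) ^ 2 / s)) ≤ po s (⌊s⌋₊ + i) := by
  set b := ⌊s⌋₊ with hb
  have hs0 : 0 < s := by linarith
  have hbs : (b : ℝ) ≤ s := Nat.floor_le hs0.le
  have hf : (0 : ℝ) < b.factorial := by exact_mod_cast Nat.factorial_pos b
  have hf2 : (0 : ℝ) < (b + i).factorial := by exact_mod_cast Nat.factorial_pos _
  have h1 : ((b + i).factorial : ℝ) ≤ b.factorial * (s + i) ^ i := by
    have h := fact_add_le b i
    have h' : ((b + i).factorial : ℝ) ≤ b.factorial * ((b : ℝ) + i) ^ i := by exact_mod_cast h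
    refine h'.trans ?_
    gcongr
  have h2 : Real.exp (-((i : ℝ) ^ 2 / s)) * (s + i) ^ i ≤ s ^ i := by
    have e : Real.exp (-((i : ℝ) ^ 2 / s)) = Real.exp (-((i : ℝ) / s)) ^ i := by
      rw [← Real.exp_nat_mul]
      congr 1
      ring
    rw [e, ← mul_pow]
    refine pow_le_pow_left₀ (by positivity) ?_ i
    have h3 : (i : ℝ) / s + 1 ≤ Real.exp ((i : ℝ) / s) := Real.add_one_le_exp _
    have h4 : s + i = s * ((i : ℝ) / s + 1) := by field_simp; ring
    rw [h4, Real.exp_neg]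
    rw [inv_mul_le_iff₀ (Real.exp_pos _)]
    nlinarith
  unfold po
  have h5 : s ^ b / (b.factorial : ℝ) * Real.exp (-((i : ℝ) ^ 2 / s)) ≤
      s ^ (b + i) / ((b + i).factorial : ℝ) := by
    rw [le_div_iff₀ hf2]
    have h6 : s ^ b / (b.factorial : ℝ) * Real.exp (-((i : ℝ) ^ 2 / s)) *
        ((b + i).factorial : ℝ) ≤ s ^ b / (b.factorial : ℝ) * Real.exp (-((i : ℝ) ^ 2 / s)) *
        (b.factorial * (s + i) ^ i) := mul_le_mul_of_nonneg_left h1 (by positivity)
    refine h6.trans ?_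
    have h7 : s ^ b / (b.factorial : ℝ) * Real.exp (-((i : ℝ) ^ 2 / s)) *
        (b.factorial * (s + i) ^ i) = s ^ b * (Real.exp (-((i : ℝ) ^ 2 / s)) * (s + i) ^ i) := by
      field_simp
    rw [h7, pow_add]
    exact mul_le_mul_of_nonneg_left h2 (by positivity)
  rw [mul_assoc]
  exact mul_le_mul_of_nonneg_left h5 (Real.exp_pos _).le

/-- Local lower bound for the Poisson distribution. -/
theorem po_ge {s : ℝ} (hs : 1 ≤ s) {B : ℝ} {i : ℕ} (hi : (i : ℝ) ≤ B * √s) :
    Real.exp (-(2 + B ^ 2)) / √s ≤ po s (⌊s⌋₊ + i) := by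
  have hs0 : 0 < s := by linarith
  have hsq : (0 : ℝ) < √s := Real.sqrt_pos.2 hs0
  refine le_trans ?_ (po_add hs i)
  have h1 : (i : ℝ) ^ 2 / s ≤ B ^ 2 := by
    rw [div_le_iff₀ hs0]
    have h : (i : ℝ) ^ 2 ≤ (B * √s) ^ 2 := pow_le_pow_left₀ (by positivity) hi 2
    rw [mul_pow, Real.sq_sqrt hs0.le] at h
    exact h
  have h2 : Real.exp (-(2 + B ^ 2)) / √s = Real.exp (-2) / √s * Real.exp (-(B ^ 2)) := by
    rw [neg_add, Real.exp_add]
    ring
  rw [h2]
  exact mul_le_mul (po_floor hs) (Real.exp_le_exp.2 (by linarith)) (Real.exp_pos _).le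
    (po_nonneg hs0.le _)

/-- One-dimensional heat kernel lower bound. -/
theorem one_dim {A : ℝ} (hA : 0 ≤ A) {s : ℝ} (hs : 1 ≤ s) {j : ℕ} (hj : (j : ℝ) ≤ A * √s) :
    Real.exp (-(4 + 2 * (A + 1) ^ 2)) / √s ≤
      ∑ i ∈ range (⌊√s⌋₊ + 1), po s (⌊s⌋₊ + i) * po s (⌊s⌋₊ + i + j) := by
  have hs0 : 0 < s := by linarith
  have hsq : (0 : ℝ) < √s := Real.sqrt_pos.2 hs0
  have hterm : ∀ i ∈ range (⌊√s⌋₊ + 1), (Real.exp (-(2 + (A + 1) ^ 2)) / √s) ^ 2 ≤
      po s (⌊s⌋₊ + i) * po s (⌊s⌋₊ + i + j) := by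
    intro i hi
    rw [mem_range, Nat.lt_succ_iff] at hi
    have hi' : (i : ℝ) ≤ √s := (Nat.le_floor_iff hsq.le).1 hi
    have h1 : Real.exp (-(2 + (A + 1) ^ 2)) / √s ≤ po s (⌊s⌋₊ + i) := by
      refine po_ge hs (hi'.trans ?_)
      have := mul_nonneg hA hsq.le
      linarith
    have h2 : Real.exp (-(2 + (A + 1) ^ 2)) / √s ≤ po s (⌊s⌋₊ + i + j) := by
      rw [add_assoc]
      refine po_ge hs ?_
      push_cast
      nlinarith
    rw [sq]
    exact mul_le_mul h1 h2 (by positivity) (po_nonneg hs0.le _)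
  have hsum := card_nsmul_le_sum _ _ _ hterm
  refine le_trans ?_ hsum
  rw [card_range, nsmul_eq_mul]
  have h1 : √s ≤ ((⌊√s⌋₊ + 1 : ℕ) : ℝ) := by
    push_cast
    exact (Nat.lt_floor_add_one _).le
  refine le_trans (le_of_eq ?_) (mul_le_mul_of_nonneg_right h1 (by positivity))
  have e : Real.exp (-(4 + 2 * (A + 1) ^ 2)) = Real.exp (-(2 + (A + 1) ^ 2)) ^ 2 := by
    rw [← Real.exp_nat_mul]
    congr 1
    push_cast
    ring
  rw [e]
  field_simp

end

end Vale.Agent.P361.LRO.Bloch.Ker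
end

section

/-!
# P361, stage R3, heat kernel: lower bound on the torus (any finite abelian group)
-/

namespace Vale.Agent.P361.LRO.Bloch.Ker

open Finset NormedSpace

noncomputable section

section Gen

variable {ι : Type*} [Fintype ι] [DecidableEq ι]

/-- Entrywise order. -/
def Le (A B : Matrix ι ι ℝ) : Prop := ∀ i j, A i j ≤ B i j

omit [Fintype ι] [DecidableEq ι] in
theorem Le.refl (A : Matrix ι ι ℝ) : Le A A := fun _ _ => le_rfl

omit [Fintype ι] [DecidableEq ι] in
theorem Le.trans {A B C : Matrix ι ι ℝ} (h : Le A B) (h' : Le B C) : Le A C :=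
  fun i j => (h i j).trans (h' i j)

omit [DecidableEq ι] in
theorem Le.mul {A B C D : Matrix ι ι ℝ} (hA : Le 0 A) (hC : Le 0 C) (h : Le A B) (h' : Le C D) :
    Le (A * C) (B * D) := by
  intro i j
  rw [Matrix.mul_apply, Matrix.mul_apply]
  exact sum_le_sum fun k _ => mul_le_mul (h i k) (h' k j) (hC k j) ((hA i k).trans (h i k))

omit [DecidableEq ι] in
theorem Le.mul_nonneg {A B : Matrix ι ι ℝ} (hA : Le 0 A) (hB : Le 0 B) : Le 0 (A * B) := by
  intro i j
  rw [Matrix.mul_apply]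
  exact sum_nonneg fun k _ => _root_.mul_nonneg (hA i k) (hB k j)

theorem Le.pow_nonneg {A : Matrix ι ι ℝ} (hA : Le 0 A) (k : ℕ) : Le 0 (A ^ k) := by
  induction k with
  | zero =>
    intro i j
    rw [pow_zero, Matrix.one_apply]
    simp only [Matrix.zero_apply]
    split_ifs <;> norm_num
  | succ k ih =>
    rw [pow_succ]
    exact ih.mul_nonneg hA

omit [Fintype ι] [DecidableEq ι] in
theorem Le.smul {A B : Matrix ι ι ℝ} {c : ℝ} (hc : 0 ≤ c) (h : Le A B) : Le (c • A) (c • B) := by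
  intro i j
  simp only [Matrix.smul_apply, smul_eq_mul]
  exact mul_le_mul_of_nonneg_left (h i j) hc

theorem exp_ge_sum {X : Matrix ι ι ℝ} (hX : Le 0 X) (F : Finset ℕ) :
    Le (∑ b ∈ F, ((b.factorial : ℝ)⁻¹) • X ^ b) (exp X) := by
  intro i j
  have h : HasSum (fun b : ℕ => ((b.factorial : ℝ)⁻¹) • X ^ b) (exp X) := by
    open scoped Matrix.Norms.Operator in
    exact exp_series_hasSum_exp' (𝕂 := ℝ) X
  have h2 : HasSum (fun b : ℕ => (((b.factorial : ℝ)⁻¹) • X ^ b) i j) (exp X i j) :=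
    (Pi.hasSum.1 (Pi.hasSum.1 h i)) j
  have h3 := sum_le_hasSum F (fun b _ => ?_) h2
  · rw [Matrix.sum_apply]
    exact h3
  · simp only [Matrix.smul_apply, smul_eq_mul]
    exact _root_.mul_nonneg (by positivity) (hX.pow_nonneg b i j)

theorem exp_nonneg' {X : Matrix ι ι ℝ} (hX : Le 0 X) : Le 0 (exp X) := by
  have := exp_ge_sum hX ∅
  simpa using this

theorem exp_ge_single {X : Matrix ι ι ℝ} (hX : Le 0 X) (b : ℕ) :
    Le (((b.factorial : ℝ)⁻¹) • X ^ b) (exp X) := by
  have := exp_ge_sum hX {b}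
  simpa using this

end Gen

section Shift

variable {G : Type*} [AddCommGroup G] [Fintype G] [DecidableEq G]

/-- Translation matrix. -/
def Sh (v : G) : Matrix G G ℝ := Matrix.of fun x y => if y = x + v then 1 else 0

omit [Fintype G] in
theorem Sh_nonneg (v : G) : Le 0 (Sh v) := by
  intro i j
  simp only [Sh, Matrix.of_apply, Matrix.zero_apply]
  split_ifs <;> norm_num

theorem Sh_mul (v w : G) : Sh v * Sh w = Sh (v + w) := by
  ext x y
  simp only [Sh, Matrix.mul_apply, Matrix.of_apply, ite_mul, one_mul, zero_mul]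
  rw [sum_ite_eq' univ (x + v)]
  simp [add_assoc]

omit [Fintype G] in
theorem Sh_zero : Sh (0 : G) = 1 := by
  ext x y
  simp [Sh, Matrix.one_apply, eq_comm]

theorem Sh_pow (v : G) (k : ℕ) : Sh v ^ k = Sh (k • v) := by
  induction k with
  | zero => rw [pow_zero, zero_smul, Sh_zero]
  | succ k ih => rw [pow_succ, ih, Sh_mul, succ_nsmul]

theorem Sh_comm (v w : G) : Commute (Sh v) (Sh w) := by
  rw [Commute, SemiconjBy, Sh_mul, Sh_mul, add_comm]

/-- One-dimensional heat kernel in the direction `v`. -/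
def HK (s : ℝ) (v : G) : Matrix G G ℝ :=
  Real.exp (-(2 * s)) • (exp (s • Sh v) * exp (s • Sh (-v)))

theorem HK_ge {s : ℝ} (hs : 0 ≤ s) (v : G) (j : ℕ) (F : Finset ℕ) :
    Le ((∑ b ∈ F, po s b * po s (b + j)) • Sh (j • v)) (HK s v) := by
  have hn : ∀ w : G, Le 0 (s • Sh w) := fun w => by simpa using (Sh_nonneg w).smul hs
  have he : ∀ w : G, Le 0 (exp (s • Sh w)) := fun w => exp_nonneg' (hn w)
  have h1 : Le (exp (s • Sh v) * ∑ b ∈ F, ((b.factorial : ℝ)⁻¹) • (s • Sh (-v)) ^ b)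
      (exp (s • Sh v) * exp (s • Sh (-v))) := by
    refine Le.mul (he v) ?_ (Le.refl _) (exp_ge_sum (hn (-v)) F)
    intro i k
    rw [Matrix.sum_apply]
    refine sum_nonneg fun b _ => ?_
    simp only [Matrix.smul_apply, smul_eq_mul]
    exact mul_nonneg (by positivity) ((hn (-v)).pow_nonneg b i k)
  have h2 : Le (∑ b ∈ F, (((b + j).factorial : ℝ)⁻¹ • (s • Sh v) ^ (b + j)) *
        (((b.factorial : ℝ)⁻¹) • (s • Sh (-v)) ^ b))
      (exp (s • Sh v) * ∑ b ∈ F, ((b.factorial : ℝ)⁻¹) • (s • Sh (-v)) ^ b) := by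
    rw [mul_sum]
    intro i k
    rw [Matrix.sum_apply, Matrix.sum_apply]
    refine sum_le_sum fun b _ => ?_
    refine Le.mul ?_ ?_ (exp_ge_single (hn v) (b + j)) (Le.refl _) i k
    · simpa using ((hn v).pow_nonneg (b + j)).smul (by positivity : 0 ≤ ((b + j).factorial : ℝ)⁻¹)
    · simpa using ((hn (-v)).pow_nonneg b).smul (by positivity : 0 ≤ (b.factorial : ℝ)⁻¹)
  have h3 : ∀ b : ℕ, (((b + j).factorial : ℝ)⁻¹ • (s • Sh v) ^ (b + j)) *
        (((b.factorial : ℝ)⁻¹) • (s • Sh (-v)) ^ b) =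
      ((s ^ b / b.factorial) * (s ^ (b + j) / (b + j).factorial)) • Sh (j • v) := by
    intro b
    rw [smul_pow, smul_pow, Sh_pow, Sh_pow, smul_smul, smul_smul, smul_mul_smul_comm, Sh_mul]
    have e : (b + j) • v + b • -v = j • v := by
      rw [add_smul, smul_neg]
      abel
    rw [e]
    congr 1
    field_simp
  have h4 := (h2.trans h1).smul (Real.exp_pos (-(2 * s))).le
  refine Le.trans (fun i k => le_of_eq ?_) h4
  simp only [h3, Matrix.smul_apply, Matrix.sum_apply, smul_eq_mul, po]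
  rw [sum_mul, mul_sum]
  refine sum_congr rfl fun b _ => ?_
  have e : Real.exp (-(2 * s)) = Real.exp (-s) * Real.exp (-s) := by
    rw [← Real.exp_add]
    congr 1
    ring
  rw [e]
  ring

theorem HK_neg (s : ℝ) (v : G) : HK s (-v) = HK s v := by
  unfold HK
  rw [neg_neg]
  congr 1
  exact (((Sh_comm (-v) v).smul_left s).smul_right s).exp

/-- the constant of the kernel bound -/
def cK (A : ℝ) : ℝ := Real.exp (-(4 + 2 * (A + 1) ^ 2))

theorem cK_pos (A : ℝ) : 0 < cK A := Real.exp_pos _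

theorem HK_ge_nat {A : ℝ} (hA : 0 ≤ A) {s : ℝ} (hs : 1 ≤ s) {j : ℕ} (hj : (j : ℝ) ≤ A * √s)
    (v : G) : Le ((cK A / √s) • Sh (j • v)) (HK s v) := by
  have hs0 : 0 ≤ s := by linarith
  have h1 := HK_ge hs0 v j ((range (⌊√s⌋₊ + 1)).image fun i => ⌊s⌋₊ + i)
  rw [sum_image (fun a _ b _ h => Nat.add_left_cancel h)] at h1
  refine Le.trans (fun i k => ?_) h1
  simp only [Matrix.smul_apply, smul_eq_mul]
  refine mul_le_mul_of_nonneg_right ?_ (Sh_nonneg _ i k)
  exact one_dim hA hs hj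

theorem HK_ge_int {A : ℝ} (hA : 0 ≤ A) {s : ℝ} (hs : 1 ≤ s) {j : ℤ} (hj : |(j : ℝ)| ≤ A * √s)
    (v : G) : Le ((cK A / √s) • Sh (j • v)) (HK s v) := by
  rcases Int.le_total 0 j with h | h
  · obtain ⟨m, rfl⟩ := Int.eq_ofNat_of_zero_le h
    have h1 : |(((m : ℕ) : ℤ) : ℝ)| = (m : ℝ) := by
      rw [Int.cast_natCast]
      exact abs_of_nonneg (Nat.cast_nonneg m)
    have := HK_ge_nat hA hs (j := m) (by rw [← h1]; exact hj) v
    simpa using this
  · obtain ⟨m, hm⟩ := Int.eq_ofNat_of_zero_le (Int.neg_nonneg_of_nonpos h)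
    have hj2 : j = -(m : ℤ) := by omega
    subst hj2
    have h1 : |((-((m : ℕ) : ℤ) : ℤ) : ℝ)| = (m : ℝ) := by
      push_cast
      rw [abs_neg]
      exact abs_of_nonneg (Nat.cast_nonneg m)
    have := HK_ge_nat hA hs (j := m) (by rw [← h1]; exact hj) (-v)
    rw [HK_neg] at this
    simpa using this

/-- `exp (s (T_v + T_v⁻¹ - 2))` -/
theorem HK_eq (s : ℝ) (v : G) : HK s v = exp (s • (Sh v + Sh (-v) - (2 : ℝ) • 1)) := by
  have h1 : s • (Sh v + Sh (-v) - (2 : ℝ) • (1 : Matrix G G ℝ)) =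
      (s • Sh v + s • Sh (-v)) + (-(2 * s)) • (1 : Matrix G G ℝ) := by
    rw [smul_sub, smul_add, smul_smul, sub_eq_add_neg, ← neg_smul]
    congr 2
    ring
  rw [h1, Matrix.exp_add_of_commute _ _ ((Commute.one_right _).smul_right _),
    Matrix.exp_add_of_commute _ _ (((Sh_comm v (-v)).smul_left s).smul_right s)]
  have h2 : exp ((-(2 * s)) • (1 : Matrix G G ℝ)) = Real.exp (-(2 * s)) • 1 := by
    rw [← Algebra.algebraMap_eq_smul_one, ← Algebra.algebraMap_eq_smul_one, Real.exp_eq_exp_ℝ]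
    have h3 : algebraMap ℝ (Matrix G G ℝ) (exp (-(2 * s))) =
        exp (algebraMap ℝ (Matrix G G ℝ) (-(2 * s))) := by
      open scoped Matrix.Norms.Operator in
      exact algebraMap_exp_comm (-(2 * s))
    exact h3.symm
  rw [h2, mul_smul_comm, mul_one]
  rfl

end Shift

end

end Vale.Agent.P361.LRO.Bloch.Ker
end

section

/-!
# P361, stage R3, heat kernel: the torus
-/

namespace Vale.Agent.P361.LRO.Bloch.Ker

open Finset NormedSpace

noncomputable section

section Edge

variable {V : Type*} [DecidableEq V]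

end Edge

section Group

variable {G : Type*} [AddCommGroup G] [Fintype G] [DecidableEq G]

end Group

/-- Generator `Δ` of the torus. -/
def Lap (n : ℕ) : Matrix (Tor n) (Tor n) ℝ :=
  ∑ i : Fin 3, (Sh (Pi.single i 1) + Sh (-Pi.single i 1) - (2 : ℝ) • 1)

theorem exp_Lap (n : ℕ) [NeZero n] (s : ℝ) :
    exp (s • Lap n) = HK s (Pi.single 0 1 : Tor n) * HK s (Pi.single 1 1 : Tor n) *
      HK s (Pi.single 2 1 : Tor n) := by
  have hc : ∀ i k : Fin 3, Commute
      (s • (Sh (Pi.single i 1 : Tor n) + Sh (-Pi.single i 1) - (2 : ℝ) • 1))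
      (s • (Sh (Pi.single k 1 : Tor n) + Sh (-Pi.single k 1) - (2 : ℝ) • 1)) := by
    intro i k
    refine Commute.smul_left (Commute.smul_right ?_ s) s
    refine Commute.sub_left ?_ ((Commute.one_left _).smul_left _)
    refine Commute.sub_right ?_ ((Commute.one_right _).smul_right _)
    exact ((Sh_comm _ _).add_right (Sh_comm _ _)).add_left
      ((Sh_comm _ _).add_right (Sh_comm _ _))
  rw [Lap, Fin.sum_univ_three, smul_add, smul_add,
    Matrix.exp_add_of_commute _ _ ((hc 0 2).add_left (hc 1 2)),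
    Matrix.exp_add_of_commute _ _ (hc 0 1), ← HK_eq, ← HK_eq, ← HK_eq]

/-- **Heat kernel lower bound on the torus.** -/
theorem Lap_lower {n : ℕ} [NeZero n] {A : ℝ} (hA : 0 ≤ A) {s : ℝ} (hs : 1 ≤ s) {j : Fin 3 → ℤ}
    (hj : ∀ i, |(j i : ℝ)| ≤ A * √s) (x : Tor n) :
    (cK A / √s) ^ 3 ≤ exp (s • Lap n) x (x + fun i => (j i : ZMod n)) := by
  have hs0 : 0 ≤ s := by linarith
  have hc0 : 0 ≤ cK A / √s := by
    have := cK_pos A
    positivity
  have hcS : ∀ v : Tor n, Le 0 ((cK A / √s) • Sh v) := fun v => by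
    simpa using (Sh_nonneg v).smul hc0
  rw [exp_Lap]
  have h01 := Le.mul (hcS _) (hcS _) (HK_ge_int hA hs (hj 0) (Pi.single 0 1 : Tor n))
    (HK_ge_int hA hs (hj 1) (Pi.single 1 1 : Tor n))
  have h012 := Le.mul ((hcS _).mul_nonneg (hcS _)) (hcS _) h01
    (HK_ge_int hA hs (hj 2) (Pi.single 2 1 : Tor n))
  refine le_trans (le_of_eq ?_) (h012 x (x + fun i => (j i : ZMod n)))
  rw [smul_mul_smul_comm, smul_mul_smul_comm, Sh_mul, Sh_mul]
  have e : j 0 • (Pi.single 0 1 : Tor n) + j 1 • (Pi.single 1 1 : Tor n) +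
      j 2 • (Pi.single 2 1 : Tor n) = fun i => (j i : ZMod n) := by
    funext i
    fin_cases i <;> simp
  rw [e]
  simp only [Matrix.smul_apply, Sh, Matrix.of_apply, if_true, smul_eq_mul]
  ring

section Norm

variable {ι : Type*} [Fintype ι] [DecidableEq ι]

open scoped Matrix.Norms.Operator

theorem entry_le_norm (A : Matrix ι ι ℝ) (i j : ι) : |A i j| ≤ ‖A‖ := by
  rw [Matrix.linfty_opNorm_def]
  have h1 : ‖A i j‖₊ ≤ ∑ k, ‖A i k‖₊ :=
    single_le_sum (f := fun k => ‖A i k‖₊) (fun _ _ => zero_le) (mem_univ j)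
  have h2 : ∑ k, ‖A i k‖₊ ≤ univ.sup fun i => ∑ k, ‖A i k‖₊ :=
    le_sup (f := fun i => ∑ k, ‖A i k‖₊) (mem_univ i)
  have h3 := h1.trans h2
  rw [← NNReal.coe_le_coe] at h3
  exact h3

theorem norm_le_of_row {A : Matrix ι ι ℝ} {c : ℝ} (hc : 0 ≤ c) (h : ∀ i, ∑ j, |A i j| ≤ c) :
    ‖A‖ ≤ c := by
  rw [Matrix.linfty_opNorm_def]
  have h1 : (univ.sup fun i => ∑ k, ‖A i k‖₊) ≤ (⟨c, hc⟩ : NNReal) := Finset.sup_le fun i _ =>
    NNReal.coe_le_coe.1 (by
      push_cast
      exact h i)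
  exact NNReal.coe_le_coe.2 h1

theorem norm_one_le : ‖(1 : Matrix ι ι ℝ)‖ ≤ 1 := by
  refine norm_le_of_row zero_le_one fun i => ?_
  have : ∑ j, |(1 : Matrix ι ι ℝ) i j| = ∑ j, if i = j then 1 else 0 :=
    sum_congr rfl fun j _ => by
      rw [Matrix.one_apply]
      split_ifs <;> simp
  rw [this, sum_ite_eq univ i]
  exact (if_pos (mem_univ _)).le

theorem norm_Sh_le {G : Type*} [AddCommGroup G] [Fintype G] [DecidableEq G] (v : G) :
    ‖(Sh v : Matrix G G ℝ)‖ ≤ 1 := by
  refine norm_le_of_row zero_le_one fun i => ?_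
  have : ∑ j, |(Sh v : Matrix G G ℝ) i j| = ∑ j, if j = i + v then 1 else 0 :=
    sum_congr rfl fun j _ => by
      simp only [Sh, Matrix.of_apply]
      split_ifs <;> simp
  rw [this, sum_ite_eq' univ (i + v)]
  exact (if_pos (mem_univ _)).le

/-- Upper bound for the move generating function. -/
theorem exp_two_le {n : ℕ} [NeZero n] {s : ℝ} (hs : 0 ≤ s) (x y : Tor n) :
    exp (s • ((2 : ℝ) • Lap n + (6 : ℝ) • 1)) x y ≤ Real.exp (6 * s) := by
  set B : Matrix (Tor n) (Tor n) ℝ := ∑ i : Fin 3, (Sh (Pi.single i 1) + Sh (-Pi.single i 1))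
    with hB
  have hBn : ‖B‖ ≤ 6 := by
    refine (norm_sum_le _ _).trans ?_
    refine (sum_le_sum fun i _ => (norm_add_le _ _).trans
      (add_le_add (norm_Sh_le _) (norm_Sh_le _))).trans ?_
    rw [sum_const, card_univ, Fintype.card_fin]
    norm_num
  have h1 : s • ((2 : ℝ) • Lap n + (6 : ℝ) • 1) = (2 * s) • B + (-(6 * s)) • 1 := by
    have h2 : Lap n = B - (6 : ℝ) • 1 := by
      rw [Lap, sum_sub_distrib, hB, sum_const, card_univ, Fintype.card_fin,
        ← Nat.cast_smul_eq_nsmul ℝ, smul_smul]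
      norm_num
    rw [h2]
    module
  rw [h1, Matrix.exp_add_of_commute _ _ ((Commute.one_right _).smul_right _)]
  have h2 : exp ((-(6 * s)) • (1 : Matrix (Tor n) (Tor n) ℝ)) = Real.exp (-(6 * s)) • 1 := by
    rw [← Algebra.algebraMap_eq_smul_one, ← Algebra.algebraMap_eq_smul_one, Real.exp_eq_exp_ℝ]
    exact (algebraMap_exp_comm (-(6 * s))).symm
  rw [h2, mul_smul_comm, mul_one, Matrix.smul_apply, smul_eq_mul]
  have h3 : exp ((2 * s) • B) x y ≤ Real.exp (12 * s) := by
    refine (le_abs_self _).trans ((entry_le_norm _ x y).trans ?_)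
    refine (Trot.norm_exp_le norm_one_le _).trans (Real.exp_le_exp.2 ?_)
    rw [norm_smul, Real.norm_of_nonneg (by positivity)]
    nlinarith
  calc Real.exp (-(6 * s)) * exp ((2 * s) • B) x y ≤ Real.exp (-(6 * s)) * Real.exp (12 * s) :=
        mul_le_mul_of_nonneg_left h3 (Real.exp_pos _).le
    _ = Real.exp (6 * s) := by
      rw [← Real.exp_add]
      congr 1
      ring

end Norm

end

end Vale.Agent.P361.LRO.Bloch.Ker
end

section

/-!
P361, low-temperature order, block LOC (4), part (b): expansion of the law of a product of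
independent random transpositions over the gates touching a window `B`.
-/

namespace Vale.Agent.P361.LRO.Loc

open Finset

variable {X : Type} [DecidableEq X]

/-- The gate touches the window. -/
def Bad (B : Finset X) (g : X × X × ℝ) : Prop := g.1 ∈ B ∨ g.2.1 ∈ B

/-- `π` follows `σ` in the window. -/
def Agr (σ : Equiv.Perm X) (B : Finset X) (π : Equiv.Perm X) : Prop := ∀ z, σ z ∈ B → π z = σ z

theorem Agr.swap {σ : Equiv.Perm X} {B : Finset X} {π : Equiv.Perm X} (h : Agr σ B π)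
    {g : X × X × ℝ} (hg : ¬ Bad B g) : Agr σ B (Equiv.swap g.1 g.2.1 * π) := by
  intro z hz
  unfold Bad at hg
  push Not at hg
  rw [Equiv.Perm.mul_apply, h z hz]
  apply Equiv.swap_apply_of_ne_of_ne
  · intro h1; exact hg.1 (h1 ▸ hz)
  · intro h1; exact hg.2 (h1 ▸ hz)

/-- Doubling class: one transposition changes `F` by at most a factor `2`. -/
def Dbl (F : Equiv.Perm X → ℝ) : Prop :=
  (∀ π, 0 ≤ F π) ∧ ∀ a b π, F (Equiv.swap a b * π) ≤ 2 * F π

theorem Dbl.swap {F : Equiv.Perm X → ℝ} (h : Dbl F) (c d : X) :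
    Dbl (fun π => F (Equiv.swap c d * π)) := by
  refine ⟨fun π => h.1 _, fun a b π => ?_⟩
  have h1 : Equiv.swap c d * (Equiv.swap a b * π) =
      Equiv.swap (Equiv.swap c d a) (Equiv.swap c d b) * (Equiv.swap c d * π) := by
    rw [Equiv.swap_apply_apply, ← mul_assoc, ← mul_assoc]
    simp [mul_assoc]
  show F (Equiv.swap c d * (Equiv.swap a b * π)) ≤ 2 * F (Equiv.swap c d * π)
  rw [h1]
  exact h.2 _ _ _

end Vale.Agent.P361.LRO.Loc
end

section

/-!
P361, low-temperature order, block LOC (4): the charge law is an electrical network.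
-/

namespace Vale.Agent.P361.LRO.Loc

open Finset Vale.Agent.P361.LRO

noncomputable section

variable {X : Type} [Fintype X] [DecidableEq X]

end

end Vale.Agent.P361.LRO.Loc
end

section

/-!
P361 LRO, block (6): total weight of a bump (helper660).
-/

namespace Vale.Agent.P361.LRO.Ind

open Finset Vale.Agent.P361.LRO

noncomputable section

variable {n : ℕ} [NeZero n]

theorem gm_val_succ (t : ZMod n) :
    (t + 1).val = if t.val + 1 < n then t.val + 1 else 0 := by
  have hn : 0 < n := Nat.pos_of_ne_zero (NeZero.ne n)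
  rw [ZMod.val_add, ZMod.val_one_eq_one_mod, Nat.add_mod_mod]
  have ht := ZMod.val_lt t
  by_cases h : t.val + 1 < n
  · rw [if_pos h, Nat.mod_eq_of_lt h]
  · rw [if_neg h]
    have : t.val + 1 = n := by omega
    rw [this, Nat.mod_self]

theorem gm_d1_succ {r : ℕ} (hr : 1 ≤ r) (t : ZMod n) :
    d1 n r (t + 1) ≤ d1 n r t + 1 ∧ d1 n r t ≤ d1 n r (t + 1) + 1 := by
  have ht := ZMod.val_lt t
  have h := gm_val_succ t
  unfold d1
  rw [h]
  by_cases h1 : t.val + 1 < n
  · rw [if_pos h1]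
    split_ifs <;> omega
  · rw [if_neg h1]
    split_ifs <;> omega

theorem gm_d1_anti {r r' : ℕ} (h : r ≤ r') (t : ZMod n) : d1 n r' t ≤ d1 n r t := by
  unfold d1
  split_ifs <;> omega

theorem gm_dist_anti {r r' : ℕ} (h : r ≤ r') (o x : Tor n) : dist n o r' x ≤ dist n o r x :=
  Finset.sum_le_sum fun i _ => gm_d1_anti h _

theorem gm_dist_step {r : ℕ} (hr : 1 ≤ r) (o x : Tor n) (i : Fin 3) :
    dist n o r (x + Pi.single i 1) ≤ dist n o r x + 1 ∧
      dist n o r x ≤ dist n o r (x + Pi.single i 1) + 1 := by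
  have e1 : ∀ j, j ≠ i → (x + Pi.single i 1 : Tor n) j - o j = x j - o j := by
    intro j hj
    simp [hj]
  have e2 : (x + Pi.single i 1 : Tor n) i - o i = (x i - o i) + 1 := by
    simp only [Pi.add_apply, Pi.single_eq_same]
    ring
  have h := gm_d1_succ hr (x i - o i)
  unfold dist
  rw [← Finset.add_sum_erase _ _ (Finset.mem_univ i), ← Finset.add_sum_erase _
    (fun j => d1 n r (x j - o j)) (Finset.mem_univ i), e2]
  have e3 : ∑ j ∈ univ.erase i, d1 n r ((x + Pi.single i 1 : Tor n) j - o j) =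
      ∑ j ∈ univ.erase i, d1 n r (x j - o j) :=
    Finset.sum_congr rfl fun j hj => by rw [e1 j (Finset.ne_of_mem_erase hj)]
  rw [e3]
  omega

theorem gm_mem_cube {x0 x : Tor n} {w : ℕ} (hw : w ≤ n) :
    x ∈ cube n x0 w ↔ ∀ i, (x i - x0 i).val < w := by
  unfold cube
  rw [mem_image]
  constructor
  · rintro ⟨y, -, rfl⟩ i
    simp only [Pi.add_apply, add_sub_cancel_left]
    rw [ZMod.val_natCast_of_lt ((y i).2.trans_le hw)]
    exact (y i).2
  · intro h
    refine ⟨fun i => ⟨(x i - x0 i).val, h i⟩, mem_univ _, ?_⟩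
    funext i
    simp

theorem gm_dist_cube {o x : Tor n} {r : ℕ} (hr : r ≤ n) (hx : x ∈ cube n o r) :
    dist n o r x = 0 := by
  rw [gm_mem_cube hr] at hx
  unfold dist
  apply Finset.sum_eq_zero
  intro i _
  unfold d1
  rw [if_pos (hx i)]

theorem gm_dist_ground {o x : Tor n} {r s : ℕ} (hrs : r ≤ s) (hs : 8 * s ≤ n)
    (hx : x ∈ cube n (pt n o (4 * s) 0 0) s) : 3 * s ≤ dist n o r x := by
  rw [gm_mem_cube (by omega)] at hx
  have h0 := hx 0
  have hn : 0 < n := Nat.pos_of_ne_zero (NeZero.ne n)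
  have e : x 0 - o 0 = (x 0 - pt n o (4 * s) 0 0 0) + ((4 * s : ℕ) : ZMod n) := by
    simp [pt]
    ring
  have h1 : (x 0 - o 0).val = (x 0 - pt n o (4 * s) 0 0 0).val + 4 * s := by
    have h5 : ((4 * s : ℕ) : ZMod n).val = 4 * s := by
      rcases Nat.eq_zero_or_pos s with h | h
      · subst h
        simp
      · exact ZMod.val_natCast_of_lt (by omega)
    rw [e, ZMod.val_add, h5]
    rcases Nat.eq_zero_or_pos s with h | h
    · subst h
      omega
    · exact Nat.mod_eq_of_lt (by omega)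
  have h2 : 3 * s ≤ d1 n r (x 0 - o 0) := by
    unfold d1
    rw [h1]
    split_ifs <;> omega
  exact h2.trans (Finset.single_le_sum (f := fun i => d1 n r (x i - o i))
    (fun _ _ => Nat.zero_le _) (mem_univ 0))

theorem gm_geom {lam : ℝ} (hl : 0 < lam) (m : ℕ) :
    ∑ j ∈ range m, Real.exp (-(lam * (j + 1 : ℕ))) ≤ 1 / lam := by
  have key : lam * ∑ j ∈ range m, Real.exp (-(lam * (j + 1 : ℕ))) ≤
      1 - Real.exp (-(lam * (m : ℕ))) := by
    induction m with
    | zero => simp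
    | succ m ih =>
      rw [Finset.sum_range_succ, mul_add]
      have h1 : lam + 1 ≤ Real.exp lam := Real.add_one_le_exp lam
      have h2 : Real.exp (-(lam * (m : ℕ))) = Real.exp lam * Real.exp (-(lam * (m + 1 : ℕ))) := by
        rw [← Real.exp_add]
        congr 1
        push_cast
        ring
      have h3 := Real.exp_pos (-(lam * (m + 1 : ℕ)))
      nlinarith
  rw [le_div_iff₀ hl, mul_comm]
  have := Real.exp_pos (-(lam * (m : ℕ)))
  linarith

theorem gm_sum_val (F : ℕ → ℝ) : ∑ t : ZMod n, F t.val = ∑ v ∈ range n, F v := by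
  refine Finset.sum_bij' (fun t _ => t.val) (fun v _ => (v : ZMod n)) ?_ ?_ ?_ ?_ ?_
  · intro t _
    exact mem_range.2 (ZMod.val_lt t)
  · intro v _
    exact mem_univ _
  · intro t _
    simp
  · intro v hv
    exact ZMod.val_natCast_of_lt (mem_range.1 hv)
  · intro t _
    rfl

/-- majorant of one factor of the bump -/
def gmF (n r : ℕ) (lam : ℝ) (v : ℕ) : ℝ :=
  (if v < r then (1 : ℝ) else 0) + (if v < r then 0 else Real.exp (-(lam * ((v - r) + 1 : ℕ)))) +
    Real.exp (-(lam * ((n - 1 - v) + 1 : ℕ)))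

theorem gm_line {lam : ℝ} (hl : 0 < lam) (r : ℕ) :
    ∑ t : ZMod n, Real.exp (-(lam * d1 n r t)) ≤ r + 2 / lam := by
  have h1 : ∀ t : ZMod n, Real.exp (-(lam * d1 n r t)) ≤ gmF n r lam t.val := by
    intro t
    have ht := ZMod.val_lt t
    unfold d1 gmF
    by_cases h : t.val < r
    · rw [if_pos h, if_pos h, if_pos h]
      simp only [Nat.cast_zero, mul_zero, neg_zero, Real.exp_zero, add_zero]
      have := Real.exp_pos (-(lam * ((n - 1 - t.val) + 1 : ℕ)))
      linarith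
    · rw [if_neg h, if_neg h, if_neg h, zero_add]
      rcases le_total (t.val + 1 - r) (n - t.val) with h2 | h2
      · rw [min_eq_left h2]
        have e : t.val + 1 - r = t.val - r + 1 := by omega
        rw [e]
        have := Real.exp_pos (-(lam * ((n - 1 - t.val) + 1 : ℕ)))
        linarith
      · rw [min_eq_right h2]
        have e : n - t.val = n - 1 - t.val + 1 := by omega
        rw [e]
        have := Real.exp_pos (-(lam * ((t.val - r) + 1 : ℕ)))
        linarith
  refine (Finset.sum_le_sum fun t _ => h1 t).trans ?_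
  rw [gm_sum_val (gmF n r lam)]
  unfold gmF
  rw [Finset.sum_add_distrib, Finset.sum_add_distrib]
  have k1 : ∑ v ∈ range n, (if v < r then (1 : ℝ) else 0) ≤ r := by
    rw [Finset.sum_boole]
    have : ((range n).filter fun v => v < r).card ≤ r := by
      calc ((range n).filter fun v => v < r).card ≤ (range r).card :=
            card_le_card fun v hv => mem_range.2 (mem_filter.1 hv).2
        _ = r := card_range r
    exact_mod_cast this
  have k2 : ∑ v ∈ range n, (if v < r then (0 : ℝ) else Real.exp (-(lam * ((v - r) + 1 : ℕ)))) ≤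
      1 / lam := by
    rw [← Finset.sum_filter_add_sum_filter_not (range n) (fun v => v < r)]
    rw [Finset.sum_eq_zero (s := (range n).filter fun v => v < r)
      (fun v hv => if_pos (mem_filter.1 hv).2), zero_add]
    rw [Finset.sum_congr rfl (fun v hv => if_neg (mem_filter.1 hv).2)]
    refine le_trans ?_ (gm_geom hl n)
    have hinj : Set.InjOn (fun v => v - r) ((range n).filter fun v => ¬ v < r : Finset ℕ) := by
      intro v hv w hw hvw
      have h2 := (mem_filter.1 (Finset.mem_coe.1 hv)).2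
      have h3 := (mem_filter.1 (Finset.mem_coe.1 hw)).2
      simp only at hvw
      omega
    rw [← Finset.sum_image (f := fun j : ℕ => Real.exp (-(lam * (j + 1 : ℕ)))) hinj]
    refine Finset.sum_le_sum_of_subset_of_nonneg ?_ fun _ _ _ => (Real.exp_pos _).le
    intro j hj
    obtain ⟨v, hv, rfl⟩ := mem_image.1 hj
    have := mem_range.1 (mem_filter.1 hv).1
    exact mem_range.2 (by omega)
  have k3 : ∑ v ∈ range n, Real.exp (-(lam * ((n - 1 - v) + 1 : ℕ))) ≤ 1 / lam := by
    rw [Finset.sum_range_reflect (fun j => Real.exp (-(lam * (j + 1 : ℕ)))) n]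
    exact gm_geom hl n
  have e : (2 : ℝ) / lam = 1 / lam + 1 / lam := by ring
  rw [e]
  linarith

/-- total weight of a bump -/
theorem sum_bump {lam : ℝ} (hl : 0 < lam) (o : Tor n) (r : ℕ) :
    ∑ x, bump n lam o r x ≤ (r + 2 / lam) ^ 3 := by
  have h1 : ∀ x : Tor n, bump n lam o r x = ∏ i : Fin 3, Real.exp (-(lam * d1 n r ((x - o) i))) := by
    intro x
    rw [← Real.exp_sum]
    unfold bump dist
    congr 1
    rw [Finset.sum_neg_distrib, ← Finset.mul_sum]
    push_cast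
    rfl
  rw [Finset.sum_congr rfl fun x _ => h1 x]
  have h2 : ∑ x : Tor n, ∏ i : Fin 3, Real.exp (-(lam * d1 n r ((x - o) i))) =
      ∑ x : Tor n, ∏ i : Fin 3, Real.exp (-(lam * d1 n r (x i))) :=
    Equiv.sum_comp (Equiv.subRight o) (fun x : Tor n => ∏ i : Fin 3, Real.exp (-(lam * d1 n r (x i))))
  rw [h2, ← Fintype.sum_pow (fun t : ZMod n => Real.exp (-(lam * d1 n r t))) 3]
  exact pow_le_pow_left₀ (Finset.sum_nonneg fun _ _ => (Real.exp_pos _).le) (gm_line hl r) 3

end

end Vale.Agent.P361.LRO.Ind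
end

section

/-!
# P361 LRO, block (6), package E1: energies of the window averages
-/

namespace Vale.Agent.P361.LRO.Ind

open Finset Vale.Agent.P361.LRO _root_.P361.LRO

section main

variable {n N W m : ℕ} [NeZero n] {β K c1 : ℝ} {b : Finset (Tor n)} {h : Tor n → ℝ}
    {c : Nd n N → Nd n N → ℝ}

end main

end Vale.Agent.P361.LRO.Ind
end

section

/-!
# P361 LRO, block (6), V1: the number of nodes with `a < 1/2` over a cube (helper655)
-/

namespace Vale.Agent.P361.LRO.Ind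

open Finset Vale.Agent.P361.LRO _root_.P361.LRO

/-- every physical node over the cube is a window node -/
theorem va655_node {n N W m : ℕ} [NeZero n] (hW : 0 < W) (hN : N = m * W) (o : Tor n) (S : ℕ)
    {z : Nd n N} (hz : z ∈ ((univ.filter fun k => k ≠ 0) ×ˢ cube n o S : Finset (Nd n N))) :
    ∃ x < S, ∃ y < S, ∃ c < S, ∃ w < m, ∃ j < W, z = (lay N W w j, pt n o x y c) := by
  obtain ⟨k, p⟩ := z
  rw [Finset.mem_product] at hz
  obtain ⟨hk, hp⟩ := hz
  have hk0 : k ≠ 0 := by simpa using hk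
  have hk1 : 1 ≤ (k : ℕ) := Nat.one_le_iff_ne_zero.2 fun h => hk0 (Fin.ext h)
  have hkN : (k : ℕ) ≤ m * W := by
    have := k.isLt
    omega
  have hp' : p ∈ cube n o S := hp
  unfold cube at hp'
  rw [Finset.mem_image] at hp'
  obtain ⟨y, -, hy⟩ := hp'
  have hmod := Nat.div_add_mod ((k : ℕ) - 1) W
  have hlt : ((k : ℕ) - 1) / W < m := by
    rw [Nat.div_lt_iff_lt_mul hW]
    omega
  have hj : ((k : ℕ) - 1) % W < W := Nat.mod_lt _ hW
  have he : 1 + ((k : ℕ) - 1) / W * W + ((k : ℕ) - 1) % W = k := by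
    rw [mul_comm (((k : ℕ) - 1) / W) W]
    omega
  refine ⟨y 0, (y 0).isLt, y 1, (y 1).isLt, y 2, (y 2).isLt, ((k : ℕ) - 1) / W, hlt, ((k : ℕ) - 1) % W, hj, ?_⟩
  refine Prod.ext ?_ ?_
  · unfold lay
    rw [dif_pos (by rw [he]; exact k.isLt)]
    exact Fin.ext he.symm
  · change p = pt n o (y 0) (y 1) (y 2)
    rw [← hy]
    unfold pt
    congr 1
    funext i
    fin_cases i <;> rfl

theorem va655_pt {α U : ℝ} : (if α < 1 / 2 then (1 : ℝ) else 0) ≤ 64 * (α - U) ^ 2 + if U < 5 / 8 then 1 else 0 := by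
  by_cases h1 : α < 1 / 2
  · rw [if_pos h1]
    by_cases h2 : U < 5 / 8
    · rw [if_pos h2]
      have := sq_nonneg (α - U)
      linarith
    · rw [if_neg h2]
      push Not at h2
      nlinarith
  · rw [if_neg h1]
    have := sq_nonneg (α - U)
    split_ifs <;> positivity

end Vale.Agent.P361.LRO.Ind
end

section

/-!
# P361 LRO, block (6), E3: contact energy
-/

namespace Vale.Agent.P361.LRO.Ind

open Finset Vale.Agent.P361.LRO _root_.P361.LRO

/-- a sum over ordered pairs and their swaps is at most twice the Dirichlet form -/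
theorem contact_pairs {X ι : Type} [Fintype X] [DecidableEq X] {c : X → X → ℝ}
    (hs : ∀ u v, c u v = c v u) (hc : ∀ u v, 0 ≤ c u v) (a : X → ℝ) (s : Finset ι)
    (f g : ι → X) (hinj : ∀ i ∈ s, ∀ i' ∈ s, f i = f i' → g i = g i' → i = i')
    (hdis : ∀ i ∈ s, ∀ i' ∈ s, f i ≠ g i') :
    ∑ i ∈ s, c (f i) (g i) * (a (f i) - a (g i)) ^ 2 ≤ netK c a := by
  classical
  have h1 : ∑ i ∈ s, c (f i) (g i) * (a (f i) - a (g i)) ^ 2 =
      ∑ z ∈ s.image fun i => (f i, g i), c z.1 z.2 * (a z.1 - a z.2) ^ 2 := by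
    rw [Finset.sum_image]
    intro i hi i' hi' h
    exact hinj i hi i' hi' (congrArg Prod.fst h) (congrArg Prod.snd h)
  have h2 : ∑ i ∈ s, c (f i) (g i) * (a (f i) - a (g i)) ^ 2 =
      ∑ z ∈ s.image fun i => (g i, f i), c z.1 z.2 * (a z.1 - a z.2) ^ 2 := by
    rw [Finset.sum_image]
    · refine Finset.sum_congr rfl fun i _ => ?_
      rw [hs (g i) (f i)]
      ring
    · intro i hi i' hi' h
      exact hinj i hi i' hi' (congrArg Prod.snd h) (congrArg Prod.fst h)
  have h3 : Disjoint (s.image fun i => (f i, g i)) (s.image fun i => (g i, f i)) := by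
    rw [Finset.disjoint_left]
    intro z hz hz'
    obtain ⟨i, hi, rfl⟩ := Finset.mem_image.1 hz
    obtain ⟨i', hi', h⟩ := Finset.mem_image.1 hz'
    exact hdis i hi i' hi' (congrArg Prod.fst h).symm
  have h4 : ∑ z ∈ (s.image fun i => (f i, g i)) ∪ (s.image fun i => (g i, f i)),
      c z.1 z.2 * (a z.1 - a z.2) ^ 2 ≤ ∑ z : X × X, c z.1 z.2 * (a z.1 - a z.2) ^ 2 :=
    Finset.sum_le_sum_of_subset_of_nonneg (Finset.subset_univ _)
      fun z _ _ => mul_nonneg (hc _ _) (sq_nonneg _)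
  rw [Finset.sum_union h3, ← h1, ← h2, Fintype.sum_prod_type] at h4
  unfold netK
  linarith

end Vale.Agent.P361.LRO.Ind
end

section

/-!
P361 LRO, general spin `s / 2`: vertex set `V × Fin s`, edge list
`Lm L s m` = all inter-site pairs of copies + `m` times every intra-site pair.
Everything is uniform in `m`; the limit `m → ∞` is taken at the end.
-/

namespace Vale.Agent.P361.LRO.GenS

open Finset Matrix

noncomputable section

variable {V : Type} [Fintype V] [DecidableEq V]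

/-- Inter-site edges: all pairs of copies of the two ends of an edge of `L`. -/
def interL (L : List (V × V)) (s : ℕ) : List ((V × Fin s) × (V × Fin s)) :=
  L.flatMap fun e => ((univ : Finset (Fin s × Fin s)).toList).map fun ij =>
    ((e.1, ij.1), (e.2, ij.2))

/-- Intra-site pairs, each unordered pair once. -/
def intraL (V : Type) [Fintype V] [DecidableEq V] (s : ℕ) :
    List ((V × Fin s) × (V × Fin s)) :=
  (((univ : Finset (V × Fin s × Fin s)).filter fun z => z.2.1 < z.2.2).toList).map fun z =>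
    ((z.1, z.2.1), (z.1, z.2.2))

/-- `L_m`. -/
def Lm (L : List (V × V)) (s m : ℕ) : List ((V × Fin s) × (V × Fin s)) :=
  interL L s ++ (List.replicate m (intraL V s)).flatten

/-- Lift of a profile. -/
def lift (s : ℕ) (h : V → ℝ) : V × Fin s → ℝ := fun z => h z.1

theorem mem_intraL {s : ℕ} {e : (V × Fin s) × (V × Fin s)} :
    e ∈ intraL V s ↔ e.1.1 = e.2.1 ∧ e.1.2 < e.2.2 := by
  unfold intraL
  rw [List.mem_map]
  constructor
  · rintro ⟨z, hz, rfl⟩
    rw [Finset.mem_toList, Finset.mem_filter] at hz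
    exact ⟨rfl, hz.2⟩
  · rintro ⟨h1, h2⟩
    refine ⟨(e.1.1, e.1.2, e.2.2), ?_, ?_⟩
    · rw [Finset.mem_toList, Finset.mem_filter]
      exact ⟨Finset.mem_univ _, h2⟩
    · rcases e with ⟨⟨a, b⟩, ⟨c, d⟩⟩
      simp only at h1
      subst h1
      rfl

/-- `∑ intra h_e`. -/
def intraM (V : Type) [Fintype V] [DecidableEq V] (s : ℕ) :
    Matrix (V × Fin s → Fin 2) (V × Fin s → Fin 2) ℝ :=
  ((intraL V s).map fun e => hM e.1 e.2).sum

theorem ham_Lm (L : List (V × V)) (s m : ℕ) (h : V × Fin s → ℝ) :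
    ham (Lm L s m) h = ham (interL L s) h + (m : ℝ) • intraM V s := by
  unfold ham Lm intraM
  rw [List.map_append, List.sum_append]
  have h1 : ((List.replicate m (intraL V s)).flatten.map fun e => hM e.1 e.2).sum =
      (m : ℝ) • ((intraL V s).map fun e => hM e.1 e.2).sum := by
    induction m with
    | zero => simp
    | succ m ih =>
      rw [List.replicate_succ, List.flatten_cons, List.map_append, List.sum_append, ih]
      push_cast
      module
  rw [h1]
  abel

end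

end Vale.Agent.P361.LRO.GenS
end

section

/-!
P361, low-temperature order: the statements of the blocks of note 9886 and the step of the bootstrap from them.
-/

namespace Vale.Agent.P361.LRO

open Filter Finset Matrix

noncomputable section

end

end Vale.Agent.P361.LRO
end

section

/-!
P361, block (1): the rotated slice `rotT` on a block (`Dst` is in `Top.lean`).
-/

namespace Vale.Agent.P361.LRO

open Finset Matrix

noncomputable section

/-- `1 + θ (cos φ σ³ + sin φ σ¹)`. -/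
def rotM (θ φ : ℝ) : Matrix (Fin 2) (Fin 2) ℝ :=
  !![1 + θ * Real.cos φ, θ * Real.sin φ; θ * Real.sin φ, 1 - θ * Real.cos φ]

variable {V : Type} [Fintype V] [DecidableEq V]

/-- The product of `rotM θ φ` over the sites of `b`. -/
def rotT (b : Finset V) (θ φ : ℝ) : Matrix (V → Fin 2) (V → Fin 2) ℝ :=
  Matrix.of fun σ τ => ∏ x, if x ∈ b then rotM θ φ (σ x) (τ x) else if σ x = τ x then 1 else 0

/-- One time step: all gates, then all slices; `p = β / (2N)`. -/
def stepM (L : List (V × V)) (β : ℝ) (h : V → ℝ) (N : ℕ) : Matrix (V → Fin 2) (V → Fin 2) ℝ :=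
  (L.map fun e => (1 - β / (2 * N)) • (1 : Matrix (V → Fin 2) (V → Fin 2) ℝ) +
    (β / (2 * N)) • swapM e.1 e.2).prod *
  Matrix.diagonal fun σ : V → Fin 2 => ∏ x, (1 + β * h x / (2 * N) * if σ x = 0 then 1 else -1)

end

end Vale.Agent.P361.LRO
end

section

/-!
Swap operators on spin-1/2 configurations (real matrices), and the path inequality
`√<h_{xz}> ≤ √<h_{xy}> + 2 √<h_{yz}>` as an inequality of quadratic forms.
-/

namespace Vale.Agent.P361.LRO.EnR

open Matrix Finset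

noncomputable section

variable {V : Type} [Fintype V] [DecidableEq V]

/-- `nrm π ψ = ‖ψ - ψ ∘ π‖₂`. -/
def nrm (π : Equiv.Perm V) (ψ : (V → Fin 2) → ℝ) : ℝ :=
  ‖WithLp.toLp 2 (fun σ : V → Fin 2 => ψ σ - ψ (σ ∘ π))‖

theorem nrm_nonneg (π : Equiv.Perm V) (ψ : (V → Fin 2) → ℝ) : 0 ≤ nrm π ψ := norm_nonneg _

theorem nrm_sq (π : Equiv.Perm V) (ψ : (V → Fin 2) → ℝ) :
    nrm π ψ ^ 2 = ∑ σ : V → Fin 2, (ψ σ - ψ (σ ∘ π)) ^ 2 := by
  rw [nrm, EuclideanSpace.norm_sq_eq]
  refine Finset.sum_congr rfl fun σ _ => ?_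
  rw [Real.norm_eq_abs, sq_abs]

/-- Configurations transported by a permutation of the sites. -/
def cfgPerm (π : Equiv.Perm V) : (V → Fin 2) ≃ (V → Fin 2) where
  toFun σ := σ ∘ π
  invFun σ := σ ∘ π.symm
  left_inv σ := by ext x; simp
  right_inv σ := by ext x; simp

theorem nrm_mul_le (π ρ : Equiv.Perm V) (ψ : (V → Fin 2) → ℝ) :
    nrm (π * ρ) ψ ≤ nrm π ψ + nrm ρ ψ := by
  have h1 : nrm ρ ψ = ‖WithLp.toLp 2 (fun σ : V → Fin 2 => ψ (σ ∘ π) - ψ ((σ ∘ π) ∘ ρ))‖ := by
    unfold nrm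
    rw [EuclideanSpace.norm_eq, EuclideanSpace.norm_eq]
    congr 1
    exact ((cfgPerm π).sum_comp (fun σ => ‖ψ σ - ψ (σ ∘ ρ)‖ ^ 2)).symm
  rw [h1]
  have h2 : WithLp.toLp 2 (fun σ : V → Fin 2 => ψ σ - ψ (σ ∘ (π * ρ : Equiv.Perm V))) =
      WithLp.toLp 2 (fun σ : V → Fin 2 => ψ σ - ψ (σ ∘ π)) +
      WithLp.toLp 2 (fun σ : V → Fin 2 => ψ (σ ∘ π) - ψ ((σ ∘ π) ∘ ρ)) := by
    ext σ
    simp [Function.comp_assoc, Equiv.Perm.coe_mul]
  unfold nrm
  rw [h2]
  exact norm_add_le _ _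

theorem nrm_one (ψ : (V → Fin 2) → ℝ) : nrm (1 : Equiv.Perm V) ψ = 0 := by
  have : nrm (1 : Equiv.Perm V) ψ ^ 2 = 0 := by
    rw [nrm_sq]; simp
  exact pow_eq_zero_iff (two_ne_zero) |>.mp this

theorem nrm_swap_step (x y z : V) (ψ : (V → Fin 2) → ℝ) :
    nrm (Equiv.swap x z) ψ ≤ nrm (Equiv.swap x y) ψ + 2 * nrm (Equiv.swap y z) ψ := by
  by_cases hxz : x = z
  · subst hxz
    rw [Equiv.swap_self]
    have := nrm_one (V := V) ψ
    have h0 : nrm (Equiv.refl V) ψ = 0 := this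
    rw [h0]
    have := nrm_nonneg (Equiv.swap x y) ψ
    have := nrm_nonneg (Equiv.swap y x) ψ
    linarith
  by_cases hxy : x = y
  · subst hxy
    have := nrm_nonneg (Equiv.swap x x) ψ
    have := nrm_nonneg (Equiv.swap x z) ψ
    linarith
  have h := Equiv.swap_mul_swap_mul_swap (x := x) (y := y) (z := z) hxy hxz
  have h1 : Equiv.swap x z = Equiv.swap y z * Equiv.swap x y * Equiv.swap y z := by
    rw [h, Equiv.swap_comm]
  rw [h1]
  have h2 := nrm_mul_le (Equiv.swap y z * Equiv.swap x y) (Equiv.swap y z) ψ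
  have h3 := nrm_mul_le (Equiv.swap y z) (Equiv.swap x y) ψ
  linarith

theorem nrm_swap_comm (x y : V) (ψ : (V → Fin 2) → ℝ) :
    nrm (Equiv.swap x y) ψ = nrm (Equiv.swap y x) ψ := by rw [Equiv.swap_comm]

/-- Moving one end along a sequence of sites, forward. -/
theorem nrm_seg_up (x : V) (q : ℕ → V) (ψ : (V → Fin 2) → ℝ) (a k : ℕ) :
    nrm (Equiv.swap x (q (a + k))) ψ ≤ nrm (Equiv.swap x (q a)) ψ +
      2 * ∑ i ∈ Finset.range k, nrm (Equiv.swap (q (a + i)) (q (a + i + 1))) ψ := by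
  induction k with
  | zero => simp
  | succ k ih =>
    rw [Finset.sum_range_succ]
    have := nrm_swap_step x (q (a + k)) (q (a + k + 1)) ψ
    have e : a + (k + 1) = a + k + 1 := by ring
    rw [e]
    linarith

theorem nrm_seg_down (x : V) (q : ℕ → V) (ψ : (V → Fin 2) → ℝ) (a k : ℕ) :
    nrm (Equiv.swap x (q a)) ψ ≤ nrm (Equiv.swap x (q (a + k))) ψ +
      2 * ∑ i ∈ Finset.range k, nrm (Equiv.swap (q (a + i)) (q (a + i + 1))) ψ := by
  induction k with
  | zero => simp
  | succ k ih =>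
    rw [Finset.sum_range_succ]
    have := nrm_swap_step x (q (a + k + 1)) (q (a + k)) ψ
    rw [nrm_swap_comm (q (a + k + 1))] at this
    have e : a + (k + 1) = a + k + 1 := by ring
    rw [e]
    linarith

/-- Moving one end along a sequence of sites, inside `[0, m]`. -/
theorem nrm_seg (x : V) (q : ℕ → V) (ψ : (V → Fin 2) → ℝ) {a b m : ℕ} (ha : a ≤ m)
    (hb : b ≤ m) :
    nrm (Equiv.swap x (q b)) ψ ≤ nrm (Equiv.swap x (q a)) ψ +
      2 * ∑ i ∈ Finset.range m, nrm (Equiv.swap (q i) (q (i + 1))) ψ := by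
  have key : ∀ c k : ℕ, c + k ≤ m →
      ∑ i ∈ Finset.range k, nrm (Equiv.swap (q (c + i)) (q (c + i + 1))) ψ ≤
      ∑ i ∈ Finset.range m, nrm (Equiv.swap (q i) (q (i + 1))) ψ := by
    intro c k hck
    rw [← Finset.sum_image (s := Finset.range k) (g := fun i => c + i)
      (f := fun i => nrm (Equiv.swap (q i) (q (i + 1))) ψ) (by intro a _ b _ h; simpa using h)]
    apply Finset.sum_le_sum_of_subset_of_nonneg
    · intro i hi
      simp only [Finset.mem_image, Finset.mem_range] at hi ⊢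
      obtain ⟨j, hj, rfl⟩ := hi
      omega
    · intro i _ _
      exact nrm_nonneg _ _
  rcases le_total a b with h | h
  · obtain ⟨k, rfl⟩ := Nat.exists_eq_add_of_le h
    have h1 := nrm_seg_up x q ψ a k
    have h2 := key a k hb
    linarith
  · obtain ⟨k, rfl⟩ := Nat.exists_eq_add_of_le h
    have h1 := nrm_seg_down x q ψ b k
    have h2 := key b k ha
    linarith

theorem swapM_mulVec (x y : V) (ψ : (V → Fin 2) → ℝ) (σ : V → Fin 2) :
    (swapM x y *ᵥ ψ) σ = ψ (σ ∘ Equiv.swap x y) := by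
  have h1 : ∀ τ : V → Fin 2, (σ = τ ∘ Equiv.swap x y) ↔ (σ ∘ Equiv.swap x y = τ) := by
    intro τ
    constructor
    · rintro rfl; ext z; simp
    · rintro rfl; ext z; simp
  simp [swapM, Matrix.mulVec, dotProduct, h1]

/-- The quadratic form of `h_{xy}`. -/
theorem form_hM (x y : V) (ψ : (V → Fin 2) → ℝ) :
    ψ ⬝ᵥ (hM x y *ᵥ ψ) = (1 / 4) * nrm (Equiv.swap x y) ψ ^ 2 := by
  rw [nrm_sq]
  have h1 : ψ ⬝ᵥ (hM x y *ᵥ ψ) =
      (1 / 2) * ∑ σ, ψ σ * (ψ σ - ψ (σ ∘ Equiv.swap x y)) := by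
    rw [hM, Matrix.smul_mulVec, Matrix.sub_mulVec, Matrix.one_mulVec, dotProduct_smul, smul_eq_mul,
      dotProduct]
    congr 1
    refine Finset.sum_congr rfl fun σ _ => ?_
    rw [Pi.sub_apply, swapM_mulVec]
  have hinv : ∀ f : (V → Fin 2) → ℝ, ∑ σ, f (σ ∘ Equiv.swap x y) = ∑ σ, f σ := fun f =>
    (cfgPerm (Equiv.swap x y)).sum_comp f
  have hss : ∀ σ : V → Fin 2, (σ ∘ Equiv.swap x y) ∘ Equiv.swap x y = σ := by
    intro σ; ext z; simp
  have h2 : ∑ σ, ψ σ * (ψ σ - ψ (σ ∘ Equiv.swap x y)) =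
      ∑ σ, ψ (σ ∘ Equiv.swap x y) * (ψ (σ ∘ Equiv.swap x y) - ψ σ) := by
    rw [← hinv (fun σ => ψ σ * (ψ σ - ψ (σ ∘ Equiv.swap x y)))]
    refine Finset.sum_congr rfl fun σ _ => ?_
    rw [hss]
  have h3 : 2 * ∑ σ, ψ σ * (ψ σ - ψ (σ ∘ Equiv.swap x y)) =
      ∑ σ, (ψ σ - ψ (σ ∘ Equiv.swap x y)) ^ 2 := by
    rw [two_mul]
    nth_rewrite 2 [h2]
    rw [← Finset.sum_add_distrib]
    refine Finset.sum_congr rfl fun σ _ => ?_
    ring
  rw [h1, ← h3]
  ring

/-- Inequalities of quadratic forms pass to `tr (M ·)` for `M = Cᵀ C`. -/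
theorem trace_le_of_form_le {ι : Type*} [Fintype ι] [DecidableEq ι] {A B : Matrix ι ι ℝ}
    (C : Matrix ι ι ℝ)
    (h : ∀ ψ : ι → ℝ, ψ ⬝ᵥ (A *ᵥ ψ) ≤ ψ ⬝ᵥ (B *ᵥ ψ)) :
    trace (Cᵀ * C * A) ≤ trace (Cᵀ * C * B) := by
  have key : ∀ X : Matrix ι ι ℝ, trace (Cᵀ * C * X) =
      ∑ i, (C i) ⬝ᵥ (X *ᵥ (C i)) := by
    intro X
    rw [Matrix.mul_assoc, Matrix.trace_mul_comm, Matrix.trace]
    refine Finset.sum_congr rfl fun i _ => ?_
    rw [Matrix.diag_apply, Matrix.mul_assoc, Matrix.mul_apply, dotProduct]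
    refine Finset.sum_congr rfl fun j _ => ?_
    rw [Matrix.mul_apply, Matrix.mulVec, dotProduct]
    rfl
  rw [key A, key B]
  exact Finset.sum_le_sum fun i _ => h _

theorem swapM_transpose (x y : V) : (swapM x y)ᵀ = swapM x y := by
  ext σ τ
  have h1 : (τ = σ ∘ Equiv.swap x y) ↔ (σ = τ ∘ Equiv.swap x y) := by
    constructor
    · rintro rfl; ext z; simp
    · rintro rfl; ext z; simp
  simp [swapM, h1]

theorem hM_transpose (x y : V) : (hM x y)ᵀ = hM x y := by
  rw [hM, transpose_smul, transpose_sub, transpose_one, swapM_transpose]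

theorem ham_transpose (L : List (V × V)) (h : V → ℝ) : (ham L h)ᵀ = ham L h := by
  have h1 : ∀ L : List (V × V), ((L.map fun e => hM e.1 e.2).sum)ᵀ =
      (L.map fun e => hM e.1 e.2).sum := by
    intro L
    induction L with
    | nil => simp
    | cons e L ih => rw [List.map_cons, List.sum_cons, transpose_add, ih, hM_transpose]
  rw [ham, transpose_sub, h1, transpose_sum]
  congr 1
  refine Finset.sum_congr rfl fun x _ => ?_
  rw [transpose_smul, szM, diagonal_transpose]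

/-- The Gibbs weight is `Cᵀ C`. -/
theorem exp_ham_factor (L : List (V × V)) (β : ℝ) (h : V → ℝ) :
    ∃ C : Matrix (V → Fin 2) (V → Fin 2) ℝ, NormedSpace.exp (-β • ham L h) = Cᵀ * C := by
  refine ⟨NormedSpace.exp (-(β / 2) • ham L h), ?_⟩
  rw [← Matrix.exp_transpose, transpose_smul, ham_transpose, ← Matrix.exp_add_of_commute _ _ rfl,
    ← add_smul]
  congr 2
  ring

theorem gib_le_of_form_le (L : List (V × V)) (β : ℝ) (h : V → ℝ)
    {A B : Matrix (V → Fin 2) (V → Fin 2) ℝ}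
    (hAB : ∀ ψ : (V → Fin 2) → ℝ, ψ ⬝ᵥ (A *ᵥ ψ) ≤ ψ ⬝ᵥ (B *ᵥ ψ)) :
    gib L β h A ≤ gib L β h B := by
  obtain ⟨C, hC⟩ := exp_ham_factor L β h
  rw [gib, gib, hC]
  refine div_le_div_of_nonneg_right (trace_le_of_form_le C hAB) ?_
  rw [Matrix.trace]
  refine Finset.sum_nonneg fun i _ => ?_
  rw [Matrix.diag_apply, Matrix.mul_apply]
  exact Finset.sum_nonneg fun j _ => mul_self_nonneg _

theorem gib_add (L : List (V × V)) (β : ℝ) (h : V → ℝ)
    (A B : Matrix (V → Fin 2) (V → Fin 2) ℝ) :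
    gib L β h (A + B) = gib L β h A + gib L β h B := by
  rw [gib, gib, gib, Matrix.mul_add, Matrix.trace_add, add_div]

theorem gib_smul (L : List (V × V)) (β : ℝ) (h : V → ℝ) (c : ℝ)
    (A : Matrix (V → Fin 2) (V → Fin 2) ℝ) :
    gib L β h (c • A) = c * gib L β h A := by
  rw [gib, gib, Matrix.mul_smul, Matrix.trace_smul, smul_eq_mul, mul_div_assoc]

theorem gib_sum (L : List (V × V)) (β : ℝ) (h : V → ℝ) {ι : Type*} (s : Finset ι)
    (A : ι → Matrix (V → Fin 2) (V → Fin 2) ℝ) :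
    gib L β h (∑ i ∈ s, A i) = ∑ i ∈ s, gib L β h (A i) := by
  rw [gib, Matrix.mul_sum, Matrix.trace_sum, Finset.sum_div]
  rfl

end

end Vale.Agent.P361.LRO.EnR
end

section

/-!
Canonical paths in a cube: the sum over all pairs of a `w`-cube of `‖ψ - P_{xy} ψ‖²` is at most
`12 w⁵` times the sum over the nearest neighbour edges of the cube; tiling of a cube of side `w k`.
-/

namespace Vale.Agent.P361.LRO.EnR

open Matrix Finset

noncomputable section

variable {V : Type} [Fintype V] [DecidableEq V]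

/-- Squares of `nrm` for the three kinds of edges. -/
def ed0 (p : ℕ → ℕ → ℕ → V) (F : V → V → ℝ) (w : ℕ) : ℝ :=
  ∑ t ∈ range (w - 1), ∑ b ∈ range w, ∑ c ∈ range w, F (p t b c) (p (t + 1) b c)

def ed1 (p : ℕ → ℕ → ℕ → V) (F : V → V → ℝ) (w : ℕ) : ℝ :=
  ∑ a ∈ range w, ∑ t ∈ range (w - 1), ∑ c ∈ range w, F (p a t c) (p a (t + 1) c)

def ed2 (p : ℕ → ℕ → ℕ → V) (F : V → V → ℝ) (w : ℕ) : ℝ :=
  ∑ a ∈ range w, ∑ b ∈ range w, ∑ t ∈ range (w - 1), F (p a b t) (p a b (t + 1))

/-- Sum over the nearest neighbour edges of the cube `p '' [0,w)³`. -/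
def edgeSum (p : ℕ → ℕ → ℕ → V) (F : V → V → ℝ) (w : ℕ) : ℝ :=
  ed0 p F w + ed1 p F w + ed2 p F w

/-- Sum over ordered pairs of points of the cube `p '' [0,w)³`. -/
def pairSum (p : ℕ → ℕ → ℕ → V) (F : V → V → ℝ) (w : ℕ) : ℝ :=
  ∑ a ∈ range w, ∑ b ∈ range w, ∑ c ∈ range w,
    ∑ a' ∈ range w, ∑ b' ∈ range w, ∑ c' ∈ range w, F (p a b c) (p a' b' c')

theorem nrm_swap_self (x : V) (ψ : (V → Fin 2) → ℝ) : nrm (Equiv.swap x x) ψ = 0 := by
  rw [Equiv.swap_self]; exact nrm_one ψ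

theorem nrm_cube (p : ℕ → ℕ → ℕ → V) (ψ : (V → Fin 2) → ℝ) {w a b c a' b' c' : ℕ}
    (ha : a < w) (hb : b < w) (hc : c < w) (ha' : a' < w) (hb' : b' < w) (hc' : c' < w) :
    nrm (Equiv.swap (p a b c) (p a' b' c')) ψ ≤
      2 * (∑ t ∈ range (w - 1), nrm (Equiv.swap (p t b c) (p (t + 1) b c)) ψ +
        ∑ t ∈ range (w - 1), nrm (Equiv.swap (p a' t c) (p a' (t + 1) c)) ψ +
        ∑ t ∈ range (w - 1), nrm (Equiv.swap (p a' b' t) (p a' b' (t + 1))) ψ) := by
  have h0 := nrm_seg (p a b c) (fun t => p t b c) ψ (a := a) (b := a') (m := w - 1)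
    (by omega) (by omega)
  have h1 := nrm_seg (p a b c) (fun t => p a' t c) ψ (a := b) (b := b') (m := w - 1)
    (by omega) (by omega)
  have h2 := nrm_seg (p a b c) (fun t => p a' b' t) ψ (a := c) (b := c') (m := w - 1)
    (by omega) (by omega)
  have h3 := nrm_swap_self (p a b c) ψ
  linarith

theorem sq_sum_three {n : ℕ} (f g h : ℕ → ℝ) :
    (2 * (∑ t ∈ range n, f t + ∑ t ∈ range n, g t + ∑ t ∈ range n, h t)) ^ 2 ≤
      12 * n * (∑ t ∈ range n, f t ^ 2 + ∑ t ∈ range n, g t ^ 2 + ∑ t ∈ range n, h t ^ 2) := by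
  have key : ∀ f : ℕ → ℝ, (∑ t ∈ range n, f t) ^ 2 ≤ n * ∑ t ∈ range n, f t ^ 2 := by
    intro f
    have := sq_sum_le_card_mul_sum_sq (s := range n) (f := f)
    simpa using this
  have hf := key f
  have hg := key g
  have hh := key h
  nlinarith [sq_nonneg (∑ t ∈ range n, f t - ∑ t ∈ range n, g t),
    sq_nonneg (∑ t ∈ range n, f t - ∑ t ∈ range n, h t),
    sq_nonneg (∑ t ∈ range n, g t - ∑ t ∈ range n, h t)]

theorem pair_le (p : ℕ → ℕ → ℕ → V) (ψ : (V → Fin 2) → ℝ) (w : ℕ) :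
    pairSum p (fun x y => nrm (Equiv.swap x y) ψ ^ 2) w ≤
      12 * (w : ℝ) ^ 5 * edgeSum p (fun x y => nrm (Equiv.swap x y) ψ ^ 2) w := by
  set F : V → V → ℝ := fun x y => nrm (Equiv.swap x y) ψ ^ 2 with hF
  have hF0 : ∀ x y, 0 ≤ F x y := fun x y => sq_nonneg _
  set S0 : ℕ → ℕ → ℝ := fun b c => ∑ t ∈ range (w - 1), F (p t b c) (p (t + 1) b c) with hS0
  set S1 : ℕ → ℕ → ℝ := fun a c => ∑ t ∈ range (w - 1), F (p a t c) (p a (t + 1) c) with hS1
  set S2 : ℕ → ℕ → ℝ := fun a b => ∑ t ∈ range (w - 1), F (p a b t) (p a b (t + 1)) with hS2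
  have hS0n : ∀ b c, 0 ≤ S0 b c := fun b c => sum_nonneg fun _ _ => hF0 _ _
  have hS1n : ∀ b c, 0 ≤ S1 b c := fun b c => sum_nonneg fun _ _ => hF0 _ _
  have hS2n : ∀ b c, 0 ≤ S2 b c := fun b c => sum_nonneg fun _ _ => hF0 _ _
  have h1 : pairSum p F w ≤ ∑ a ∈ range w, ∑ b ∈ range w, ∑ c ∈ range w,
      ∑ a' ∈ range w, ∑ b' ∈ range w, ∑ c' ∈ range w,
        (12 * w) * (S0 b c + S1 a' c + S2 a' b') := by
    unfold pairSum
    refine sum_le_sum fun a ha => sum_le_sum fun b hb => sum_le_sum fun c hc =>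
      sum_le_sum fun a' ha' => sum_le_sum fun b' hb' => sum_le_sum fun c' hc' => ?_
    simp only [mem_range] at ha hb hc ha' hb' hc'
    have h2 := nrm_cube p ψ ha hb hc ha' hb' hc'
    have h3 : F (p a b c) (p a' b' c') ≤ (2 * (∑ t ∈ range (w - 1),
        nrm (Equiv.swap (p t b c) (p (t + 1) b c)) ψ +
        ∑ t ∈ range (w - 1), nrm (Equiv.swap (p a' t c) (p a' (t + 1) c)) ψ +
        ∑ t ∈ range (w - 1), nrm (Equiv.swap (p a' b' t) (p a' b' (t + 1))) ψ)) ^ 2 :=
      pow_le_pow_left₀ (nrm_nonneg _ _) h2 2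
    have h4 := sq_sum_three (n := w - 1)
      (fun t => nrm (Equiv.swap (p t b c) (p (t + 1) b c)) ψ)
      (fun t => nrm (Equiv.swap (p a' t c) (p a' (t + 1) c)) ψ)
      (fun t => nrm (Equiv.swap (p a' b' t) (p a' b' (t + 1))) ψ)
    have h5 : ((w - 1 : ℕ) : ℝ) ≤ w := by exact_mod_cast Nat.sub_le w 1
    have h6 : 0 ≤ S0 b c + S1 a' c + S2 a' b' :=
      add_nonneg (add_nonneg (hS0n _ _) (hS1n _ _)) (hS2n _ _)
    calc F (p a b c) (p a' b' c') ≤ _ := h3
      _ ≤ 12 * ((w - 1 : ℕ) : ℝ) * (S0 b c + S1 a' c + S2 a' b') := h4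
      _ ≤ _ := by
        apply mul_le_mul_of_nonneg_right _ h6
        linarith
  refine h1.trans (le_of_eq ?_)
  simp only [← mul_sum, sum_add_distrib, sum_const, card_range, nsmul_eq_mul]
  have e0 : ∑ b ∈ range w, ∑ c ∈ range w, S0 b c = ed0 p F w := by
    unfold ed0
    rw [sum_comm]
    symm
    rw [sum_comm]
    calc ∑ b ∈ range w, ∑ t ∈ range (w - 1), ∑ c ∈ range w, F (p t b c) (p (t + 1) b c)
        = ∑ b ∈ range w, ∑ c ∈ range w, S0 b c := by
          refine sum_congr rfl fun b _ => ?_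
          rw [sum_comm]
      _ = _ := sum_comm
  have e1 : ∑ c ∈ range w, ∑ a ∈ range w, S1 a c = ed1 p F w := by
    unfold ed1
    rw [sum_comm]
    refine sum_congr rfl fun b _ => ?_
    rw [sum_comm]
  have e2 : ∑ a ∈ range w, ∑ b ∈ range w, S2 a b = ed2 p F w := rfl
  rw [edgeSum, ← e0, ← e1, ← e2]
  ring

end

end Vale.Agent.P361.LRO.EnR
end

section

/-!
The path inequality for Gibbs states, and the tiling of a cube of side `w m` by cubes of side `w`.
-/

namespace Vale.Agent.P361.LRO.EnR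

open Matrix Finset

noncomputable section

variable {V : Type} [Fintype V] [DecidableEq V]

/-- The pair inequality for every Gibbs state. -/
theorem pair_le_gib (L : List (V × V)) (β : ℝ) (h : V → ℝ) (p : ℕ → ℕ → ℕ → V) (w : ℕ) :
    pairSum p (fun x y => gib L β h (hM x y)) w ≤
      12 * (w : ℝ) ^ 5 * edgeSum p (fun x y => gib L β h (hM x y)) w := by
  set PM : Matrix (V → Fin 2) (V → Fin 2) ℝ :=
    ∑ a ∈ range w, ∑ b ∈ range w, ∑ c ∈ range w,
    ∑ a' ∈ range w, ∑ b' ∈ range w, ∑ c' ∈ range w, hM (p a b c) (p a' b' c') with hPM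
  set EM : Matrix (V → Fin 2) (V → Fin 2) ℝ :=
    ∑ t ∈ range (w - 1), ∑ b ∈ range w, ∑ c ∈ range w, hM (p t b c) (p (t + 1) b c) +
    ∑ a ∈ range w, ∑ t ∈ range (w - 1), ∑ c ∈ range w, hM (p a t c) (p a (t + 1) c) +
    ∑ a ∈ range w, ∑ b ∈ range w, ∑ t ∈ range (w - 1), hM (p a b t) (p a b (t + 1)) with hEM
  have h1 : pairSum p (fun x y => gib L β h (hM x y)) w = gib L β h PM := by
    rw [hPM]; simp only [gib_sum]; rfl
  have h2 : edgeSum p (fun x y => gib L β h (hM x y)) w = gib L β h EM := by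
    rw [hEM]; simp only [gib_sum, gib_add]; rfl
  rw [h1, h2, ← gib_smul]
  apply gib_le_of_form_le
  intro ψ
  have h3 : ψ ⬝ᵥ (PM *ᵥ ψ) =
      (1 / 4) * pairSum p (fun x y => nrm (Equiv.swap x y) ψ ^ 2) w := by
    rw [hPM]
    simp only [Matrix.sum_mulVec, dotProduct_sum, form_hM, pairSum, mul_sum]
  have h4 : ψ ⬝ᵥ (EM *ᵥ ψ) =
      (1 / 4) * edgeSum p (fun x y => nrm (Equiv.swap x y) ψ ^ 2) w := by
    rw [hEM]
    simp only [Matrix.sum_mulVec, dotProduct_sum, form_hM, edgeSum, ed0, ed1, ed2, mul_sum,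
      Matrix.add_mulVec, dotProduct_add, mul_add]
  rw [Matrix.smul_mulVec, dotProduct_smul, smul_eq_mul, h3, h4]
  have := pair_le p ψ w
  linarith

/-- Nonnegativity of `⟨h_{xy}⟩`. -/
theorem gib_hM_nonneg (L : List (V × V)) (β : ℝ) (h : V → ℝ) (x y : V) :
    0 ≤ gib L β h (hM x y) := by
  have h1 : gib L β h 0 ≤ gib L β h (hM x y) := by
    apply gib_le_of_form_le
    intro ψ
    rw [form_hM, Matrix.zero_mulVec, dotProduct_zero]
    positivity
  have h2 : gib L β h 0 = 0 := by simp [gib]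
  linarith

theorem sum_tile (g : ℕ → ℝ) (w m : ℕ) :
    ∑ u ∈ range m, ∑ a ∈ range w, g (w * u + a) = ∑ A ∈ range (w * m), g A := by
  induction m with
  | zero => simp
  | succ m ih => rw [sum_range_succ, ih, Nat.mul_succ, sum_range_add]

theorem sum_tile_edge (g : ℕ → ℝ) (hg : ∀ t, 0 ≤ g t) (w m : ℕ) :
    ∑ u ∈ range m, ∑ a ∈ range (w - 1), g (w * u + a) ≤ ∑ A ∈ range (w * m - 1), g A := by
  rcases Nat.eq_zero_or_pos w with rfl | hw
  · simp
  induction m with
  | zero => simp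
  | succ m ih =>
    rcases Nat.eq_zero_or_pos m with rfl | hm
    · simp
    rw [sum_range_succ]
    have hwm : 1 ≤ w * m := Nat.mul_pos hw hm
    have e : w * (m + 1) - 1 = (w * m - 1) + 1 + (w - 1) := by
      rw [Nat.mul_succ]; omega
    rw [e, sum_range_add, sum_range_succ]
    have e2 : w * m - 1 + 1 = w * m := by omega
    rw [e2]
    have := hg (w * m - 1)
    linarith

/-- The shifted parametrisation. -/
def shp (p : ℕ → ℕ → ℕ → V) (w u0 u1 u2 : ℕ) : ℕ → ℕ → ℕ → V :=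
  fun a b c => p (w * u0 + a) (w * u1 + b) (w * u2 + c)

theorem tile_ed0 (p : ℕ → ℕ → ℕ → V) (F : V → V → ℝ) (hF : ∀ x y, 0 ≤ F x y) (w m : ℕ) :
    ∑ u0 ∈ range m, ∑ u1 ∈ range m, ∑ u2 ∈ range m, ed0 (shp p w u0 u1 u2) F w ≤
      ed0 p F (w * m) := by
  unfold ed0 shp
  have h1 : ∀ u0 ∈ range m, ∑ u1 ∈ range m, ∑ u2 ∈ range m, ∑ t ∈ range (w - 1),
      ∑ b ∈ range w, ∑ c ∈ range w,
        F (p (w * u0 + t) (w * u1 + b) (w * u2 + c))
          (p (w * u0 + (t + 1)) (w * u1 + b) (w * u2 + c)) =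
      ∑ t ∈ range (w - 1), ∑ B ∈ range (w * m), ∑ C ∈ range (w * m),
        F (p (w * u0 + t) B C) (p (w * u0 + t + 1) B C) := by
    intro u0 _
    have e1 : ∀ u1 ∈ range m, ∑ u2 ∈ range m, ∑ t ∈ range (w - 1),
      ∑ b ∈ range w, ∑ c ∈ range w,
        F (p (w * u0 + t) (w * u1 + b) (w * u2 + c))
          (p (w * u0 + (t + 1)) (w * u1 + b) (w * u2 + c)) =
        ∑ t ∈ range (w - 1), ∑ b ∈ range w, ∑ C ∈ range (w * m),
          F (p (w * u0 + t) (w * u1 + b) C) (p (w * u0 + t + 1) (w * u1 + b) C) := by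
      intro u1 _
      rw [sum_comm]
      refine sum_congr rfl fun t _ => ?_
      rw [sum_comm]
      refine sum_congr rfl fun b _ => ?_
      rw [← sum_tile]
      rfl
    rw [sum_congr rfl e1, sum_comm]
    refine sum_congr rfl fun t _ => ?_
    rw [← sum_tile]
  rw [sum_congr rfl h1]
  exact sum_tile_edge (fun A => ∑ B ∈ range (w * m), ∑ C ∈ range (w * m),
    F (p A B C) (p (A + 1) B C)) (fun t => sum_nonneg fun _ _ => sum_nonneg fun _ _ => hF _ _) w m

theorem tile_ed1 (p : ℕ → ℕ → ℕ → V) (F : V → V → ℝ) (hF : ∀ x y, 0 ≤ F x y) (w m : ℕ) :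
    ∑ u0 ∈ range m, ∑ u1 ∈ range m, ∑ u2 ∈ range m, ed1 (shp p w u0 u1 u2) F w ≤
      ed1 p F (w * m) := by
  unfold ed1 shp
  have h1 : ∀ u0 ∈ range m, ∑ u1 ∈ range m, ∑ u2 ∈ range m, ∑ a ∈ range w,
      ∑ t ∈ range (w - 1), ∑ c ∈ range w,
        F (p (w * u0 + a) (w * u1 + t) (w * u2 + c))
          (p (w * u0 + a) (w * u1 + (t + 1)) (w * u2 + c)) ≤
      ∑ a ∈ range w, ∑ T ∈ range (w * m - 1), ∑ C ∈ range (w * m),
        F (p (w * u0 + a) T C) (p (w * u0 + a) (T + 1) C) := by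
    intro u0 _
    have e1 : ∀ u1 ∈ range m, ∑ u2 ∈ range m, ∑ a ∈ range w,
      ∑ t ∈ range (w - 1), ∑ c ∈ range w,
        F (p (w * u0 + a) (w * u1 + t) (w * u2 + c))
          (p (w * u0 + a) (w * u1 + (t + 1)) (w * u2 + c)) =
        ∑ a ∈ range w, ∑ t ∈ range (w - 1), ∑ C ∈ range (w * m),
          F (p (w * u0 + a) (w * u1 + t) C) (p (w * u0 + a) (w * u1 + t + 1) C) := by
      intro u1 _
      rw [sum_comm]
      refine sum_congr rfl fun t _ => ?_
      rw [sum_comm]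
      refine sum_congr rfl fun b _ => ?_
      rw [← sum_tile]
      rfl
    rw [sum_congr rfl e1, sum_comm]
    refine sum_le_sum fun a _ => ?_
    exact sum_tile_edge (fun B => ∑ C ∈ range (w * m),
      F (p (w * u0 + a) B C) (p (w * u0 + a) (B + 1) C))
      (fun t => sum_nonneg fun _ _ => hF _ _) w m
  refine (sum_le_sum h1).trans (le_of_eq ?_)
  rw [← sum_tile (fun A => ∑ T ∈ range (w * m - 1), ∑ C ∈ range (w * m),
        F (p A T C) (p A (T + 1) C)) w m]

theorem tile_ed2 (p : ℕ → ℕ → ℕ → V) (F : V → V → ℝ) (hF : ∀ x y, 0 ≤ F x y) (w m : ℕ) :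
    ∑ u0 ∈ range m, ∑ u1 ∈ range m, ∑ u2 ∈ range m, ed2 (shp p w u0 u1 u2) F w ≤
      ed2 p F (w * m) := by
  unfold ed2 shp
  have h1 : ∀ u0 ∈ range m, ∑ u1 ∈ range m, ∑ u2 ∈ range m, ∑ a ∈ range w,
      ∑ b ∈ range w, ∑ t ∈ range (w - 1),
        F (p (w * u0 + a) (w * u1 + b) (w * u2 + t))
          (p (w * u0 + a) (w * u1 + b) (w * u2 + (t + 1))) ≤
      ∑ a ∈ range w, ∑ B ∈ range (w * m), ∑ T ∈ range (w * m - 1),
        F (p (w * u0 + a) B T) (p (w * u0 + a) B (T + 1)) := by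
    intro u0 _
    have e1 : ∀ u1 ∈ range m, ∑ u2 ∈ range m, ∑ a ∈ range w,
      ∑ b ∈ range w, ∑ t ∈ range (w - 1),
        F (p (w * u0 + a) (w * u1 + b) (w * u2 + t))
          (p (w * u0 + a) (w * u1 + b) (w * u2 + (t + 1))) ≤
        ∑ a ∈ range w, ∑ b ∈ range w, ∑ T ∈ range (w * m - 1),
          F (p (w * u0 + a) (w * u1 + b) T) (p (w * u0 + a) (w * u1 + b) (T + 1)) := by
      intro u1 _
      rw [sum_comm]
      refine sum_le_sum fun t _ => ?_
      rw [sum_comm]
      refine sum_le_sum fun b _ => ?_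
      exact sum_tile_edge (fun T =>
        F (p (w * u0 + t) (w * u1 + b) T) (p (w * u0 + t) (w * u1 + b) (T + 1)))
        (fun t => hF _ _) w m
    refine (sum_le_sum e1).trans (le_of_eq ?_)
    rw [sum_comm]
    refine sum_congr rfl fun t _ => ?_
    rw [← sum_tile (fun B => ∑ T ∈ range (w * m - 1),
          F (p (w * u0 + t) B T) (p (w * u0 + t) B (T + 1)))]
  refine (sum_le_sum h1).trans (le_of_eq ?_)
  rw [← sum_tile (fun A => ∑ B ∈ range (w * m), ∑ T ∈ range (w * m - 1),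
        F (p A B T) (p A B (T + 1))) w m]

theorem tile_edge (p : ℕ → ℕ → ℕ → V) (F : V → V → ℝ) (hF : ∀ x y, 0 ≤ F x y) (w m : ℕ) :
    ∑ u0 ∈ range m, ∑ u1 ∈ range m, ∑ u2 ∈ range m, edgeSum (shp p w u0 u1 u2) F w ≤
      edgeSum p F (w * m) := by
  have h0 := tile_ed0 p F hF w m
  have h1 := tile_ed1 p F hF w m
  have h2 := tile_ed2 p F hF w m
  simp only [edgeSum, sum_add_distrib]
  linarith

/-- Sum of the pair sums of the blocks. -/
theorem tile_pair (L : List (V × V)) (β : ℝ) (h : V → ℝ) (p : ℕ → ℕ → ℕ → V) (w m : ℕ) :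
    ∑ u0 ∈ range m, ∑ u1 ∈ range m, ∑ u2 ∈ range m,
      pairSum (shp p w u0 u1 u2) (fun x y => gib L β h (hM x y)) w ≤
      12 * (w : ℝ) ^ 5 * edgeSum p (fun x y => gib L β h (hM x y)) (w * m) := by
  calc _ ≤ ∑ u0 ∈ range m, ∑ u1 ∈ range m, ∑ u2 ∈ range m,
      12 * (w : ℝ) ^ 5 * edgeSum (shp p w u0 u1 u2) (fun x y => gib L β h (hM x y)) w :=
        sum_le_sum fun _ _ => sum_le_sum fun _ _ => sum_le_sum fun _ _ =>
          pair_le_gib L β h _ w
    _ = 12 * (w : ℝ) ^ 5 * ∑ u0 ∈ range m, ∑ u1 ∈ range m, ∑ u2 ∈ range m,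
      edgeSum (shp p w u0 u1 u2) (fun x y => gib L β h (hM x y)) w := by
        simp only [mul_sum]
    _ ≤ _ := by
        apply mul_le_mul_of_nonneg_left _ (by positivity)
        exact tile_edge p _ (fun x y => gib_hM_nonneg L β h x y) w m

end

end Vale.Agent.P361.LRO.EnR
end

section

/-!
Block (1) of the low temperature order proof (P361): the symmetrisation lemma
`1 - symM A ≤ ½ ∑_{pairs in A} (1 - swap)`.
-/

namespace Vale.Agent.P361.LRO.Tw

open Finset Matrix

set_option linter.unusedSectionVars false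

variable {V : Type} [Fintype V] [DecidableEq V]

/-- Number of down spins (`1`) of `σ` in `A`. -/
def dn (A : Finset V) (σ : V → Fin 2) : ℕ := ∑ x ∈ A, (σ x : ℕ)

theorem dn_comp_swap {A : Finset V} {x y : V} (hx : x ∈ A) (hy : y ∈ A) (σ : V → Fin 2) :
    dn A (σ ∘ Equiv.swap x y) = dn A σ := by
  unfold dn
  refine Finset.sum_equiv (Equiv.swap x y) ?_ (fun i _ => rfl)
  intro i
  by_cases h1 : i = x
  · subst h1; simp [hx, hy]
  · by_cases h2 : i = y
    · subst h2; simp [hx, hy]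
    · rw [Equiv.swap_apply_of_ne_of_ne h1 h2]

end Vale.Agent.P361.LRO.Tw
end

section

/-!
P361, block (1): the Gibbs operator is positive semidefinite and conserves the number of downs.
-/

namespace Vale.Agent.P361.LRO.Tw

open Finset Matrix

noncomputable section

variable {V : Type} [Fintype V] [DecidableEq V]

theorem expH_psd (L : List (V × V)) (β : ℝ) (h : V → ℝ) :
    (NormedSpace.exp (-β • ham L h)).PosSemidef := by
  obtain ⟨C, hC⟩ := EnR.exp_ham_factor L β h
  rw [hC, ← Matrix.conjTranspose_eq_transpose_of_trivial]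
  exact Matrix.posSemidef_conjTranspose_mul_self C

/-- The number of downs. -/
def numD : Matrix (V → Fin 2) (V → Fin 2) ℝ :=
  Matrix.diagonal fun σ => ((dn univ σ : ℕ) : ℝ)

theorem numD_swapM (x y : V) : Commute (numD : Matrix (V → Fin 2) (V → Fin 2) ℝ) (swapM x y) := by
  unfold Commute SemiconjBy
  ext σ τ
  unfold numD
  rw [Matrix.diagonal_mul, Matrix.mul_diagonal]
  simp only [swapM, Matrix.of_apply]
  split_ifs with h
  · rw [h, dn_comp_swap (mem_univ x) (mem_univ y)]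
    ring
  · simp

theorem numD_ham (L : List (V × V)) (h : V → ℝ) :
    Commute (numD : Matrix (V → Fin 2) (V → Fin 2) ℝ) (ham L h) := by
  unfold ham
  refine Commute.sub_right ?_ ?_
  · induction L with
    | nil => simp
    | cons e L ih =>
      rw [List.map_cons, List.sum_cons]
      refine Commute.add_right ?_ ih
      unfold hM
      exact ((Commute.one_right _).sub_right (numD_swapM _ _)).smul_right _
  · refine Commute.sum_right _ _ _ fun x _ => Commute.smul_right ?_ _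
    unfold numD szM
    exact Matrix.commute_diagonal _ _

theorem expH_cons (L : List (V × V)) (β : ℝ) (h : V → ℝ) (σ τ : V → Fin 2)
    (hd : NormedSpace.exp (-β • ham L h) σ τ ≠ 0) : dn univ σ = dn univ τ := by
  have h1 : Commute (numD : Matrix (V → Fin 2) (V → Fin 2) ℝ)
      (NormedSpace.exp (-β • ham L h)) := ((numD_ham L h).smul_right _).exp_right
  have h2 := congrFun (congrFun h1.eq σ) τ
  unfold numD at h2
  rw [Matrix.diagonal_mul, Matrix.mul_diagonal, mul_comm] at h2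
  exact_mod_cast mul_left_cancel₀ hd h2

theorem trace_expH_pos (L : List (V × V)) (β : ℝ) (h : V → ℝ) :
    0 < Matrix.trace (NormedSpace.exp (-β • ham L h)) := by
  have hC : NormedSpace.exp (-β • ham L h) = (NormedSpace.exp (-(β / 2) • ham L h))ᴴ *
      NormedSpace.exp (-(β / 2) • ham L h) := by
    rw [Matrix.conjTranspose_eq_transpose_of_trivial, ← Matrix.exp_transpose, transpose_smul,
      EnR.ham_transpose, ← Matrix.exp_add_of_commute _ _ rfl, ← add_smul]
    congr 2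
    ring
  refine lt_of_le_of_ne (expH_psd L β h).trace_nonneg fun h0 => ?_
  rw [hC] at h0
  have h1 := (Matrix.trace_conjTranspose_mul_self_eq_zero_iff).1 h0.symm
  exact (Matrix.isUnit_exp (-(β / 2) • ham L h)).ne_zero h1

end

end Vale.Agent.P361.LRO.Tw
end

section

/-!
P361 LRO: translation covariance of the densities on the torus.
-/

namespace Vale.Agent.P361.LRO

open Finset Matrix

noncomputable section

namespace Trans

/-- The exponential commutes with a simultaneous permutation of rows and columns. -/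
theorem exp_submatrix {ι : Type*} [Fintype ι] [DecidableEq ι] (E : ι ≃ ι) (M : Matrix ι ι ℝ) :
    NormedSpace.exp (M.submatrix E E) = (NormedSpace.exp M).submatrix E E := by
  let _ : NormedRing (Matrix ι ι ℝ) := Matrix.linftyOpNormedRing
  let _ : NormedAlgebra ℝ (Matrix ι ι ℝ) := Matrix.linftyOpNormedAlgebra
  let _ : NormedAlgebra ℚ (Matrix ι ι ℝ) := NormedAlgebra.restrictScalars ℚ ℝ _
  have hc : Continuous (Matrix.reindexAlgEquiv ℝ ℝ E.symm) :=
    Continuous.matrix_reindex continuous_id _ _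
  exact (NormedSpace.map_exp (Matrix.reindexAlgEquiv ℝ ℝ E.symm) hc M).symm

theorem trace_submatrix {ι : Type*} [Fintype ι] (E : ι ≃ ι) (M : Matrix ι ι ℝ) :
    (M.submatrix E E).trace = M.trace := by
  simp only [Matrix.trace, Matrix.diag_apply, Matrix.submatrix_apply]
  exact Equiv.sum_comp E fun i => M i i

variable {V : Type} [Fintype V] [DecidableEq V]

/-- `σ ↦ σ ∘ e`. -/
def EE' (e : V ≃ V) : (V → Fin 2) ≃ (V → Fin 2) := e.symm.arrowCongr (Equiv.refl _)

omit [Fintype V] [DecidableEq V] in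
theorem EE'_apply (e : V ≃ V) (σ : V → Fin 2) : EE' e σ = σ ∘ e := by
  funext v
  simp [EE']

theorem swapM_sub (e : V ≃ V) (x y : V) :
    (swapM x y).submatrix (EE' e) (EE' e) = swapM (e x) (e y) := by
  ext σ τ
  simp only [Matrix.submatrix_apply, swapM, Matrix.of_apply, EE'_apply]
  have : σ ∘ e = (τ ∘ e) ∘ Equiv.swap x y ↔ σ = τ ∘ Equiv.swap (e x) (e y) := by
    constructor
    · intro h
      funext v
      have h1 := congrFun h (e.symm v)
      simp only [Function.comp_apply, Equiv.apply_symm_apply] at h1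
      rw [h1, Function.comp_apply]
      congr 1
      rw [← e.injective.swap_apply, Equiv.apply_symm_apply]
    · rintro rfl
      funext v
      simp only [Function.comp_apply]
      rw [← e.injective.swap_apply]
  simp only [this]

omit [DecidableEq V] in
theorem szM_sub (e : V ≃ V) (x : V) :
    (szM x).submatrix (EE' e) (EE' e) = szM (e x) := by
  ext σ τ
  simp only [Matrix.submatrix_apply, szM, Matrix.diagonal_apply, EmbeddingLike.apply_eq_iff_eq]
  simp only [EE'_apply, Function.comp_apply]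

theorem hM_sub (e : V ≃ V) (x y : V) :
    (hM x y).submatrix (EE' e) (EE' e) = hM (e x) (e y) := by
  rw [hM, hM, ← swapM_sub e x y]
  ext σ τ
  simp [Matrix.submatrix_apply, Matrix.one_apply]

theorem ham_sub (e : V ≃ V) (L : List (V × V)) (h : V → ℝ)
    (hL : (L.map fun z => hM (e z.1) (e z.2)).sum = (L.map fun z => hM z.1 z.2).sum) :
    (ham L (fun x => h (e x))).submatrix (EE' e) (EE' e) = ham L h := by
  have h1 : ∀ l : List (V × V), ((l.map fun z => hM z.1 z.2).sum).submatrix (EE' e) (EE' e)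
      = (l.map fun z => hM (e z.1) (e z.2)).sum := by
    intro l
    induction l with
    | nil => rfl
    | cons z l ih =>
      rw [List.map_cons, List.sum_cons, List.map_cons, List.sum_cons, ← ih, ← hM_sub e]
      rfl
  have h2 : (∑ x, (h (e x) / 2) • szM x).submatrix (EE' e) (EE' e) = ∑ x, (h x / 2) • szM x := by
    rw [← Equiv.sum_comp e (fun x => (h x / 2) • szM x)]
    ext σ τ
    simp only [Matrix.submatrix_apply, Matrix.sum_apply, Matrix.smul_apply]
    refine Finset.sum_congr rfl fun x _ => ?_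
    rw [← szM_sub e x]
    rfl
  have h3 : ham L h = (L.map fun z => hM (e z.1) (e z.2)).sum - ∑ x, (h x / 2) • szM x := by
    rw [ham, hL]
  rw [h3, ← h1, ← h2]
  rfl

theorem rho_comp (e : V ≃ V) (L : List (V × V)) (β : ℝ) (h : V → ℝ) (x : V)
    (hL : (L.map fun z => hM (e z.1) (e z.2)).sum = (L.map fun z => hM z.1 z.2).sum) :
    rho L β (fun y => h (e y)) x = rho L β h (e x) := by
  have hH := ham_sub e L h hL
  have hE : (NormedSpace.exp (-β • ham L (fun y => h (e y)))).submatrix (EE' e) (EE' e)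
      = NormedSpace.exp (-β • ham L h) := by
    rw [← exp_submatrix, Matrix.submatrix_smul, Pi.smul_apply, Pi.smul_apply, hH]
  have hA : ((1 / 2 : ℝ) • (1 - szM x)).submatrix (EE' e) (EE' e)
      = (1 / 2 : ℝ) • (1 - szM (e x)) := by
    rw [← szM_sub e x]
    ext σ τ
    simp [Matrix.submatrix_apply, Matrix.one_apply]
  rw [rho, rho, gib, gib]
  congr 1
  · rw [← trace_submatrix (EE' e), ← Matrix.submatrix_mul_equiv _ _ _ (EE' e) _, hE, hA]
  · rw [← trace_submatrix (EE' e), hE]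

end Trans

end

end Vale.Agent.P361.LRO
end

section

/-!
P361 LRO, all spins: covariance of the densities under translations and permutations of the copies.
-/

namespace Vale.Agent.P361.LRO.GenS

open Finset Matrix Filter Topology

noncomputable section

namespace TransS

variable {n s : ℕ} [NeZero n]

theorem interE_map_sum {A : Type*} [AddCommMonoid A]
    (f : (Tor n × Fin s) → (Tor n × Fin s) → A) :
    ((interE n s).map fun e => f e.1 e.2).sum =
      ∑ z : Tor n × Fin 3, ∑ i : Fin s, ∑ j : Fin s,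
        f (z.1, i) (z.1 + Pi.single z.2 1, j) := by
  have h1 : ∀ l : List (Tor n × Tor n),
      ((l.flatMap fun e => (List.finRange s).flatMap fun i => (List.finRange s).map fun j =>
        (((e.1, i), (e.2, j)) : (Tor n × Fin s) × (Tor n × Fin s))).map
          fun e => f e.1 e.2).sum =
        (l.map fun e => ∑ i : Fin s, ∑ j : Fin s, f (e.1, i) (e.2, j)).sum := by
    intro l
    induction l with
    | nil => rfl
    | cons e l ih =>
      rw [List.flatMap_cons, List.map_append, List.sum_append, ih, List.map_cons, List.sum_cons]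
      congr 1
      have h2 : ∀ k : List (Fin s), ((k.flatMap fun i => (List.finRange s).map fun j =>
          (((e.1, i), (e.2, j)) : (Tor n × Fin s) × (Tor n × Fin s))).map
            fun e => f e.1 e.2).sum = (k.map fun i => ∑ j : Fin s, f (e.1, i) (e.2, j)).sum := by
        intro k
        induction k with
        | nil => rfl
        | cons i k ihk =>
          rw [List.flatMap_cons, List.map_append, List.sum_append, ihk, List.map_cons,
            List.sum_cons]
          congr 1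
          rw [List.map_map, ← List.ofFn_eq_map, List.sum_ofFn]
          rfl
      rw [h2, ← List.ofFn_eq_map, List.sum_ofFn]
  unfold interE
  rw [h1, edges, List.map_map, Finset.sum_map_toList]
  rfl

theorem intraE_map_sum {A : Type*} [AddCommMonoid A]
    (f : (Tor n × Fin s) → (Tor n × Fin s) → A) :
    ((intraE n s).map fun e => f e.1 e.2).sum =
      ∑ z ∈ (univ : Finset (Tor n × Fin s × Fin s)).filter (fun z => z.2.1 < z.2.2),
        f (z.1, z.2.1) (z.1, z.2.2) := by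
  unfold intraE
  rw [List.map_map, Finset.sum_map_toList]
  rfl

theorem edgesS_map_sum {A : Type*} [AddCommMonoid A] (M : ℕ)
    (f : (Tor n × Fin s) → (Tor n × Fin s) → A) :
    ((edgesS n s M).map fun e => f e.1 e.2).sum =
      ((interE n s).map fun e => f e.1 e.2).sum +
        M • ((intraE n s).map fun e => f e.1 e.2).sum := by
  unfold edgesS
  rw [List.map_append, List.sum_append]
  congr 1
  induction M with
  | zero => rw [List.replicate_zero, List.flatten_nil, List.map_nil, List.sum_nil, zero_smul]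
  | succ M ih =>
    rw [List.replicate_succ, List.flatten_cons, List.map_append, List.sum_append, ih, succ_nsmul']

/-- Translation and permutation of the copies. -/
def gS (a : Tor n) (π : Equiv.Perm (Fin s)) : (Tor n × Fin s) ≃ (Tor n × Fin s) :=
  (Equiv.addRight a).prodCongr π

omit [NeZero n] in
theorem gS_apply (a : Tor n) (π : Equiv.Perm (Fin s)) (x : Tor n) (i : Fin s) :
    gS a π (x, i) = (x + a, π i) := rfl

theorem interE_inv {A : Type*} [AddCommMonoid A] (a : Tor n) (π : Equiv.Perm (Fin s))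
    (f : (Tor n × Fin s) → (Tor n × Fin s) → A) :
    ((interE n s).map fun e => f (gS a π e.1) (gS a π e.2)).sum =
      ((interE n s).map fun e => f e.1 e.2).sum := by
  rw [interE_map_sum, interE_map_sum (fun u v => f (gS a π u) (gS a π v))]
  refine Fintype.sum_equiv ((Equiv.addRight a).prodCongr (Equiv.refl (Fin 3))) _ _ fun z => ?_
  refine Fintype.sum_equiv π _ _ fun i => ?_
  refine Fintype.sum_equiv π _ _ fun j => ?_
  rw [gS_apply, gS_apply]
  simp only [Equiv.prodCongr_apply, Prod.map, Equiv.coe_addRight, Equiv.refl_apply]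
  rw [add_right_comm]

theorem intraE_two {A : Type*} [AddCommMonoid A]
    (f : (Tor n × Fin s) → (Tor n × Fin s) → A) (hf : ∀ u v, f u v = f v u) :
    ((intraE n s).map fun e => f e.1 e.2).sum + ((intraE n s).map fun e => f e.1 e.2).sum =
      ∑ x : Tor n, ∑ i : Fin s, ∑ j : Fin s, if i ≠ j then f (x, i) (x, j) else 0 := by
  have h1 : ((intraE n s).map fun e => f e.1 e.2).sum =
      ∑ x : Tor n, ∑ i : Fin s, ∑ j : Fin s, if i < j then f (x, i) (x, j) else 0 := by
    rw [intraE_map_sum, Finset.sum_filter, Fintype.sum_prod_type]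
    refine Finset.sum_congr rfl fun x _ => ?_
    rw [Fintype.sum_prod_type]
  have h2 : ((intraE n s).map fun e => f e.1 e.2).sum =
      ∑ x : Tor n, ∑ i : Fin s, ∑ j : Fin s, if j < i then f (x, i) (x, j) else 0 := by
    rw [h1]
    refine Finset.sum_congr rfl fun x _ => ?_
    rw [Finset.sum_comm]
    refine Finset.sum_congr rfl fun i _ => Finset.sum_congr rfl fun j _ => ?_
    rw [hf]
  conv_lhs => rw [h1]
  rw [← h1]
  conv_lhs =>
    lhs
    rw [h1]
  conv_lhs =>
    rhs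
    rw [h2]
  rw [← Finset.sum_add_distrib]
  refine Finset.sum_congr rfl fun x _ => ?_
  rw [← Finset.sum_add_distrib]
  refine Finset.sum_congr rfl fun i _ => ?_
  rw [← Finset.sum_add_distrib]
  refine Finset.sum_congr rfl fun j _ => ?_
  rcases lt_trichotomy i j with h | h | h
  · rw [if_pos h, if_neg (not_lt.2 h.le), if_pos h.ne, add_zero]
  · rw [if_neg (by simp [h]), if_neg (by simp [h]), if_neg (by simp [h]), add_zero]
  · rw [if_pos h, if_neg (not_lt.2 h.le), if_pos h.ne', zero_add]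

theorem intraE_inv (a : Tor n) (π : Equiv.Perm (Fin s)) {ι : Type*}
    (f : (Tor n × Fin s) → (Tor n × Fin s) → Matrix ι ι ℝ) (hf : ∀ u v, f u v = f v u) :
    ((intraE n s).map fun e => f (gS a π e.1) (gS a π e.2)).sum =
      ((intraE n s).map fun e => f e.1 e.2).sum := by
  have h1 := intraE_two f hf
  have h2 := intraE_two (fun u v => f (gS a π u) (gS a π v)) fun u v => hf _ _
  have h3 : (∑ x : Tor n, ∑ i : Fin s, ∑ j : Fin s,
      if i ≠ j then f (gS a π (x, i)) (gS a π (x, j)) else 0) =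
      ∑ x : Tor n, ∑ i : Fin s, ∑ j : Fin s, if i ≠ j then f (x, i) (x, j) else 0 := by
    refine Fintype.sum_equiv (Equiv.addRight a) _ _ fun x => ?_
    refine Fintype.sum_equiv π _ _ fun i => ?_
    refine Fintype.sum_equiv π _ _ fun j => ?_
    rw [gS_apply, gS_apply, Equiv.coe_addRight]
    by_cases hij : i = j
    · rw [if_neg (by simp [hij]), if_neg (by simp [hij])]
    · rw [if_pos hij, if_pos (fun h => hij (π.injective h))]
  rw [h3, ← h1] at h2
  have h4 : ∀ A B : Matrix ι ι ℝ, A + A = B + B → A = B := by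
    intro A B h
    ext i j
    have := congrFun (congrFun h i) j
    simp only [Matrix.add_apply] at this
    linarith
  exact h4 _ _ h2

theorem hM_comm {V : Type} [Fintype V] [DecidableEq V] (x y : V) : hM x y = hM y x := by
  unfold hM swapM
  rw [Equiv.swap_comm]

theorem rho_gS (M : ℕ) (β : ℝ) (h : Tor n × Fin s → ℝ) (a : Tor n) (π : Equiv.Perm (Fin s))
    (z : Tor n × Fin s) :
    rho (edgesS n s M) β (fun y => h (gS a π y)) z = rho (edgesS n s M) β h (gS a π z) := by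
  refine Trans.rho_comp (gS a π) (edgesS n s M) β h z ?_
  rw [edgesS_map_sum M (fun u v : Tor n × Fin s => hM (gS a π u) (gS a π v)),
    edgesS_map_sum M (fun u v : Tor n × Fin s => hM u v), interE_inv a π (fun u v => hM u v),
    intraE_inv a π (fun u v => hM u v) fun u v => hM_comm u v]

end TransS

theorem transStmtS (s : ℕ) : TransStmtS s := by
  intro n _ M β h x a i j
  have h1 := TransS.rho_gS M β (hS h) a (Equiv.swap i j) (x, i)
  rw [TransS.gS_apply, Equiv.swap_apply_left] at h1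
  rw [← h1]
  rfl

end

end Vale.Agent.P361.LRO.GenS
end

section

/-! # The bootstrap: continuity in the field and descent to small fields. -/

namespace Vale.Agent.P361.LRO

open Finset Matrix Topology

/-! ### Matrix exponentials over `ℝ` -/

theorem continuous_exp_real {m : Type*} [Fintype m] [DecidableEq m] :
    Continuous (NormedSpace.exp : Matrix m m ℝ → Matrix m m ℝ) := by
  let _ : NormedRing (Matrix m m ℝ) := Matrix.linftyOpNormedRing
  let _ : NormedAlgebra ℝ (Matrix m m ℝ) := Matrix.linftyOpNormedAlgebra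
  let _ : NormedAlgebra ℚ (Matrix m m ℝ) := NormedAlgebra.restrictScalars ℚ ℝ _
  exact NormedSpace.exp_continuous

/-- The trace of the exponential of a real symmetric matrix is positive. -/
theorem trace_exp_real_pos {m : Type*} [Fintype m] [DecidableEq m] [Nonempty m]
    {X : Matrix m m ℝ} (hX : X.IsSymm) : 0 < Matrix.trace (NormedSpace.exp X) := by
  have h1 : NormedSpace.exp X = (NormedSpace.exp ((1 / 2 : ℝ) • X))ᵀ *
      NormedSpace.exp ((1 / 2 : ℝ) • X) := by
    rw [← Matrix.exp_transpose, Matrix.transpose_smul, hX.eq,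
      ← Matrix.exp_add_of_commute _ _ (Commute.refl _), ← add_smul]
    norm_num
  have h2 : IsUnit (NormedSpace.exp ((1 / 2 : ℝ) • X)) := Matrix.isUnit_exp _
  set Y := NormedSpace.exp ((1 / 2 : ℝ) • X) with hY
  rw [h1]
  have h3 : Matrix.trace (Yᵀ * Y) = ∑ i, ∑ j, Y j i ^ 2 := by
    simp only [Matrix.trace, Matrix.diag_apply, Matrix.mul_apply, Matrix.transpose_apply, pow_two]
  rw [h3]
  have hne : Y ≠ 0 := by
    intro h0
    rw [h0] at h2
    exact not_isUnit_zero h2
  obtain ⟨i, j, hij⟩ : ∃ i j, Y i j ≠ 0 := by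
    by_contra hcon
    push Not at hcon
    exact hne (by ext i j; exact hcon i j)
  refine lt_of_lt_of_le (show 0 < Y i j ^ 2 by positivity) ?_
  refine le_trans ?_ (Finset.single_le_sum (f := fun i => ∑ j, Y j i ^ 2)
    (fun _ _ => Finset.sum_nonneg fun _ _ => sq_nonneg _) (Finset.mem_univ j))
  exact Finset.single_le_sum (f := fun i => Y i j ^ 2) (fun _ _ => sq_nonneg _)
    (Finset.mem_univ i)

section

variable {V : Type} [Fintype V] [DecidableEq V]

theorem swapM_transpose (x y : V) : (swapM x y)ᵀ = swapM x y := by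
  ext σ τ
  simp only [swapM, Matrix.transpose_apply, Matrix.of_apply]
  have : τ = σ ∘ Equiv.swap x y ↔ σ = τ ∘ Equiv.swap x y := by
    constructor
    · rintro rfl
      ext v; simp
    · rintro rfl
      ext v; simp
  simp only [this]

theorem hM_isSymm (x y : V) : (hM x y).IsSymm := by
  rw [Matrix.IsSymm, hM, Matrix.transpose_smul, Matrix.transpose_sub, Matrix.transpose_one,
    swapM_transpose]

omit [DecidableEq V] in
theorem szM_isSymm (x : V) : (szM x).IsSymm := by
  rw [Matrix.IsSymm, szM, Matrix.diagonal_transpose]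

theorem ham_isSymm (L : List (V × V)) (h : V → ℝ) : (ham L h).IsSymm := by
  have h1 : ∀ l : List (V × V), ((l.map fun e => hM e.1 e.2).sum).IsSymm := by
    intro l
    induction l with
    | nil => simp [Matrix.IsSymm]
    | cons e l ih =>
      rw [List.map_cons, List.sum_cons]
      exact (hM_isSymm _ _).add ih
  rw [ham]
  refine (h1 L).sub ?_
  rw [Matrix.IsSymm, Matrix.transpose_sum]
  refine Finset.sum_congr rfl fun x _ => ?_
  rw [Matrix.transpose_smul, szM_isSymm x]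

theorem exponent_isSymm (L : List (V × V)) (β : ℝ) (h : V → ℝ) : (-β • ham L h).IsSymm := by
  rw [Matrix.IsSymm, Matrix.transpose_smul, ham_isSymm]

theorem Z_pos (L : List (V × V)) (β : ℝ) (h : V → ℝ) :
    0 < Matrix.trace (NormedSpace.exp (-β • ham L h)) :=
  trace_exp_real_pos (exponent_isSymm L β h)

theorem continuous_ham (L : List (V × V)) : Continuous fun h : V → ℝ => ham L h := by
  unfold ham
  refine continuous_const.sub ?_
  refine continuous_finsetSum _ fun x _ => ?_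
  exact ((continuous_apply x).div_const 2).smul continuous_const

theorem continuous_gib (L : List (V × V)) (β : ℝ) (A : Matrix (V → Fin 2) (V → Fin 2) ℝ) :
    Continuous fun h : V → ℝ => gib L β h A := by
  have h1 : Continuous fun h : V → ℝ => NormedSpace.exp (-β • ham L h) :=
    continuous_exp_real.comp ((continuous_ham L).const_smul (-β))
  unfold gib
  refine Continuous.div ?_ ?_ fun h => (Z_pos L β h).ne'
  · exact (h1.matrix_mul continuous_const).matrix_trace
  · exact h1.matrix_trace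

theorem continuous_rho (L : List (V × V)) (β : ℝ) (x : V) :
    Continuous fun h : V → ℝ => rho L β h x := continuous_gib L β _

end

/-! ### The abstract bootstrap -/

theorem bootstrap_abs {V : Type} [Fintype V] (R : (V → ℝ) → V → ℝ)
    (hR : ∀ x, Continuous fun h => R h x) (Reg : (V → ℝ) → Prop)
    (hmax : ∀ h c, 0 < c → Reg h → Reg fun x => max (h x) c) {a η : ℝ} (ha0 : 0 < a)
    (hη : 0 < η)
    (h1 : ∀ x, R (fun _ => 1) x ≤ η)
    (hstep : ∀ h0, a ≤ h0 → h0 ≤ 1 →
      (∀ h, (∀ x, h0 ≤ h x ∧ h x ≤ 1) → Reg h → ∀ x, R h x ≤ η) →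
      ∀ h, (∀ x, h0 ≤ h x ∧ h x ≤ 1) → Reg h → ∀ x, R h x ≤ η / 2) (ha1 : a ≤ 1) :
    ∀ h, (∀ x, a ≤ h x ∧ h x ≤ 1) → Reg h → ∀ x, R h x ≤ η / 2 := by
  -- uniform continuity on the compact box
  have hcomp : IsCompact (Set.Icc (fun _ : V => a) (fun _ => (1 : ℝ))) := isCompact_Icc
  have hcont : Continuous R := continuous_pi hR
  have huc := hcomp.uniformContinuousOn_of_continuous hcont.continuousOn
  rw [Metric.uniformContinuousOn_iff] at huc
  obtain ⟨δ, hδ, huc⟩ := huc (η / 2) (by positivity)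
  -- the property
  let P : ℝ → Prop := fun h0 => ∀ h, (∀ x, h0 ≤ h x ∧ h x ≤ 1) → Reg h → ∀ x, R h x ≤ η
  have hP1 : P 1 := by
    intro h hh _ x
    have : h = fun _ => 1 := by
      funext y
      exact le_antisymm (hh y).2 (hh y).1
    rw [this]
    exact h1 x
  have hPstep : ∀ t, a ≤ t → t ≤ 1 → P t → P (max a (t - δ / 2)) := by
    intro t hat ht1 hPt h hh hreg x
    have ht0 : 0 < t := lt_of_lt_of_le ha0 hat
    have hah : ∀ y, a ≤ h y := fun y => (le_max_left _ _).trans (hh y).1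
    let h' : V → ℝ := fun y => max (h y) t
    have hh' : ∀ y, t ≤ h' y ∧ h' y ≤ 1 := fun y => ⟨le_max_right _ _, max_le (hh y).2 ht1⟩
    have hb := hstep t hat ht1 hPt h' hh' (hmax h t ht0 hreg) x
    have hm : h ∈ Set.Icc (fun _ : V => a) (fun _ => (1 : ℝ)) :=
      ⟨fun y => hah y, fun y => (hh y).2⟩
    have hm' : h' ∈ Set.Icc (fun _ : V => a) (fun _ => (1 : ℝ)) :=
      ⟨fun y => hat.trans (hh' y).1, fun y => (hh' y).2⟩
    have hd : dist h h' < δ := by
      refine lt_of_le_of_lt ((dist_pi_le_iff (by positivity : (0 : ℝ) ≤ δ / 2)).2 fun y => ?_)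
        (half_lt_self hδ)
      have h2 : t - δ / 2 ≤ h y := (le_max_right _ _).trans (hh y).1
      rw [Real.dist_eq]
      change |h y - max (h y) t| ≤ δ / 2
      rcases le_total (h y) t with h3 | h3
      · rw [max_eq_right h3, abs_le]
        constructor <;> linarith
      · rw [max_eq_left h3, sub_self, abs_zero]
        positivity
    have h4 := huc h hm h' hm' hd
    have h5 : dist (R h x) (R h' x) < η / 2 := lt_of_le_of_lt (dist_le_pi_dist _ _ x) h4
    rw [Real.dist_eq, abs_lt] at h5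
    linarith [h5.2]
  have hPk : ∀ k : ℕ, P (max a (1 - k * (δ / 2))) := by
    intro k
    induction k with
    | zero =>
      have : max a (1 - ((0 : ℕ) : ℝ) * (δ / 2)) = 1 := by
        rw [Nat.cast_zero, zero_mul, sub_zero]
        exact max_eq_right ha1
      rw [this]
      exact hP1
    | succ k ih =>
      have h6 := hPstep (max a (1 - k * (δ / 2))) (le_max_left _ _)
        (max_le ha1 (by nlinarith [hδ, (Nat.cast_nonneg k : (0 : ℝ) ≤ k)])) ih
      have h7 : max a (max a (1 - k * (δ / 2)) - δ / 2) = max a (1 - ((k + 1 : ℕ) : ℝ) * (δ / 2)) := by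
        push_cast
        rcases le_total a (1 - k * (δ / 2)) with h8 | h8
        · rw [max_eq_right h8]
          congr 1
          ring
        · rw [max_eq_left h8, max_eq_left (by linarith), max_eq_left]
          nlinarith [hδ]
      rw [h7] at h6
      exact h6
  have hPa : P a := by
    obtain ⟨k, hk⟩ := exists_nat_gt ((1 - a) / (δ / 2))
    have h8 := hPk k
    have h9 : max a (1 - k * (δ / 2)) = a := by
      rw [div_lt_iff₀ (by positivity)] at hk
      exact max_eq_left (by linarith)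
    rwa [h9] at h8
  exact hstep a le_rfl ha1 hPa

end Vale.Agent.P361.LRO
end

section

/-!
P361 stage 3, block (M): hard core bosons on a finite set. `hcM a` is the compression of the
second quantization of the one-particle matrix `a` to the hard core space.
-/

set_option linter.unusedSectionVars false

namespace Vale.Agent.P361.LRO.S3

open Finset Matrix

noncomputable section

variable {V : Type} [Fintype V] [DecidableEq V]

/-- Annihilation of a down spin (particle) at `x`. -/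
def aM (x : V) : Matrix (V → Fin 2) (V → Fin 2) ℝ :=
  Matrix.of fun σ τ => if σ x = 0 ∧ τ = Function.update σ x 1 then 1 else 0

/-- Number of particles at `x`. -/
def nM (x : V) : Matrix (V → Fin 2) (V → Fin 2) ℝ :=
  Matrix.diagonal fun σ => if σ x = 1 then 1 else 0

/-- Compression of `dΓ(a)` to the hard core space. -/
def hcM (a : V → V → ℝ) : Matrix (V → Fin 2) (V → Fin 2) ℝ :=
  ∑ x, ∑ y, a x y • ((aM x)ᵀ * aM y)

theorem fin2_ne {a : Fin 2} (h : a ≠ 0) : a = 1 := by omega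

theorem nM_eq (x : V) : nM x = (1 / 2 : ℝ) • (1 - szM x) := by
  ext σ τ
  rw [nM, szM, Matrix.smul_apply, Matrix.sub_apply, Matrix.one_apply, Matrix.diagonal_apply,
    Matrix.diagonal_apply]
  by_cases h : σ = τ
  · rw [if_pos h, if_pos h, if_pos h]
    by_cases h0 : σ x = 0
    · rw [if_pos h0, if_neg (by rw [h0]; decide)]; norm_num
    · rw [if_neg h0, if_pos (fin2_ne h0), smul_eq_mul]; norm_num
  · rw [if_neg h, if_neg h, if_neg h]; simp

theorem aM_apply (x : V) (σ τ : V → Fin 2) :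
    aM x σ τ = if σ x = 0 ∧ τ = Function.update σ x 1 then 1 else 0 := rfl

theorem hcM_add (a b : V → V → ℝ) : hcM (fun x y => a x y + b x y) = hcM a + hcM b := by
  simp only [hcM, add_smul, Finset.sum_add_distrib]

theorem hcM_smul (c : ℝ) (a : V → V → ℝ) : hcM (fun x y => c * a x y) = c • hcM a := by
  simp only [hcM, mul_smul, Finset.smul_sum]

theorem hcM_sub (a b : V → V → ℝ) : hcM (fun x y => a x y - b x y) = hcM a - hcM b := by
  simp only [hcM, sub_smul, Finset.sum_sub_distrib]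

theorem hcM_sum {ι : Type*} (s : Finset ι) (a : ι → V → V → ℝ) :
    hcM (fun x y => ∑ i ∈ s, a i x y) = ∑ i ∈ s, hcM (a i) := by
  simp only [hcM, Finset.sum_smul]
  have h1 : ∀ x : V, ∑ y, ∑ i ∈ s, a i x y • ((aM x)ᵀ * aM y) =
      ∑ i ∈ s, ∑ y, a i x y • ((aM x)ᵀ * aM y) := fun x => Finset.sum_comm
  simp only [h1]
  exact Finset.sum_comm

theorem aM_transpose_mul_apply (x y : V) (σ τ : V → Fin 2) :
    ((aM x)ᵀ * aM y) σ τ = if σ x = 1 ∧ (Function.update σ x 0) y = 0 ∧
      τ = Function.update (Function.update σ x 0) y 1 then 1 else 0 := by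
  rw [Matrix.mul_apply]
  by_cases hσ : σ x = 1
  · rw [Finset.sum_eq_single (Function.update σ x 0)]
    · have h1 : (aM x)ᵀ σ (Function.update σ x 0) = 1 := by
        rw [Matrix.transpose_apply, aM_apply, if_pos]
        refine ⟨by simp, ?_⟩
        rw [Function.update_idem, ← hσ, Function.update_eq_self]
      rw [h1, one_mul, aM_apply]
      by_cases h2 : (Function.update σ x 0) y = 0
      · by_cases h3 : τ = Function.update (Function.update σ x 0) y 1
        · rw [if_pos ⟨h2, h3⟩, if_pos ⟨hσ, h2, h3⟩]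
        · rw [if_neg (fun h => h3 h.2), if_neg (fun h => h3 h.2.2)]
      · rw [if_neg (fun h => h2 h.1), if_neg (fun h => h2 h.2.1)]
    · intro ρ _ hρ
      have h1 : (aM x)ᵀ σ ρ = 0 := by
        rw [Matrix.transpose_apply, aM_apply, if_neg]
        rintro ⟨h2, h3⟩
        apply hρ
        rw [h3, Function.update_idem, ← h2, Function.update_eq_self]
      rw [h1, zero_mul]
    · intro h; exact absurd (Finset.mem_univ _) h
  · rw [if_neg (fun h => hσ h.1)]
    refine Finset.sum_eq_zero fun ρ _ => ?_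
    have h1 : (aM x)ᵀ σ ρ = 0 := by
      rw [Matrix.transpose_apply, aM_apply, if_neg]
      rintro ⟨h2, h3⟩
      exact hσ (by rw [h3]; simp)
    rw [h1, zero_mul]

theorem aM_self (x : V) : (aM x)ᵀ * aM x = nM x := by
  ext σ τ
  rw [aM_transpose_mul_apply, nM, Matrix.diagonal_apply]
  by_cases hσ : σ x = 1
  · have h1 : Function.update (Function.update σ x 0) x 1 = σ := by
      rw [Function.update_idem, ← hσ, Function.update_eq_self]
    rw [h1]
    by_cases hτ : σ = τ
    · rw [if_pos ⟨hσ, by simp, hτ.symm⟩, if_pos hτ, if_pos hσ]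
    · rw [if_neg (fun h => hτ h.2.2.symm), if_neg hτ]
  · rw [if_neg (fun h => hσ h.1)]
    split_ifs <;> rfl

/-- `(a_x - a_y)ᵀ (a_x - a_y) = 2 h_xy + 2 n_x n_y`. -/
theorem hop_eq {x y : V} (hxy : x ≠ y) :
    (aM x - aM y)ᵀ * (aM x - aM y) = (2 : ℝ) • hM x y + (2 : ℝ) • (nM x * nM y) := by
  have h0 : (aM x - aM y)ᵀ * (aM x - aM y) = nM x + nM y -
      ((aM x)ᵀ * aM y + (aM y)ᵀ * aM x) := by
    rw [Matrix.transpose_sub, Matrix.sub_mul, Matrix.mul_sub, Matrix.mul_sub, aM_self, aM_self]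
    abel
  rw [h0, hM, smul_smul]
  ext σ τ
  rw [Matrix.sub_apply, Matrix.add_apply, Matrix.add_apply, aM_transpose_mul_apply,
    aM_transpose_mul_apply, Matrix.add_apply, Matrix.smul_apply, Matrix.smul_apply, nM, nM,
    Matrix.diagonal_mul_diagonal, Matrix.diagonal_apply, Matrix.diagonal_apply,
    Matrix.diagonal_apply, Matrix.sub_apply, Matrix.one_apply, swapM, Matrix.of_apply]
  have hx1 : (Function.update σ x 0) y = σ y := Function.update_of_ne hxy.symm _ _
  have hy1 : (Function.update σ y 0) x = σ x := Function.update_of_ne hxy _ _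
  rw [hx1, hy1]
  -- the exchanged configuration
  have hsw : (σ = τ ∘ Equiv.swap x y) ↔ τ = σ ∘ Equiv.swap x y := by
    constructor
    · rintro rfl; funext z; simp
    · rintro rfl; funext z; simp
  have e1 : (2 : ℝ) * (1 / 2) = 1 := by norm_num
  rw [e1]
  have hval : ∀ z, (σ ∘ Equiv.swap x y) z = if z = x then σ y else if z = y then σ x else σ z := by
    intro z
    rw [Function.comp_apply, Equiv.swap_apply_def]
    split_ifs <;> rfl
  by_cases hx : σ x = 1
  · by_cases hy : σ y = 1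
    · -- both down
      have hs : σ ∘ Equiv.swap x y = σ := by
        funext z
        rw [hval]
        split_ifs with h1 h2
        · rw [h1, hx, hy]
        · rw [h2, hx, hy]
        · rfl
      have c1 : ¬ (σ x = 1 ∧ σ y = 0 ∧ τ = Function.update (Function.update σ x 0) y 1) :=
        fun h => absurd h.2.1 (by rw [hy]; decide)
      have c2 : ¬ (σ y = 1 ∧ σ x = 0 ∧ τ = Function.update (Function.update σ y 0) x 1) :=
        fun h => absurd h.2.1 (by rw [hx]; decide)
      rw [if_neg c1, if_neg c2]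
      simp only [hsw, hs]
      by_cases hτ : σ = τ
      · subst hτ
        simp [hx, hy]
        norm_num
      · have hτ' : ¬ τ = σ := fun h => hτ h.symm
        simp [hτ, hτ']
    · -- x down, y up
      have hy0 : σ y = 0 := by
        by_contra h
        exact hy (fin2_ne h)
      have c2 : ¬ (σ y = 1 ∧ σ x = 0 ∧ τ = Function.update (Function.update σ y 0) x 1) :=
        fun h => absurd h.1 hy
      have hs : σ ∘ Equiv.swap x y = Function.update (Function.update σ x 0) y 1 := by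
        funext z
        rw [hval]
        by_cases h1 : z = x
        · rw [if_pos h1, h1, Function.update_of_ne hxy, Function.update_self, hy0]
        · rw [if_neg h1]
          by_cases h2 : z = y
          · rw [if_pos h2, h2, Function.update_self, hx]
          · rw [if_neg h2, Function.update_of_ne h2, Function.update_of_ne h1]
      rw [if_neg c2]
      simp only [hsw, ← hs]
      have hne : σ ≠ σ ∘ Equiv.swap x y := by
        intro h
        have := congrFun h x
        rw [hval, if_pos rfl, hx, hy0] at this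
        exact absurd this (by decide)
      by_cases hτ : σ = τ
      · subst hτ
        simp [hx, hy0, hne]
      · by_cases hτ2 : τ = σ ∘ Equiv.swap x y
        · subst hτ2
          simp [hx, hy0, hne]
        · simp [hx, hy0, hτ, hτ2]
  · have hx0 : σ x = 0 := by
      by_contra h
      exact hx (fin2_ne h)
    have c1 : ¬ (σ x = 1 ∧ σ y = 0 ∧ τ = Function.update (Function.update σ x 0) y 1) :=
      fun h => absurd h.1 hx
    rw [if_neg c1]
    by_cases hy : σ y = 1
    · have hs : σ ∘ Equiv.swap x y = Function.update (Function.update σ y 0) x 1 := by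
        funext z
        rw [hval]
        by_cases h1 : z = x
        · rw [if_pos h1, h1, Function.update_self, hy]
        · rw [if_neg h1, Function.update_of_ne h1]
          by_cases h2 : z = y
          · rw [if_pos h2, h2, Function.update_self, hx0]
          · rw [if_neg h2, Function.update_of_ne h2]
      simp only [hsw, ← hs]
      have hne : σ ≠ σ ∘ Equiv.swap x y := by
        intro h
        have := congrFun h x
        rw [hval, if_pos rfl, hx0, hy] at this
        exact absurd this (by decide)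
      by_cases hτ : σ = τ
      · subst hτ
        simp [hx0, hy, hne]
      · by_cases hτ2 : τ = σ ∘ Equiv.swap x y
        · subst hτ2
          simp [hx0, hy, hne]
        · simp [hx0, hy, hτ, hτ2]
    · have hy0 : σ y = 0 := by
        by_contra h
        exact hy (fin2_ne h)
      have hs : σ ∘ Equiv.swap x y = σ := by
        funext z
        rw [hval]
        split_ifs with h1 h2
        · rw [h1, hx0, hy0]
        · rw [h2, hx0, hy0]
        · rfl
      have c2 : ¬ (σ y = 1 ∧ σ x = 0 ∧ τ = Function.update (Function.update σ y 0) x 1) :=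
        fun h => absurd h.1 hy
      rw [if_neg c2]
      simp only [hsw, hs]
      by_cases hτ : σ = τ
      · subst hτ
        simp [hx0, hy0]
      · have hτ' : ¬ τ = σ := fun h => hτ h.symm
        simp [hτ, hτ']

/-- One-particle form of a pair. -/
def pairK (x y : V) (u v : V) : ℝ :=
  ((if u = x then 1 else 0) - if u = y then 1 else 0) *
    ((if v = x then 1 else 0) - if v = y then 1 else 0)

theorem hcM_rank_one (f : V → ℝ) :
    hcM (fun u v => f u * f v) = (∑ u, f u • aM u)ᵀ * ∑ v, f v • aM v := by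
  rw [hcM, Matrix.transpose_sum, Finset.sum_mul]
  refine Finset.sum_congr rfl fun u _ => ?_
  rw [Finset.mul_sum]
  refine Finset.sum_congr rfl fun v _ => ?_
  rw [Matrix.transpose_smul, Matrix.smul_mul, Matrix.mul_smul, smul_smul]

theorem hcM_pairK {x y : V} (hxy : x ≠ y) :
    hcM (pairK x y) = (2 : ℝ) • hM x y + (2 : ℝ) • (nM x * nM y) := by
  rw [← hop_eq hxy]
  have h1 : (∑ u, (((if u = x then 1 else 0) - if u = y then 1 else 0 : ℝ)) • aM u) =
      aM x - aM y := by
    simp only [sub_smul, Finset.sum_sub_distrib, ite_smul, one_smul, zero_smul,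
      Finset.sum_ite_eq', Finset.mem_univ, if_true]
  have h2 := hcM_rank_one (fun u : V => ((if u = x then 1 else 0) - if u = y then 1 else 0 : ℝ))
  rw [h1] at h2
  exact h2

theorem hcM_one : hcM (fun x y : V => if x = y then (1 : ℝ) else 0) = ∑ x : V, nM x := by
  rw [hcM]
  refine Finset.sum_congr rfl fun x _ => ?_
  rw [Finset.sum_eq_single x]
  · rw [if_pos rfl, one_smul, aM_self]
  · intro y _ hy
    rw [if_neg (Ne.symm hy), zero_smul]
  · intro h; exact absurd (Finset.mem_univ _) h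

theorem hcM_symm {a : V → V → ℝ} (ha : ∀ x y, a x y = a y x) : (hcM a)ᵀ = hcM a := by
  rw [hcM, Matrix.transpose_sum]
  simp only [Matrix.transpose_sum, Matrix.transpose_smul, Matrix.transpose_mul,
    Matrix.transpose_transpose]
  rw [Finset.sum_comm]
  refine Finset.sum_congr rfl fun x _ => Finset.sum_congr rfl fun y _ => ?_
  rw [ha]

end

end Vale.Agent.P361.LRO.S3
end

section

/-!
P361 stage 3: one-particle part on the torus (Hartley basis, the form of the block average).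
-/

namespace Vale.Agent.P361.LRO.S3.OB

open Finset

noncomputable section

variable {n : ℕ} [NeZero n]

/-- The character `e^{2πi k·x/n}`. -/
def chi (k x : Tor n) : ℂ := ZMod.stdAddChar (∑ j, k j * x j)

lemma chi_add (k x y : Tor n) : chi k (x + y) = chi k x * chi k y := by
  unfold chi
  rw [← AddChar.map_add_eq_mul]
  congr 1
  rw [← Finset.sum_add_distrib]
  exact Finset.sum_congr rfl fun j _ => by rw [Pi.add_apply]; ring

lemma chi_comm (k x : Tor n) : chi k x = chi x k := by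
  unfold chi
  congr 1
  exact Finset.sum_congr rfl fun j _ => by ring

lemma chi_add_left (k l x : Tor n) : chi (k + l) x = chi k x * chi l x := by
  rw [chi_comm, chi_add, chi_comm x, chi_comm x]

lemma norm_chi (k x : Tor n) : ‖chi k x‖ = 1 := by
  unfold chi
  rw [ZMod.stdAddChar_apply]
  exact Circle.norm_coe _

lemma chi_neg (k x : Tor n) : chi k (-x) = (starRingEnd ℂ) (chi k x) := by
  unfold chi
  have : (∑ j, k j * (-x) j) = -(∑ j, k j * x j) := by
    rw [← Finset.sum_neg_distrib]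
    exact Finset.sum_congr rfl fun j _ => by rw [Pi.neg_apply]; ring
  rw [this, ZMod.stdAddChar_apply, ZMod.stdAddChar_apply, AddChar.map_neg_eq_inv,
    Circle.coe_inv_eq_conj]

lemma chi_neg_left (k x : Tor n) : chi (-k) x = (starRingEnd ℂ) (chi k x) := by
  rw [chi_comm, chi_neg, chi_comm]

lemma chi_sum (m : Tor n) : ∑ x, chi m x = if m = 0 then (n : ℂ) ^ 3 else 0 := by
  have h1 : ∀ x : Tor n, chi m x = ∏ j, (ZMod.stdAddChar (x j * m j) : ℂ) := by
    intro x
    unfold chi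
    rw [Fin.sum_univ_three, Fin.prod_univ_three, AddChar.map_add_eq_mul, AddChar.map_add_eq_mul,
      mul_comm (m 0), mul_comm (m 1), mul_comm (m 2)]
  simp only [h1]
  have h2 : ∑ x : Tor n, ∏ j, (ZMod.stdAddChar (x j * m j) : ℂ) =
      ∏ j : Fin 3, ∑ a : ZMod n, (ZMod.stdAddChar (a * m j) : ℂ) := by
    rw [Finset.prod_univ_sum]
    rw [Fintype.piFinset_univ]
  rw [h2]
  have h3 : ∀ b : ZMod n, ∑ a : ZMod n, (ZMod.stdAddChar (a * b) : ℂ) =
      if b = 0 then (n : ℂ) else 0 := by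
    intro b
    rw [AddChar.sum_mulShift b (ZMod.isPrimitive_stdAddChar n)]
    simp [ZMod.card]
  simp only [h3]
  by_cases hm : m = 0
  · subst hm
    simp
  · rw [if_neg hm]
    obtain ⟨j, hj⟩ := Function.ne_iff.1 hm
    exact Finset.prod_eq_zero (Finset.mem_univ j) (if_neg hj)

/-- Hartley basis. -/
def hb (k x : Tor n) : ℝ := ((chi k x).re + (chi k x).im) / Real.sqrt ((n : ℝ) ^ 3)

lemma hb_symm (k x : Tor n) : hb k x = hb x k := by
  unfold hb
  rw [chi_comm]

lemma hb_orth (k l : Tor n) : ∑ x, hb k x * hb l x = if k = l then 1 else 0 := by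
  have hn : (0 : ℝ) < (n : ℝ) ^ 3 := by
    have : (0 : ℝ) < n := by exact_mod_cast Nat.pos_of_ne_zero (NeZero.ne n)
    positivity
  have h1 : ∀ x, hb k x * hb l x =
      ((chi (k - l) x).re + (chi (k + l) x).im) / (n : ℝ) ^ 3 := by
    intro x
    unfold hb
    rw [div_mul_div_comm, Real.mul_self_sqrt hn.le, sub_eq_add_neg, chi_add_left, chi_add_left,
      chi_neg_left]
    congr 1
    simp only [Complex.mul_re, Complex.mul_im, Complex.conj_re, Complex.conj_im]
    ring
  simp only [h1]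
  rw [← Finset.sum_div, Finset.sum_add_distrib]
  have e1 : ∑ x, (chi (k - l) x).re = (∑ x, chi (k - l) x).re := by rw [Complex.re_sum]
  have e2 : ∑ x, (chi (k + l) x).im = (∑ x, chi (k + l) x).im := by rw [Complex.im_sum]
  rw [e1, e2, chi_sum, chi_sum]
  have e3 : ((n : ℂ) ^ 3) = (((n : ℝ) ^ 3 : ℝ) : ℂ) := by push_cast; ring
  by_cases hkl : k = l
  · subst hkl
    rw [if_pos rfl, sub_self, if_pos rfl, e3]
    split_ifs
    · rw [Complex.ofReal_re, Complex.ofReal_im, add_zero, div_self hn.ne']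
    · simp only [Complex.ofReal_re, Complex.zero_im, add_zero]
      rw [div_self hn.ne']
  · rw [if_neg hkl, if_neg (sub_ne_zero.2 hkl), e3]
    split_ifs
    · rw [Complex.zero_re, Complex.ofReal_im, add_zero, zero_div]
    · rw [Complex.zero_re, Complex.zero_im, add_zero, zero_div]

lemma hb_compl (x y : Tor n) : ∑ k, hb k x * hb k y = if x = y then 1 else 0 := by
  simp only [hb_symm _ x, hb_symm _ y]
  exact hb_orth x y

lemma hb_avg (k u d : Tor n) : hb k (u + d) + hb k (u - d) = 2 * (chi k d).re * hb k u := by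
  unfold hb
  rw [sub_eq_add_neg, chi_add, chi_add, chi_neg]
  simp only [Complex.mul_re, Complex.mul_im, Complex.conj_re, Complex.conj_im]
  ring

/-- `|δ_x - δ_y⟩⟨δ_x - δ_y|`. -/
def dd {V : Type} [DecidableEq V] (x y u v : V) : ℝ :=
  ((if u = x then 1 else 0) - (if u = y then 1 else 0)) *
    ((if v = x then 1 else 0) - (if v = y then 1 else 0))

lemma dd_apply {V : Type} [Fintype V] [DecidableEq V] (x y u : V) (f : V → ℝ) :
    ∑ v, dd x y u v * f v = ((if u = x then 1 else 0) - (if u = y then 1 else 0)) * (f x - f y) := by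
  unfold dd
  have : ∀ v, ((if u = x then (1 : ℝ) else 0) - (if u = y then 1 else 0)) *
    ((if v = x then 1 else 0) - (if v = y then 1 else 0)) * f v =
    ((if u = x then (1 : ℝ) else 0) - (if u = y then 1 else 0)) *
      ((if v = x then f v else 0) - (if v = y then f v else 0)) := by
    intro v
    split_ifs <;> ring
  simp only [this]
  rw [← Finset.mul_sum, Finset.sum_sub_distrib]
  simp

/-- Its eigenvalues `∑_j (1 - cos (2π k_j / n))`. -/
def tq (k : Tor n) : ℝ := ∑ j : Fin 3, (1 - (chi k (Pi.single j 1)).re)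

/-- The offset of a site of the cube. -/
def io (n : ℕ) {w : ℕ} (a : Fin 3 → Fin w) : Tor n := fun i => ((a i : ℕ) : ZMod n)

/-- Its eigenvalues. -/
def gq (w : ℕ) (k : Tor n) : ℝ :=
  (∑ a : Fin 3 → Fin w, ∑ b : Fin 3 → Fin w, (1 - (chi k (io n a - io n b)).re)) / (w : ℝ) ^ 6

lemma re_chi_le (k x : Tor n) : (chi k x).re ≤ 1 := by
  rw [← norm_chi k x]
  exact Complex.re_le_norm _

lemma tq_nonneg (k : Tor n) : 0 ≤ tq k :=
  Finset.sum_nonneg fun j _ => sub_nonneg.2 (re_chi_le _ _)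

lemma gq_nonneg (w : ℕ) (k : Tor n) : 0 ≤ gq w k :=
  div_nonneg (Finset.sum_nonneg fun a _ => Finset.sum_nonneg fun b _ =>
    sub_nonneg.2 (re_chi_le _ _)) (by positivity)

lemma gq_le_one (w : ℕ) (k : Tor n) : gq w k ≤ 1 := by
  unfold gq
  rcases Nat.eq_zero_or_pos w with hw | hw
  · subst hw; simp
  have hw' : (0 : ℝ) < (w : ℝ) ^ 6 := by positivity
  rw [div_le_one hw']
  have h1 : ∑ a : Fin 3 → Fin w, ∑ b : Fin 3 → Fin w, (chi k (io n a - io n b)).re =
      ‖∑ a : Fin 3 → Fin w, chi k (io n a)‖ ^ 2 := by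
    have h2 : ((‖∑ a : Fin 3 → Fin w, chi k (io n a)‖ ^ 2 : ℝ) : ℂ) =
        (∑ a : Fin 3 → Fin w, chi k (io n a)) *
          (starRingEnd ℂ) (∑ a : Fin 3 → Fin w, chi k (io n a)) := by
      rw [Complex.mul_conj, Complex.normSq_eq_norm_sq]
    have h3 : ((‖∑ a : Fin 3 → Fin w, chi k (io n a)‖ ^ 2 : ℝ) : ℂ).re =
        (∑ a : Fin 3 → Fin w, ∑ b : Fin 3 → Fin w, chi k (io n a - io n b)).re := by
      rw [h2, map_sum, Finset.sum_mul_sum]
      congr 1
      refine Finset.sum_congr rfl fun a _ => Finset.sum_congr rfl fun b _ => ?_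
      rw [sub_eq_add_neg, chi_add, chi_neg]
    rw [Complex.ofReal_re] at h3
    rw [h3, Complex.re_sum]
    exact Finset.sum_congr rfl fun a _ => (Complex.re_sum _ _).symm
  have h4 : ∑ a : Fin 3 → Fin w, ∑ b : Fin 3 → Fin w, (1 - (chi k (io n a - io n b)).re) =
      (w : ℝ) ^ 6 - ‖∑ a : Fin 3 → Fin w, chi k (io n a)‖ ^ 2 := by
    rw [← h1]
    simp only [Finset.sum_sub_distrib]
    congr 1
    simp
    ring
  rw [h4]
  have := sq_nonneg ‖∑ a : Fin 3 → Fin w, chi k (io n a)‖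
  linarith

lemma norm_one_sub_mul {x y : ℂ} (hx : ‖x‖ = 1) : ‖1 - x * y‖ ≤ ‖1 - x‖ + ‖1 - y‖ := by
  have h1 : 1 - x * y = (1 - x) + x * (1 - y) := by ring
  rw [h1]
  refine (norm_add_le _ _).trans ?_
  rw [norm_mul, hx, one_mul]

lemma norm_one_sub_pow {x : ℂ} (hx : ‖x‖ = 1) (m : ℕ) : ‖1 - x ^ m‖ ≤ m * ‖1 - x‖ := by
  induction m with
  | zero => simp
  | succ m ih =>
    rw [pow_succ']
    refine (norm_one_sub_mul hx).trans ?_
    push_cast
    linarith

lemma chi_io (k : Tor n) {w : ℕ} (a : Fin 3 → Fin w) :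
    chi k (io n a) = ∏ j : Fin 3, chi k (Pi.single j 1) ^ (a j : ℕ) := by
  have h1 : ∀ (j : Fin 3) (m : ℕ), chi k (Pi.single j 1) ^ m = ZMod.stdAddChar (k j * (m : ZMod n)) := by
    intro j m
    unfold chi
    rw [← AddChar.map_nsmul_eq_pow]
    congr 1
    rw [Finset.sum_eq_single j]
    · simp [mul_comm]
    · intro i _ hi
      rw [Pi.single_eq_of_ne hi, mul_zero]
    · intro h
      exact absurd (Finset.mem_univ _) h
  simp only [h1]
  unfold chi io
  rw [Fin.sum_univ_three, Fin.prod_univ_three, AddChar.map_add_eq_mul, AddChar.map_add_eq_mul]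

lemma norm_one_sub_sq (k x : Tor n) : ‖1 - chi k x‖ ^ 2 = 2 * (1 - (chi k x).re) := by
  have h1 := norm_chi k x
  have h2 : (chi k x).re ^ 2 + (chi k x).im ^ 2 = 1 := by
    have := Complex.normSq_eq_norm_sq (chi k x)
    rw [h1, Complex.normSq_apply] at this
    nlinarith
  rw [← Complex.normSq_eq_norm_sq, Complex.normSq_apply]
  simp only [Complex.sub_re, Complex.sub_im, Complex.one_re, Complex.one_im]
  nlinarith

lemma norm_one_sub_io (k : Tor n) {w : ℕ} (a : Fin 3 → Fin w) :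
    ‖1 - chi k (io n a)‖ ≤ w * ∑ j : Fin 3, ‖1 - chi k (Pi.single j 1)‖ := by
  have hp : ∀ (j : Fin 3) (m : ℕ), ‖chi k (Pi.single j 1) ^ m‖ = 1 := by
    intro j m
    rw [norm_pow, norm_chi, one_pow]
  have hq : ∀ (j : Fin 3), ‖1 - chi k (Pi.single j 1) ^ (a j : ℕ)‖ ≤
      w * ‖1 - chi k (Pi.single j 1)‖ := by
    intro j
    refine (norm_one_sub_pow (norm_chi _ _) _).trans ?_
    refine mul_le_mul_of_nonneg_right ?_ (norm_nonneg _)
    exact_mod_cast (a j).2.le
  rw [chi_io, Fin.prod_univ_three, Fin.sum_univ_three, mul_assoc]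
  have h1 := norm_one_sub_mul (x := chi k (Pi.single 0 1) ^ (a 0 : ℕ))
    (y := chi k (Pi.single 1 1) ^ (a 1 : ℕ) * chi k (Pi.single 2 1) ^ (a 2 : ℕ)) (hp 0 _)
  have h2 := norm_one_sub_mul (x := chi k (Pi.single 1 1) ^ (a 1 : ℕ))
    (y := chi k (Pi.single 2 1) ^ (a 2 : ℕ)) (hp 1 _)
  have h3 := hq 0
  have h4 := hq 1
  have h5 := hq 2
  linarith

lemma gq_le (w : ℕ) (k : Tor n) : gq w k ≤ 12 * (w : ℝ) ^ 2 * tq k := by
  rcases Nat.eq_zero_or_pos w with hw | hw
  · subst hw; simp [gq]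
  have hw' : (0 : ℝ) < (w : ℝ) ^ 6 := by positivity
  have key : ∀ a b : Fin 3 → Fin w, 1 - (chi k (io n a - io n b)).re ≤
      12 * (w : ℝ) ^ 2 * tq k := by
    intro a b
    set s : ℝ := ∑ j : Fin 3, ‖1 - chi k (Pi.single j 1)‖ with hs
    have h1 := norm_one_sub_io k a
    have h2 := norm_one_sub_io k b
    rw [← hs] at h1 h2
    have h3 : ‖1 - chi k (io n a - io n b)‖ ≤ 2 * w * s := by
      rw [sub_eq_add_neg (io n a), chi_add]
      refine (norm_one_sub_mul (norm_chi _ _)).trans ?_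
      have h4 : ‖1 - chi k (-io n b)‖ = ‖1 - chi k (io n b)‖ := by
        rw [chi_neg]
        have : 1 - (starRingEnd ℂ) (chi k (io n b)) = (starRingEnd ℂ) (1 - chi k (io n b)) := by
          rw [map_sub, map_one]
        rw [this, Complex.norm_conj]
      rw [h4]
      linarith
    have h5 := norm_one_sub_sq k (io n a - io n b)
    have h6 : ‖1 - chi k (io n a - io n b)‖ ^ 2 ≤ (2 * w * s) ^ 2 :=
      pow_le_pow_left₀ (norm_nonneg _) h3 2
    have h7 : s ^ 2 ≤ 3 * ∑ j : Fin 3, ‖1 - chi k (Pi.single j 1)‖ ^ 2 := by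
      rw [hs, Fin.sum_univ_three, Fin.sum_univ_three]
      nlinarith [sq_nonneg (‖1 - chi k (Pi.single 0 1)‖ - ‖1 - chi k (Pi.single 1 1)‖),
        sq_nonneg (‖1 - chi k (Pi.single 1 1)‖ - ‖1 - chi k (Pi.single 2 1)‖),
        sq_nonneg (‖1 - chi k (Pi.single 0 1)‖ - ‖1 - chi k (Pi.single 2 1)‖)]
    have h8 : ∑ j : Fin 3, ‖1 - chi k (Pi.single j 1)‖ ^ 2 = 2 * tq k := by
      rw [tq, Finset.mul_sum]
      exact Finset.sum_congr rfl fun j _ => norm_one_sub_sq _ _
    rw [h8] at h7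
    have h9 : (2 * (w : ℝ) * s) ^ 2 = 4 * (w : ℝ) ^ 2 * s ^ 2 := by ring
    rw [h9] at h6
    have hw2 : (0 : ℝ) ≤ (w : ℝ) ^ 2 := by positivity
    nlinarith [mul_le_mul_of_nonneg_left h7 hw2]
  unfold gq
  rw [div_le_iff₀ hw']
  calc _ ≤ ∑ _a : Fin 3 → Fin w, ∑ _b : Fin 3 → Fin w, 12 * (w : ℝ) ^ 2 * tq k :=
        Finset.sum_le_sum fun a _ => Finset.sum_le_sum fun b _ => key a b
    _ = _ := by
        simp
        ring


lemma tq_eq (k : Tor n) :
    tq k = ∑ j : Fin 3, (1 - Real.cos (2 * Real.pi * ((k j).val : ℝ) / n)) := by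
  unfold tq
  refine Finset.sum_congr rfl fun j _ => ?_
  congr 1
  have h1 : chi k (Pi.single j 1) = ZMod.stdAddChar (((k j).val : ℤ) : ZMod n) := by
    unfold chi
    congr 1
    rw [Finset.sum_eq_single j]
    · rw [Pi.single_eq_same, mul_one]
      push_cast
      exact (ZMod.natCast_zmod_val (k j)).symm
    · intro i _ hi
      rw [Pi.single_eq_of_ne hi, mul_zero]
    · intro h
      exact absurd (Finset.mem_univ _) h
  rw [h1, ZMod.stdAddChar_coe]
  have h2 : (2 * (Real.pi : ℂ) * Complex.I * (((k j).val : ℤ) : ℂ) / n) =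
      ((2 * Real.pi * ((k j).val : ℝ) / n : ℝ) : ℂ) * Complex.I := by
    push_cast
    ring
  rw [h2, Complex.exp_ofReal_mul_I_re]

/-- Convexity of `-log (1 - e^{-x})`. -/
lemma neg_log_shift {x d : ℝ} (hd : 0 ≤ d) (hx : d < x) :
    -Real.log (1 - Real.exp (-(x - d))) ≤
      -Real.log (1 - Real.exp (-x)) + d * (1 / (Real.exp (x - d) - 1)) := by
  have h1 : 0 < x - d := by linarith
  have hx0 : 0 < x := by linarith
  have e1 : 0 < 1 - Real.exp (-(x - d)) := by
    have : Real.exp (-(x - d)) < 1 := by rw [Real.exp_lt_one_iff]; linarith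
    linarith
  have e2 : 0 < 1 - Real.exp (-x) := by
    have : Real.exp (-x) < 1 := by rw [Real.exp_lt_one_iff]; linarith
    linarith
  have e3 : 0 < Real.exp (x - d) - 1 := by
    have : 1 < Real.exp (x - d) := by rw [Real.one_lt_exp_iff]; exact h1
    linarith
  have h2 : Real.log (1 - Real.exp (-x)) - Real.log (1 - Real.exp (-(x - d))) ≤
      (1 - Real.exp (-x)) / (1 - Real.exp (-(x - d))) - 1 := by
    rw [← Real.log_div e2.ne' e1.ne']
    exact Real.log_le_sub_one_of_pos (div_pos e2 e1)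
  have h3 : (1 - Real.exp (-x)) / (1 - Real.exp (-(x - d))) - 1 ≤
      d * (1 / (Real.exp (x - d) - 1)) := by
    rw [div_sub_one e1.ne']
    have h4 : 1 - Real.exp (-x) - (1 - Real.exp (-(x - d))) =
        Real.exp (-(x - d)) * (1 - Real.exp (-d)) := by
      have : Real.exp (-x) = Real.exp (-(x - d)) * Real.exp (-d) := by
        rw [← Real.exp_add]; congr 1; ring
      rw [this]; ring
    have h5 : 1 - Real.exp (-d) ≤ d := by
      have := Real.add_one_le_exp (-d)
      linarith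
    have h6 : 1 - Real.exp (-(x - d)) = Real.exp (-(x - d)) * (Real.exp (x - d) - 1) := by
      have : Real.exp (-(x - d)) * Real.exp (x - d) = 1 := by
        rw [← Real.exp_add]; simp
      rw [mul_sub, this, mul_one]
    rw [h4, h6, mul_div_mul_left _ _ (Real.exp_pos _).ne', mul_one_div]
    exact div_le_div_of_nonneg_right h5 e3.le
  linarith

lemma bose_anti {x y : ℝ} (hx : 0 < x) (hxy : x ≤ y) :
    1 / (Real.exp y - 1) ≤ 1 / (Real.exp x - 1) := by
  have e3 : 0 < Real.exp x - 1 := by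
    have : 1 < Real.exp x := by rw [Real.one_lt_exp_iff]; exact hx
    linarith
  refine one_div_le_one_div_of_le e3 ?_
  have := Real.exp_le_exp.2 hxy
  linarith

end

end Vale.Agent.P361.LRO.S3.OB
end

section

/-!
P361, block (1): `(A_N)^N → exp X` if `N (A_N - 1) → X`, and products.
-/

namespace Vale.Agent.P361.LRO.Trot

open Filter Topology NormedSpace

/-- first order of a product -/
theorem first_mul {R : Type*} [NormedRing R] [NormedAlgebra ℝ R] {a b : ℕ → R} {x y : R}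
    (ha : Tendsto (fun N : ℕ => (N : ℝ) • (a N - 1)) atTop (𝓝 x))
    (hb : Tendsto (fun N : ℕ => (N : ℝ) • (b N - 1)) atTop (𝓝 y)) :
    Tendsto (fun N : ℕ => (N : ℝ) • (a N * b N - 1)) atTop (𝓝 (x + y)) := by
  have hb1 : Tendsto b atTop (𝓝 1) := by
    have h1 : Tendsto (fun N : ℕ => (N : ℝ)⁻¹ • ((N : ℝ) • (b N - 1))) atTop (𝓝 ((0 : ℝ) • y)) :=
      (tendsto_inv_atTop_nhds_zero_nat (𝕜 := ℝ)).smul hb
    rw [zero_smul] at h1
    have h2 : Tendsto (fun N : ℕ => (N : ℝ)⁻¹ • ((N : ℝ) • (b N - 1)) + 1) atTop (𝓝 (0 + 1)) :=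
      h1.add tendsto_const_nhds
    rw [zero_add] at h2
    refine h2.congr' ?_
    filter_upwards [eventually_gt_atTop 0] with N hN
    have hN' : (N : ℝ) ≠ 0 := by exact_mod_cast hN.ne'
    rw [smul_smul, inv_mul_cancel₀ hN', one_smul]
    abel
  have h3 := (ha.mul hb1).add hb
  rw [mul_one] at h3
  refine h3.congr fun N => ?_
  rw [smul_mul_assoc, ← smul_add]
  congr 1
  noncomm_ring

/-- first order of a product over a list -/
theorem first_list {R : Type*} [NormedRing R] [NormedAlgebra ℝ R] {ι : Type*} (L : List ι)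
    (a : ι → ℕ → R) (x : ι → R)
    (ha : ∀ i ∈ L, Tendsto (fun N : ℕ => (N : ℝ) • (a i N - 1)) atTop (𝓝 (x i))) :
    Tendsto (fun N : ℕ => (N : ℝ) • ((L.map fun i => a i N).prod - 1)) atTop
      (𝓝 (L.map x).sum) := by
  induction L with
  | nil => simp
  | cons i L ih =>
    simp only [List.map_cons, List.prod_cons, List.sum_cons]
    exact first_mul (ha i (by simp)) (ih fun j hj => ha j (by simp [hj]))

/-- first order of a product over a finite set (commutative) -/
theorem first_prod {R : Type*} [NormedCommRing R] [NormedAlgebra ℝ R] {ι : Type*}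
    (s : Finset ι) (a : ι → ℕ → R) (x : ι → R)
    (ha : ∀ i ∈ s, Tendsto (fun N : ℕ => (N : ℝ) • (a i N - 1)) atTop (𝓝 (x i))) :
    Tendsto (fun N : ℕ => (N : ℝ) • ((∏ i ∈ s, a i N) - 1)) atTop (𝓝 (∑ i ∈ s, x i)) := by
  classical
  induction s using Finset.induction_on with
  | empty => simp
  | insert i s hi ih =>
    simp only [Finset.prod_insert hi, Finset.sum_insert hi]
    exact first_mul (ha i (by simp)) (ih fun j hj => ha j (by simp [hj]))

/-- **The limit of powers.** -/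
theorem pow_tendsto_exp {𝔸 : Type*} [NormedRing 𝔸] [NormedAlgebra ℝ 𝔸] [CompleteSpace 𝔸]
    (h1 : ‖(1 : 𝔸)‖ ≤ 1) {a : ℕ → 𝔸} {x : 𝔸}
    (ha : Tendsto (fun N : ℕ => (N : ℝ) • (a N - 1)) atTop (𝓝 x)) :
    Tendsto (fun N : ℕ => a N ^ N) atTop (𝓝 (exp x)) := by
  set c : ℝ := ‖x‖ + 1 with hc
  have hc0 : 0 < c := by positivity
  -- norms of `a N`
  have hn : ∀ᶠ N : ℕ in atTop, ‖a N‖ ≤ Real.exp (c / N) := by
    have h2 : ∀ᶠ N : ℕ in atTop, ‖(N : ℝ) • (a N - 1)‖ < c :=
      (ha.norm).eventually_lt_const (by rw [hc]; linarith)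
    filter_upwards [h2, eventually_gt_atTop 0] with N hN hN0
    have hN' : (0 : ℝ) < N := by exact_mod_cast hN0
    rw [norm_smul, Real.norm_natCast] at hN
    have h3 : ‖a N - 1‖ ≤ c / N := by
      rw [le_div_iff₀ hN', mul_comm]
      exact hN.le
    calc ‖a N‖ = ‖(a N - 1) + 1‖ := by rw [sub_add_cancel]
      _ ≤ ‖a N - 1‖ + ‖(1 : 𝔸)‖ := norm_add_le _ _
      _ ≤ c / N + 1 := add_le_add h3 h1
      _ ≤ Real.exp (c / N) := Real.add_one_le_exp _
  have he : ∀ᶠ N : ℕ in atTop, ‖exp ((N : ℝ)⁻¹ • x)‖ ≤ Real.exp (c / N) := by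
    filter_upwards [eventually_gt_atTop 0] with N hN0
    have hN' : (0 : ℝ) < N := by exact_mod_cast hN0
    refine (norm_exp_le h1 _).trans (Real.exp_le_exp.2 ?_)
    rw [norm_smul, norm_inv, Real.norm_natCast, div_eq_inv_mul]
    gcongr
    rw [hc]
    linarith
  -- `N (exp (x/N) - 1) → x`
  have hx : Tendsto (fun N : ℕ => (N : ℝ) • (exp ((N : ℝ)⁻¹ • x) - 1)) atTop (𝓝 x) := by
    rw [tendsto_iff_norm_sub_tendsto_zero]
    have hb : ∀ᶠ N : ℕ in atTop, ‖(N : ℝ) • (exp ((N : ℝ)⁻¹ • x) - 1) - x‖ ≤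
        (‖x‖ ^ 2 * Real.exp ‖x‖) * (N : ℝ)⁻¹ := by
      filter_upwards [eventually_gt_atTop 0] with N hN0
      have hN' : (0 : ℝ) < N := by exact_mod_cast hN0
      have hN1 : (1 : ℝ) ≤ N := by exact_mod_cast hN0
      have e : (N : ℝ) • (exp ((N : ℝ)⁻¹ • x) - 1) - x =
          (N : ℝ) • (exp ((N : ℝ)⁻¹ • x) - 1 - (N : ℝ)⁻¹ • x) := by
        rw [smul_sub (N : ℝ) (exp ((N : ℝ)⁻¹ • x) - 1), smul_smul, mul_inv_cancel₀ hN'.ne',
          one_smul]
      rw [e, norm_smul, Real.norm_natCast]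
      have h3 := norm_exp_sub_one_sub_le ((N : ℝ)⁻¹ • x)
      have h4 : ‖(N : ℝ)⁻¹ • x‖ = (N : ℝ)⁻¹ * ‖x‖ := by
        rw [norm_smul, norm_inv, Real.norm_natCast]
      rw [h4] at h3
      have h5 := exp_rem_le (x := (N : ℝ)⁻¹ * ‖x‖) (by positivity)
      have h6 : Real.exp ((N : ℝ)⁻¹ * ‖x‖) ≤ Real.exp ‖x‖ := by
        apply Real.exp_le_exp.2
        have : (N : ℝ)⁻¹ ≤ 1 := inv_le_one_of_one_le₀ hN1
        nlinarith [norm_nonneg x]
      calc (N : ℝ) * ‖exp ((N : ℝ)⁻¹ • x) - 1 - (N : ℝ)⁻¹ • x‖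
          ≤ (N : ℝ) * (((N : ℝ)⁻¹ * ‖x‖) ^ 2 * Real.exp ‖x‖) := by
            gcongr
            exact h3.trans (h5.trans (by gcongr))
        _ = (‖x‖ ^ 2 * Real.exp ‖x‖) * (N : ℝ)⁻¹ := by
            field_simp
    have h0 : Tendsto (fun N : ℕ => (‖x‖ ^ 2 * Real.exp ‖x‖) * (N : ℝ)⁻¹) atTop (𝓝 0) := by
      have := (tendsto_inv_atTop_nhds_zero_nat (𝕜 := ℝ)).const_mul (‖x‖ ^ 2 * Real.exp ‖x‖)
      rwa [mul_zero] at this
    exact squeeze_zero' (Eventually.of_forall fun N => norm_nonneg _) hb h0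
  have hd : Tendsto (fun N : ℕ => (N : ℝ) * ‖a N - exp ((N : ℝ)⁻¹ • x)‖) atTop (𝓝 0) := by
    have h2 := (ha.sub hx).norm
    rw [sub_self, norm_zero] at h2
    refine h2.congr fun N => ?_
    rw [← smul_sub, norm_smul, Real.norm_natCast]
    congr 2
    abel
  rw [tendsto_iff_norm_sub_tendsto_zero]
  have hfin : ∀ᶠ N : ℕ in atTop, ‖a N ^ N - exp x‖ ≤
      Real.exp c * ((N : ℝ) * ‖a N - exp ((N : ℝ)⁻¹ • x)‖) := by
    filter_upwards [hn, he, eventually_gt_atTop 0] with N hN1 hN2 hN0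
    have hN' : (0 : ℝ) < N := by exact_mod_cast hN0
    have h2 : exp x = exp ((N : ℝ)⁻¹ • x) ^ N := by
      let _ : NormedAlgebra ℚ 𝔸 := NormedAlgebra.restrictScalars ℚ ℝ 𝔸
      rw [← NormedSpace.exp_nsmul, ← Nat.cast_smul_eq_nsmul ℝ, smul_smul,
        mul_inv_cancel₀ hN'.ne', one_smul]
    rw [h2]
    refine (norm_pow_sub_pow_le (Real.one_le_exp (by positivity)) hN1 hN2 N h1).trans
      (le_of_eq ?_)
    rw [← Real.exp_nat_mul]
    have : (N : ℝ) * (c / N) = c := by field_simp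
    rw [this]
    ring
  have h0 := hd.const_mul (Real.exp c)
  rw [mul_zero] at h0
  exact squeeze_zero' (Eventually.of_forall fun N => norm_nonneg _) hfin h0

end Vale.Agent.P361.LRO.Trot
end

section

/-!
P361, block (1): the limit `N → ∞` of the twist inequality.
-/

namespace Vale.Agent.P361.LRO

open Finset Matrix Filter Topology

noncomputable section

variable {V : Type} [Fintype V] [DecidableEq V]

section lim

set_option linter.unusedSectionVars false

open scoped Matrix.Norms.Operator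

theorem norm_one_le_real {m : Type} [Fintype m] [DecidableEq m] : ‖(1 : Matrix m m ℝ)‖ ≤ 1 := by
  rcases isEmpty_or_nonempty m with h | h
  · have : (1 : Matrix m m ℝ) = 0 := Subsingleton.elim _ _
    rw [this, norm_zero]
    exact zero_le_one
  · rw [norm_one]

theorem gate_first (x y : V) (β : ℝ) :
    Tendsto (fun N : ℕ => (N : ℝ) • (((1 - β / (2 * N)) •
      (1 : Matrix (V → Fin 2) (V → Fin 2) ℝ) + (β / (2 * N)) • swapM x y) - 1)) atTop
      (𝓝 (-β • hM x y)) := by
  refine Tendsto.congr' ?_ tendsto_const_nhds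
  filter_upwards [eventually_gt_atTop 0] with N hN
  have hN' : (N : ℝ) ≠ 0 := by exact_mod_cast hN.ne'
  ext σ τ
  simp only [hM, Matrix.smul_apply, Matrix.add_apply, Matrix.sub_apply, smul_eq_mul]
  field_simp
  ring

theorem slice_first (β : ℝ) (h : V → ℝ) :
    Tendsto (fun N : ℕ => (N : ℝ) • ((Matrix.diagonal fun σ : V → Fin 2 =>
      ∏ x, (1 + β * h x / (2 * N) * if σ x = 0 then 1 else -1)) - 1)) atTop
      (𝓝 (β • ∑ x, (h x / 2) • szM x)) := by
  have key : ∀ σ : V → Fin 2, Tendsto (fun N : ℕ => (N : ℝ) *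
      ((∏ x, (1 + β * h x / (2 * N) * if σ x = 0 then (1 : ℝ) else -1)) - 1)) atTop
      (𝓝 (∑ x, β * (h x / 2) * if σ x = 0 then (1 : ℝ) else -1)) := by
    intro σ
    have h1 := Trot.first_prod (R := ℝ) Finset.univ
      (fun (x : V) (N : ℕ) => 1 + β * h x / (2 * N) * if σ x = 0 then (1 : ℝ) else -1)
      (fun x => β * (h x / 2) * if σ x = 0 then (1 : ℝ) else -1) (fun x _ => by
        refine Tendsto.congr' ?_ tendsto_const_nhds
        filter_upwards [eventually_gt_atTop 0] with N hN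
        have hN' : (N : ℝ) ≠ 0 := by exact_mod_cast hN.ne'
        simp only [smul_eq_mul]
        field_simp
        ring)
    simpa only [smul_eq_mul] using h1
  have hlim : (β • ∑ x, (h x / 2) • szM x : Matrix (V → Fin 2) (V → Fin 2) ℝ) =
      Matrix.diagonal fun σ : V → Fin 2 => ∑ x, β * (h x / 2) * if σ x = 0 then (1 : ℝ) else -1 := by
    ext σ τ
    simp only [Matrix.smul_apply, Matrix.sum_apply, szM, Matrix.diagonal_apply, smul_eq_mul]
    by_cases hst : σ = τ
    · simp only [hst, if_true]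
      rw [Finset.mul_sum]
      refine Finset.sum_congr rfl fun x _ => ?_
      ring
    · simp [hst]
  rw [hlim]
  have hfun : (fun N : ℕ => (N : ℝ) • ((Matrix.diagonal fun σ : V → Fin 2 =>
      ∏ x, (1 + β * h x / (2 * N) * if σ x = 0 then (1 : ℝ) else -1)) - 1)) =
      fun N : ℕ => Matrix.diagonal fun σ : V → Fin 2 => (N : ℝ) *
      ((∏ x, (1 + β * h x / (2 * N) * if σ x = 0 then (1 : ℝ) else -1)) - 1) := by
    funext N
    ext σ τ
    simp only [Matrix.smul_apply, Matrix.sub_apply, Matrix.diagonal_apply, smul_eq_mul,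
      Matrix.one_apply]
    split_ifs <;> simp
  rw [hfun]
  have hcont : Continuous (fun d : (V → Fin 2) → ℝ => Matrix.diagonal d) :=
    continuous_id.matrix_diagonal
  exact (hcont.tendsto _).comp (tendsto_pi_nhds.2 key)

theorem stepM_first (L : List (V × V)) (β : ℝ) (h : V → ℝ) :
    Tendsto (fun N : ℕ => (N : ℝ) • (stepM L β h N - 1)) atTop (𝓝 (-β • ham L h)) := by
  have h1 := Trot.first_list (R := Matrix (V → Fin 2) (V → Fin 2) ℝ) L
    (fun e N => (1 - β / (2 * N)) • (1 : Matrix (V → Fin 2) (V → Fin 2) ℝ) +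
    (β / (2 * N)) • swapM e.1 e.2) (fun e => -β • hM e.1 e.2) fun e _ => gate_first e.1 e.2 β
  have h2 := Trot.first_mul h1 (slice_first β h)
  have h4 : ∀ M : List (V × V), (M.map fun e => -β • hM e.1 e.2).sum =
      -β • (M.map fun e => hM e.1 e.2).sum := by
    intro M
    induction M with
    | nil => simp
    | cons e M ih => rw [List.map_cons, List.sum_cons, ih, List.map_cons, List.sum_cons, smul_add]
  have h3 : (L.map fun e => -β • hM e.1 e.2).sum + (β • ∑ x, (h x / 2) • szM x) =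
      -β • ham L h := by
    rw [h4, ham, smul_sub, sub_eq_add_neg, ← neg_smul (-β), neg_neg]
  rw [h3] at h2
  exact h2

/-- **The word converges to the Gibbs operator.** -/
theorem stepM_tendsto (L : List (V × V)) (β : ℝ) (h : V → ℝ) :
    Tendsto (fun N : ℕ => stepM L β h N ^ N) atTop (𝓝 (NormedSpace.exp (-β • ham L h))) :=
  Trot.pow_tendsto_exp norm_one_le_real (stepM_first L β h)

end lim

/-- The twisted weight. -/
def ZTw (W : Matrix (V → Fin 2) (V → Fin 2) ℝ) (b : Finset V) (θ φ : ℝ) : ℝ :=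
  Matrix.trace (W * rotT b θ φ)

theorem continuous_rotM (θ : ℝ) (i j : Fin 2) : Continuous fun φ : ℝ => rotM θ φ i j := by
  fin_cases i <;> fin_cases j <;> simp only [rotM] <;> simp <;> fun_prop

theorem continuous_rotT (b : Finset V) (θ : ℝ) (σ τ : V → Fin 2) :
    Continuous fun φ : ℝ => rotT b θ φ σ τ := by
  unfold rotT
  simp only [Matrix.of_apply]
  refine continuous_finsetProd _ fun x _ => ?_
  by_cases hx : x ∈ b
  · simp only [hx, if_true]
    exact continuous_rotM θ (σ x) (τ x)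
  · simp only [hx, if_false]
    exact continuous_const

theorem ZTw_eq (W : Matrix (V → Fin 2) (V → Fin 2) ℝ) (b : Finset V) (θ φ : ℝ) :
    ZTw W b θ φ = ∑ σ, ∑ τ, W σ τ * rotT b θ φ τ σ := by
  simp only [ZTw, Matrix.trace, Matrix.diag_apply, Matrix.mul_apply]

theorem int_ZTw (W : Matrix (V → Fin 2) (V → Fin 2) ℝ) (b : Finset V) (θ : ℝ) {g : ℝ → ℝ}
    (hg : Continuous g) :
    (∫ φ in (0 : ℝ)..Real.pi, g φ * ZTw W b θ φ) =
      ∑ σ, ∑ τ, W σ τ * ∫ φ in (0 : ℝ)..Real.pi, g φ * rotT b θ φ τ σ := by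
  have h1 : ∀ σ τ, Continuous fun φ => g φ * (W σ τ * rotT b θ φ τ σ) := fun σ τ =>
    hg.mul (continuous_const.mul (continuous_rotT b θ τ σ))
  have h2 : ∀ σ, Continuous fun φ => ∑ τ, g φ * (W σ τ * rotT b θ φ τ σ) := fun σ =>
    continuous_finsetSum _ fun τ _ => h1 σ τ
  have h3 : (fun φ => g φ * ZTw W b θ φ) = fun φ => ∑ σ, ∑ τ, g φ * (W σ τ * rotT b θ φ τ σ) := by
    funext φ
    rw [ZTw_eq, Finset.mul_sum]
    exact Finset.sum_congr rfl fun σ _ => Finset.mul_sum _ _ _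
  rw [h3, intervalIntegral.integral_finsetSum fun σ _ => (h2 σ).intervalIntegrable _ _]
  refine Finset.sum_congr rfl fun σ _ => ?_
  rw [intervalIntegral.integral_finsetSum fun τ _ => (h1 σ τ).intervalIntegrable _ _]
  refine Finset.sum_congr rfl fun τ _ => ?_
  rw [← intervalIntegral.integral_const_mul]
  refine intervalIntegral.integral_congr fun φ _ => ?_
  ring

theorem tendsto_int_ZTw {W : ℕ → Matrix (V → Fin 2) (V → Fin 2) ℝ}
    {W0 : Matrix (V → Fin 2) (V → Fin 2) ℝ} (hW : Tendsto W atTop (𝓝 W0)) (b : Finset V) (θ : ℝ)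
    {g : ℝ → ℝ} (hg : Continuous g) :
    Tendsto (fun N => ∫ φ in (0 : ℝ)..Real.pi, g φ * ZTw (W N) b θ φ) atTop
      (𝓝 (∫ φ in (0 : ℝ)..Real.pi, g φ * ZTw W0 b θ φ)) := by
  simp only [int_ZTw _ b θ hg]
  refine tendsto_finsetSum _ fun σ _ => tendsto_finsetSum _ fun τ _ => ?_
  refine Tendsto.mul_const _ ?_
  have h1 := tendsto_pi_nhds.1 hW σ
  exact tendsto_pi_nhds.1 h1 τ

end

end Vale.Agent.P361.LRO
end

section

/-!
P361, block (1): scalar part of the block twist.
-/

namespace Vale.Agent.P361.LRO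

open Finset MeasureTheory intervalIntegral

/-! ## The twist integral -/

/-- `Z(t) = c ∏ (1 - p_j (1 - t))` -/
noncomputable def zt {ι : Type*} [Fintype ι] (c : ℝ) (p : ι → ℝ) (t : ℝ) : ℝ :=
  c * ∏ j, (1 - p j * (1 - t))

theorem zt_nonneg {ι : Type*} [Fintype ι] {c : ℝ} {p : ι → ℝ} (hc : 0 ≤ c)
    (hp0 : ∀ j, 0 ≤ p j) (hp1 : ∀ j, p j ≤ 1 / 2) {t : ℝ} (ht : -1 ≤ t) :
    0 ≤ zt c p t := by
  unfold zt
  refine mul_nonneg hc (prod_nonneg fun j _ => ?_)
  have h1 : p j * (1 - t) ≤ 1 / 2 * 2 := by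
    have := hp0 j
    have := hp1 j
    nlinarith
  linarith

theorem continuous_zt {ι : Type*} [Fintype ι] (c : ℝ) (p : ι → ℝ) : Continuous (zt c p) := by
  unfold zt
  fun_prop

theorem hasDerivAt_zt {ι : Type*} [Fintype ι] [DecidableEq ι] (c : ℝ) (p : ι → ℝ) (t : ℝ) :
    HasDerivAt (zt c p) (c * ∑ j, (∏ i ∈ univ.erase j, (1 - p i * (1 - t))) * p j) t := by
  unfold zt
  have h : ∀ j ∈ (univ : Finset ι), HasDerivAt (fun t => 1 - p j * (1 - t)) (p j) t := by
    intro j _
    have h1 : HasDerivAt (fun t : ℝ => 1 - t) (-1) t := by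
      simpa using (hasDerivAt_id t).const_sub 1
    have h2 := (h1.const_mul (p j)).const_sub 1
    simpa using h2
  have h3 := HasDerivAt.fun_finsetProd h
  simp only [smul_eq_mul] at h3
  exact h3.const_mul c

/-! ## Spin averages, `J = N / 2` -/

end Vale.Agent.P361.LRO
end

section

/-!
P361, block (1): real-rootedness of the charge law gives the block twist inequality.
-/

namespace Vale.Agent.P361.LRO

open Finset MeasureTheory intervalIntegral

/-- Factorization of a real polynomial all of whose complex roots are real and `≤ -1`. -/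
theorem exists_factor (F : Polynomial ℝ) (hF1 : 0 < F.eval 1)
    (hroots : ∀ τ : ℂ, (F.map (algebraMap ℝ ℂ)).eval τ = 0 → ∃ r : ℝ, r ≤ -1 ∧ τ = (r : ℂ)) :
    ∃ (ι : Type) (_ : Fintype ι) (p : ι → ℝ), (∀ j, 0 ≤ p j) ∧ (∀ j, p j ≤ 1 / 2) ∧
      (∀ t : ℝ, F.eval t = zt (F.eval 1) p t) := by
  classical
  set G := F.map (algebraMap ℝ ℂ) with hG
  have hev : ∀ t : ℝ, G.eval (t : ℂ) = ((F.eval t : ℝ) : ℂ) := by
    intro t
    rw [hG, Polynomial.eval_map_algebraMap]
    have := Polynomial.aeval_algebraMap_apply ℂ t F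
    simpa using this
  have hGne : G ≠ 0 := by
    intro h0
    have := hev 1
    rw [h0] at this
    simp only [Polynomial.eval_zero] at this
    have h2 : F.eval 1 = 0 := by exact_mod_cast this.symm
    linarith
  have hsp : G.Splits := IsAlgClosed.splits G
  have hroot : ∀ τ ∈ G.roots, ∃ r : ℝ, r ≤ -1 ∧ τ = (r : ℂ) := by
    intro τ hτ
    exact hroots τ ((Polynomial.mem_roots hGne).1 hτ)
  have hprod : ∀ t : ℂ, G.eval t = G.leadingCoeff * ∏ j : G.roots, (t - (j : ℂ)) := by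
    intro t
    rw [hsp.eval_eq_prod_roots t]
    congr 1
    rw [Finset.prod_eq_multiset_prod, ← Multiset.map_univ]
  refine ⟨G.roots, inferInstance, fun j => 1 / (1 - ((j : ℂ)).re), ?_, ?_, ?_⟩
  · intro j
    obtain ⟨r, hr, hjr⟩ := hroot (j : ℂ) (Multiset.coe_mem)
    have hre : ((j : ℂ)).re = r := by rw [hjr]; simp
    change 0 ≤ 1 / (1 - ((j : ℂ)).re)
    rw [hre]
    apply div_nonneg <;> linarith
  · intro j
    obtain ⟨r, hr, hjr⟩ := hroot (j : ℂ) (Multiset.coe_mem)
    have hre : ((j : ℂ)).re = r := by rw [hjr]; simp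
    change 1 / (1 - ((j : ℂ)).re) ≤ 1 / 2
    rw [hre, div_le_div_iff₀ (by linarith) (by norm_num)]
    linarith
  · intro t
    have h1 := hev t
    have h2 := hev 1
    rw [hprod] at h1 h2
    have hfac : ∀ j : G.roots, ((t : ℂ) - (j : ℂ)) = (((1 : ℝ) : ℂ) - (j : ℂ)) *
        (((1 - 1 / (1 - ((j : ℂ)).re) * (1 - t) : ℝ)) : ℂ) := by
      intro j
      obtain ⟨r, hr, hjr⟩ := hroot (j : ℂ) (Multiset.coe_mem)
      rw [hjr]
      simp only [Complex.ofReal_re]
      rw [← Complex.ofReal_sub, ← Complex.ofReal_sub, ← Complex.ofReal_mul]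
      congr 1
      have : (1 - r) ≠ 0 := by linarith
      field_simp
      ring
    rw [Finset.prod_congr rfl fun j _ => hfac j, Finset.prod_mul_distrib, ← mul_assoc, h2] at h1
    unfold zt
    rw [← Complex.ofReal_prod] at h1
    exact_mod_cast h1.symm

variable {X : Type} [Fintype X] [DecidableEq X]

/-- The twisted partition function, block charge `Q = ∑_{x ∈ b} j_x`, angle `φ`. -/
noncomputable def Zf (μ : Equiv.Perm X → ℝ) (θ : X → ℝ) (b : Finset X) (φ : ℝ) : ℝ :=
  ∑ π, ∑ s, μ π * wt θ π s * Real.cos (φ * ∑ x ∈ b, jj π s x)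

/-- Integer valued block charge. -/
def qz (π : Equiv.Perm X) (s : X → Fin 2) (b : Finset X) : ℤ :=
  ∑ x ∈ b, (((s x : ℕ) : ℤ) - ((s (π x) : ℕ) : ℤ))

omit [Fintype X] [DecidableEq X] in
theorem qz_cast (π : Equiv.Perm X) (s : X → Fin 2) (b : Finset X) :
    ((qz π s b : ℤ) : ℝ) = ∑ x ∈ b, jj π s x := by
  unfold qz jj
  push_cast
  rfl

/-- The Chebyshev polynomial of the law of `Q`. -/
noncomputable def FP (μ : Equiv.Perm X → ℝ) (θ : X → ℝ) (b : Finset X) : Polynomial ℝ :=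
  ∑ π, ∑ s, Polynomial.C (μ π * wt θ π s) * Polynomial.Chebyshev.T ℝ (qz π s b)

theorem FP_eval_cos (μ : Equiv.Perm X → ℝ) (θ : X → ℝ) (b : Finset X) (φ : ℝ) :
    (FP μ θ b).eval (Real.cos φ) = Zf μ θ b φ := by
  unfold FP Zf
  rw [Polynomial.eval_finsetSum]
  refine sum_congr rfl fun π _ => ?_
  rw [Polynomial.eval_finsetSum]
  refine sum_congr rfl fun s _ => ?_
  rw [Polynomial.eval_mul, Polynomial.eval_C, Polynomial.Chebyshev.T_real_cos, ← qz_cast,
    mul_comm φ]

theorem FP_eval_one (μ : Equiv.Perm X → ℝ) (θ : X → ℝ) (b : Finset X) :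
    (FP μ θ b).eval 1 = ZZ μ θ := by
  have h := FP_eval_cos μ θ b 0
  rw [Real.cos_zero] at h
  rw [h]
  unfold Zf ZZ
  simp

theorem FP_deriv_one (μ : Equiv.Perm X → ℝ) (θ : X → ℝ) (b : Finset X) :
    (FP μ θ b).derivative.eval 1 = ∑ π, ∑ s, μ π * wt θ π s * (∑ x ∈ b, jj π s x) ^ 2 := by
  unfold FP
  rw [Polynomial.derivative_sum, Polynomial.eval_finsetSum]
  refine sum_congr rfl fun π _ => ?_
  rw [Polynomial.derivative_sum, Polynomial.eval_finsetSum]
  refine sum_congr rfl fun s _ => ?_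
  rw [Polynomial.derivative_C_mul, Polynomial.Chebyshev.T_derivative_eq_U, Polynomial.eval_mul,
    Polynomial.eval_C, Polynomial.eval_mul, Polynomial.Chebyshev.U_eval_one, ← qz_cast]
  simp
  ring_nf
  tauto

/-- The exponent `1 + j_x`. -/
def ex (π : Equiv.Perm X) (s : X → Fin 2) (x : X) : ℕ :=
  if s x = s (π x) then 1 else if s x = 1 then 2 else 0

omit [Fintype X] [DecidableEq X] in
theorem ex_cast (π : Equiv.Perm X) (s : X → Fin 2) (x : X) :
    ((ex π s x : ℕ) : ℤ) = 1 + (((s x : ℕ) : ℤ) - ((s (π x) : ℕ) : ℤ)) := by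
  unfold ex
  generalize s x = a
  generalize s (π x) = b
  fin_cases a <;> fin_cases b <;> simp

omit [DecidableEq X] in
theorem sum_ex (π : Equiv.Perm X) (s : X → Fin 2) : ∑ x, ex π s x = Fintype.card X := by
  have h : ((∑ x, ex π s x : ℕ) : ℤ) = ((Fintype.card X : ℕ) : ℤ) := by
    push_cast
    simp only [ex_cast]
    rw [sum_add_distrib, sum_sub_distrib, Equiv.sum_comp π fun x => ((s x : ℕ) : ℤ)]
    simp
  exact_mod_cast h

omit [Fintype X] [DecidableEq X] in
theorem sum_ex_b (π : Equiv.Perm X) (s : X → Fin 2) (b : Finset X) :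
    ((∑ x ∈ b, ex π s x : ℕ) : ℤ) = (b.card : ℤ) + qz π s b := by
  push_cast
  simp only [ex_cast]
  rw [sum_add_distrib]
  unfold qz
  simp

theorem gen_eq (μ : Equiv.Perm X → ℝ) (θ : X → ℝ) (ζ : X → ℂ) :
    gen μ θ ζ = ∑ π, ∑ s, ((μ π * wt θ π s : ℝ) : ℂ) * ∏ x, ζ x ^ ex π s x := by
  unfold gen
  refine sum_congr rfl fun π _ => sum_congr rfl fun s _ => ?_
  congr 1
  refine prod_congr rfl fun x _ => ?_
  unfold ex
  split_ifs <;> simp

theorem gen_smulF (μ : Equiv.Perm X → ℝ) (θ : X → ℝ) (ζ : X → ℂ) (l : ℂ) :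
    gen μ θ (fun x => l * ζ x) = l ^ Fintype.card X * gen μ θ ζ := by
  rw [gen_eq, gen_eq, mul_sum]
  refine sum_congr rfl fun π _ => ?_
  rw [mul_sum]
  refine sum_congr rfl fun s _ => ?_
  simp only [mul_pow]
  rw [prod_mul_distrib, prod_pow_eq_pow_sum, sum_ex]
  ring

/-- The Laurent polynomial of the law of `Q`. -/
noncomputable def SQ (μ : Equiv.Perm X → ℝ) (θ : X → ℝ) (b : Finset X) (w : ℂ) : ℂ :=
  ∑ π, ∑ s, ((μ π * wt θ π s : ℝ) : ℂ) * w ^ qz π s b

theorem gen_block (μ : Equiv.Perm X → ℝ) (θ : X → ℝ) (b : Finset X) {w : ℂ} (hw : w ≠ 0) :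
    gen μ θ (fun x => if x ∈ b then w else 1) = w ^ b.card * SQ μ θ b w := by
  rw [gen_eq]
  unfold SQ
  rw [mul_sum]
  refine sum_congr rfl fun π _ => ?_
  rw [mul_sum]
  refine sum_congr rfl fun s _ => ?_
  have h1 : ∏ x, (if x ∈ b then w else 1) ^ ex π s x = ∏ x ∈ b, w ^ ex π s x := by
    rw [← prod_subset (subset_univ b)]
    · refine prod_congr rfl fun x hx => ?_
      rw [if_pos hx]
    · intro x _ hx
      rw [if_neg hx, one_pow]
  have h2 : ∏ x ∈ b, w ^ ex π s x = w ^ b.card * w ^ qz π s b := by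
    rw [prod_pow_eq_pow_sum, ← zpow_natCast, sum_ex_b, zpow_add₀ hw, zpow_natCast]
  rw [h1, h2]
  ring

/-- Flip of all spins. -/
def flipE : (X → Fin 2) ≃ (X → Fin 2) where
  toFun s := fun x => Fin.rev (s x)
  invFun s := fun x => Fin.rev (s x)
  left_inv s := by funext x; simp
  right_inv s := by funext x; simp

omit [DecidableEq X] in
theorem wt_flipF (θ : X → ℝ) (π : Equiv.Perm X) (s : X → Fin 2) :
    wt θ π (flipE s) = wt θ π s := by
  unfold wt flipE
  refine prod_congr rfl fun x _ => ?_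
  simp

omit [Fintype X] [DecidableEq X] in
theorem qz_flip (π : Equiv.Perm X) (s : X → Fin 2) (b : Finset X) :
    qz π (flipE s) b = - qz π s b := by
  unfold qz flipE
  rw [← sum_neg_distrib]
  refine sum_congr rfl fun x _ => ?_
  change ((Fin.rev (s x) : ℕ) : ℤ) - ((Fin.rev (s (π x)) : ℕ) : ℤ) = _
  generalize s x = a
  generalize s (π x) = c
  fin_cases a <;> fin_cases c <;> simp

theorem SQ_inv (μ : Equiv.Perm X → ℝ) (θ : X → ℝ) (b : Finset X) (w : ℂ) :
    SQ μ θ b w⁻¹ = SQ μ θ b w := by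
  unfold SQ
  refine sum_congr rfl fun π _ => ?_
  rw [← Equiv.sum_comp flipE]
  refine sum_congr rfl fun s _ => ?_
  rw [wt_flipF, qz_flip, inv_zpow', neg_neg]

theorem FP_eval_ccos (μ : Equiv.Perm X → ℝ) (θ : X → ℝ) (b : Finset X) (φ : ℂ) :
    ((FP μ θ b).map (algebraMap ℝ ℂ)).eval (Complex.cos φ) =
      SQ μ θ b (Complex.exp (φ * Complex.I)) := by
  have h1 : ((FP μ θ b).map (algebraMap ℝ ℂ)).eval (Complex.cos φ) =
      ∑ π, ∑ s, ((μ π * wt θ π s : ℝ) : ℂ) * Complex.cos (qz π s b * φ) := by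
    unfold FP
    rw [Polynomial.map_sum, Polynomial.eval_finsetSum]
    refine sum_congr rfl fun π _ => ?_
    rw [Polynomial.map_sum, Polynomial.eval_finsetSum]
    refine sum_congr rfl fun s _ => ?_
    rw [Polynomial.map_mul, Polynomial.map_C, Polynomial.Chebyshev.map_T, Polynomial.eval_mul,
      Polynomial.eval_C, Polynomial.Chebyshev.T_complex_cos]
    rfl
  have h2 : (2 : ℂ) * ((FP μ θ b).map (algebraMap ℝ ℂ)).eval (Complex.cos φ) =
      SQ μ θ b (Complex.exp (φ * Complex.I)) + SQ μ θ b (Complex.exp (φ * Complex.I))⁻¹ := by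
    rw [h1]
    unfold SQ
    rw [mul_sum, ← sum_add_distrib]
    refine sum_congr rfl fun π _ => ?_
    rw [mul_sum, ← sum_add_distrib]
    refine sum_congr rfl fun s _ => ?_
    rw [← Complex.exp_neg, ← Complex.exp_int_mul, ← Complex.exp_int_mul, Complex.cos]
    ring_nf
  rw [SQ_inv] at h2
  linear_combination h2 / 2

theorem SQ_ne_zero_of_im_pos {μ : Equiv.Perm X → ℝ} {θ : X → ℝ} (hst : Stable μ θ)
    (b : Finset X) {w : ℂ} (hw : 0 < w.im) : SQ μ θ b w ≠ 0 := by
  have hw0 : w ≠ 0 := by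
    rintro rfl
    simp at hw
  intro h0
  set δ : ℝ := w.im / (2 * (|w.re| + 1)) with hδ
  have hδ0 : 0 < δ := by positivity
  set l : ℂ := 1 + δ * Complex.I with hl
  have hlim : l.im = δ := by simp [hl]
  have hlre : l.re = 1 := by simp [hl]
  have h1 : gen μ θ (fun x => l * (if x ∈ b then w else 1)) ≠ 0 := by
    apply hst
    intro x
    split_ifs
    · rw [Complex.mul_im, hlim, hlre]
      have h2 : δ * (|w.re| + 1) = w.im / 2 := by
        rw [hδ]
        field_simp
      have h3 : -(δ * |w.re|) ≤ δ * w.re := by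
        have := neg_abs_le w.re
        nlinarith
      nlinarith
    · rw [mul_one, hlim]
      exact hδ0
  apply h1
  rw [gen_smulF, gen_block μ θ b hw0, h0]
  simp

theorem SQ_pos_real {μ : Equiv.Perm X → ℝ} {θ : X → ℝ} (hμ : ∀ π, 0 ≤ μ π)
    (hθ : ∀ x, 0 ≤ θ x) (hZ : 0 < ZZ μ θ) (b : Finset X) {r : ℝ} (hr : 0 < r) :
    SQ μ θ b (r : ℂ) ≠ 0 := by
  have hwt : ∀ π s, 0 ≤ wt θ π s := by
    intro π s
    unfold wt
    refine prod_nonneg fun x _ => ?_
    split_ifs
    · norm_num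
    · exact hθ x
  have h1 : SQ μ θ b (r : ℂ) = ((∑ π, ∑ s, μ π * wt θ π s * r ^ qz π s b : ℝ) : ℂ) := by
    unfold SQ
    push_cast
    rfl
  rw [h1]
  intro h0
  have h2 : (∑ π, ∑ s, μ π * wt θ π s * r ^ qz π s b : ℝ) = 0 := by exact_mod_cast h0
  have h3 : ∀ π, ∑ s, μ π * wt θ π s * r ^ qz π s b = 0 := by
    intro π
    exact (sum_eq_zero_iff_of_nonneg (fun π _ => sum_nonneg fun s _ =>
      mul_nonneg (mul_nonneg (hμ π) (hwt π s)) (zpow_pos hr _).le)).1 h2 π (mem_univ _)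
  have h4 : ZZ μ θ = 0 := by
    unfold ZZ
    refine sum_eq_zero fun π _ => sum_eq_zero fun s _ => ?_
    have := (sum_eq_zero_iff_of_nonneg (fun s _ =>
      mul_nonneg (mul_nonneg (hμ π) (hwt π s)) (zpow_pos hr _).le)).1 (h3 π) s (mem_univ _)
    rcases mul_eq_zero.1 this with h | h
    · exact h
    · exact absurd h (zpow_pos hr _).ne'
  linarith

theorem FP_roots {μ : Equiv.Perm X → ℝ} {θ : X → ℝ} (hμ : ∀ π, 0 ≤ μ π)
    (hθ : ∀ x, 0 ≤ θ x) (hZ : 0 < ZZ μ θ) (hst : Stable μ θ) (b : Finset X) (τ : ℂ)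
    (hτ : ((FP μ θ b).map (algebraMap ℝ ℂ)).eval τ = 0) : ∃ r : ℝ, r ≤ -1 ∧ τ = (r : ℂ) := by
  obtain ⟨φ, rfl⟩ := Complex.cos_surjective τ
  rw [FP_eval_ccos] at hτ
  set w := Complex.exp (φ * Complex.I) with hw
  have hw0 : w ≠ 0 := Complex.exp_ne_zero _
  have hcos : Complex.cos φ = (w + w⁻¹) / 2 := by
    rw [hw, ← Complex.exp_neg, Complex.cos]
    ring_nf
  have him : w.im = 0 := by
    rcases lt_trichotomy w.im 0 with h | h | h
    · exfalso
      have h1 : 0 < (w⁻¹).im := by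
        rw [Complex.inv_im]
        apply div_pos (by linarith)
        exact Complex.normSq_pos.2 hw0
      have := SQ_ne_zero_of_im_pos hst b h1
      rw [SQ_inv] at this
      exact this hτ
    · exact h
    · exact absurd hτ (SQ_ne_zero_of_im_pos hst b h)
  have hwr : w = ((w.re : ℝ) : ℂ) := by
    apply Complex.ext
    · simp
    · simp [him]
  have hneg : w.re < 0 := by
    rcases lt_trichotomy w.re 0 with h | h | h
    · exact h
    · exfalso
      apply hw0
      rw [hwr, h]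
      simp
    · exfalso
      rw [hwr] at hτ
      exact SQ_pos_real hμ hθ hZ b h hτ
  refine ⟨(w.re + w.re⁻¹) / 2, ?_, ?_⟩
  · have h1 : (w.re + w.re⁻¹) / 2 + 1 = (w.re + 1) ^ 2 / (2 * w.re) := by
      have hne : w.re ≠ 0 := hneg.ne
      field_simp
      ring
    have h2 : (w.re + 1) ^ 2 / (2 * w.re) ≤ 0 :=
      div_nonpos_of_nonneg_of_nonpos (sq_nonneg _) (by linarith)
    linarith
  · rw [hcos]
    conv_lhs => rw [hwr]
    push_cast
    rfl

theorem KK_block (μ : Equiv.Perm X → ℝ) (θ : X → ℝ) (b : Finset X) :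
    KK μ θ (fun z => if z ∈ b then 1 else 0) =
      (∑ π, ∑ s, μ π * wt θ π s * (∑ x ∈ b, jj π s x) ^ 2) / ZZ μ θ := by
  unfold KK EE
  congr 1
  refine sum_congr rfl fun π _ => sum_congr rfl fun s _ => ?_
  congr 2
  simp

end Vale.Agent.P361.LRO
end

section

/-!
P361, block (1): the twisted dictionary. `∑ μ wt cos (φ Q_B)` is the loop sum with the
slices `1 + θ (cos φ σ³ + sin φ σ¹)` on `B` and `1 + θ σ³` off `B`.
-/

namespace Vale.Agent.P361.LRO

open Finset Matrix

noncomputable section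

variable {X : Type} [Fintype X] [DecidableEq X]

/-- The slice in the charge picture with the twist `c = e^{iφ}`. -/
def chA (θ : ℝ) (c d : ℂ) : Matrix (Fin 2) (Fin 2) ℂ := !![1, θ * d; θ * c, 1]

theorem chA_apply (θ φ : ℝ) (a b : Fin 2) :
    chA θ (Complex.exp (φ * Complex.I)) (Complex.exp (-(φ * Complex.I))) a b =
      ((if a = b then 1 else θ : ℝ) : ℂ) *
        Complex.exp ((φ * (((a : ℕ) : ℝ) - ((b : ℕ) : ℝ)) : ℝ) * Complex.I) := by
  fin_cases a <;> fin_cases b <;> simp [chA] 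

theorem chA_apply_one (θ : ℝ) (a b : Fin 2) :
    chA θ 1 1 a b = ((if a = b then 1 else θ : ℝ) : ℂ) := by
  fin_cases a <;> fin_cases b <;> simp [chA]

def rotU : Matrix (Fin 2) (Fin 2) ℂ := !![1, 1; Complex.I, -Complex.I]
def rotW : Matrix (Fin 2) (Fin 2) ℂ := !![1 / 2, -Complex.I / 2; 1 / 2, Complex.I / 2]

theorem rotW_mul_rotU : rotW * rotU = 1 := by
  unfold rotW rotU
  ext i j
  fin_cases i <;> fin_cases j <;> simp [Matrix.mul_apply, Fin.sum_univ_two] <;> ring_nf <;>
    simp [Complex.I_sq] <;> norm_num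

theorem rotU_chA (θ φ : ℝ) :
    rotU * chA θ (Complex.exp (φ * Complex.I)) (Complex.exp (-(φ * Complex.I))) * rotW =
      (rotM θ φ).map (algebraMap ℝ ℂ) := by
  have h1 : Complex.exp (φ * Complex.I) = Complex.cos φ + Complex.sin φ * Complex.I := by
    rw [Complex.exp_mul_I]
  have h2 : Complex.exp (-(φ * Complex.I)) = Complex.cos φ - Complex.sin φ * Complex.I := by
    rw [← neg_mul, Complex.exp_mul_I, Complex.cos_neg, Complex.sin_neg]
    ring
  rw [h1, h2]
  unfold rotU rotW chA rotM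
  ext i j
  fin_cases i <;> fin_cases j <;>
    simp [Matrix.mul_apply, Fin.sum_univ_two] <;> ring_nf <;> simp [Complex.I_sq] <;> ring

theorem rotU_chA_one (θ : ℝ) :
    rotU * chA θ 1 1 * rotW = (rotM θ 0).map (algebraMap ℝ ℂ) := by
  have h := rotU_chA θ 0
  simpa using h

/-- The slices in the spin picture. -/
def spA (θ : X → ℝ) (B : Finset X) (φ : ℝ) (z : X) : Matrix (Fin 2) (Fin 2) ℝ :=
  if z ∈ B then rotM (θ z) φ else rotM (θ z) 0

/-- The slices in the charge picture. -/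
def caA (θ : X → ℝ) (B : Finset X) (φ : ℝ) (z : X) : Matrix (Fin 2) (Fin 2) ℂ :=
  if z ∈ B then chA (θ z) (Complex.exp (φ * Complex.I)) (Complex.exp (-(φ * Complex.I)))
  else chA (θ z) 1 1

omit [Fintype X] in
theorem rotU_caA (θ : X → ℝ) (B : Finset X) (φ : ℝ) (z : X) :
    rotU * caA θ B φ z * rotW = (spA θ B φ z).map (algebraMap ℝ ℂ) := by
  unfold caA spA
  split_ifs
  · exact rotU_chA _ _
  · exact rotU_chA_one _

theorem prod_caA (θ : X → ℝ) (B : Finset X) (φ : ℝ) (π : Equiv.Perm X) (s : X → Fin 2) :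
    ∏ z, caA θ B φ z (s z) (s (π z)) =
      (wt θ π s : ℂ) * Complex.exp ((φ * ∑ z ∈ B, jj π s z : ℝ) * Complex.I) := by
  have h1 : ∀ z, caA θ B φ z (s z) (s (π z)) =
      ((if s z = s (π z) then 1 else θ z : ℝ) : ℂ) *
        (if z ∈ B then Complex.exp ((φ * jj π s z : ℝ) * Complex.I) else 1) := by
    intro z
    unfold caA jj
    by_cases hz : z ∈ B
    · rw [if_pos hz, if_pos hz, chA_apply]
    · rw [if_neg hz, if_neg hz, chA_apply_one, mul_one]
  simp only [h1, Finset.prod_mul_distrib]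
  congr 1
  · unfold wt
    push_cast
    rfl
  · rw [Finset.prod_ite_mem, Finset.univ_inter, ← Complex.exp_sum]
    congr 1
    rw [Finset.mul_sum]
    push_cast
    rw [Finset.sum_mul]

/-- **Twisted dictionary**: `∑ μ wt cos (φ Q_B)` in the spin picture. -/
theorem Zf_eq_NZ (μ : Equiv.Perm X → ℝ) (θ : X → ℝ) (B : Finset X) (φ : ℝ) :
    Zf μ θ B φ = Dict.NZ μ (spA θ B φ) := by
  have h1 : (Br.NZ μ (caA θ B φ)) = Br.NZ μ (fun z => (spA θ B φ z).map (algebraMap ℝ ℂ)) := by
    rw [← Br.NZ_conj μ (caA θ B φ) rotW_mul_rotU]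
    congr 1
    funext z
    exact rotU_caA θ B φ z
  have h2 : Br.NZ μ (fun z => (spA θ B φ z).map (algebraMap ℝ ℂ)) =
      ((Dict.NZ μ (spA θ B φ) : ℝ) : ℂ) := by
    unfold Br.NZ Dict.NZ
    push_cast
    refine Finset.sum_congr rfl fun π _ => ?_
    rw [smul_eq_mul, Complex.ofReal_mul, Complex.real_smul]
    congr 1
    push_cast
    rfl
  have h3 : (Br.NZ μ (caA θ B φ)).re = Zf μ θ B φ := by
    unfold Br.NZ Zf
    rw [Complex.re_sum]
    refine Finset.sum_congr rfl fun π _ => ?_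
    rw [Complex.real_smul, Complex.re_ofReal_mul, Complex.re_sum, Finset.mul_sum]
    refine Finset.sum_congr rfl fun s _ => ?_
    rw [prod_caA, Complex.re_ofReal_mul, Complex.exp_ofReal_mul_I_re]
    ring
  rw [← h3, h1, h2, Complex.ofReal_re]

end

end Vale.Agent.P361.LRO
end

section

/-!
Elementary toolbox for Part A of `Defs.lean` (charge networks).
-/

namespace Vale.Agent.P361.LRO

open Finset Matrix

set_option linter.unusedSectionVars false

section BaseA

variable {X : Type} [Fintype X] [DecidableEq X]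

/-! ### The law of the permutation -/

/-! ### Weights and charges -/

/-! ### Linearity of the expectation -/

/-! ### Flip symmetry -/

/-! ### The quadratic form `KK` -/

end BaseA

end Vale.Agent.P361.LRO
end

section

/-!
P361, stage 3: the direction of the block spin by Jensen's inequality (scalar part).

`w` is the joint law of `(J, M)`, `D = (J_max - J) / |b|`, `X = 1 - M / J`, `r = A_K(J) / A_K(J_max)`.
-/

namespace Vale.Agent.P361.LRO.S3

open Finset

variable {ι : Type*}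

/-- Jensen: the exponential moment inequality gives a linear inequality between the means. -/
theorem jensen_dir (s : Finset ι) (w D X r : ι → ℝ) (hw : ∀ i ∈ s, 0 ≤ w i)
    (hsum : ∑ i ∈ s, w i = 1) {K c : ℝ} (hK : 0 < K)
    (hr : ∀ i ∈ s, Real.exp (-(K * D i)) ≤ r i)
    (hE : ∑ i ∈ s, w i * (r i * Real.exp (c * K * X i)) ≤ 2 * ∑ i ∈ s, w i * r i) :
    c * ∑ i ∈ s, w i * X i ≤
      ∑ i ∈ s, w i * D i + (1 / K) * Real.log (2 * ∑ i ∈ s, w i * r i) := by
  have h1 : Real.exp (∑ i ∈ s, w i • (K * (c * X i - D i))) ≤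
      ∑ i ∈ s, w i • Real.exp (K * (c * X i - D i)) :=
    convexOn_exp.map_sum_le hw hsum fun i _ => Set.mem_univ _
  have h2 : ∑ i ∈ s, w i • Real.exp (K * (c * X i - D i)) ≤
      ∑ i ∈ s, w i * (r i * Real.exp (c * K * X i)) := by
    refine sum_le_sum fun i hi => ?_
    rw [smul_eq_mul]
    refine mul_le_mul_of_nonneg_left ?_ (hw i hi)
    have e : K * (c * X i - D i) = -(K * D i) + c * K * X i := by ring
    rw [e, Real.exp_add]
    exact mul_le_mul_of_nonneg_right (hr i hi) (Real.exp_pos _).le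
  have h3 : Real.exp (∑ i ∈ s, w i • (K * (c * X i - D i))) ≤ 2 * ∑ i ∈ s, w i * r i :=
    h1.trans (h2.trans hE)
  have h4 : ∑ i ∈ s, w i • (K * (c * X i - D i)) ≤ Real.log (2 * ∑ i ∈ s, w i * r i) := by
    rw [← Real.log_exp (∑ i ∈ s, w i • (K * (c * X i - D i)))]
    exact Real.log_le_log (Real.exp_pos _) h3
  have h5 : ∑ i ∈ s, w i • (K * (c * X i - D i)) =
      K * (c * ∑ i ∈ s, w i * X i - ∑ i ∈ s, w i * D i) := by
    simp only [smul_eq_mul, mul_sub, sum_sub_distrib, mul_sum]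
    congr 1
    · exact sum_congr rfl fun i _ => by ring
    · exact sum_congr rfl fun i _ => by ring
  rw [h5] at h4
  have h6 : c * ∑ i ∈ s, w i * X i - ∑ i ∈ s, w i * D i ≤
      (1 / K) * Real.log (2 * ∑ i ∈ s, w i * r i) := by
    rw [one_div, inv_mul_eq_div, le_div_iff₀ hK]
    linarith
  linarith

/-- Closure form: `r ≤ 1`. -/
theorem dir_closure (s : Finset ι) (w D X r : ι → ℝ) (hw : ∀ i ∈ s, 0 ≤ w i)
    (hsum : ∑ i ∈ s, w i = 1) {K c : ℝ} (hK : 0 < K)
    (hr : ∀ i ∈ s, Real.exp (-(K * D i)) ≤ r i) (hr1 : ∀ i ∈ s, r i ≤ 1)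
    (hE : ∑ i ∈ s, w i * (r i * Real.exp (c * K * X i)) ≤ 2 * ∑ i ∈ s, w i * r i) :
    c * ∑ i ∈ s, w i * X i ≤ ∑ i ∈ s, w i * D i + 1 / K := by
  have h := jensen_dir s w D X r hw hsum hK hr hE
  have hpos : 0 < ∑ i ∈ s, w i * r i := by
    obtain ⟨i, hi, hwi⟩ : ∃ i ∈ s, w i ≠ 0 := by
      by_contra hcon
      push Not at hcon
      rw [sum_eq_zero hcon] at hsum
      exact zero_ne_one hsum
    refine sum_pos' (fun j hj => mul_nonneg (hw j hj) ((Real.exp_pos _).le.trans (hr j hj)))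
      ⟨i, hi, mul_pos (lt_of_le_of_ne (hw i hi) hwi.symm) ((Real.exp_pos _).trans_le (hr i hi))⟩
  have h1 : ∑ i ∈ s, w i * r i ≤ 1 := by
    rw [← hsum]
    exact sum_le_sum fun i hi => mul_le_of_le_one_right (hw i hi) (hr1 i hi)
  have h2 : Real.log (2 * ∑ i ∈ s, w i * r i) ≤ 1 := by
    have := Real.log_le_sub_one_of_pos (show 0 < 2 * ∑ i ∈ s, w i * r i by positivity)
    linarith
  have h3 : (1 / K) * Real.log (2 * ∑ i ∈ s, w i * r i) ≤ 1 / K := by
    have : 0 ≤ 1 / K := by positivity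
    nlinarith
  linarith

end Vale.Agent.P361.LRO.S3
end

section

/-!
P361, stage 3: upper bounds for the tilting factor `sA k N / sA k Nb`.
-/

namespace Vale.Agent.P361.LRO.S3

open Finset

end Vale.Agent.P361.LRO.S3
end

section

/-!
P361, stage 3, final assembly (F1): scalar core. `μ` is the joint law of `(J, M)` of a block,
`D = r / |b| = (J_max - J) / |b|`, `Y = p / N = (1 - M / J) / 2`.
-/

namespace Vale.Agent.P361.LRO.S3F

open Finset

/-- The mean of `D` from the mean of `D (1 - D)` and the lower tail. -/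
theorem mean_D {ι : Type*} [Fintype ι] (μ D : ι → ℝ) (h0 : ∀ i, 0 ≤ μ i) (h1 : ∑ i, μ i = 1)
    (hD0 : ∀ i, 0 ≤ D i) (hD1 : ∀ i, D i ≤ 1 / 2) {m q s ε : ℝ} (hq0 : 0 ≤ q) (hq1 : q ≤ 1 / 2)
    (hs0 : 0 < s) (hs1 : s ≤ 1 / 2) (hs : 4 * q ≤ s)
    (hm : ∑ i, μ i * (D i * (1 - D i)) ≤ m)
    (ht : ∑ i, (if D i < q then μ i else 0) ≤ ε) :
    ∑ i, μ i * D i ≤ m / (1 - s) + 4 * (m - q * (1 - q) + q * ε) := by
  set C : ι → ℝ := fun i => D i * (1 - D i) with hC
  set q' := q * (1 - q) with hq'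
  have hq'0 : 0 ≤ q' := mul_nonneg hq0 (by linarith)
  have hC0 : ∀ i, 0 ≤ C i := fun i => mul_nonneg (hD0 i) (by linarith [hD1 i])
  have hs' : (0 : ℝ) < 1 - s := by linarith
  have hqq : q' ≤ q := by rw [hq']; linarith [mul_nonneg hq0 hq0]
  -- pointwise
  have key : ∀ i, μ i * D i ≤ (1 / (1 - s)) * (μ i * C i) +
      4 * (μ i * (C i - q') + q * (if D i < q then μ i else 0)) := by
    intro i
    have hi := h0 i
    have hneg : 0 ≤ μ i * (C i - q') + q * (if D i < q then μ i else 0) := by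
      split_ifs with h
      · have e1 : 0 ≤ μ i * (C i - q' + q) :=
          mul_nonneg hi (by have := hC0 i; linarith)
        linarith
      · have h2 : q ≤ D i := not_lt.1 h
        have h3 : 0 ≤ (D i - q) * (1 - D i - q) :=
          mul_nonneg (by linarith) (by linarith [hD1 i])
        have h4 : C i - q' = (D i - q) * (1 - D i - q) := by rw [hC, hq']; ring
        rw [h4, mul_zero, add_zero]
        exact mul_nonneg hi h3
    by_cases h : D i ≤ s
    · have e1 : D i ≤ (1 / (1 - s)) * C i := by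
        rw [hC]
        simp only
        rw [one_div, inv_mul_eq_div, le_div_iff₀ hs']
        exact mul_le_mul_of_nonneg_left (by linarith) (hD0 i)
      have e2 := mul_le_mul_of_nonneg_left e1 hi
      have e3 : μ i * (1 / (1 - s) * C i) = 1 / (1 - s) * (μ i * C i) := by ring
      rw [e3] at e2
      linarith
    · push Not at h
      have e0 : 0 ≤ (1 / (1 - s)) * (μ i * C i) := by
        have := hC0 i
        positivity
      have e1 : D i ≤ 4 * (C i - q') := by
        have h2 : C i = D i * (1 - D i) := rfl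
        have h3 : D i / 2 ≤ C i := by
          rw [h2]; linarith [mul_nonneg (hD0 i) (sub_nonneg.2 (hD1 i))]
        linarith
      have e2 := mul_le_mul_of_nonneg_left e1 hi
      have e3 : 0 ≤ q * (if D i < q then μ i else 0) := by
        refine mul_nonneg hq0 ?_
        split_ifs
        · exact hi
        · exact le_rfl
      linarith
  refine (sum_le_sum fun i _ => key i).trans ?_
  rw [sum_add_distrib, ← mul_sum, ← mul_sum, sum_add_distrib, ← mul_sum]
  have e1 : ∑ i, μ i * (C i - q') = ∑ i, μ i * C i - q' := by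
    simp only [mul_sub, sum_sub_distrib, ← sum_mul, h1, one_mul]
  rw [e1]
  have e2 : 1 / (1 - s) * ∑ i, μ i * C i ≤ m / (1 - s) := by
    rw [one_div, inv_mul_eq_div]
    exact div_le_div_of_nonneg_right hm hs'.le
  have e3 : q * ∑ i, (if D i < q then μ i else 0) ≤ q * ε := mul_le_mul_of_nonneg_left ht hq0
  have hm' : ∑ i, μ i * C i ≤ m := hm
  linarith

end Vale.Agent.P361.LRO.S3F
end
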