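import Mathlib

set_option linter.all false

section

/-!
Trace inequalities for exponentials of Hermitian matrices.
-/

namespace Vale.Agent.P361

open Matrix Finset
open scoped ComplexOrder

variable {ι : Type*} [Fintype ι] [DecidableEq ι]

theorem exp_eq_conj {X : Matrix ι ι ℂ} (hX : X.IsHermitian) :
    NormedSpace.exp X = (hX.eigenvectorUnitary : Matrix ι ι ℂ) *
      diagonal (fun i => ((Real.exp (hX.eigenvalues i) : ℝ) : ℂ)) *
      star (hX.eigenvectorUnitary : Matrix ι ι ℂ) := by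
  have hU : star (hX.eigenvectorUnitary : Matrix ι ι ℂ) =
      (hX.eigenvectorUnitary : Matrix ι ι ℂ)⁻¹ := by
    symm
    apply Matrix.inv_eq_left_inv
    exact Unitary.coe_star_mul_self _
  have hunit : IsUnit (hX.eigenvectorUnitary : Matrix ι ι ℂ) := by
    refine ⟨Unitary.toUnits hX.eigenvectorUnitary, rfl⟩
  have h1 := hX.spectral_theorem
  rw [Unitary.conjStarAlgAut_apply] at h1
  conv_lhs => rw [h1, hU]
  rw [Matrix.exp_conj _ _ hunit, Matrix.exp_diagonal, ← hU]
  congr 3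
  ext i
  rw [Pi.exp_def]
  simp [Complex.exp_eq_exp_ℂ]

/-- Expansion of `tr (e^X B)` in the eigenbasis of `X`. -/
theorem trace_exp_mul {X : Matrix ι ι ℂ} (hX : X.IsHermitian) (B : Matrix ι ι ℂ) :
    trace (NormedSpace.exp X * B) = ∑ i, ((Real.exp (hX.eigenvalues i) : ℝ) : ℂ) *
      (star (hX.eigenvectorUnitary : Matrix ι ι ℂ) * B *
        (hX.eigenvectorUnitary : Matrix ι ι ℂ)) i i := by
  rw [exp_eq_conj hX, Matrix.mul_assoc, Matrix.mul_assoc, Matrix.trace_mul_comm, Matrix.mul_assoc]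
  simp only [Matrix.trace, Matrix.diag_apply, Matrix.diagonal_mul, Matrix.mul_assoc]

theorem trace_exp {X : Matrix ι ι ℂ} (hX : X.IsHermitian) :
    trace (NormedSpace.exp X) = ((∑ i, Real.exp (hX.eigenvalues i) : ℝ) : ℂ) := by
  have := trace_exp_mul hX 1
  rw [Matrix.mul_one, Matrix.mul_one] at this
  rw [this]
  push_cast
  refine Finset.sum_congr rfl fun i _ => ?_
  rw [Unitary.coe_star_mul_self]
  simp

theorem trace_exp_re {X : Matrix ι ι ℂ} (hX : X.IsHermitian) :
    (trace (NormedSpace.exp X)).re = ∑ i, Real.exp (hX.eigenvalues i) := by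
  rw [trace_exp hX, Complex.ofReal_re]

theorem trace_exp_pos [Nonempty ι] {X : Matrix ι ι ℂ} (hX : X.IsHermitian) :
    0 < (trace (NormedSpace.exp X)).re := by
  rw [trace_exp_re hX]
  exact Finset.sum_pos (fun i _ => Real.exp_pos _) Finset.univ_nonempty

/-- Diagonal entries of `V* W V` in terms of eigenvalues of `W`. -/
theorem conj_diag_eq {W : Matrix ι ι ℂ} (hW : W.IsHermitian) (V : Matrix ι ι ℂ) (i : ι) :
    ((star V * W * V) i i).re = ∑ j, ‖(star V * (hW.eigenvectorUnitary : Matrix ι ι ℂ)) i j‖ ^ 2 *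
      hW.eigenvalues j := by
  set U := (hW.eigenvectorUnitary : Matrix ι ι ℂ) with hU
  have h1 : W = U * diagonal (RCLike.ofReal ∘ hW.eigenvalues) * star U := by
    have := hW.spectral_theorem
    rwa [Unitary.conjStarAlgAut_apply] at this
  have h2 : star V * W * V = (star V * U) * diagonal (RCLike.ofReal ∘ hW.eigenvalues) *
      star (star V * U) := by
    conv_lhs => rw [h1]
    simp only [star_mul, star_star, Matrix.mul_assoc]
  rw [h2, Matrix.mul_apply, Complex.re_sum]
  refine Finset.sum_congr rfl fun j _ => ?_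
  rw [Matrix.mul_diagonal, Matrix.star_apply]
  have : (star V * U) i j * (RCLike.ofReal ∘ hW.eigenvalues) j * star ((star V * U) i j) =
     (((‖(star V * U) i j‖ ^ 2 * hW.eigenvalues j : ℝ)) : ℂ) := by
    have h3 : (star V * U) i j * star ((star V * U) i j) = ((‖(star V * U) i j‖ ^ 2 : ℝ) : ℂ) := by
      rw [Complex.star_def, Complex.mul_conj, Complex.normSq_eq_norm_sq]
    calc _ = ((star V * U) i j * star ((star V * U) i j)) * (hW.eigenvalues j : ℂ) := by
          simp only [Function.comp]; ring_nf; simp; ring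
      _ = _ := by rw [h3]; push_cast; ring
  rw [this, Complex.ofReal_re]

theorem row_sum_one {V : Matrix ι ι ℂ} (hV : V * star V = 1) (i : ι) :
    ∑ j, ‖V i j‖ ^ 2 = 1 := by
  have h := congrFun (congrFun hV i) i
  rw [Matrix.mul_apply, Matrix.one_apply_eq] at h
  have h2 : ((∑ j, ‖V i j‖ ^ 2 : ℝ) : ℂ) = 1 := by
    rw [← h]
    push_cast
    refine Finset.sum_congr rfl fun j _ => ?_
    rw [Matrix.star_apply, Complex.star_def, Complex.mul_conj, Complex.normSq_eq_norm_sq]
    push_cast; rfl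
  exact_mod_cast h2

/-- Peierls' inequality. -/
theorem peierls {W : Matrix ι ι ℂ} (hW : W.IsHermitian) {V : Matrix ι ι ℂ} (hV : star V * V = 1) :
    ∑ i, Real.exp (((star V * W * V) i i).re) ≤ (trace (NormedSpace.exp W)).re := by
  have hV' : V * star V = 1 := mul_eq_one_comm.mp hV
  set U := (hW.eigenvectorUnitary : Matrix ι ι ℂ) with hU
  have hUU : U * star U = 1 := Unitary.coe_mul_star_self _
  have hUU' : star U * U = 1 := Unitary.coe_star_mul_self _
  set Q := star V * U with hQ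
  have hQ1 : Q * star Q = 1 := by
    rw [hQ, star_mul, star_star, Matrix.mul_assoc, ← Matrix.mul_assoc U, hUU, Matrix.one_mul, hV]
  have hQ2 : star Q * Q = 1 := mul_eq_one_comm.mp hQ1
  have hcol : ∀ j, ∑ i, ‖Q i j‖ ^ 2 = 1 := by
    intro j
    have := row_sum_one (V := star Q) (by rw [star_star]; exact hQ2) j
    simpa [Matrix.star_apply] using this
  rw [trace_exp_re hW]
  calc ∑ i, Real.exp (((star V * W * V) i i).re)
      = ∑ i, Real.exp (∑ j, ‖Q i j‖ ^ 2 * hW.eigenvalues j) := by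
        refine Finset.sum_congr rfl fun i _ => ?_
        rw [conj_diag_eq hW V i]
    _ ≤ ∑ i, ∑ j, ‖Q i j‖ ^ 2 * Real.exp (hW.eigenvalues j) := by
        refine Finset.sum_le_sum fun i _ => ?_
        have := convexOn_exp.map_sum_le (t := Finset.univ) (w := fun j => ‖Q i j‖ ^ 2)
          (p := fun j => hW.eigenvalues j) (fun j _ => by positivity)
          (row_sum_one hQ1 i) (fun j _ => Set.mem_univ _)
        simpa [smul_eq_mul] using this
    _ = ∑ j, Real.exp (hW.eigenvalues j) := by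
        rw [Finset.sum_comm]
        refine Finset.sum_congr rfl fun j _ => ?_
        rw [← Finset.sum_mul, hcol j, one_mul]

/-- Peierls–Bogoliubov inequality (multiplicative form). -/
theorem peierls_bogoliubov_mul [Nonempty ι] {X Y : Matrix ι ι ℂ} (hX : X.IsHermitian)
    (hY : Y.IsHermitian) :
    (trace (NormedSpace.exp X)).re *
      Real.exp ((trace (NormedSpace.exp X * Y)).re / (trace (NormedSpace.exp X)).re) ≤
      (trace (NormedSpace.exp (X + Y))).re := by
  set U := (hX.eigenvectorUnitary : Matrix ι ι ℂ) with hU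
  have hUU : U * star U = 1 := Unitary.coe_mul_star_self _
  have hUU' : star U * U = 1 := Unitary.coe_star_mul_self _
  have hZ := trace_exp_pos hX
  have hP := peierls (hX.add hY) hUU'
  refine le_trans ?_ hP
  have hx : ∀ i, ((star U * X * U) i i).re = hX.eigenvalues i := by
    intro i
    have h1 : X = U * diagonal (RCLike.ofReal ∘ hX.eigenvalues) * star U := by
      have := hX.spectral_theorem
      rwa [Unitary.conjStarAlgAut_apply] at this
    have h2 : star U * X * U = diagonal (RCLike.ofReal ∘ hX.eigenvalues) := by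
      calc star U * X * U = star U * (U * diagonal (RCLike.ofReal ∘ hX.eigenvalues) * star U) * U := by
            rw [← h1]
        _ = (star U * U) * diagonal (RCLike.ofReal ∘ hX.eigenvalues) * (star U * U) := by
            simp only [Matrix.mul_assoc]
        _ = _ := by rw [hUU', Matrix.one_mul, Matrix.mul_one]
    rw [h2, Matrix.diagonal_apply_eq]
    simp
  have hsum : ∀ i, ((star U * (X + Y) * U) i i).re =
      hX.eigenvalues i + ((star U * Y * U) i i).re := by
    intro i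
    rw [Matrix.mul_add, Matrix.add_mul, Matrix.add_apply, Complex.add_re, hx i]
  simp_rw [hsum, Real.exp_add]
  rw [trace_exp_mul hX Y, trace_exp_re hX]
  rw [trace_exp_re hX] at hZ
  set Z := ∑ i, Real.exp (hX.eigenvalues i) with hZdef
  have hJ := convexOn_exp.map_sum_le (t := Finset.univ)
    (w := fun i => Real.exp (hX.eigenvalues i) / Z)
    (p := fun i => ((star U * Y * U) i i).re) (fun j _ => by positivity)
    (by rw [← Finset.sum_div]; exact div_self hZ.ne') (fun j _ => Set.mem_univ _)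
  simp only [smul_eq_mul] at hJ
  have h3 : (∑ i, ((Real.exp (hX.eigenvalues i) : ℝ) : ℂ) * (star U * Y * U) i i).re / Z =
      ∑ i, Real.exp (hX.eigenvalues i) / Z * ((star U * Y * U) i i).re := by
    rw [Complex.re_sum, Finset.sum_div]
    refine Finset.sum_congr rfl fun i _ => ?_
    rw [Complex.re_ofReal_mul]
    ring
  rw [h3]
  calc Z * Real.exp (∑ i, Real.exp (hX.eigenvalues i) / Z * ((star U * Y * U) i i).re)
      ≤ Z * ∑ i, Real.exp (hX.eigenvalues i) / Z * Real.exp ((star U * Y * U) i i).re := by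
        exact mul_le_mul_of_nonneg_left hJ hZ.le
    _ = _ := by
        rw [Finset.mul_sum]
        refine Finset.sum_congr rfl fun i _ => ?_
        field_simp

/-- Peierls–Bogoliubov inequality (logarithmic form). -/
theorem peierls_bogoliubov [Nonempty ι] {X Y : Matrix ι ι ℂ} (hX : X.IsHermitian)
    (hY : Y.IsHermitian) :
    Real.log (trace (NormedSpace.exp X)).re +
      (trace (NormedSpace.exp X * Y)).re / (trace (NormedSpace.exp X)).re ≤
      Real.log (trace (NormedSpace.exp (X + Y))).re := by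
  have h := peierls_bogoliubov_mul hX hY
  have hZ := trace_exp_pos hX
  have := Real.log_le_log (by positivity) h
  rwa [Real.log_mul hZ.ne' (Real.exp_pos _).ne', Real.log_exp] at this

/-- `tr (e^X Y) ≥ 0` when `Y` is positive semidefinite. -/
theorem trace_exp_mul_nonneg {X Y : Matrix ι ι ℂ} (hX : X.IsHermitian) (hY : Y.PosSemidef) :
    0 ≤ (trace (NormedSpace.exp X * Y)).re := by
  rw [trace_exp_mul hX Y, Complex.re_sum]
  refine Finset.sum_nonneg fun i _ => ?_
  rw [Complex.re_ofReal_mul]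
  refine mul_nonneg (Real.exp_pos _).le ?_
  have : (star (hX.eigenvectorUnitary : Matrix ι ι ℂ) * Y *
        (hX.eigenvectorUnitary : Matrix ι ι ℂ)).PosSemidef := by
    have := hY.conjTranspose_mul_mul_same (hX.eigenvectorUnitary : Matrix ι ι ℂ)
    simpa [Matrix.star_eq_conjTranspose] using this
  have h2 := this.diag_nonneg (i := i)
  exact (Complex.le_def.mp h2).1

/-- Monotonicity of `X ↦ tr e^X`. -/
theorem trace_exp_mono [Nonempty ι] {X Y : Matrix ι ι ℂ} (hX : X.IsHermitian)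
    (hY : Y.IsHermitian) (hXY : (Y - X).PosSemidef) :
    (trace (NormedSpace.exp X)).re ≤ (trace (NormedSpace.exp Y)).re := by
  have h := peierls_bogoliubov_mul hX (hY.sub hX)
  rw [add_sub_cancel] at h
  refine le_trans ?_ h
  have h0 := trace_exp_mul_nonneg hX hXY
  have hZ := trace_exp_pos hX
  have : 1 ≤ Real.exp ((trace (NormedSpace.exp X * (Y - X))).re / (trace (NormedSpace.exp X)).re) := by
    rw [Real.one_le_exp_iff]
    positivity
  nlinarith

end Vale.Agent.P361
end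

section

/-!
Quantum Heisenberg ferromagnet of spin `S = n / 2` on finite subsets of `ℤ³`.
-/

namespace Vale.Agent.P361

open Matrix Filter Topology

noncomputable section

/-- Local spin-`n/2` matrices. Basis vector `j : Fin (n+1)` has `S³ = n/2 - j`. -/
def spinZ (n : ℕ) : Matrix (Fin (n + 1)) (Fin (n + 1)) ℂ :=
  Matrix.diagonal fun j => (n : ℂ) / 2 - ((j : ℕ) : ℂ)

/-- The lowering matrix `S⁻ |j⟩ = √((j+1)(n-j)) |j+1⟩`. -/
def spinLower (n : ℕ) : Matrix (Fin (n + 1)) (Fin (n + 1)) ℂ :=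
  Matrix.of fun i j =>
    if (i : ℕ) = (j : ℕ) + 1 then ((Real.sqrt (((i : ℕ) : ℝ) * ((n : ℝ) + 1 - (i : ℕ))) : ℝ) : ℂ)
    else 0

/-- The spin matrices `S¹, S², S³` (indices `0, 1, 2`):
`S¹ = (S⁺ + S⁻)/2`, `S² = (S⁺ - S⁻)/(2i)`, with `S⁺ = (S⁻)ᴴ`. -/
def spin (n : ℕ) : Fin 3 → Matrix (Fin (n + 1)) (Fin (n + 1)) ℂ :=
  ![(1 / 2 : ℂ) • ((spinLower n)ᴴ + spinLower n),
    (1 / (2 * Complex.I) : ℂ) • ((spinLower n)ᴴ - spinLower n),
    spinZ n]

/-- Lattice sites. -/
abbrev Site : Type := Fin 3 → ℤ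

/-- The operator `A` acting at site `x` of the finite set `Λ`, identity elsewhere:
the matrix of `A_x ⊗ (⊗_{y ≠ x} 1)` in the product basis. -/
def siteOp {n : ℕ} {Λ : Finset Site} (x : Λ) (A : Matrix (Fin (n + 1)) (Fin (n + 1)) ℂ) :
    Matrix (Λ → Fin (n + 1)) (Λ → Fin (n + 1)) ℂ :=
  Matrix.of fun σ τ =>
    ∏ y : Λ, (if y = x then A else (1 : Matrix (Fin (n + 1)) (Fin (n + 1)) ℂ)) (σ y) (τ y)

/-- Nearest neighbours: `|x - y|₁ = 1`. -/
def IsNN (x y : Site) : Prop := ∑ i, |x i - y i| = 1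

instance (x y : Site) : Decidable (IsNN x y) := by unfold IsNN; infer_instance

/-- `H_Λ = - ∑_{edges {x,y}} S_x · S_y` (free boundary conditions; the sum over ordered pairs
counts each edge twice, hence the factor `1/2`). -/
def hamiltonian (n : ℕ) (Λ : Finset Site) : Matrix (Λ → Fin (n + 1)) (Λ → Fin (n + 1)) ℂ :=
  -((1 / 2 : ℂ) • ∑ x : Λ, ∑ y : Λ,
      if IsNN x.1 y.1 then ∑ a : Fin 3, siteOp x (spin n a) * siteOp y (spin n a) else 0)

/-- `M_Λ = ∑_x S³_x`. -/
def magnetization (n : ℕ) (Λ : Finset Site) : Matrix (Λ → Fin (n + 1)) (Λ → Fin (n + 1)) ℂ :=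
  ∑ x : Λ, siteOp x (spin n 2)

/-- Finite-volume pressure `(β |Λ|)⁻¹ log Tr exp(-β (H_Λ - h M_Λ))`. -/
def finPressure (n : ℕ) (Λ : Finset Site) (β h : ℝ) : ℝ :=
  (β * Λ.card)⁻¹ * Real.log
    (Matrix.trace (NormedSpace.exp
      (-(β : ℂ) • (hamiltonian n Λ - (h : ℂ) • magnetization n Λ)))).re

/-- `Λ_N = {-N, …, N}³`. -/
def box (N : ℕ) : Finset Site := Finset.Icc (fun _ => -(N : ℤ)) (fun _ => (N : ℤ))

/-- Infinite-volume pressure `p_β(h)`. -/
def pressure (n : ℕ) (β h : ℝ) : ℝ := limUnder atTop fun N : ℕ => finPressure n (box N) β h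

/-- Spontaneous magnetization `m_S(β)`, the right derivative of `p_β` at `0`. -/
def spontMag (n : ℕ) (β : ℝ) : ℝ := derivWithin (pressure n β) (Set.Ioi 0) 0

end

end Vale.Agent.P361
end

section

/-!
Algebra of one-site operators in a finite tensor product.
-/

namespace Vale.Agent.P361

open Matrix Finset

set_option linter.unusedSectionVars false
open scoped ComplexOrder Kronecker

open scoped MatrixOrder in
theorem exists_factor {m : Type*} [Fintype m] [DecidableEq m] {A : Matrix m m ℂ}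
    (hA : A.PosSemidef) : ∃ B : Matrix m m ℂ, A = Bᴴ * B := by
  obtain ⟨b, hb⟩ := CStarAlgebra.nonneg_iff_eq_star_mul_self.mp hA.nonneg
  exact ⟨b, hb⟩

section General

variable {d : Type*} [Fintype d] [DecidableEq d] {V : Type*} [Fintype V] [DecidableEq V]

/-- Product operator. -/
def prodOp (B : V → Matrix d d ℂ) : Matrix (V → d) (V → d) ℂ :=
  Matrix.of fun σ τ => ∏ y, B y (σ y) (τ y)

theorem prodOp_mul (B C : V → Matrix d d ℂ) :
    prodOp B * prodOp C = prodOp (fun y => B y * C y) := by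
  ext σ τ
  simp only [prodOp, Matrix.mul_apply, Matrix.of_apply]
  rw [Finset.prod_univ_sum, Fintype.piFinset_univ]
  refine Finset.sum_congr rfl fun ρ _ => ?_
  rw [← Finset.prod_mul_distrib]

theorem prodOp_one : prodOp (fun _ : V => (1 : Matrix d d ℂ)) = 1 := by
  ext σ τ
  simp only [prodOp, Matrix.of_apply, Matrix.one_apply]
  by_cases h : σ = τ
  · subst h; simp
  · rw [if_neg h]
    obtain ⟨y, hy⟩ := Function.ne_iff.mp h
    exact Finset.prod_eq_zero (Finset.mem_univ y) (by simp [hy])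

theorem prodOp_conjTranspose (B : V → Matrix d d ℂ) :
    (prodOp B)ᴴ = prodOp (fun y => (B y)ᴴ) := by
  ext σ τ
  simp [prodOp, Matrix.conjTranspose_apply]

/-- One-site operator on a general finite set of sites. -/
def siteOpV (x : V) (A : Matrix d d ℂ) : Matrix (V → d) (V → d) ℂ :=
  prodOp fun y => if y = x then A else 1

theorem siteOpV_apply (x : V) (A : Matrix d d ℂ) (σ τ : V → d) :
    siteOpV x A σ τ = A (σ x) (τ x) * ∏ y ∈ Finset.univ.erase x, (1 : Matrix d d ℂ) (σ y) (τ y) := by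
  simp only [siteOpV, prodOp, Matrix.of_apply]
  rw [← Finset.mul_prod_erase _ _ (Finset.mem_univ x)]
  congr 1
  · simp
  · refine Finset.prod_congr rfl fun y hy => ?_
    rw [if_neg (Finset.ne_of_mem_erase hy)]

theorem siteOpV_mul (x : V) (A B : Matrix d d ℂ) :
    siteOpV x A * siteOpV x B = siteOpV x (A * B) := by
  simp only [siteOpV, prodOp_mul]
  congr 1
  ext1 y
  split_ifs <;> simp

theorem siteOpV_one (x : V) : siteOpV x (1 : Matrix d d ℂ) = 1 := by
  simp only [siteOpV, ite_self]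
  exact prodOp_one

theorem siteOpV_add (x : V) (A B : Matrix d d ℂ) :
    siteOpV x (A + B) = siteOpV x A + siteOpV x B := by
  ext σ τ
  simp only [siteOpV_apply, Matrix.add_apply]
  ring

theorem siteOpV_smul (x : V) (c : ℂ) (A : Matrix d d ℂ) :
    siteOpV x (c • A) = c • siteOpV x A := by
  ext σ τ
  simp only [siteOpV_apply, Matrix.smul_apply, smul_eq_mul]
  ring

theorem siteOpV_zero (x : V) : siteOpV x (0 : Matrix d d ℂ) = 0 := by
  ext σ τ
  simp [siteOpV_apply]

theorem siteOpV_neg (x : V) (A : Matrix d d ℂ) : siteOpV x (-A) = -siteOpV x A := by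
  ext σ τ
  simp [siteOpV_apply]

theorem siteOpV_sub (x : V) (A B : Matrix d d ℂ) :
    siteOpV x (A - B) = siteOpV x A - siteOpV x B := by
  rw [sub_eq_add_neg, siteOpV_add, siteOpV_neg, sub_eq_add_neg]

theorem siteOpV_sum (x : V) {κ : Type*} (s : Finset κ) (A : κ → Matrix d d ℂ) :
    siteOpV x (∑ k ∈ s, A k) = ∑ k ∈ s, siteOpV x (A k) := by
  classical
  induction s using Finset.induction_on with
  | empty => simp [siteOpV_zero]
  | insert a s ha ih => rw [Finset.sum_insert ha, Finset.sum_insert ha, siteOpV_add, ih]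

theorem siteOpV_conjTranspose (x : V) (A : Matrix d d ℂ) :
    (siteOpV x A)ᴴ = siteOpV x Aᴴ := by
  simp only [siteOpV, prodOp_conjTranspose]
  congr 1
  ext1 y
  split_ifs <;> simp

theorem siteOpV_commute {x y : V} (hxy : x ≠ y) (A B : Matrix d d ℂ) :
    siteOpV x A * siteOpV y B = siteOpV y B * siteOpV x A := by
  simp only [siteOpV, prodOp_mul]
  congr 1
  ext1 z
  by_cases h1 : z = x
  · subst h1; simp [hxy]
  · simp [h1]

theorem siteOpV_isHermitian (x : V) {A : Matrix d d ℂ} (hA : A.IsHermitian) :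
    (siteOpV x A).IsHermitian := by
  rw [Matrix.IsHermitian, siteOpV_conjTranspose, hA]

theorem siteOpV_posSemidef (x : V) {A : Matrix d d ℂ} (hA : A.PosSemidef) :
    (siteOpV x A).PosSemidef := by
  obtain ⟨B, rfl⟩ := exists_factor hA
  rw [← siteOpV_mul, ← siteOpV_conjTranspose]
  exact Matrix.posSemidef_conjTranspose_mul_self _

end General

section Concrete

variable {n : ℕ} {Λ : Finset Site}

theorem siteOp_eq_siteOpV (x : Λ) (A : Matrix (Fin (n + 1)) (Fin (n + 1)) ℂ) :
    siteOp x A = siteOpV x A := rfl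

theorem siteOp_conjTranspose (x : Λ) (A : Matrix (Fin (n + 1)) (Fin (n + 1)) ℂ) :
    (siteOp x A)ᴴ = siteOp x Aᴴ := siteOpV_conjTranspose x A

theorem siteOp_isHermitian (x : Λ) {A : Matrix (Fin (n + 1)) (Fin (n + 1)) ℂ}
    (hA : A.IsHermitian) : (siteOp x A).IsHermitian := siteOpV_isHermitian x hA

end Concrete

end Vale.Agent.P361
end

section

/-!
Trace-exponential comparison for tensor products and relabelled indices.
-/

namespace Vale.Agent.P361

open Matrix Finset

set_option linter.unusedSectionVars false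

open scoped ComplexOrder Kronecker

variable {α β γ : Type*} [Fintype α] [DecidableEq α] [Fintype β] [DecidableEq β]
  [Fintype γ] [DecidableEq γ]

theorem exp_submatrix_equiv (e : α ≃ β) (Y : Matrix β β ℂ) :
    NormedSpace.exp (Y.submatrix e e) = (NormedSpace.exp Y).submatrix e e := by
  have h1 : ∀ k : ℕ, (Y.submatrix e e) ^ k = (Y ^ k).submatrix e e := by
    intro k
    induction k with
    | zero => simp
    | succ k ih => rw [pow_succ, pow_succ, ih, Matrix.submatrix_mul_equiv]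
  have hcont : Continuous fun M : Matrix β β ℂ => M.submatrix e e :=
    Continuous.matrix_submatrix continuous_id e e
  have hs : HasSum (fun k : ℕ => ((k.factorial : ℚ)⁻¹) • Y ^ k) (NormedSpace.exp Y) := by
    open scoped Matrix.Norms.Operator in
    exact NormedSpace.exp_series_hasSum_exp' (𝕂 := ℚ) Y
  have hs2 : HasSum (fun k : ℕ => ((k.factorial : ℚ)⁻¹) • (Y.submatrix e e) ^ k)
      (NormedSpace.exp (Y.submatrix e e)) := by
    open scoped Matrix.Norms.Operator in
    exact NormedSpace.exp_series_hasSum_exp' (𝕂 := ℚ) (Y.submatrix e e)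
  have hs3 := hs.map (AddMonoidHom.mk' (fun M : Matrix β β ℂ => M.submatrix e e)
    (fun A B => by ext i j; rfl)) hcont
  refine hs2.unique ?_
  have h4 : ((AddMonoidHom.mk' (fun M : Matrix β β ℂ => M.submatrix e e)
      (fun A B => by ext i j; rfl)) ∘ fun k : ℕ => ((k.factorial : ℚ)⁻¹) • Y ^ k) =
      fun k : ℕ => ((k.factorial : ℚ)⁻¹) • (Y.submatrix e e) ^ k := by
    ext1 k
    simp only [Function.comp, AddMonoidHom.mk'_apply, h1 k]
    rfl
  rw [h4] at hs3
  exact hs3

theorem diag_conj_eigen {X : Matrix α α ℂ} (hX : X.IsHermitian) :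
    star (hX.eigenvectorUnitary : Matrix α α ℂ) * X * (hX.eigenvectorUnitary : Matrix α α ℂ) =
      diagonal (fun i => (hX.eigenvalues i : ℂ)) := by
  set U := (hX.eigenvectorUnitary : Matrix α α ℂ) with hU
  have hUU' : star U * U = 1 := Unitary.coe_star_mul_self _
  have h1 : X = U * diagonal (RCLike.ofReal ∘ hX.eigenvalues) * star U := by
    have := hX.spectral_theorem
    rwa [Unitary.conjStarAlgAut_apply] at this
  calc star U * X * U = star U * (U * diagonal (RCLike.ofReal ∘ hX.eigenvalues) * star U) * U := by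
        rw [← h1]
    _ = (star U * U) * diagonal (RCLike.ofReal ∘ hX.eigenvalues) * (star U * U) := by
        simp only [Matrix.mul_assoc]
    _ = _ := by rw [hUU', Matrix.one_mul, Matrix.mul_one]; rfl

/-- Superadditivity tool: if `Y ≥ X₁ ⊗ 1 + 1 ⊗ X₂` then `tr e^{X₁} tr e^{X₂} ≤ tr e^Y`. -/
theorem trace_exp_prod_le (e : α × β ≃ γ) {X₁ : Matrix α α ℂ} {X₂ : Matrix β β ℂ}
    {Y : Matrix γ γ ℂ} (h₁ : X₁.IsHermitian) (h₂ : X₂.IsHermitian) (hY : Y.IsHermitian)
    (hP : (Y.submatrix e e - (X₁ ⊗ₖ (1 : Matrix β β ℂ) + (1 : Matrix α α ℂ) ⊗ₖ X₂)).PosSemidef) :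
    (trace (NormedSpace.exp X₁)).re * (trace (NormedSpace.exp X₂)).re ≤
      (trace (NormedSpace.exp Y)).re := by
  set U₁ := (h₁.eigenvectorUnitary : Matrix α α ℂ) with hU₁
  set U₂ := (h₂.eigenvectorUnitary : Matrix β β ℂ) with hU₂
  have hUU₁ : star U₁ * U₁ = 1 := Unitary.coe_star_mul_self _
  have hUU₂ : star U₂ * U₂ = 1 := Unitary.coe_star_mul_self _
  set W := U₁ ⊗ₖ U₂ with hW
  have hstarW : star W = star U₁ ⊗ₖ star U₂ := by
    rw [hW, Matrix.star_eq_conjTranspose, Matrix.conjTranspose_kronecker]; rfl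
  have hWW : star W * W = 1 := by
    rw [hstarW, hW, ← Matrix.mul_kronecker_mul, hUU₁, hUU₂, Matrix.one_kronecker_one]
  set V := W.submatrix e.symm e.symm with hV
  have hVV : star V * V = 1 := by
    rw [hV, Matrix.star_eq_conjTranspose, Matrix.conjTranspose_submatrix,
      Matrix.submatrix_mul_equiv, ← Matrix.star_eq_conjTranspose, hWW, Matrix.submatrix_one_equiv]
  have hp := peierls hY hVV
  refine le_trans ?_ hp
  rw [← Equiv.sum_comp e (fun g => Real.exp (((star V * Y * V) g g).re))]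
  have key : ∀ p : α × β, h₁.eigenvalues p.1 + h₂.eigenvalues p.2 ≤
      ((star V * Y * V) (e p) (e p)).re := by
    intro p
    have e1 : (star V * Y * V) (e p) (e p) = (star W * Y.submatrix e e * W) p p := by
      have : (star V * Y * V).submatrix e e = star W * Y.submatrix e e * W := by
        rw [← Matrix.submatrix_mul_equiv (star V * Y) V e e e,
          ← Matrix.submatrix_mul_equiv (star V) Y e e e]
        congr 2
        · ext i j; simp [hV]
        · ext i j; simp [hV]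
      rw [← this]; rfl
    rw [e1]
    have e2 : star W * Y.submatrix e e * W =
        star W * (Y.submatrix e e - (X₁ ⊗ₖ (1 : Matrix β β ℂ) + (1 : Matrix α α ℂ) ⊗ₖ X₂)) * W +
          (diagonal (fun i => (h₁.eigenvalues i : ℂ)) ⊗ₖ (1 : Matrix β β ℂ) +
            (1 : Matrix α α ℂ) ⊗ₖ diagonal (fun i => (h₂.eigenvalues i : ℂ))) := by
      have e3 : star W * (X₁ ⊗ₖ (1 : Matrix β β ℂ) + (1 : Matrix α α ℂ) ⊗ₖ X₂) * W =
          diagonal (fun i => (h₁.eigenvalues i : ℂ)) ⊗ₖ (1 : Matrix β β ℂ) +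
            (1 : Matrix α α ℂ) ⊗ₖ diagonal (fun i => (h₂.eigenvalues i : ℂ)) := by
        rw [Matrix.mul_add, Matrix.add_mul, hstarW, hW, ← Matrix.mul_kronecker_mul,
          ← Matrix.mul_kronecker_mul, ← Matrix.mul_kronecker_mul, ← Matrix.mul_kronecker_mul,
          Matrix.mul_one, Matrix.mul_one, hUU₁, hUU₂, diag_conj_eigen h₁, diag_conj_eigen h₂]
      rw [← e3, ← Matrix.add_mul, ← Matrix.mul_add, sub_add_cancel]
    rw [e2]
    have e4 : 0 ≤ ((star W * (Y.submatrix e e -
        (X₁ ⊗ₖ (1 : Matrix β β ℂ) + (1 : Matrix α α ℂ) ⊗ₖ X₂)) * W) p p).re := by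
      have h5 := hP.conjTranspose_mul_mul_same W
      have h6 := h5.diag_nonneg (i := p)
      exact (Complex.le_def.mp h6).1
    rw [Matrix.add_apply, Complex.add_re]
    have e5 : (((diagonal (fun i => (h₁.eigenvalues i : ℂ)) ⊗ₖ (1 : Matrix β β ℂ) +
            (1 : Matrix α α ℂ) ⊗ₖ diagonal (fun i => (h₂.eigenvalues i : ℂ)))) p p).re =
            h₁.eigenvalues p.1 + h₂.eigenvalues p.2 := by
      simp [Matrix.add_apply, Matrix.kroneckerMap_apply]
    rw [e5]
    linarith
  calc (trace (NormedSpace.exp X₁)).re * (trace (NormedSpace.exp X₂)).re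
      = ∑ p : α × β, Real.exp (h₁.eigenvalues p.1 + h₂.eigenvalues p.2) := by
        rw [trace_exp_re h₁, trace_exp_re h₂, Finset.sum_mul_sum, Fintype.sum_prod_type]
        simp_rw [Real.exp_add]
    _ ≤ _ := Finset.sum_le_sum fun p _ => Real.exp_le_exp.mpr (key p)

/-- Invariance of `tr e^X` under relabelling. -/
theorem trace_exp_submatrix (e : α ≃ β) (Y : Matrix β β ℂ) :
    trace (NormedSpace.exp (Y.submatrix e e)) = trace (NormedSpace.exp Y) := by
  rw [exp_submatrix_equiv]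
  simp only [Matrix.trace, Matrix.diag_apply, Matrix.submatrix_apply]
  exact Equiv.sum_comp e (fun i => NormedSpace.exp Y i i)

/-- A Hermitian matrix is bounded above by a multiple of the identity. -/
theorem exists_upper_bound {X : Matrix α α ℂ} (hX : X.IsHermitian) :
    ∃ c : ℝ, 0 ≤ c ∧ ((c : ℂ) • (1 : Matrix α α ℂ) - X).PosSemidef := by
  refine ⟨∑ i, |hX.eigenvalues i|, Finset.sum_nonneg fun i _ => abs_nonneg _, ?_⟩
  set c := ∑ i, |hX.eigenvalues i| with hc
  set U := (hX.eigenvectorUnitary : Matrix α α ℂ) with hU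
  have hUU : U * star U = 1 := Unitary.coe_mul_star_self _
  have h1 : X = U * diagonal (RCLike.ofReal ∘ hX.eigenvalues) * star U := by
    have := hX.spectral_theorem
    rwa [Unitary.conjStarAlgAut_apply] at this
  have h2 : (c : ℂ) • (1 : Matrix α α ℂ) - X =
      U * diagonal (fun i => ((c - hX.eigenvalues i : ℝ) : ℂ)) * Uᴴ := by
    have h3 : diagonal (fun i => ((c - hX.eigenvalues i : ℝ) : ℂ)) =
        (c : ℂ) • (1 : Matrix α α ℂ) - diagonal (RCLike.ofReal ∘ hX.eigenvalues) := by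
      ext i j
      by_cases hij : i = j
      · subst hij; simp
      · simp [hij]
    rw [h3, Matrix.mul_sub, Matrix.sub_mul, ← Matrix.star_eq_conjTranspose, ← h1,
      Matrix.mul_smul, Matrix.smul_mul, Matrix.mul_one, hUU]
  rw [h2]
  refine Matrix.PosSemidef.mul_mul_conjTranspose_same ?_ U
  refine Matrix.PosSemidef.diagonal ?_
  intro i
  simp only [Pi.zero_apply]
  rw [Complex.zero_le_real]
  have : |hX.eigenvalues i| ≤ c := Finset.single_le_sum (f := fun i => |hX.eigenvalues i|)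
    (fun i _ => abs_nonneg _) (Finset.mem_univ i)
  linarith [le_abs_self (hX.eigenvalues i)]

end Vale.Agent.P361
end

section

/-!
Superadditivity of the logarithm of the (shifted) partition function.
-/

namespace Vale.Agent.P361

open Matrix Finset

set_option linter.unusedSectionVars false

open scoped ComplexOrder Kronecker

section

variable {d κ : Type*} [Fintype d] [DecidableEq d] [Fintype κ]
  {V : Type*} [Fintype V] [DecidableEq V]
  {V₁ : Type*} [Fintype V₁] [DecidableEq V₁] {V₂ : Type*} [Fintype V₂] [DecidableEq V₂]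

/-- Shifted pair interaction `c + ∑ S^a_x S^a_y`. -/
def pairOp (c : ℝ) (S : κ → Matrix d d ℂ) (x y : V) : Matrix (V → d) (V → d) ℂ :=
  (c : ℂ) • (1 : Matrix (V → d) (V → d) ℂ) + ∑ a, siteOpV x (S a) * siteOpV y (S a)

theorem pairOp_posSemidef {c : ℝ} {S : κ → Matrix d d ℂ} (hS : ∀ a, (S a).IsHermitian)
    (hc : ((c : ℂ) • (1 : Matrix d d ℂ) - ∑ a, S a * S a).PosSemidef) {x y : V} (hxy : x ≠ y) :
    (pairOp c S x y).PosSemidef := by
  have h1 : pairOp c S x y = (1 / 2 : ℂ) • (∑ a, (siteOpV x (S a) + siteOpV y (S a))ᴴ *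
      (siteOpV x (S a) + siteOpV y (S a)) +
      (siteOpV x ((c : ℂ) • (1 : Matrix d d ℂ) - ∑ a, S a * S a) +
       siteOpV y ((c : ℂ) • (1 : Matrix d d ℂ) - ∑ a, S a * S a))) := by
    have h2 : ∀ a, (siteOpV x (S a) + siteOpV y (S a))ᴴ *
        (siteOpV x (S a) + siteOpV y (S a)) =
        siteOpV x (S a * S a) + siteOpV y (S a * S a) +
          (2 : ℂ) • (siteOpV x (S a) * siteOpV y (S a)) := by
      intro a
      rw [Matrix.conjTranspose_add, siteOpV_conjTranspose, siteOpV_conjTranspose, hS a,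
        Matrix.add_mul, Matrix.mul_add, Matrix.mul_add, siteOpV_mul, siteOpV_mul,
        siteOpV_commute hxy.symm, two_smul]
      abel
    simp only [h2, Finset.sum_add_distrib, siteOpV_sub, siteOpV_smul, siteOpV_one, siteOpV_sum,
      pairOp, ← Finset.smul_sum]
    module
  rw [h1]
  refine Matrix.PosSemidef.smul ?_ (by norm_num [Complex.le_def])
  refine Matrix.PosSemidef.add ?_ ((siteOpV_posSemidef x hc).add (siteOpV_posSemidef y hc))
  exact Matrix.posSemidef_sum _ fun a _ => Matrix.posSemidef_conjTranspose_mul_self _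

/-- Total shifted exponent. -/
def totOp (b c : ℝ) (S : κ → Matrix d d ℂ) (F : Matrix d d ℂ) (adj : V → V → Prop)
    [DecidableRel adj] : Matrix (V → d) (V → d) ℂ :=
  (b : ℂ) • (∑ x, ∑ y, if adj x y then pairOp c S x y else 0) + ∑ x, siteOpV x F

theorem totOp_posSemidef {b c : ℝ} (hb : 0 ≤ b) {S : κ → Matrix d d ℂ}
    (hS : ∀ a, (S a).IsHermitian)
    (hc : ((c : ℂ) • (1 : Matrix d d ℂ) - ∑ a, S a * S a).PosSemidef)
    {F : Matrix d d ℂ} (hF : F.PosSemidef) (adj : V → V → Prop) [DecidableRel adj]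
    (hadj : ∀ x, ¬ adj x x) : (totOp b c S F adj).PosSemidef := by
  refine Matrix.PosSemidef.add ?_ (Matrix.posSemidef_sum _ fun x _ => siteOpV_posSemidef x hF)
  refine Matrix.PosSemidef.smul ?_ (by simpa using hb)
  refine Matrix.posSemidef_sum _ fun x _ => Matrix.posSemidef_sum _ fun y _ => ?_
  split_ifs with h
  · refine pairOp_posSemidef hS hc ?_
    rintro rfl
    exact hadj _ h
  · exact Matrix.PosSemidef.zero

/-- Configuration equivalence for a disjoint decomposition of the sites. -/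
def confEquiv (f : V₁ ⊕ V₂ ≃ V) : (V₁ → d) × (V₂ → d) ≃ (V → d) :=
  (Equiv.sumArrowEquivProdArrow V₁ V₂ d).symm.trans (Equiv.arrowCongr f (Equiv.refl d))

theorem confEquiv_apply (f : V₁ ⊕ V₂ ≃ V) (p : (V₁ → d) × (V₂ → d)) (w : V₁ ⊕ V₂) :
    confEquiv f p (f w) = Sum.elim p.1 p.2 w := by
  simp [confEquiv, Equiv.arrowCongr, Equiv.sumArrowEquivProdArrow]

theorem siteOpV_inl (f : V₁ ⊕ V₂ ≃ V) (x : V₁) (A : Matrix d d ℂ) :
    (siteOpV (f (Sum.inl x)) A).submatrix (confEquiv f) (confEquiv f) =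
      siteOpV x A ⊗ₖ (1 : Matrix (V₂ → d) (V₂ → d) ℂ) := by
  ext p q
  simp only [Matrix.submatrix_apply, siteOpV, prodOp, Matrix.of_apply, Matrix.kroneckerMap_apply]
  rw [← Equiv.prod_comp f, Fintype.prod_sum_type]
  simp only [confEquiv_apply, Sum.elim_inl, Sum.elim_inr]
  congr 1
  · refine Finset.prod_congr rfl fun y _ => ?_
    by_cases h : y = x
    · subst h; simp
    · simp [h]
  · rw [← prodOp_one]
    simp [prodOp]

theorem siteOpV_inr (f : V₁ ⊕ V₂ ≃ V) (x : V₂) (A : Matrix d d ℂ) :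
    (siteOpV (f (Sum.inr x)) A).submatrix (confEquiv f) (confEquiv f) =
      (1 : Matrix (V₁ → d) (V₁ → d) ℂ) ⊗ₖ siteOpV x A := by
  ext p q
  simp only [Matrix.submatrix_apply, siteOpV, prodOp, Matrix.of_apply, Matrix.kroneckerMap_apply]
  rw [← Equiv.prod_comp f, Fintype.prod_sum_type]
  simp only [confEquiv_apply, Sum.elim_inl, Sum.elim_inr]
  congr 1
  · rw [← prodOp_one]
    simp [prodOp]
  · refine Finset.prod_congr rfl fun y _ => ?_
    by_cases h : y = x
    · subst h; simp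
    · simp [h]

theorem submatrix_sum_eq {m l : Type*} {ω : Type*} (s : Finset ω) (M : ω → Matrix m m ℂ)
    (e : l → m) : (∑ k ∈ s, M k).submatrix e e = ∑ k ∈ s, (M k).submatrix e e := by
  ext i j
  simp [Matrix.sum_apply]

theorem sum_kron {m l : Type*} {ω : Type*} (s : Finset ω) (M : ω → Matrix m m ℂ)
    (N : Matrix l l ℂ) : (∑ k ∈ s, M k) ⊗ₖ N = ∑ k ∈ s, (M k) ⊗ₖ N := by
  ext i j
  simp [Matrix.sum_apply, Finset.sum_mul]

theorem kron_sum {m l : Type*} {ω : Type*} (s : Finset ω) (M : ω → Matrix m m ℂ)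
    (N : Matrix l l ℂ) : N ⊗ₖ (∑ k ∈ s, M k) = ∑ k ∈ s, N ⊗ₖ (M k) := by
  ext i j
  simp [Matrix.sum_apply, Finset.mul_sum]

theorem pairOp_inl (c : ℝ) (S : κ → Matrix d d ℂ) (f : V₁ ⊕ V₂ ≃ V) (x y : V₁) :
    (pairOp c S (f (Sum.inl x)) (f (Sum.inl y))).submatrix (confEquiv f) (confEquiv f) =
      pairOp c S x y ⊗ₖ (1 : Matrix (V₂ → d) (V₂ → d) ℂ) := by
  simp only [pairOp, Matrix.submatrix_add, Pi.add_apply, Matrix.submatrix_smul, Pi.smul_apply,
    submatrix_sum_eq, Matrix.add_kronecker, Matrix.smul_kronecker, sum_kron,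
    Matrix.submatrix_one_equiv, Matrix.one_kronecker_one]
  congr 1
  refine Finset.sum_congr rfl fun a _ => ?_
  rw [← Matrix.submatrix_mul_equiv _ _ _ (confEquiv f) _, siteOpV_inl, siteOpV_inl,
    ← Matrix.mul_kronecker_mul, Matrix.mul_one]

theorem pairOp_inr (c : ℝ) (S : κ → Matrix d d ℂ) (f : V₁ ⊕ V₂ ≃ V) (x y : V₂) :
    (pairOp c S (f (Sum.inr x)) (f (Sum.inr y))).submatrix (confEquiv f) (confEquiv f) =
      (1 : Matrix (V₁ → d) (V₁ → d) ℂ) ⊗ₖ pairOp c S x y := by
  simp only [pairOp, Matrix.submatrix_add, Pi.add_apply, Matrix.submatrix_smul, Pi.smul_apply,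
    submatrix_sum_eq, Matrix.kronecker_add, Matrix.kronecker_smul, kron_sum,
    Matrix.submatrix_one_equiv, Matrix.one_kronecker_one]
  congr 1
  refine Finset.sum_congr rfl fun a _ => ?_
  rw [← Matrix.submatrix_mul_equiv _ _ _ (confEquiv f) _, siteOpV_inr, siteOpV_inr,
    ← Matrix.mul_kronecker_mul, Matrix.mul_one]

/-- Splitting of the total exponent. -/
theorem totOp_split {b c : ℝ} (hb : 0 ≤ b) {S : κ → Matrix d d ℂ}
    (hS : ∀ a, (S a).IsHermitian)
    (hc : ((c : ℂ) • (1 : Matrix d d ℂ) - ∑ a, S a * S a).PosSemidef)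
    (F : Matrix d d ℂ) (adj : V → V → Prop) [DecidableRel adj] (f : V₁ ⊕ V₂ ≃ V) :
    ((totOp b c S F adj).submatrix (confEquiv f) (confEquiv f) -
      (totOp b c S F (fun x y : V₁ => adj (f (Sum.inl x)) (f (Sum.inl y))) ⊗ₖ
          (1 : Matrix (V₂ → d) (V₂ → d) ℂ) +
        (1 : Matrix (V₁ → d) (V₁ → d) ℂ) ⊗ₖ
          totOp b c S F (fun x y : V₂ => adj (f (Sum.inr x)) (f (Sum.inr y))))).PosSemidef := by
  have h1 : (totOp b c S F adj).submatrix (confEquiv f) (confEquiv f) -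
      (totOp b c S F (fun x y : V₁ => adj (f (Sum.inl x)) (f (Sum.inl y))) ⊗ₖ
          (1 : Matrix (V₂ → d) (V₂ → d) ℂ) +
        (1 : Matrix (V₁ → d) (V₁ → d) ℂ) ⊗ₖ
          totOp b c S F (fun x y : V₂ => adj (f (Sum.inr x)) (f (Sum.inr y)))) =
      (b : ℂ) • ((∑ x : V₁, ∑ y : V₂, if adj (f (Sum.inl x)) (f (Sum.inr y)) then
          (pairOp c S (f (Sum.inl x)) (f (Sum.inr y))).submatrix (confEquiv f) (confEquiv f)
          else 0) +
        (∑ x : V₂, ∑ y : V₁, if adj (f (Sum.inr x)) (f (Sum.inl y)) then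
          (pairOp c S (f (Sum.inr x)) (f (Sum.inl y))).submatrix (confEquiv f) (confEquiv f)
          else 0)) := by
    have h2 : ∀ x y : V, (if adj x y then pairOp c S x y else 0).submatrix
        (confEquiv f) (confEquiv f) = if adj x y then (pairOp c S x y).submatrix
        (confEquiv f) (confEquiv f) else 0 := by
      intro x y
      split_ifs
      · rfl
      · ext i j; rfl
    have h3 : ∀ x y : V₁, (if adj (f (Sum.inl x)) (f (Sum.inl y)) then pairOp c S x y
        else 0) ⊗ₖ (1 : Matrix (V₂ → d) (V₂ → d) ℂ) =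
        if adj (f (Sum.inl x)) (f (Sum.inl y)) then
          pairOp c S x y ⊗ₖ (1 : Matrix (V₂ → d) (V₂ → d) ℂ) else 0 := by
      intro x y
      split_ifs
      · rfl
      · exact Matrix.zero_kronecker _
    have h4 : ∀ x y : V₂, (1 : Matrix (V₁ → d) (V₁ → d) ℂ) ⊗ₖ
        (if adj (f (Sum.inr x)) (f (Sum.inr y)) then pairOp c S x y else 0) =
        if adj (f (Sum.inr x)) (f (Sum.inr y)) then
          (1 : Matrix (V₁ → d) (V₁ → d) ℂ) ⊗ₖ pairOp c S x y else 0 := by
      intro x y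
      split_ifs
      · rfl
      · exact Matrix.kronecker_zero _
    simp only [totOp, Matrix.submatrix_add, Pi.add_apply, Matrix.submatrix_smul, Pi.smul_apply,
      submatrix_sum_eq, h2, Matrix.add_kronecker, Matrix.smul_kronecker, sum_kron,
      Matrix.kronecker_add, Matrix.kronecker_smul, kron_sum, h3, h4]
    simp only [← Equiv.sum_comp f, Fintype.sum_sum_type, pairOp_inl, pairOp_inr, siteOpV_inl,
      siteOpV_inr, Finset.sum_add_distrib, smul_add]
    abel
  rw [h1]
  refine Matrix.PosSemidef.smul ?_ (by simpa using hb)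
  refine Matrix.PosSemidef.add ?_ ?_
  · refine Matrix.posSemidef_sum _ fun x _ => Matrix.posSemidef_sum _ fun y _ => ?_
    split_ifs
    · refine Matrix.PosSemidef.submatrix (pairOp_posSemidef hS hc ?_) _
      intro h
      simpa using f.injective h
    · exact Matrix.PosSemidef.zero
  · refine Matrix.posSemidef_sum _ fun x _ => Matrix.posSemidef_sum _ fun y _ => ?_
    split_ifs
    · refine Matrix.PosSemidef.submatrix (pairOp_posSemidef hS hc ?_) _
      intro h
      simpa using f.injective h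
    · exact Matrix.PosSemidef.zero

/-- Logarithm of the shifted partition function. -/
noncomputable def logZ (b c : ℝ) (S : κ → Matrix d d ℂ) (F : Matrix d d ℂ) (adj : V → V → Prop)
    [DecidableRel adj] : ℝ :=
  Real.log (trace (NormedSpace.exp (totOp b c S F adj))).re

theorem totOp_isHermitian (b c : ℝ) {S : κ → Matrix d d ℂ} (hS : ∀ a, (S a).IsHermitian)
    {F : Matrix d d ℂ} (hF : F.IsHermitian) (adj : V → V → Prop) [DecidableRel adj]
    (hadj : ∀ x, ¬ adj x x) : (totOp b c S F adj).IsHermitian := by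
  have h1 : ∀ x y : V, x ≠ y → (pairOp c S x y).IsHermitian := by
    intro x y hxy
    rw [Matrix.IsHermitian, pairOp, Matrix.conjTranspose_add, Matrix.conjTranspose_smul,
      Matrix.conjTranspose_one, Matrix.conjTranspose_sum]
    congr 1
    · simp
    · refine Finset.sum_congr rfl fun a _ => ?_
      rw [Matrix.conjTranspose_mul, siteOpV_conjTranspose, siteOpV_conjTranspose, hS a,
        siteOpV_commute hxy.symm]
  rw [Matrix.IsHermitian, totOp, Matrix.conjTranspose_add, Matrix.conjTranspose_smul,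
    Matrix.conjTranspose_sum, Matrix.conjTranspose_sum]
  congr 1
  · congr 1
    · simp
    · refine Finset.sum_congr rfl fun x _ => ?_
      rw [Matrix.conjTranspose_sum]
      refine Finset.sum_congr rfl fun y _ => ?_
      split_ifs with h
      · exact h1 x y (by rintro rfl; exact hadj _ h)
      · simp
  · refine Finset.sum_congr rfl fun x _ => ?_
    exact siteOpV_isHermitian x hF

section props

variable {b c : ℝ} (hb : 0 ≤ b) {S : κ → Matrix d d ℂ} (hS : ∀ a, (S a).IsHermitian)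
  (hc : ((c : ℂ) • (1 : Matrix d d ℂ) - ∑ a, S a * S a).PosSemidef)
  {F : Matrix d d ℂ} (hF : F.PosSemidef)

include hb hS hc hF

theorem logZ_superadd [Nonempty d] (adj : V → V → Prop) [DecidableRel adj]
    (hadj : ∀ x, ¬ adj x x) (f : V₁ ⊕ V₂ ≃ V) :
    logZ b c S F (fun x y : V₁ => adj (f (Sum.inl x)) (f (Sum.inl y))) +
      logZ b c S F (fun x y : V₂ => adj (f (Sum.inr x)) (f (Sum.inr y))) ≤
      logZ b c S F adj := by
  have h1 := totOp_isHermitian b c hS hF.1 (fun x y : V₁ => adj (f (Sum.inl x)) (f (Sum.inl y)))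
    (fun x => hadj _)
  have h2 := totOp_isHermitian b c hS hF.1 (fun x y : V₂ => adj (f (Sum.inr x)) (f (Sum.inr y)))
    (fun x => hadj _)
  have h3 := totOp_isHermitian b c hS hF.1 adj hadj
  have h := trace_exp_prod_le (confEquiv f) h1 h2 h3 (totOp_split hb hS hc F adj f)
  have p1 := trace_exp_pos h1
  have p2 := trace_exp_pos h2
  unfold logZ
  rw [← Real.log_mul p1.ne' p2.ne']
  exact Real.log_le_log (mul_pos p1 p2) h

theorem logZ_nonneg [Nonempty d] (adj : V → V → Prop) [DecidableRel adj]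
    (hadj : ∀ x, ¬ adj x x) : 0 ≤ logZ b c S F adj := by
  have h1 := totOp_isHermitian b c hS hF.1 adj hadj
  have h2 := totOp_posSemidef hb hS hc hF adj hadj
  have h3 := trace_exp_mono (X := (0 : Matrix (V → d) (V → d) ℂ)) Matrix.isHermitian_zero h1
    (by simpa using h2)
  unfold logZ
  refine Real.log_nonneg (le_trans ?_ h3)
  rw [NormedSpace.exp_zero, Matrix.trace_one, Complex.natCast_re]
  exact_mod_cast Fintype.card_pos

end props

theorem siteOpV_relabel {W : Type*} [Fintype W] [DecidableEq W] (g : V ≃ W) (x : V)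
    (A : Matrix d d ℂ) :
    (siteOpV (g x) A).submatrix (Equiv.arrowCongr g (Equiv.refl d))
      (Equiv.arrowCongr g (Equiv.refl d)) = siteOpV x A := by
  ext p q
  simp only [Matrix.submatrix_apply, siteOpV, prodOp, Matrix.of_apply]
  rw [← Equiv.prod_comp g]
  refine Finset.prod_congr rfl fun y _ => ?_
  have hp : ∀ r : V → d, (g.arrowCongr (Equiv.refl d)) r (g y) = r y := by
    intro r; simp [Equiv.arrowCongr]
  rw [hp, hp]
  by_cases h : y = x
  · subst h; simp
  · simp [h]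

theorem logZ_relabel {W : Type*} [Fintype W] [DecidableEq W] (g : V ≃ W) (b c : ℝ)
    (S : κ → Matrix d d ℂ) (F : Matrix d d ℂ) (adj : W → W → Prop) [DecidableRel adj] :
    logZ b c S F (fun x y : V => adj (g x) (g y)) = logZ b c S F adj := by
  have h : (totOp b c S F adj).submatrix (Equiv.arrowCongr g (Equiv.refl d))
      (Equiv.arrowCongr g (Equiv.refl d)) = totOp b c S F (fun x y : V => adj (g x) (g y)) := by
    have h2 : ∀ x y : W, (if adj x y then pairOp c S x y else 0).submatrix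
        (Equiv.arrowCongr g (Equiv.refl d)) (Equiv.arrowCongr g (Equiv.refl d)) =
        if adj x y then (pairOp c S x y).submatrix
        (Equiv.arrowCongr g (Equiv.refl d)) (Equiv.arrowCongr g (Equiv.refl d)) else 0 := by
      intro x y
      split_ifs
      · rfl
      · ext i j; rfl
    have h5 : ∀ x y : V, (pairOp c S (g x) (g y)).submatrix
        (Equiv.arrowCongr g (Equiv.refl d)) (Equiv.arrowCongr g (Equiv.refl d)) =
        pairOp c S x y := by
      intro x y
      simp only [pairOp, Matrix.submatrix_add, Pi.add_apply, Matrix.submatrix_smul, Pi.smul_apply,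
        submatrix_sum_eq, Matrix.submatrix_one_equiv]
      congr 1
      refine Finset.sum_congr rfl fun a _ => ?_
      rw [← Matrix.submatrix_mul_equiv _ _ _ (Equiv.arrowCongr g (Equiv.refl d)) _,
        siteOpV_relabel, siteOpV_relabel]
    simp only [totOp, Matrix.submatrix_add, Pi.add_apply, Matrix.submatrix_smul, Pi.smul_apply,
      submatrix_sum_eq, h2]
    simp only [← Equiv.sum_comp g, h5, siteOpV_relabel]
  unfold logZ
  rw [← h, trace_exp_submatrix]

theorem pairOp_upper {c : ℝ} {S : κ → Matrix d d ℂ} (hS : ∀ a, (S a).IsHermitian)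
    (hc : ((c : ℂ) • (1 : Matrix d d ℂ) - ∑ a, S a * S a).PosSemidef) {x y : V} (hxy : x ≠ y) :
    (((2 * c : ℝ) : ℂ) • (1 : Matrix (V → d) (V → d) ℂ) - pairOp c S x y).PosSemidef := by
  have h1 : ((2 * c : ℝ) : ℂ) • (1 : Matrix (V → d) (V → d) ℂ) - pairOp c S x y =
      (1 / 2 : ℂ) • (∑ a, (siteOpV x (S a) - siteOpV y (S a))ᴴ *
      (siteOpV x (S a) - siteOpV y (S a)) +
      (siteOpV x ((c : ℂ) • (1 : Matrix d d ℂ) - ∑ a, S a * S a) +
       siteOpV y ((c : ℂ) • (1 : Matrix d d ℂ) - ∑ a, S a * S a))) := by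
    have h2 : ∀ a, (siteOpV x (S a) - siteOpV y (S a))ᴴ *
        (siteOpV x (S a) - siteOpV y (S a)) =
        siteOpV x (S a * S a) + siteOpV y (S a * S a) -
          (2 : ℂ) • (siteOpV x (S a) * siteOpV y (S a)) := by
      intro a
      rw [Matrix.conjTranspose_sub, siteOpV_conjTranspose, siteOpV_conjTranspose, hS a,
        Matrix.sub_mul, Matrix.mul_sub, Matrix.mul_sub, siteOpV_mul, siteOpV_mul,
        siteOpV_commute hxy.symm, two_smul]
      abel
    simp only [h2, Finset.sum_add_distrib, Finset.sum_sub_distrib, siteOpV_sub, siteOpV_smul,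
      siteOpV_one, siteOpV_sum, pairOp, ← Finset.smul_sum]
    push_cast
    module
  rw [h1]
  refine Matrix.PosSemidef.smul ?_ (by norm_num [Complex.le_def])
  refine Matrix.PosSemidef.add ?_ ((siteOpV_posSemidef x hc).add (siteOpV_posSemidef y hc))
  exact Matrix.posSemidef_sum _ fun a _ => Matrix.posSemidef_conjTranspose_mul_self _

theorem trace_exp_real_smul_one (k : ℝ) :
    (trace (NormedSpace.exp ((k : ℂ) • (1 : Matrix V V ℂ)))).re = Fintype.card V * Real.exp k := by
  have h : (k : ℂ) • (1 : Matrix V V ℂ) = diagonal (fun _ => (k : ℂ)) := by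
    ext i j
    by_cases hij : i = j
    · subst hij; simp
    · simp [hij]
  rw [h, Matrix.exp_diagonal, Matrix.trace_diagonal]
  simp [← Complex.exp_eq_exp_ℂ, ← Complex.ofReal_exp]

/-- Adding a real multiple of the identity to the exponent. -/
theorem trace_exp_add_smul_one {X : Matrix V V ℂ} (k : ℝ) :
    (trace (NormedSpace.exp (X + (k : ℂ) • (1 : Matrix V V ℂ)))).re =
      Real.exp k * (trace (NormedSpace.exp X)).re := by
  have hcomm : Commute X ((k : ℂ) • (1 : Matrix V V ℂ)) :=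
    (Commute.one_right X).smul_right (k : ℂ)
  have h : (k : ℂ) • (1 : Matrix V V ℂ) = diagonal (fun _ => (k : ℂ)) := by
    ext i j
    by_cases hij : i = j
    · subst hij; simp
    · simp [hij]
  rw [Matrix.exp_add_of_commute _ _ hcomm, h, Matrix.exp_diagonal]
  have h2 : diagonal (NormedSpace.exp fun _ : V => (k : ℂ)) =
      ((Real.exp k : ℝ) : ℂ) • (1 : Matrix V V ℂ) := by
    ext i j
    by_cases hij : i = j
    · subst hij; simp [Pi.exp_def, ← Complex.exp_eq_exp_ℂ]
    · simp [hij]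
  rw [h2, Matrix.mul_smul, Matrix.mul_one, Matrix.trace_smul, smul_eq_mul, Complex.re_ofReal_mul]

theorem logZ_upper [Nonempty d] {b c φ : ℝ} (hb : 0 ≤ b) {S : κ → Matrix d d ℂ}
    (hS : ∀ a, (S a).IsHermitian)
    (hc : ((c : ℂ) • (1 : Matrix d d ℂ) - ∑ a, S a * S a).PosSemidef) (hc0 : 0 ≤ c)
    {F : Matrix d d ℂ} (hF : F.IsHermitian)
    (hφ : ((φ : ℂ) • (1 : Matrix d d ℂ) - F).PosSemidef)
    (adj : V → V → Prop) [DecidableRel adj] (hadj : ∀ x, ¬ adj x x) (K : ℝ)
    (hK : ∀ x, ((Finset.univ.filter fun y => adj x y).card : ℝ) ≤ K) :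
    logZ b c S F adj ≤ (Real.log (Fintype.card d) + 2 * b * c * K + φ) * Fintype.card V := by
  have hH := totOp_isHermitian b c hS hF adj hadj
  set T : ℝ := (2 * b * c * K + φ) * Fintype.card V with hT
  have key : ((T : ℂ) • (1 : Matrix (V → d) (V → d) ℂ) - totOp b c S F adj).PosSemidef := by
    have e1 : (T : ℂ) • (1 : Matrix (V → d) (V → d) ℂ) - totOp b c S F adj =
        (∑ x : V, siteOpV x ((φ : ℂ) • (1 : Matrix d d ℂ) - F)) +
        (b : ℂ) • ((∑ x : V, ∑ y : V, if adj x y then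
          (((2 * c : ℝ) : ℂ) • (1 : Matrix (V → d) (V → d) ℂ) - pairOp c S x y) else 0) +
        ∑ x : V, ((2 * c * (K - (Finset.univ.filter fun y => adj x y).card) : ℝ) : ℂ) •
          (1 : Matrix (V → d) (V → d) ℂ)) := by
      have e2 : ∀ x : V, (∑ y : V, if adj x y then
          (((2 * c : ℝ) : ℂ) • (1 : Matrix (V → d) (V → d) ℂ) - pairOp c S x y) else 0) =
          (((Finset.univ.filter fun y => adj x y).card : ℝ) : ℂ) • (((2 * c : ℝ) : ℂ) •
            (1 : Matrix (V → d) (V → d) ℂ)) - ∑ y : V, if adj x y then pairOp c S x y else 0 := by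
        intro x
        rw [← Finset.sum_filter, ← Finset.sum_filter, Finset.sum_sub_distrib, Finset.sum_const]
        congr 1
        ext i j
        simp
      simp only [e2, Finset.sum_sub_distrib, siteOpV_sub, siteOpV_smul, siteOpV_one, totOp, hT]
      ext i j
      simp only [Matrix.add_apply, Matrix.sub_apply, Matrix.smul_apply, smul_eq_mul,
        Matrix.sum_apply]
      push_cast
      simp only [mul_sub, Finset.sum_sub_distrib, Finset.sum_const, Finset.card_univ, nsmul_eq_mul,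
        ← Finset.mul_sum, ← Finset.sum_mul]
      ring
    rw [e1]
    refine (Matrix.posSemidef_sum _ fun x _ => siteOpV_posSemidef x hφ).add ?_
    refine Matrix.PosSemidef.smul ?_ (by simpa using hb)
    refine Matrix.PosSemidef.add ?_ ?_
    · refine Matrix.posSemidef_sum _ fun x _ => Matrix.posSemidef_sum _ fun y _ => ?_
      split_ifs with h
      · exact pairOp_upper hS hc (by rintro rfl; exact hadj _ h)
      · exact Matrix.PosSemidef.zero
    · refine Matrix.posSemidef_sum _ fun x _ => ?_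
      refine Matrix.PosSemidef.one.smul ?_
      rw [Complex.zero_le_real]
      have := hK x
      have : 0 ≤ K - ((Finset.univ.filter fun y => adj x y).card : ℝ) := by linarith
      positivity
  have h1 : ((T : ℂ) • (1 : Matrix (V → d) (V → d) ℂ)).IsHermitian := by
    rw [Matrix.IsHermitian, Matrix.conjTranspose_smul, Matrix.conjTranspose_one]
    simp
  have h2 := trace_exp_mono hH h1 key
  rw [trace_exp_real_smul_one] at h2
  have h3 := Real.log_le_log (trace_exp_pos hH) h2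
  unfold logZ
  refine h3.trans ?_
  have hd : (0 : ℝ) < Fintype.card d := by exact_mod_cast Fintype.card_pos
  rw [Fintype.card_fun, Nat.cast_pow, Real.log_mul (by positivity) (Real.exp_pos _).ne',
    Real.log_pow, Real.log_exp, hT]
  apply le_of_eq
  ring

end

end Vale.Agent.P361
end

section

/-!
Limit along cubes of a superadditive, translation invariant set function.
-/

namespace Vale.Agent.P361

open Filter Topology Finset

/-- The cube `{0, …, L-1}³`. -/
noncomputable def cube (L : ℕ) : Finset Site := Fintype.piFinset fun _ => Finset.Ico (0 : ℤ) (L : ℤ)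

theorem mem_cube {L : ℕ} {x : Site} : x ∈ cube L ↔ ∀ i, 0 ≤ x i ∧ x i < L := by
  simp [cube, Fintype.mem_piFinset]

theorem card_cube (L : ℕ) : (cube L).card = L ^ 3 := by
  simp [cube]

theorem box_eq_map (N : ℕ) :
    box N = (cube (2 * N + 1)).map (addRightEmbedding (fun _ => -(N : ℤ))) := by
  ext x
  simp only [box, Finset.mem_Icc, Finset.mem_map, addRightEmbedding_apply, mem_cube, Pi.le_def]
  constructor
  · rintro ⟨h1, h2⟩
    refine ⟨fun i => x i + N, fun i => ⟨by linarith [h1 i], ?_⟩, ?_⟩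
    · push_cast
      linarith [h2 i]
    · ext i; simp
  · rintro ⟨y, hy, rfl⟩
    refine ⟨fun i => ?_, fun i => ?_⟩
    · simp only [Pi.add_apply]
      linarith [(hy i).1]
    · simp only [Pi.add_apply]
      have := (hy i).2
      push_cast at this
      linarith

theorem card_box (N : ℕ) : (box N).card = (2 * N + 1) ^ 3 := by
  rw [box_eq_map, Finset.card_map, card_cube]

section

variable {G : Finset Site → ℝ}
  (hsup : ∀ Λ₁ Λ₂ : Finset Site, Disjoint Λ₁ Λ₂ → G Λ₁ + G Λ₂ ≤ G (Λ₁ ∪ Λ₂))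
  (htr : ∀ (v : Site) (Λ : Finset Site), G (Λ.map (addRightEmbedding v)) = G Λ)
  (h0 : ∀ Λ : Finset Site, 0 ≤ G Λ)

include hsup h0

theorem G_mono {Λ₁ Λ₂ : Finset Site} (h : Λ₁ ⊆ Λ₂) : G Λ₁ ≤ G Λ₂ := by
  have h1 := hsup Λ₁ (Λ₂ \ Λ₁) Finset.disjoint_sdiff
  rw [Finset.union_sdiff_of_subset h] at h1
  linarith [h0 (Λ₂ \ Λ₁)]

theorem G_biUnion {ω : Type*} [DecidableEq ω] (J : Finset ω) (Λ : ω → Finset Site)
    (hd : (J : Set ω).PairwiseDisjoint Λ) : ∑ j ∈ J, G (Λ j) ≤ G (J.biUnion Λ) := by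
  induction J using Finset.induction_on with
  | empty => simpa using h0 ∅
  | insert a J ha ih =>
    rw [Finset.sum_insert ha, Finset.biUnion_insert]
    have h1 : Disjoint (Λ a) (J.biUnion Λ) := by
      rw [Finset.disjoint_biUnion_right]
      intro j hj
      exact hd (by simp) (by simp [hj]) (by rintro rfl; exact ha hj)
    have h2 := ih (hd.subset (by simp))
    linarith [hsup _ _ h1]

include htr

theorem G_cube_mul (m q L : ℕ) (hm : 0 < m) (hL : q * m ≤ L) :
    (q : ℝ) ^ 3 * G (cube m) ≤ G (cube L) := by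
  set Λ : Site → Finset Site := fun j => (cube m).map (addRightEmbedding ((m : ℤ) • j)) with hΛ
  have hmem : ∀ j x : Site, x ∈ Λ j ↔ ∀ i, (m : ℤ) * j i ≤ x i ∧ x i < (m : ℤ) * j i + m := by
    intro j x
    simp only [hΛ, Finset.mem_map, addRightEmbedding_apply, mem_cube]
    constructor
    · rintro ⟨y, hy, rfl⟩ i
      have := hy i
      simp only [Pi.add_apply, Pi.smul_apply, smul_eq_mul]
      constructor <;> linarith
    · intro h
      refine ⟨x - (m : ℤ) • j, fun i => ?_, by simp⟩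
      have := h i
      simp only [Pi.sub_apply, Pi.smul_apply, smul_eq_mul]
      constructor <;> linarith
  have hdisj : ((cube q : Finset Site) : Set Site).PairwiseDisjoint Λ := by
    intro j _ k _ hjk
    rw [Function.onFun, Finset.disjoint_left]
    intro x hx hx'
    apply hjk
    ext i
    have h1 := (hmem j x).1 hx i
    have h2 := (hmem k x).1 hx' i
    have hm' : (0 : ℤ) < m := by exact_mod_cast hm
    have e1 : x i / m = j i := by
      rw [Int.ediv_eq_iff_of_pos hm']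
      constructor <;> linarith
    have e2 : x i / m = k i := by
      rw [Int.ediv_eq_iff_of_pos hm']
      constructor <;> linarith
    rw [← e1, e2]
  have hsub : (cube q).biUnion Λ ⊆ cube L := by
    intro x hx
    rw [Finset.mem_biUnion] at hx
    obtain ⟨j, hj, hx⟩ := hx
    rw [mem_cube] at hj ⊢
    intro i
    have h1 := (hmem j x).1 hx i
    have h2 := hj i
    have hm' : (0 : ℤ) < m := by exact_mod_cast hm
    have hL' : (q : ℤ) * m ≤ L := by exact_mod_cast hL
    constructor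
    · nlinarith [mul_nonneg hm'.le h2.1]
    · have h3 : j i + 1 ≤ q := h2.2
      nlinarith [mul_le_mul_of_nonneg_left h3 hm'.le]
  have h1 := G_biUnion hsup h0 (cube q) Λ hdisj
  have h2 := G_mono hsup h0 hsub
  have h3 : ∑ j ∈ cube q, G (Λ j) = (q : ℝ) ^ 3 * G (cube m) := by
    simp only [hΛ, htr, Finset.sum_const, card_cube, nsmul_eq_mul, Nat.cast_pow]
  linarith

theorem tendsto_cube {C : ℝ} (hC : ∀ Λ : Finset Site, G Λ ≤ C * Λ.card) :
    ∃ p : ℝ, Tendsto (fun L : ℕ => G (cube L) / (L : ℝ) ^ 3) atTop (𝓝 p) := by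
  set a : ℕ → ℝ := fun L => G (cube L) / (L : ℝ) ^ 3 with ha
  have hub : ∀ L : ℕ, 0 < L → a L ≤ C := by
    intro L hL
    have : (0 : ℝ) < L := by exact_mod_cast hL
    simp only [ha]
    rw [div_le_iff₀ (by positivity)]
    have := hC (cube L)
    rw [card_cube] at this
    exact_mod_cast this
  set s : ℝ := ⨆ m : ℕ, a (m + 1) with hs
  have hbdd : BddAbove (Set.range fun m : ℕ => a (m + 1)) := by
    refine ⟨C, ?_⟩
    rintro _ ⟨m, rfl⟩
    exact hub _ (Nat.succ_pos m)
  refine ⟨s, ?_⟩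
  rw [tendsto_order]
  constructor
  · intro u hu
    obtain ⟨m', hm'⟩ := exists_lt_of_lt_ciSup hu
    set m := m' + 1 with hmdef
    have hm : 0 < m := Nat.succ_pos _
    have hmR : (0 : ℝ) < m := by exact_mod_cast hm
    have hlow : ∀ L : ℕ, 0 < L → (((L / m : ℕ) : ℝ) / L) ^ 3 * G (cube m) ≤ a L := by
      intro L hL
      have hLR : (0 : ℝ) < L := by exact_mod_cast hL
      have h1 := G_cube_mul hsup htr h0 m (L / m) L hm (Nat.div_mul_le_self L m)
      simp only [ha]
      rw [le_div_iff₀ (by positivity), div_pow]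
      have : ((L / m : ℕ) : ℝ) ^ 3 / (L : ℝ) ^ 3 * G (cube m) * (L : ℝ) ^ 3 =
          ((L / m : ℕ) : ℝ) ^ 3 * G (cube m) := by
        field_simp
      rw [this]
      exact h1
    have hlim : Tendsto (fun L : ℕ => (((L / m : ℕ) : ℝ) / L) ^ 3 * G (cube m)) atTop
        (𝓝 ((1 / (m : ℝ)) ^ 3 * G (cube m))) := by
      refine Tendsto.mul_const _ (Tendsto.pow ?_ 3)
      have h2 := (tendsto_nat_floor_mul_div_atTop (R := ℝ) (a := 1 / (m : ℝ))
        (by positivity)).comp tendsto_natCast_atTop_atTop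
      refine h2.congr' ?_
      filter_upwards with L
      simp only [Function.comp]
      congr 2
      rw [one_div, inv_mul_eq_div, Nat.floor_div_eq_div]
    have hval : (1 / (m : ℝ)) ^ 3 * G (cube m) = a m := by
      simp only [ha]
      field_simp
    rw [hval] at hlim
    filter_upwards [(tendsto_order.1 hlim).1 u hm', eventually_gt_atTop 0] with L h1 h2
    exact lt_of_lt_of_le h1 (hlow L h2)
  · intro u hu
    filter_upwards [eventually_gt_atTop 0] with L hL
    obtain ⟨k, rfl⟩ : ∃ k, L = k + 1 := ⟨L - 1, by omega⟩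
    exact lt_of_le_of_lt (le_ciSup hbdd k) hu

theorem tendsto_box {C : ℝ} (hC : ∀ Λ : Finset Site, G Λ ≤ C * Λ.card) :
    ∃ p : ℝ, Tendsto (fun N : ℕ => G (box N) / ((box N).card : ℝ)) atTop (𝓝 p) := by
  obtain ⟨p, hp⟩ := tendsto_cube hsup htr h0 hC
  refine ⟨p, ?_⟩
  have h1 : Tendsto (fun N : ℕ => 2 * N + 1) atTop atTop := by
    refine tendsto_atTop_mono (fun n => ?_) tendsto_id
    simp only [id]; omega
  refine (hp.comp h1).congr fun N => ?_
  simp only [Function.comp]
  rw [box_eq_map, htr, Finset.card_map, card_cube]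
  push_cast
  rfl

end

end Vale.Agent.P361
end

section

/-!
Existence of the thermodynamic limit of the pressure.
-/

namespace Vale.Agent.P361

open Matrix Filter Topology Finset
open scoped ComplexOrder Kronecker

theorem spin_isHermitian (n : ℕ) (a : Fin 3) : (spin n a).IsHermitian := by
  fin_cases a
  · simp only [spin, Matrix.IsHermitian]
    simp [Matrix.conjTranspose_smul, Matrix.conjTranspose_add, add_comm]
  · simp only [spin, Matrix.IsHermitian]
    simp only [Fin.mk_one, Fin.isValue, Matrix.cons_val_one, Matrix.cons_val_zero]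
    rw [Matrix.conjTranspose_smul, Matrix.conjTranspose_sub, Matrix.conjTranspose_conjTranspose]
    have : star (1 / (2 * Complex.I) : ℂ) = -(1 / (2 * Complex.I)) := by
      simp
    rw [this, neg_smul, ← smul_neg, neg_sub]
  · simp only [spin, spinZ, Matrix.IsHermitian]
    simp only [Fin.reduceFinMk, Matrix.cons_val]
    rw [Matrix.diagonal_conjTranspose]
    congr 1
    ext1 j
    simp

theorem isNN_irrefl (x : Site) : ¬ IsNN x x := by
  simp [IsNN]

theorem isNN_mem_Icc {x y : Site} (h : IsNN x y) : y ∈ Finset.Icc (x - 1) (x + 1) := by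
  rw [Finset.mem_Icc, Pi.le_def, Pi.le_def]
  have key : ∀ i, |x i - y i| ≤ 1 := by
    intro i
    have h1 : |x i - y i| ≤ ∑ j, |x j - y j| :=
      Finset.single_le_sum (f := fun j => |x j - y j|) (fun _ _ => abs_nonneg _)
        (Finset.mem_univ i)
    exact h1.trans_eq h
  refine ⟨fun i => ?_, fun i => ?_⟩
  · have := abs_le.1 (key i)
    simp only [Pi.sub_apply, Pi.one_apply]
    linarith
  · have := abs_le.1 (key i)
    simp only [Pi.add_apply, Pi.one_apply]
    linarith

theorem degree_bound (Λ : Finset Site) (x : Λ) :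
    (Finset.univ.filter fun y : Λ => IsNN x.1 y.1).card ≤ 27 := by
  have h1 : (Finset.univ.filter fun y : Λ => IsNN x.1 y.1).card ≤
      (Finset.Icc (x.1 - 1) (x.1 + 1)).card := by
    refine Finset.card_le_card_of_injOn (fun y => y.1) ?_ (Subtype.val_injective.injOn)
    intro y hy
    simp only [Finset.coe_filter, Finset.mem_univ, true_and, Set.mem_ofPred_eq] at hy
    exact Finset.mem_coe.2 (isNN_mem_Icc hy)
  refine h1.trans ?_
  rw [Pi.card_Icc]
  simp only [Int.card_Icc, Pi.add_apply, Pi.sub_apply, Pi.one_apply]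
  have : ∀ i : Fin 3, (x.1 i + 1 + 1 - (x.1 i - 1)).toNat = 3 := by
    intro i
    have : x.1 i + 1 + 1 - (x.1 i - 1) = 3 := by ring
    rw [this]; rfl
  simp [this]

/-- Number of ordered nearest-neighbour pairs. -/
noncomputable def edgeCount (Λ : Finset Site) : ℝ :=
  ∑ x : Λ, ∑ y : Λ, if IsNN x.1 y.1 then (1 : ℝ) else 0

theorem edgeCount_eq (Λ : Finset Site) :
    edgeCount Λ = ∑ x ∈ Λ, ∑ y ∈ Λ, if IsNN x y then (1 : ℝ) else 0 := by
  unfold edgeCount
  rw [Finset.sum_coe_sort Λ (fun x => ∑ y : Λ, if IsNN x y.1 then (1 : ℝ) else 0)]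
  refine Finset.sum_congr rfl fun x _ => ?_
  rw [Finset.sum_coe_sort Λ (fun y => if IsNN x y then (1 : ℝ) else 0)]

theorem edgeCount_superadd (Λ₁ Λ₂ : Finset Site) (h : Disjoint Λ₁ Λ₂) :
    edgeCount Λ₁ + edgeCount Λ₂ ≤ edgeCount (Λ₁ ∪ Λ₂) := by
  simp only [edgeCount_eq]
  rw [Finset.sum_union h]
  refine add_le_add ?_ ?_
  · refine Finset.sum_le_sum fun x _ => ?_
    exact Finset.sum_le_sum_of_subset_of_nonneg Finset.subset_union_left
      (fun _ _ _ => by split_ifs <;> norm_num)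
  · refine Finset.sum_le_sum fun x _ => ?_
    exact Finset.sum_le_sum_of_subset_of_nonneg Finset.subset_union_right
      (fun _ _ _ => by split_ifs <;> norm_num)

theorem isNN_add (x y v : Site) : IsNN (x + v) (y + v) ↔ IsNN x y := by
  simp [IsNN]

theorem edgeCount_translate (v : Site) (Λ : Finset Site) :
    edgeCount (Λ.map (addRightEmbedding v)) = edgeCount Λ := by
  simp only [edgeCount_eq, Finset.sum_map, addRightEmbedding_apply, isNN_add]

theorem edgeCount_nonneg (Λ : Finset Site) : 0 ≤ edgeCount Λ := by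
  unfold edgeCount
  exact Finset.sum_nonneg fun _ _ => Finset.sum_nonneg fun _ _ => by split_ifs <;> norm_num

theorem edgeCount_le (Λ : Finset Site) : edgeCount Λ ≤ 27 * Λ.card := by
  unfold edgeCount
  calc ∑ x : Λ, ∑ y : Λ, (if IsNN x.1 y.1 then (1 : ℝ) else 0) ≤ ∑ _x : Λ, (27 : ℝ) := by
        refine Finset.sum_le_sum fun x _ => ?_
        rw [Finset.sum_ite, Finset.sum_const_zero, add_zero, Finset.sum_const, nsmul_eq_mul,
          mul_one]
        exact_mod_cast degree_bound Λ x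
    _ = 27 * Λ.card := by
        rw [Finset.sum_const, Finset.card_univ, Fintype.card_coe, nsmul_eq_mul]
        ring

section

variable {b c φ : ℝ} (hb : 0 ≤ b) {n : ℕ}
  (hc : ((c : ℂ) • (1 : Matrix (Fin (n + 1)) (Fin (n + 1)) ℂ) -
    ∑ a, spin n a * spin n a).PosSemidef) (hc0 : 0 ≤ c)
  {F : Matrix (Fin (n + 1)) (Fin (n + 1)) ℂ} (hF : F.PosSemidef)
  (hφ : ((φ : ℂ) • (1 : Matrix (Fin (n + 1)) (Fin (n + 1)) ℂ) - F).PosSemidef)

/-- Log partition function of a finite subset of the lattice. -/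
noncomputable def lz (b c : ℝ) (n : ℕ) (F : Matrix (Fin (n + 1)) (Fin (n + 1)) ℂ)
    (Λ : Finset Site) : ℝ :=
  logZ (V := Λ) b c (spin n) F (fun x y => IsNN x.1 y.1)

theorem lz_translate (v : Site) (Λ : Finset Site) :
    lz b c n F (Λ.map (addRightEmbedding v)) = lz b c n F Λ := by
  unfold lz
  let g : Λ ≃ (Λ.map (addRightEmbedding v) : Finset Site) :=
    Equiv.ofBijective (fun x => ⟨x.1 + v, Finset.mem_map.2 ⟨x.1, x.2, rfl⟩⟩)
      ⟨fun x y h => by
        have := congrArg Subtype.val h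
        exact Subtype.ext (add_right_cancel this), fun y => by
        obtain ⟨x, hx, hy⟩ := Finset.mem_map.1 y.2
        exact ⟨⟨x, hx⟩, Subtype.ext hy⟩⟩
  have h := logZ_relabel g b c (spin n) F
    (fun x y : (Λ.map (addRightEmbedding v) : Finset Site) => IsNN x.1 y.1)
  rw [← h]
  have h2 : ∀ x y : Λ, IsNN (g x).1 (g y).1 ↔ IsNN x.1 y.1 := fun x y => isNN_add _ _ _
  unfold logZ totOp
  simp only [h2]

include hb hc hF

theorem lz_superadd (Λ₁ Λ₂ : Finset Site) (h : Disjoint Λ₁ Λ₂) :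
    lz b c n F Λ₁ + lz b c n F Λ₂ ≤ lz b c n F (Λ₁ ∪ Λ₂) := by
  unfold lz
  have := logZ_superadd hb (spin_isHermitian n) hc hF
    (fun x y : (Λ₁ ∪ Λ₂ : Finset Site) => IsNN x.1 y.1) (fun x => isNN_irrefl x.1)
    (Equiv.Finset.union Λ₁ Λ₂ h)
  exact this

theorem lz_nonneg (Λ : Finset Site) : 0 ≤ lz b c n F Λ :=
  logZ_nonneg hb (spin_isHermitian n) hc hF _ (fun x => isNN_irrefl x.1)

include hc0 hφ in
theorem lz_le (Λ : Finset Site) :
    lz b c n F Λ ≤ (Real.log (Fintype.card (Fin (n + 1))) + 2 * b * c * 27 + φ) * Λ.card := by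
  have := logZ_upper (V := Λ) hb (spin_isHermitian n) hc hc0 hF.1 hφ
    (fun x y => IsNN x.1 y.1) (fun x => isNN_irrefl x.1) 27
    (fun x => by exact_mod_cast degree_bound Λ x)
  rwa [Fintype.card_coe] at this

end

/-- The exponent `-β (H - h M)`. -/
noncomputable def expo (n : ℕ) (Λ : Finset Site) (β h : ℝ) :
    Matrix (Λ → Fin (n + 1)) (Λ → Fin (n + 1)) ℂ :=
  -(β : ℂ) • (hamiltonian n Λ - (h : ℂ) • magnetization n Λ)

theorem totOp_eq (n : ℕ) (Λ : Finset Site) (β h c φ₀ : ℝ) :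
    totOp (V := Λ) (β / 2) c (spin n)
      ((φ₀ : ℂ) • (1 : Matrix (Fin (n + 1)) (Fin (n + 1)) ℂ) + ((β * h : ℝ) : ℂ) • spin n 2)
      (fun x y => IsNN x.1 y.1) =
      expo n Λ β h + (((β / 2) * c * edgeCount Λ + φ₀ * Λ.card : ℝ) : ℂ) •
        (1 : Matrix (Λ → Fin (n + 1)) (Λ → Fin (n + 1)) ℂ) := by
  unfold totOp expo hamiltonian magnetization edgeCount pairOp
  simp only [siteOp_eq_siteOpV, siteOpV_add, siteOpV_smul, siteOpV_one]
  have e1 : (∑ x : Λ, ∑ y : Λ, if IsNN x.1 y.1 then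
      ((c : ℂ) • (1 : Matrix (Λ → Fin (n + 1)) (Λ → Fin (n + 1)) ℂ) +
        ∑ a, siteOpV x (spin n a) * siteOpV y (spin n a)) else 0) =
      ((c * ∑ x : Λ, ∑ y : Λ, (if IsNN x.1 y.1 then (1 : ℝ) else 0) : ℝ) : ℂ) •
        (1 : Matrix (Λ → Fin (n + 1)) (Λ → Fin (n + 1)) ℂ) +
      ∑ x : Λ, ∑ y : Λ, if IsNN x.1 y.1 then
        ∑ a, siteOpV x (spin n a) * siteOpV y (spin n a) else 0 := by
    push_cast
    rw [Finset.mul_sum, Finset.sum_smul, ← Finset.sum_add_distrib]
    refine Finset.sum_congr rfl fun x _ => ?_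
    rw [Finset.mul_sum, Finset.sum_smul, ← Finset.sum_add_distrib]
    refine Finset.sum_congr rfl fun y _ => ?_
    split_ifs <;> simp
  rw [e1, Finset.sum_add_distrib, Finset.sum_const, Finset.card_univ, Fintype.card_coe,
    ← Finset.smul_sum]
  push_cast
  module

theorem expo_isHermitian (n : ℕ) (Λ : Finset Site) (β h : ℝ) : (expo n Λ β h).IsHermitian := by
  have h1 := totOp_eq n Λ β h 0 0
  have h2 := totOp_isHermitian (V := Λ) (β / 2) 0 (spin_isHermitian n)
    (F := ((0 : ℝ) : ℂ) • (1 : Matrix (Fin (n + 1)) (Fin (n + 1)) ℂ) +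
      ((β * h : ℝ) : ℂ) • spin n 2) ?_ (fun x y => IsNN x.1 y.1) (fun x => isNN_irrefl x.1)
  · rw [h1] at h2
    simpa using h2
  · have h3 := spin_isHermitian n 2
    rw [Matrix.IsHermitian, Matrix.conjTranspose_add, Matrix.conjTranspose_smul,
      Matrix.conjTranspose_smul, h3]
    simp

theorem finPressure_eq (n : ℕ) (Λ : Finset Site) (β h c φ₀ : ℝ) :
    finPressure n Λ β h = (β * Λ.card)⁻¹ * (lz (β / 2) c n
      ((φ₀ : ℂ) • (1 : Matrix (Fin (n + 1)) (Fin (n + 1)) ℂ) + ((β * h : ℝ) : ℂ) • spin n 2) Λ -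
        ((β / 2) * c * edgeCount Λ + φ₀ * Λ.card)) := by
  unfold finPressure lz logZ
  rw [totOp_eq, trace_exp_add_smul_one, Real.log_mul (Real.exp_pos _).ne'
    (trace_exp_pos (expo_isHermitian n Λ β h)).ne', Real.log_exp]
  congr 1
  unfold expo
  ring

/-- Existence of the thermodynamic limit of the pressure. -/
theorem finPressure_tendsto (n : ℕ) {β : ℝ} (hβ : 0 < β) (h : ℝ) :
    ∃ p : ℝ, Tendsto (fun N => finPressure n (box N) β h) atTop (𝓝 p) := by
  -- constants
  obtain ⟨c, hc0, hc⟩ := exists_upper_bound (X := ∑ a, spin n a * spin n a) (by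
    rw [Matrix.IsHermitian, Matrix.conjTranspose_sum]
    refine Finset.sum_congr rfl fun a _ => ?_
    rw [Matrix.conjTranspose_mul, spin_isHermitian n a])
  have hherm : ∀ r : ℝ, ((r : ℂ) • spin n 2).IsHermitian := by
    intro r
    rw [Matrix.IsHermitian, Matrix.conjTranspose_smul, spin_isHermitian n 2]
    simp
  obtain ⟨φ₀, _, hφ₀⟩ := exists_upper_bound (hherm (-(β * h)))
  set F : Matrix (Fin (n + 1)) (Fin (n + 1)) ℂ :=
    (φ₀ : ℂ) • (1 : Matrix (Fin (n + 1)) (Fin (n + 1)) ℂ) + ((β * h : ℝ) : ℂ) • spin n 2 with hFdef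
  have hF : F.PosSemidef := by
    have : F = (φ₀ : ℂ) • (1 : Matrix (Fin (n + 1)) (Fin (n + 1)) ℂ) -
        ((-(β * h) : ℝ) : ℂ) • spin n 2 := by
      rw [hFdef, Complex.ofReal_neg, neg_smul, sub_neg_eq_add]
    rw [this]
    exact hφ₀
  obtain ⟨φ, _, hφ⟩ := exists_upper_bound hF.1
  have hb : 0 ≤ β / 2 := by positivity
  obtain ⟨p₁, hp₁⟩ := tendsto_box (G := lz (β / 2) c n F)
    (lz_superadd hb hc hF) lz_translate (lz_nonneg hb hc hF) (lz_le hb hc hc0 hF hφ)
  obtain ⟨p₂, hp₂⟩ := tendsto_box (G := edgeCount)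
    edgeCount_superadd edgeCount_translate edgeCount_nonneg edgeCount_le
  refine ⟨β⁻¹ * (p₁ - (β / 2 * c * p₂ + φ₀)), ?_⟩
  have hlim := ((hp₁.sub ((hp₂.const_mul (β / 2 * c)).add_const φ₀)).const_mul β⁻¹)
  refine hlim.congr fun N => ?_
  rw [finPressure_eq n (box N) β h c φ₀, ← hFdef]
  have hcard : ((box N).card : ℝ) ≠ 0 := by
    rw [card_box]; positivity
  field_simp

/-- The pressure is the limit of the finite-volume pressures. -/
theorem pressure_tendsto (n : ℕ) {β : ℝ} (hβ : 0 < β) (h : ℝ) :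
    Tendsto (fun N => finPressure n (box N) β h) atTop (𝓝 (pressure n β h)) :=
  tendsto_nhds_limUnder (finPressure_tendsto n hβ h)

end Vale.Agent.P361
end

section

namespace Vale.Agent.P361.H

open Matrix

variable {n : ℕ} {Λ : Finset Site}

/-- Product operator. -/
noncomputable def prodOp (A : Λ → Matrix (Fin (n + 1)) (Fin (n + 1)) ℂ) :
    Matrix (Λ → Fin (n + 1)) (Λ → Fin (n + 1)) ℂ :=
  Matrix.of fun σ τ => ∏ y : Λ, A y (σ y) (τ y)

lemma prodOp_mul (A B : Λ → Matrix (Fin (n + 1)) (Fin (n + 1)) ℂ) :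
    prodOp A * prodOp B = prodOp (fun y => A y * B y) := by
  ext σ τ
  simp only [prodOp, Matrix.mul_apply, Matrix.of_apply]
  rw [Finset.prod_univ_sum]
  simp only [Fintype.piFinset_univ, Finset.prod_mul_distrib]

lemma siteOp_eq_prodOp (x : Λ) (A : Matrix (Fin (n + 1)) (Fin (n + 1)) ℂ) :
    siteOp x A = prodOp (fun y => if y = x then A else 1) := rfl

lemma siteOp_mul (x : Λ) (A B : Matrix (Fin (n + 1)) (Fin (n + 1)) ℂ) :
    siteOp x A * siteOp x B = siteOp x (A * B) := by
  rw [siteOp_eq_prodOp, siteOp_eq_prodOp, siteOp_eq_prodOp, prodOp_mul]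
  congr 1
  ext1 y
  split_ifs <;> simp

lemma siteOp_comm {x y : Λ} (hxy : x ≠ y) (A B : Matrix (Fin (n + 1)) (Fin (n + 1)) ℂ) :
    siteOp x A * siteOp y B = siteOp y B * siteOp x A := by
  rw [siteOp_eq_prodOp, siteOp_eq_prodOp, prodOp_mul, prodOp_mul]
  congr 1
  ext1 z
  by_cases h1 : z = x
  · have h2 : z ≠ y := fun h => hxy (h1.symm.trans h)
    simp [h1, hxy]
  · simp [h1]

lemma siteOp_apply (x : Λ) (A : Matrix (Fin (n + 1)) (Fin (n + 1)) ℂ) (σ τ : Λ → Fin (n + 1)) :
    siteOp x A σ τ = A (σ x) (τ x) *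
      ∏ y ∈ Finset.univ.erase x, (1 : Matrix (Fin (n + 1)) (Fin (n + 1)) ℂ) (σ y) (τ y) := by
  simp only [siteOp, Matrix.of_apply]
  rw [← Finset.mul_prod_erase Finset.univ _ (Finset.mem_univ x)]
  congr 1
  · simp
  · refine Finset.prod_congr rfl fun y hy => ?_
    rw [if_neg (Finset.ne_of_mem_erase hy)]

lemma siteOp_add (x : Λ) (A B : Matrix (Fin (n + 1)) (Fin (n + 1)) ℂ) :
    siteOp x (A + B) = siteOp x A + siteOp x B := by
  ext σ τ
  rw [Matrix.add_apply, siteOp_apply, siteOp_apply, siteOp_apply, Matrix.add_apply, add_mul]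

lemma siteOp_smul (x : Λ) (c : ℂ) (A : Matrix (Fin (n + 1)) (Fin (n + 1)) ℂ) :
    siteOp x (c • A) = c • siteOp x A := by
  ext σ τ
  rw [Matrix.smul_apply, siteOp_apply, siteOp_apply, Matrix.smul_apply, smul_eq_mul, smul_eq_mul,
    mul_assoc]

lemma siteOp_neg (x : Λ) (A : Matrix (Fin (n + 1)) (Fin (n + 1)) ℂ) :
    siteOp x (-A) = - siteOp x A := by
  have := siteOp_smul x (-1) A
  simpa using this

lemma siteOp_sub (x : Λ) (A B : Matrix (Fin (n + 1)) (Fin (n + 1)) ℂ) :
    siteOp x (A - B) = siteOp x A - siteOp x B := by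
  rw [sub_eq_add_neg, siteOp_add, siteOp_neg, ← sub_eq_add_neg]

lemma siteOp_one (x : Λ) :
    siteOp x (1 : Matrix (Fin (n + 1)) (Fin (n + 1)) ℂ) = 1 := by
  ext σ τ
  simp only [siteOp, Matrix.of_apply, ite_self]
  by_cases h : σ = τ
  · subst h; simp
  · rw [Matrix.one_apply_ne h]
    obtain ⟨y, hy⟩ := Function.ne_iff.1 h
    exact Finset.prod_eq_zero (Finset.mem_univ y) (Matrix.one_apply_ne hy)

lemma siteOp_conjTranspose (x : Λ) (A : Matrix (Fin (n + 1)) (Fin (n + 1)) ℂ) :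
    (siteOp x A)ᴴ = siteOp x Aᴴ := by
  ext σ τ
  rw [Matrix.conjTranspose_apply]
  simp only [siteOp, Matrix.of_apply]
  rw [star_prod]
  refine Finset.prod_congr rfl fun y _ => ?_
  split_ifs
  · rw [Matrix.conjTranspose_apply]
  · rw [← Matrix.conjTranspose_apply, Matrix.conjTranspose_one]

lemma siteOp_transpose (x : Λ) (A : Matrix (Fin (n + 1)) (Fin (n + 1)) ℂ) :
    (siteOp x A)ᵀ = siteOp x Aᵀ := by
  ext σ τ
  rw [Matrix.transpose_apply]
  simp only [siteOp, Matrix.of_apply]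
  refine Finset.prod_congr rfl fun y _ => ?_
  split_ifs
  · rw [Matrix.transpose_apply]
  · change (1 : Matrix (Fin (n + 1)) (Fin (n + 1)) ℂ)ᵀ (σ y) (τ y) = _
    rw [Matrix.transpose_one]

/-! Local spin algebra. -/

/-- Schwinger factors: `a = diag √(n-j)`, `b |j⟩ = √j |j-1⟩`. -/
noncomputable def schwA (n : ℕ) : Matrix (Fin (n + 1)) (Fin (n + 1)) ℂ :=
  Matrix.diagonal fun j => ((Real.sqrt ((n : ℝ) - (j : ℕ)) : ℝ) : ℂ)

noncomputable def schwB (n : ℕ) : Matrix (Fin (n + 1)) (Fin (n + 1)) ℂ :=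
  Matrix.of fun i j => if (j : ℕ) = (i : ℕ) + 1 then ((Real.sqrt ((j : ℕ) : ℝ) : ℝ) : ℂ) else 0

lemma fin_le (j : Fin (n + 1)) : ((j : ℕ) : ℝ) ≤ n := by
  exact_mod_cast Nat.lt_succ_iff.1 j.2

lemma spinLower_apply (i j : Fin (n + 1)) : spinLower n i j =
    if (i : ℕ) = (j : ℕ) + 1 then ((Real.sqrt (((i : ℕ) : ℝ) * ((n : ℝ) + 1 - (i : ℕ))) : ℝ) : ℂ)
    else 0 := rfl

lemma spinLower_conj_apply (i j : Fin (n + 1)) : (spinLower n)ᴴ i j =
    if (j : ℕ) = (i : ℕ) + 1 then ((Real.sqrt (((j : ℕ) : ℝ) * ((n : ℝ) + 1 - (j : ℕ))) : ℝ) : ℂ)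
    else 0 := by
  rw [Matrix.conjTranspose_apply, spinLower_apply]
  split_ifs <;> simp

lemma spinLower_transpose : (spinLower n)ᵀ = (spinLower n)ᴴ := by
  ext i j
  rw [spinLower_conj_apply, Matrix.transpose_apply, spinLower_apply]

lemma spinZ_conj : (spinZ n)ᴴ = spinZ n := by
  rw [spinZ, Matrix.diagonal_conjTranspose]
  congr 1
  ext j
  simp

lemma spinZ_transpose : (spinZ n)ᵀ = spinZ n := Matrix.diagonal_transpose _

/-- `a† b = S⁺`. -/
lemma schwA_schwB : (schwA n)ᴴ * schwB n = (spinLower n)ᴴ := by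
  ext i j
  rw [spinLower_conj_apply, schwA, Matrix.diagonal_conjTranspose, Matrix.diagonal_mul]
  simp only [schwB, Matrix.of_apply, Pi.star_apply]
  split_ifs with h
  · rw [RCLike.star_def, Complex.conj_ofReal, ← Complex.ofReal_mul, mul_comm, ← Real.sqrt_mul (by positivity)]
    congr 3
    rw [h]; push_cast; ring
  · simp

lemma schwB_schwA : (schwB n)ᴴ * schwA n = spinLower n := by
  have := congrArg Matrix.conjTranspose (schwA_schwB (n := n))
  rw [Matrix.conjTranspose_mul] at this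
  simpa using this

lemma schwA_schwA : (schwA n)ᴴ * schwA n = ((n : ℂ) / 2) • (1 : Matrix _ _ ℂ) + spinZ n := by
  rw [schwA, Matrix.diagonal_conjTranspose, Matrix.diagonal_mul_diagonal, spinZ,
    ← Matrix.diagonal_one, ← Matrix.diagonal_smul, Matrix.diagonal_add]
  congr 1
  ext j
  have h : 0 ≤ (n : ℝ) - (j : ℕ) := by have := fin_le j; linarith
  simp only [Pi.star_apply, RCLike.star_def, Complex.conj_ofReal, Pi.smul_apply, smul_eq_mul, mul_one]
  rw [← Complex.ofReal_mul, Real.mul_self_sqrt h]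
  push_cast; ring

lemma schwB_schwB : (schwB n)ᴴ * schwB n = ((n : ℂ) / 2) • (1 : Matrix _ _ ℂ) - spinZ n := by
  rw [spinZ, ← Matrix.diagonal_one, ← Matrix.diagonal_smul, Matrix.diagonal_sub]
  ext i j
  rw [Matrix.mul_apply]
  simp only [Matrix.conjTranspose_apply, schwB, Matrix.of_apply]
  rw [Matrix.diagonal_apply]
  split_ifs with hij
  · subst hij
    simp only [Pi.smul_apply, smul_eq_mul, mul_one]
    rcases Nat.eq_zero_or_pos (i : ℕ) with h0 | hpos
    · rw [Finset.sum_eq_zero]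
      · simp [h0]
      · intro k _
        rw [if_neg (by omega)]; simp
    · rw [Finset.sum_eq_single (⟨(i : ℕ) - 1, by omega⟩ : Fin (n + 1))]
      · rw [if_pos (by simp; omega)]
        rw [RCLike.star_def, Complex.conj_ofReal, ← Complex.ofReal_mul,
          Real.mul_self_sqrt (by positivity)]
        push_cast; ring
      · intro k _ hk
        rw [if_neg]
        · simp
        · intro h
          apply hk
          ext; simp; omega
      · simp
  · apply Finset.sum_eq_zero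
    intro k _
    by_cases h1 : (i : ℕ) = (k : ℕ) + 1
    · rw [if_neg (c := (j : ℕ) = (k : ℕ) + 1)]
      · simp
      · intro h2; exact hij (Fin.ext (h1.trans h2.symm))
    · rw [if_neg h1]; simp

/-- `S⁻ S⁺ = diag (j (n+1-j))`. -/
lemma lower_raise : spinLower n * (spinLower n)ᴴ =
    Matrix.diagonal fun j : Fin (n + 1) => (((j : ℕ) : ℂ) * ((n : ℂ) + 1 - ((j : ℕ) : ℂ))) := by
  ext i j
  rw [Matrix.mul_apply, Matrix.diagonal_apply]
  simp only [Matrix.conjTranspose_apply, spinLower_apply]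
  split_ifs with hij
  · subst hij
    rcases Nat.eq_zero_or_pos (i : ℕ) with h0 | hpos
    · rw [Finset.sum_eq_zero]
      · simp [h0]
      · intro k _
        rw [if_neg (by omega)]; simp
    · rw [Finset.sum_eq_single (⟨(i : ℕ) - 1, by omega⟩ : Fin (n + 1))]
      · rw [if_pos (by simp; omega)]
        have h : 0 ≤ ((i : ℕ) : ℝ) * ((n : ℝ) + 1 - (i : ℕ)) := by
          have := fin_le i
          exact mul_nonneg (by positivity) (by linarith)
        rw [RCLike.star_def, Complex.conj_ofReal, ← Complex.ofReal_mul, Real.mul_self_sqrt h]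
        push_cast; ring
      · intro k _ hk
        rw [if_neg]
        · simp
        · intro h
          apply hk
          ext; simp; omega
      · simp
  · apply Finset.sum_eq_zero
    intro k _
    by_cases h1 : (i : ℕ) = (k : ℕ) + 1
    · rw [if_neg (c := (j : ℕ) = (k : ℕ) + 1)]
      · simp
      · intro h2; exact hij (Fin.ext (h1.trans h2.symm))
    · rw [if_neg h1]; simp

/-- `S⁺ S⁻ = diag ((j+1) (n-j))`. -/
lemma raise_lower : (spinLower n)ᴴ * spinLower n =
    Matrix.diagonal fun j : Fin (n + 1) => ((((j : ℕ) : ℂ) + 1) * ((n : ℂ) - ((j : ℕ) : ℂ))) := by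
  ext i j
  rw [Matrix.mul_apply, Matrix.diagonal_apply]
  simp only [Matrix.conjTranspose_apply, spinLower_apply]
  split_ifs with hij
  · subst hij
    rcases Nat.lt_or_ge (i : ℕ) n with hlt | hge
    · rw [Finset.sum_eq_single (⟨(i : ℕ) + 1, by omega⟩ : Fin (n + 1))]
      · rw [if_pos (by simp)]
        have h : 0 ≤ (((i : ℕ) + 1 : ℕ) : ℝ) * ((n : ℝ) + 1 - ((i : ℕ) + 1 : ℕ)) := by
          have := fin_le i
          refine mul_nonneg (by positivity) ?_
          push_cast; linarith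
        rw [RCLike.star_def, Complex.conj_ofReal, ← Complex.ofReal_mul, Real.mul_self_sqrt h]
        push_cast; ring
      · intro k _ hk
        rw [if_neg]
        · simp
        · intro h
          apply hk
          ext; simp; omega
      · simp
    · have hi : (i : ℕ) = n := by have := i.2; omega
      rw [Finset.sum_eq_zero]
      · rw [hi]; simp
      · intro k _
        rw [if_neg (by have := k.2; omega)]; simp
  · apply Finset.sum_eq_zero
    intro k _
    by_cases h1 : (k : ℕ) = (i : ℕ) + 1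
    · rw [if_neg (c := (k : ℕ) = (j : ℕ) + 1)]
      · simp
      · intro h2; exact hij (Fin.ext (by omega))
    · rw [if_neg h1]; simp

/-- `[S⁺, S⁻] = 2 S³`. -/
lemma comm_raise_lower : (spinLower n)ᴴ * spinLower n - spinLower n * (spinLower n)ᴴ =
    (2 : ℂ) • spinZ n := by
  rw [raise_lower, lower_raise, Matrix.diagonal_sub, spinZ, ← Matrix.diagonal_smul]
  congr 1
  ext j
  simp only [Pi.smul_apply, smul_eq_mul]
  ring

/-- `[S³, S⁻] = - S⁻`. -/
lemma comm_z_lower : spinZ n * spinLower n - spinLower n * spinZ n = - spinLower n := by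
  ext i j
  rw [Matrix.sub_apply, Matrix.neg_apply, spinZ, Matrix.diagonal_mul, Matrix.mul_diagonal,
    spinLower_apply]
  split_ifs with h
  · rw [h]; push_cast; ring
  · simp

end Vale.Agent.P361.H
end

section

namespace Vale.Agent.P361.H

open Matrix

variable {ι : Type*} [Fintype ι] [DecidableEq ι]

lemma exists_diag (K : Matrix ι ι ℂ) (hK : K.IsHermitian) :
    ∃ (U : Matrix ι ι ℂ) (E : ι → ℝ), Uᴴ * U = 1 ∧ U * Uᴴ = 1 ∧
      K = U * diagonal (fun i => (E i : ℂ)) * Uᴴ ∧
      NormedSpace.exp K = U * diagonal (fun i => ((Real.exp (E i) : ℝ) : ℂ)) * Uᴴ := by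
  refine ⟨hK.eigenvectorUnitary, hK.eigenvalues, ?_, ?_, ?_, ?_⟩
  · exact Unitary.coe_star_mul_self _
  · exact Unitary.coe_mul_star_self _
  · have h := hK.spectral_theorem
    rw [Unitary.conjStarAlgAut_apply] at h
    exact h
  · have h := hK.spectral_theorem
    rw [Unitary.conjStarAlgAut_apply] at h
    have hU : (hK.eigenvectorUnitary : Matrix ι ι ℂ) * (star hK.eigenvectorUnitary : Matrix ι ι ℂ) = 1 :=
      Unitary.coe_mul_star_self _
    have hinv : (hK.eigenvectorUnitary : Matrix ι ι ℂ)⁻¹ =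
        (star (hK.eigenvectorUnitary : Matrix ι ι ℂ)) := Matrix.inv_eq_right_inv hU
    have hunit : IsUnit (hK.eigenvectorUnitary : Matrix ι ι ℂ) :=
      IsUnit.of_mul_eq_one _ hU
    have h2 := Matrix.exp_conj (hK.eigenvectorUnitary : Matrix ι ι ℂ)
      (diagonal (RCLike.ofReal ∘ hK.eigenvalues)) hunit
    rw [hinv] at h2
    rw [← h] at h2
    rw [h2, Matrix.exp_diagonal]
    have h3 : (NormedSpace.exp (RCLike.ofReal ∘ hK.eigenvalues) : ι → ℂ) =
        fun i => ((Real.exp (hK.eigenvalues i) : ℝ) : ℂ) := by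
      ext i
      rw [Pi.coe_exp]
      simp [Complex.exp_eq_exp_ℂ]
    rw [h3]
    rfl

/-- Trace of `X * exp K` in the eigenbasis. -/
lemma trace_mul_conj (U X : Matrix ι ι ℂ) (d : ι → ℂ) :
    trace (X * (U * diagonal d * Uᴴ)) = ∑ i, (Uᴴ * X * U) i i * d i := by
  rw [Matrix.mul_assoc U _ Uᴴ, ← Matrix.mul_assoc X U, ← Matrix.mul_assoc (X * U) _,
    Matrix.trace_mul_comm (X * U * _) Uᴴ, ← Matrix.mul_assoc, ← Matrix.mul_assoc]
  simp only [Matrix.trace, Matrix.diag_apply, Matrix.mul_diagonal]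

lemma mul_star_self' (z : ℂ) : z * star z = ((Complex.normSq z : ℝ) : ℂ) := by
  rw [Complex.star_def, Complex.mul_conj]

lemma star_mul_self'' (z : ℂ) : star z * z = ((Complex.normSq z : ℝ) : ℂ) := by
  rw [mul_comm, mul_star_self']

/-- Termwise log-sum bound. -/
lemma term_bound (a b r : ℝ) (ha : 0 < a) (hb : 0 < b) (hr : 0 < r) :
    (a - b) * Real.log r + (a - b * r) + (b - a / r) ≤ (a - b) * Real.log (a / b) := by
  have h1 : 1 - (b * r) / a ≤ Real.log (a / (b * r)) := by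
    have := Real.one_sub_inv_le_log_of_pos (show 0 < a / (b * r) by positivity)
    rwa [inv_div] at this
  have h2 : Real.log (a / (b * r)) ≤ a / (b * r) - 1 :=
    Real.log_le_sub_one_of_pos (by positivity)
  have h3 : Real.log (a / (b * r)) = Real.log (a / b) - Real.log r := by
    rw [← div_div, Real.log_div (by positivity) (by positivity)]
  rw [h3] at h1 h2
  have h4 : a * (1 - b * r / a) ≤ a * (Real.log (a / b) - Real.log r) :=
    mul_le_mul_of_nonneg_left h1 ha.le
  have h5 : b * (Real.log (a / b) - Real.log r) ≤ b * (a / (b * r) - 1) :=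
    mul_le_mul_of_nonneg_left h2 hb.le
  have h6 : a * (1 - b * r / a) = a - b * r := by field_simp
  have h7 : b * (a / (b * r) - 1) = a / r - b := by field_simp
  nlinarith

/-- Log-sum inequality in the form used below. -/
lemma logsum_diag (N : ι → ι → ℝ) (hN : ∀ i j, 0 ≤ N i j) (E : ι → ℝ) :
    ((∑ i, ∑ j, N i j * Real.exp (E i)) - (∑ i, ∑ j, N i j * Real.exp (E j))) *
      Real.log ((∑ i, ∑ j, N i j * Real.exp (E i)) / (∑ i, ∑ j, N i j * Real.exp (E j))) ≤
    ∑ i, ∑ j, N i j * ((E i - E j) * (Real.exp (E i) - Real.exp (E j))) := by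
  set P := ∑ i, ∑ j, N i j * Real.exp (E i) with hP
  set Q := ∑ i, ∑ j, N i j * Real.exp (E j) with hQ
  have hRHS : ∀ i j, 0 ≤ N i j * ((E i - E j) * (Real.exp (E i) - Real.exp (E j))) := by
    intro i j
    refine mul_nonneg (hN i j) ?_
    rcases le_total (E i) (E j) with h | h
    · exact mul_nonneg_of_nonpos_of_nonpos (by linarith) (by have := Real.exp_le_exp.2 h; linarith)
    · exact mul_nonneg (by linarith) (by have := Real.exp_le_exp.2 h; linarith)
  have hP0 : 0 ≤ P := Finset.sum_nonneg fun i _ => Finset.sum_nonneg fun j _ =>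
    mul_nonneg (hN i j) (Real.exp_pos _).le
  have hQ0 : 0 ≤ Q := Finset.sum_nonneg fun i _ => Finset.sum_nonneg fun j _ =>
    mul_nonneg (hN i j) (Real.exp_pos _).le
  rcases hP0.eq_or_lt with h | hPpos
  · have : P / Q = 0 := by rw [← h]; simp
    rw [this]
    simp only [Real.log_zero, mul_zero]
    exact Finset.sum_nonneg fun i _ => Finset.sum_nonneg fun j _ => hRHS i j
  rcases hQ0.eq_or_lt with h | hQpos
  · have : P / Q = 0 := by rw [← h]; simp
    rw [this]
    simp only [Real.log_zero, mul_zero]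
    exact Finset.sum_nonneg fun i _ => Finset.sum_nonneg fun j _ => hRHS i j
  have hr : 0 < P / Q := by positivity
  have key : ∀ i j, (N i j * Real.exp (E i) - N i j * Real.exp (E j)) * Real.log (P / Q)
      + (N i j * Real.exp (E i) - N i j * Real.exp (E j) * (P / Q))
      + (N i j * Real.exp (E j) - N i j * Real.exp (E i) / (P / Q)) ≤
      N i j * ((E i - E j) * (Real.exp (E i) - Real.exp (E j))) := by
    intro i j
    have := term_bound (Real.exp (E i)) (Real.exp (E j)) (P / Q) (Real.exp_pos _)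
      (Real.exp_pos _) hr
    rw [← Real.exp_sub, Real.log_exp] at this
    have h2 := mul_le_mul_of_nonneg_left this (hN i j)
    refine le_trans (le_of_eq ?_) (h2.trans (le_of_eq ?_)) <;> ring
  have hsum := Finset.sum_le_sum fun i (_ : i ∈ Finset.univ) =>
    Finset.sum_le_sum fun j (_ : j ∈ Finset.univ) => key i j
  refine le_trans (le_of_eq ?_) hsum
  have e1 : ∑ i, ∑ j, ((N i j * Real.exp (E i) - N i j * Real.exp (E j)) * Real.log (P / Q)
      + (N i j * Real.exp (E i) - N i j * Real.exp (E j) * (P / Q))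
      + (N i j * Real.exp (E j) - N i j * Real.exp (E i) / (P / Q))) =
      (P - Q) * Real.log (P / Q) + (P - Q * (P / Q)) + (Q - P / (P / Q)) := by
    have r : ∀ c₁ c₂ : ℝ, ∑ i, ∑ j, (N i j * Real.exp (E i) * c₁ + N i j * Real.exp (E j) * c₂) =
        P * c₁ + Q * c₂ := by
      intro c₁ c₂
      rw [hP, hQ, Finset.sum_mul, Finset.sum_mul, ← Finset.sum_add_distrib]
      refine Finset.sum_congr rfl fun i _ => ?_
      rw [Finset.sum_mul, Finset.sum_mul, ← Finset.sum_add_distrib]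
    have r' := r (Real.log (P / Q) + 1 - (P / Q)⁻¹) (- Real.log (P / Q) - (P / Q) + 1)
    calc _ = ∑ i, ∑ j, (N i j * Real.exp (E i) * (Real.log (P / Q) + 1 - (P / Q)⁻¹) +
          N i j * Real.exp (E j) * (- Real.log (P / Q) - (P / Q) + 1)) := by
          refine Finset.sum_congr rfl fun i _ => Finset.sum_congr rfl fun j _ => ?_
          rw [div_eq_mul_inv _ (P / Q)]; ring
      _ = _ := by rw [r', div_eq_mul_inv _ (P / Q)]; ring
  rw [e1]
  have h1 : Q * (P / Q) = P := by field_simp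
  have h2 : P / (P / Q) = Q := by field_simp
  rw [h1, h2]; ring

/-- The key inequality: with `W = exp K`, `P = Tr (A Aᴴ W)`, `Q = Tr (Aᴴ A W)` and
`C = Tr ([A, [-K, Aᴴ]] W)`, one has `(P - Q) log (P / Q) ≤ C`. -/
theorem logsum_trace (K : Matrix ι ι ℂ) (hK : K.IsHermitian) (A : Matrix ι ι ℂ) :
    ((trace (A * Aᴴ * NormedSpace.exp K)).re - (trace (Aᴴ * A * NormedSpace.exp K)).re) *
      Real.log ((trace (A * Aᴴ * NormedSpace.exp K)).re /
        (trace (Aᴴ * A * NormedSpace.exp K)).re) ≤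
    (trace ((A * (Aᴴ * K - K * Aᴴ) - (Aᴴ * K - K * Aᴴ) * A) * NormedSpace.exp K)).re := by
  obtain ⟨U, E, hU1, hU2, hKd, hexp⟩ := exists_diag K hK
  set B : Matrix ι ι ℂ := Uᴴ * A * U with hB
  have hBH : Bᴴ = Uᴴ * Aᴴ * U := by
    simp [hB, Matrix.conjTranspose_mul, Matrix.mul_assoc]
  have ins : ∀ X Y : Matrix ι ι ℂ, Uᴴ * (X * Y) * U = (Uᴴ * X * U) * (Uᴴ * Y * U) := by
    intro X Y
    calc Uᴴ * (X * Y) * U = Uᴴ * X * 1 * Y * U := by simp [Matrix.mul_assoc]
      _ = _ := by rw [← hU2]; simp only [Matrix.mul_assoc]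
  have hKU : Uᴴ * K * U = diagonal (fun i => (E i : ℂ)) := by
    rw [hKd]
    calc Uᴴ * (U * diagonal (fun i => (E i : ℂ)) * Uᴴ) * U
        = (Uᴴ * U) * diagonal (fun i => (E i : ℂ)) * (Uᴴ * U) := by
          simp only [Matrix.mul_assoc]
      _ = _ := by rw [hU1]; simp
  have hP : (trace (A * Aᴴ * NormedSpace.exp K)).re =
      ∑ i, ∑ j, Complex.normSq (B i j) * Real.exp (E i) := by
    rw [hexp, trace_mul_conj, ins, ← hB, ← hBH, Complex.re_sum]
    refine Finset.sum_congr rfl fun i _ => ?_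
    have : (B * Bᴴ) i i = ∑ j, ((Complex.normSq (B i j) : ℝ) : ℂ) := by
      rw [Matrix.mul_apply]
      refine Finset.sum_congr rfl fun j _ => ?_
      rw [Matrix.conjTranspose_apply, mul_star_self']
    rw [this, ← Complex.ofReal_sum, ← Complex.ofReal_mul, Complex.ofReal_re, Finset.sum_mul]
  have hQ : (trace (Aᴴ * A * NormedSpace.exp K)).re =
      ∑ i, ∑ j, Complex.normSq (B i j) * Real.exp (E j) := by
    rw [hexp, trace_mul_conj, ins, ← hB, ← hBH, Complex.re_sum, Finset.sum_comm]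
    refine Finset.sum_congr rfl fun i _ => ?_
    have : (Bᴴ * B) i i = ∑ j, ((Complex.normSq (B j i) : ℝ) : ℂ) := by
      rw [Matrix.mul_apply]
      refine Finset.sum_congr rfl fun j _ => ?_
      rw [Matrix.conjTranspose_apply, star_mul_self'']
    rw [this, ← Complex.ofReal_sum, ← Complex.ofReal_mul, Complex.ofReal_re, Finset.sum_mul]
  have hC : (trace ((A * (Aᴴ * K - K * Aᴴ) - (Aᴴ * K - K * Aᴴ) * A) * NormedSpace.exp K)).re =
      ∑ i, ∑ j, Complex.normSq (B i j) * ((E i - E j) * (Real.exp (E i) - Real.exp (E j))) := by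
    have e1 : Uᴴ * (A * (Aᴴ * K - K * Aᴴ) - (Aᴴ * K - K * Aᴴ) * A) * U =
        B * (Bᴴ * diagonal (fun i => (E i : ℂ)) - diagonal (fun i => (E i : ℂ)) * Bᴴ) -
        (Bᴴ * diagonal (fun i => (E i : ℂ)) - diagonal (fun i => (E i : ℂ)) * Bᴴ) * B := by
      rw [Matrix.mul_sub, Matrix.sub_mul, ins, ins, Matrix.mul_sub, Matrix.sub_mul, ins, ins,
        ← hB, ← hBH, hKU]
    have e2 : ∀ i j, (Bᴴ * diagonal (fun i => (E i : ℂ)) - diagonal (fun i => (E i : ℂ)) * Bᴴ) i j
        = star (B j i) * ((E j - E i : ℝ) : ℂ) := by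
      intro i j
      rw [Matrix.sub_apply, Matrix.mul_diagonal, Matrix.diagonal_mul, Matrix.conjTranspose_apply]
      push_cast; ring
    have e3 : ∀ i, (B * (Bᴴ * diagonal (fun i => (E i : ℂ)) -
        diagonal (fun i => (E i : ℂ)) * Bᴴ)) i i =
        ∑ j, ((Complex.normSq (B i j) * (E i - E j) : ℝ) : ℂ) := by
      intro i
      rw [Matrix.mul_apply]
      refine Finset.sum_congr rfl fun j _ => ?_
      rw [e2, ← mul_assoc, mul_star_self']; push_cast; ring
    have e4 : ∀ i, ((Bᴴ * diagonal (fun i => (E i : ℂ)) -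
        diagonal (fun i => (E i : ℂ)) * Bᴴ) * B) i i =
        ∑ j, ((Complex.normSq (B j i) * (E j - E i) : ℝ) : ℂ) := by
      intro i
      rw [Matrix.mul_apply]
      refine Finset.sum_congr rfl fun j _ => ?_
      rw [e2, mul_right_comm, star_mul_self'']; push_cast; ring
    have e5 : (trace ((A * (Aᴴ * K - K * Aᴴ) - (Aᴴ * K - K * Aᴴ) * A) * NormedSpace.exp K)).re =
        (∑ i, ∑ j, Complex.normSq (B i j) * (E i - E j) * Real.exp (E i)) -
        ∑ i, ∑ j, Complex.normSq (B j i) * (E j - E i) * Real.exp (E i) := by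
      rw [hexp, trace_mul_conj, e1, Complex.re_sum, ← Finset.sum_sub_distrib]
      refine Finset.sum_congr rfl fun i _ => ?_
      rw [Matrix.sub_apply, e3, e4, ← Complex.ofReal_sum, ← Complex.ofReal_sum,
        ← Complex.ofReal_sub, ← Complex.ofReal_mul, Complex.ofReal_re, sub_mul, Finset.sum_mul,
        Finset.sum_mul]
    rw [e5, Finset.sum_comm (f := fun x i =>
      Complex.normSq (B i x) * (E i - E x) * Real.exp (E x)), ← Finset.sum_sub_distrib]
    refine Finset.sum_congr rfl fun i _ => ?_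
    rw [← Finset.sum_sub_distrib]
    refine Finset.sum_congr rfl fun j _ => ?_
    ring
  rw [hP, hQ, hC]
  exact logsum_diag _ (fun i j => Complex.normSq_nonneg _) E

/-- Consequence of `(P - Q) log (P/Q) ≤ C`. -/
lemma lower_of_logsum (P Q C : ℝ) (hQ : 0 ≤ Q) (hb : 0 < P - Q)
    (h : (P - Q) * Real.log (P / Q) ≤ C) (hQ' : 0 < Q) :
    (P - Q) / (Real.exp (C / (P - Q)) - 1) ≤ Q := by
  have hP : 0 < P := by linarith
  have h1 : Real.log (P / Q) ≤ C / (P - Q) := by
    rw [le_div_iff₀ hb, mul_comm]; exact h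
  have h2 : P / Q ≤ Real.exp (C / (P - Q)) := by
    rw [← Real.log_le_iff_le_exp (by positivity)]; exact h1
  have h3 : (P - Q) / Q ≤ Real.exp (C / (P - Q)) - 1 := by
    rw [sub_div, div_self hQ'.ne']; linarith
  have h4 : 0 < (P - Q) / Q := by positivity
  rw [div_le_iff₀ (by linarith)]
  rw [div_le_iff₀ hQ'] at h3
  linarith

/-- `Tr (Tᴴ T e^K) ≥ 0`. -/
lemma trace_star_mul_exp_nonneg (K : Matrix ι ι ℂ) (hK : K.IsHermitian) (T : Matrix ι ι ℂ) :
    0 ≤ (trace (Tᴴ * T * NormedSpace.exp K)).re := by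
  obtain ⟨U, E, hU1, hU2, hKd, hexp⟩ := exists_diag K hK
  have e : Uᴴ * (Tᴴ * T) * U = (T * U)ᴴ * (T * U) := by
    simp only [Matrix.conjTranspose_mul, Matrix.mul_assoc]
  rw [hexp, trace_mul_conj, e, Complex.re_sum]
  refine Finset.sum_nonneg fun i _ => ?_
  have : ((T * U)ᴴ * (T * U)) i i = ∑ j, ((Complex.normSq ((T * U) j i) : ℝ) : ℂ) := by
    rw [Matrix.mul_apply]
    refine Finset.sum_congr rfl fun j _ => ?_
    rw [Matrix.conjTranspose_apply, star_mul_self'']
  rw [this, ← Complex.ofReal_sum, ← Complex.ofReal_mul, Complex.ofReal_re]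
  exact mul_nonneg (Finset.sum_nonneg fun j _ => Complex.normSq_nonneg _) (Real.exp_pos _).le

/-- `Tr (Tᴴ T e^K) > 0` unless `T = 0`. -/
lemma trace_star_mul_exp_pos (K : Matrix ι ι ℂ) (hK : K.IsHermitian) (T : Matrix ι ι ℂ)
    (hT : T ≠ 0) :
    0 < (trace (Tᴴ * T * NormedSpace.exp K)).re := by
  obtain ⟨U, E, hU1, hU2, hKd, hexp⟩ := exists_diag K hK
  have e : Uᴴ * (Tᴴ * T) * U = (T * U)ᴴ * (T * U) := by
    simp only [Matrix.conjTranspose_mul, Matrix.mul_assoc]
  have hTU : T * U ≠ 0 := by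
    intro h
    apply hT
    calc T = T * (U * Uᴴ) := by rw [hU2, Matrix.mul_one]
      _ = 0 := by rw [← Matrix.mul_assoc, h, Matrix.zero_mul]
  rw [hexp, trace_mul_conj, e, Complex.re_sum]
  have hdiag : ∀ i, (((T * U)ᴴ * (T * U)) i i * ((Real.exp (E i) : ℝ) : ℂ)).re =
      (∑ j, Complex.normSq ((T * U) j i)) * Real.exp (E i) := by
    intro i
    have : ((T * U)ᴴ * (T * U)) i i = ∑ j, ((Complex.normSq ((T * U) j i) : ℝ) : ℂ) := by
      rw [Matrix.mul_apply]
      refine Finset.sum_congr rfl fun j _ => ?_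
      rw [Matrix.conjTranspose_apply, star_mul_self'']
    rw [this, ← Complex.ofReal_sum, ← Complex.ofReal_mul, Complex.ofReal_re]
  simp only [hdiag]
  have hex : ∃ j i, (T * U) j i ≠ 0 := by
    by_contra hcon
    push Not at hcon
    exact hTU (Matrix.ext fun j i => hcon j i)
  obtain ⟨j, i, hji⟩ := hex
  refine Finset.sum_pos' (fun i _ => mul_nonneg
    (Finset.sum_nonneg fun j _ => Complex.normSq_nonneg _) (Real.exp_pos _).le)
    ⟨i, Finset.mem_univ _, mul_pos ?_ (Real.exp_pos _)⟩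
  exact Finset.sum_pos' (fun j _ => Complex.normSq_nonneg _)
    ⟨j, Finset.mem_univ _, Complex.normSq_pos.2 hji⟩

lemma trace_exp_pos [Nonempty ι] (K : Matrix ι ι ℂ) (hK : K.IsHermitian) :
    0 < (trace (NormedSpace.exp K)).re := by
  have := trace_star_mul_exp_pos K hK 1 one_ne_zero
  simpa using this

/-- Peierls–Bogoliubov inequality. -/
theorem peierls_bogoliubov [Nonempty ι] (A B : Matrix ι ι ℂ) (hA : A.IsHermitian)
    (hB : B.IsHermitian) :
    Real.log (trace (NormedSpace.exp A)).re +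
      (trace ((B - A) * NormedSpace.exp A)).re / (trace (NormedSpace.exp A)).re ≤
      Real.log (trace (NormedSpace.exp B)).re := by
  obtain ⟨U, a, hU1, hU2, hAd, hexpA⟩ := exists_diag A hA
  obtain ⟨V, b, hV1, hV2, hBd, hexpB⟩ := exists_diag B hB
  have hZA := trace_exp_pos A hA
  have hZB := trace_exp_pos B hB
  set G : Matrix ι ι ℂ := Uᴴ * V with hG
  have hG1 : G * Gᴴ = 1 := by
    rw [hG, Matrix.conjTranspose_mul, Matrix.conjTranspose_conjTranspose]
    calc Uᴴ * V * (Vᴴ * U) = Uᴴ * (V * Vᴴ) * U := by simp only [Matrix.mul_assoc]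
      _ = 1 := by rw [hV2, Matrix.mul_one, hU1]
  have hG2 : Gᴴ * G = 1 := by
    rw [hG, Matrix.conjTranspose_mul, Matrix.conjTranspose_conjTranspose]
    calc Vᴴ * U * (Uᴴ * V) = Vᴴ * (U * Uᴴ) * V := by simp only [Matrix.mul_assoc]
      _ = 1 := by rw [hU2, Matrix.mul_one, hV1]
  set s : ι → ι → ℝ := fun i j => Complex.normSq (G i j) with hs
  have hs0 : ∀ i j, 0 ≤ s i j := fun i j => Complex.normSq_nonneg _
  have hrow : ∀ i, ∑ j, s i j = 1 := by
    intro i
    have h := congrFun (congrFun hG1 i) i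
    rw [Matrix.mul_apply, Matrix.one_apply_eq] at h
    have h2 : ∑ j, G i j * Gᴴ j i = ((∑ j, s i j : ℝ) : ℂ) := by
      rw [Complex.ofReal_sum]
      refine Finset.sum_congr rfl fun j _ => ?_
      rw [Matrix.conjTranspose_apply, mul_star_self']
    rw [h2] at h
    exact_mod_cast h
  have hcol : ∀ j, ∑ i, s i j = 1 := by
    intro j
    have h := congrFun (congrFun hG2 j) j
    rw [Matrix.mul_apply, Matrix.one_apply_eq] at h
    have h2 : ∑ i, Gᴴ j i * G i j = ((∑ i, s i j : ℝ) : ℂ) := by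
      rw [Complex.ofReal_sum]
      refine Finset.sum_congr rfl fun i _ => ?_
      rw [Matrix.conjTranspose_apply, star_mul_self'']
    rw [h2] at h
    exact_mod_cast h
  have hUXU : ∀ X : Matrix ι ι ℂ, (trace (X * NormedSpace.exp A)).re =
      ∑ i, ((Uᴴ * X * U) i i * ((Real.exp (a i) : ℝ) : ℂ)).re := by
    intro X
    rw [hexpA, trace_mul_conj, Complex.re_sum]
  have hAA : Uᴴ * A * U = diagonal (fun i => (a i : ℂ)) := by
    rw [hAd]
    calc Uᴴ * (U * diagonal (fun i => (a i : ℂ)) * Uᴴ) * U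
        = (Uᴴ * U) * diagonal (fun i => (a i : ℂ)) * (Uᴴ * U) := by
          simp only [Matrix.mul_assoc]
      _ = _ := by rw [hU1]; simp
  have hBB : Uᴴ * B * U = G * diagonal (fun i => (b i : ℂ)) * Gᴴ := by
    rw [hBd, hG, Matrix.conjTranspose_mul, Matrix.conjTranspose_conjTranspose]
    simp only [Matrix.mul_assoc]
  have hZAs : (trace (NormedSpace.exp A)).re = ∑ i, ∑ j, s i j * Real.exp (a i) := by
    have h := hUXU 1
    rw [Matrix.one_mul, Matrix.mul_one, hU1] at h
    rw [h]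
    refine Finset.sum_congr rfl fun i _ => ?_
    rw [Matrix.one_apply_eq, one_mul, Complex.ofReal_re, ← Finset.sum_mul, hrow, one_mul]
  have hZBs : (trace (NormedSpace.exp B)).re = ∑ i, ∑ j, s i j * Real.exp (b j) := by
    have h1 : (trace (NormedSpace.exp B)).re = ∑ j, Real.exp (b j) := by
      have := trace_mul_conj V 1 (fun i => ((Real.exp (b i) : ℝ) : ℂ))
      rw [Matrix.one_mul, Matrix.mul_one, hV1] at this
      rw [hexpB, this, Complex.re_sum]
      refine Finset.sum_congr rfl fun i _ => ?_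
      rw [Matrix.one_apply_eq, one_mul, Complex.ofReal_re]
    rw [h1, Finset.sum_comm]
    refine Finset.sum_congr rfl fun j _ => ?_
    rw [← Finset.sum_mul, hcol, one_mul]
  have hD : (trace ((B - A) * NormedSpace.exp A)).re =
      ∑ i, ∑ j, s i j * Real.exp (a i) * (b j - a i) := by
    rw [hUXU]
    refine Finset.sum_congr rfl fun i _ => ?_
    rw [Matrix.mul_sub, Matrix.sub_mul, Matrix.sub_apply, hAA, hBB, Matrix.diagonal_apply_eq]
    have h1 : (G * diagonal (fun i => (b i : ℂ)) * Gᴴ) i i = ((∑ j, s i j * b j : ℝ) : ℂ) := by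
      rw [Matrix.mul_apply, Complex.ofReal_sum]
      refine Finset.sum_congr rfl fun j _ => ?_
      rw [Matrix.mul_diagonal, Matrix.conjTranspose_apply, mul_right_comm, mul_star_self']
      push_cast; rfl
    rw [h1, ← Complex.ofReal_sub, ← Complex.ofReal_mul, Complex.ofReal_re]
    have h2 : (∑ j, s i j * b j - a i) = ∑ j, s i j * (b j - a i) := by
      simp only [mul_sub, Finset.sum_sub_distrib, ← Finset.sum_mul, hrow, one_mul]
    rw [h2, Finset.sum_mul]
    refine Finset.sum_congr rfl fun j _ => ?_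
    ring
  set ZA := (trace (NormedSpace.exp A)).re with hZAdef
  set ZB := (trace (NormedSpace.exp B)).re with hZBdef
  set D := (trace ((B - A) * NormedSpace.exp A)).re with hDdef
  have hmain : ZA * Real.exp (D / ZA) ≤ ZB := by
    have hterm : ∀ i j, s i j * Real.exp (a i) * (Real.exp (D / ZA) * (1 + ((b j - a i) - D / ZA)))
        ≤ s i j * Real.exp (b j) := by
      intro i j
      have h1 : 1 + ((b j - a i) - D / ZA) ≤ Real.exp ((b j - a i) - D / ZA) := by
        have := Real.add_one_le_exp ((b j - a i) - D / ZA)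
        linarith
      calc s i j * Real.exp (a i) * (Real.exp (D / ZA) * (1 + ((b j - a i) - D / ZA)))
          ≤ s i j * Real.exp (a i) * (Real.exp (D / ZA) * Real.exp ((b j - a i) - D / ZA)) := by
            refine mul_le_mul_of_nonneg_left ?_ (mul_nonneg (hs0 i j) (Real.exp_pos _).le)
            exact mul_le_mul_of_nonneg_left h1 (Real.exp_pos _).le
        _ = s i j * Real.exp (b j) := by
            rw [mul_assoc, ← Real.exp_add, ← Real.exp_add]
            congr 2; ring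
    have hsum := Finset.sum_le_sum fun i (_ : i ∈ Finset.univ) =>
      Finset.sum_le_sum fun j (_ : j ∈ Finset.univ) => hterm i j
    rw [← hZBs] at hsum
    refine le_trans (le_of_eq ?_) hsum
    have r : ∀ c₁ c₂ : ℝ, ∑ i, ∑ j, (s i j * Real.exp (a i) * c₁ +
        s i j * Real.exp (a i) * (b j - a i) * c₂) = ZA * c₁ + D * c₂ := by
      intro c₁ c₂
      rw [hZAs, hD, Finset.sum_mul, Finset.sum_mul, ← Finset.sum_add_distrib]
      refine Finset.sum_congr rfl fun i _ => ?_
      rw [Finset.sum_mul, Finset.sum_mul, ← Finset.sum_add_distrib]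
    calc ZA * Real.exp (D / ZA)
        = ZA * (Real.exp (D / ZA) * (1 - D / ZA)) + D * Real.exp (D / ZA) := by
          field_simp; ring
      _ = _ := by
          rw [← r]
          refine Finset.sum_congr rfl fun i _ => Finset.sum_congr rfl fun j _ => ?_
          ring
  have h1 : 0 < ZA * Real.exp (D / ZA) := mul_pos hZA (Real.exp_pos _)
  have h2 := Real.log_le_log h1 hmain
  rwa [Real.log_mul hZA.ne' (Real.exp_pos _).ne', Real.log_exp] at h2

end Vale.Agent.P361.H
end

section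

namespace Vale.Agent.P361.H

open Matrix

variable {n : ℕ} {Λ : Finset Site}

/-- Site spin operators. -/
noncomputable abbrev oZ (n : ℕ) {Λ : Finset Site} (x : Λ) :
    Matrix (Λ → Fin (n + 1)) (Λ → Fin (n + 1)) ℂ := siteOp x (spinZ n)
noncomputable abbrev oM (n : ℕ) {Λ : Finset Site} (x : Λ) :
    Matrix (Λ → Fin (n + 1)) (Λ → Fin (n + 1)) ℂ := siteOp x (spinLower n)
noncomputable abbrev oP (n : ℕ) {Λ : Finset Site} (x : Λ) :
    Matrix (Λ → Fin (n + 1)) (Λ → Fin (n + 1)) ℂ := siteOp x (spinLower n)ᴴ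
noncomputable abbrev oA (n : ℕ) {Λ : Finset Site} (x : Λ) :
    Matrix (Λ → Fin (n + 1)) (Λ → Fin (n + 1)) ℂ := siteOp x (schwA n)
noncomputable abbrev oB (n : ℕ) {Λ : Finset Site} (x : Λ) :
    Matrix (Λ → Fin (n + 1)) (Λ → Fin (n + 1)) ℂ := siteOp x (schwB n)

lemma oM_conj (x : Λ) : (oM n x)ᴴ = oP n x := siteOp_conjTranspose x _

lemma oP_conj (x : Λ) : (oP n x)ᴴ = oM n x := by
  rw [siteOp_conjTranspose, Matrix.conjTranspose_conjTranspose]

lemma oZ_conj (x : Λ) : (oZ n x)ᴴ = oZ n x := by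
  rw [siteOp_conjTranspose, spinZ_conj]

lemma oM_transpose (x : Λ) : (oM n x)ᵀ = oP n x := by
  rw [siteOp_transpose, spinLower_transpose]

lemma oP_transpose (x : Λ) : (oP n x)ᵀ = oM n x := by
  rw [← oM_transpose, Matrix.transpose_transpose]

lemma oZ_transpose (x : Λ) : (oZ n x)ᵀ = oZ n x := by
  rw [siteOp_transpose, spinZ_transpose]

lemma comm_PM_same (x : Λ) : oP n x * oM n x = oM n x * oP n x + (2 : ℂ) • oZ n x := by
  rw [siteOp_mul, siteOp_mul, ← siteOp_smul, ← siteOp_add, ← comm_raise_lower]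
  congr 1; abel

lemma comm_ZM_same (x : Λ) : oZ n x * oM n x = oM n x * oZ n x - oM n x := by
  rw [siteOp_mul, siteOp_mul, ← siteOp_sub]
  congr 1
  have := comm_z_lower (n := n)
  rw [sub_eq_iff_eq_add] at this
  rw [this]; abel

lemma comm_ZP_same (x : Λ) : oZ n x * oP n x = oP n x * oZ n x + oP n x := by
  have := congrArg Matrix.conjTranspose (comm_ZM_same (n := n) x)
  simp only [Matrix.conjTranspose_mul, Matrix.conjTranspose_sub, oM_conj, oZ_conj] at this
  rw [this]; abel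

/-- The interaction `S_x · S_y`. -/
noncomputable def dotOp (n : ℕ) {Λ : Finset Site} (x y : Λ) :
    Matrix (Λ → Fin (n + 1)) (Λ → Fin (n + 1)) ℂ :=
  ∑ a : Fin 3, siteOp x (spin n a) * siteOp y (spin n a)

lemma dotOp_eq (x y : Λ) :
    dotOp n x y = oZ n x * oZ n y + (1 / 2 : ℂ) • (oP n x * oM n y + oM n x * oP n y) := by
  have hI : (1 / (2 * Complex.I)) * (1 / (2 * Complex.I)) = (-(1 / 4) : ℂ) := by
    field_simp
    rw [Complex.I_sq]; norm_num
  rw [dotOp, Fin.sum_univ_three]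
  have h0 : spin n 0 = (1 / 2 : ℂ) • ((spinLower n)ᴴ + spinLower n) := rfl
  have h1 : spin n 1 = (1 / (2 * Complex.I) : ℂ) • ((spinLower n)ᴴ - spinLower n) := rfl
  have h2 : spin n 2 = spinZ n := rfl
  rw [h0, h1, h2]
  simp only [siteOp_smul, siteOp_add, siteOp_sub, smul_mul_smul_comm, hI]
  simp only [mul_add, add_mul, mul_sub, sub_mul, smul_add, smul_sub]
  module

lemma dotOp_comm {x y : Λ} (hxy : x ≠ y) : dotOp n x y = dotOp n y x := by
  rw [dotOp, dotOp]
  exact Finset.sum_congr rfl fun a _ => siteOp_comm hxy _ _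

/-- `∑ x, f x S⁻_x`. -/
noncomputable def modeOp (n : ℕ) {Λ : Finset Site} (f : Λ → ℂ) :
    Matrix (Λ → Fin (n + 1)) (Λ → Fin (n + 1)) ℂ := ∑ x, f x • oM n x

lemma modeOp_conj (f : Λ → ℂ) : (modeOp n f)ᴴ = ∑ x, star (f x) • oP n x := by
  rw [modeOp, Matrix.conjTranspose_sum]
  exact Finset.sum_congr rfl fun x _ => by rw [Matrix.conjTranspose_smul, oM_conj]

/-- `G_{xy} = S³_x S⁻_y - S⁻_x S³_y`. -/
noncomputable def gOp (n : ℕ) {Λ : Finset Site} (x y : Λ) :
    Matrix (Λ → Fin (n + 1)) (Λ → Fin (n + 1)) ℂ := oZ n x * oM n y - oM n x * oZ n y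

lemma comm_dot_third {x y z : Λ} (hzx : z ≠ x) (hzy : z ≠ y)
    (A : Matrix (Fin (n + 1)) (Fin (n + 1)) ℂ) :
    dotOp n x y * siteOp z A - siteOp z A * dotOp n x y = 0 := by
  rw [dotOp, Finset.sum_mul, Finset.mul_sum, ← Finset.sum_sub_distrib]
  refine Finset.sum_eq_zero fun a _ => ?_
  rw [mul_assoc, siteOp_comm hzy.symm, ← mul_assoc, siteOp_comm hzx.symm, mul_assoc, sub_self]

lemma comm_dot_first {x y : Λ} (hxy : x ≠ y) :
    dotOp n x y * oM n x - oM n x * dotOp n x y = gOp n x y := by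
  rw [dotOp_eq, gOp]
  have e1 : oZ n x * oZ n y * oM n x = (oM n x * oZ n x - oM n x) * oZ n y := by
    rw [mul_assoc, siteOp_comm hxy.symm, ← mul_assoc, comm_ZM_same]
  have e2 : oP n x * oM n y * oM n x = (oM n x * oP n x + (2 : ℂ) • oZ n x) * oM n y := by
    rw [mul_assoc, siteOp_comm hxy.symm, ← mul_assoc, comm_PM_same]
  have e3 : oM n x * oP n y * oM n x = oM n x * (oM n x * oP n y) := by
    rw [mul_assoc, siteOp_comm hxy.symm]
  simp only [add_mul, mul_add, smul_mul_assoc, mul_smul_comm, smul_add, e1, e2, e3, sub_mul]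
  simp only [mul_assoc]
  module

lemma gOp_swap {x y : Λ} (hxy : x ≠ y) : gOp n y x = - gOp n x y := by
  rw [gOp, gOp, siteOp_comm hxy.symm, siteOp_comm hxy.symm]
  abel

lemma comm_dot_second {x y : Λ} (hxy : x ≠ y) :
    dotOp n x y * oM n y - oM n y * dotOp n x y = - gOp n x y := by
  rw [dotOp_comm hxy, comm_dot_first hxy.symm, gOp_swap hxy]

lemma comm_dot_mode {x y : Λ} (hxy : x ≠ y) (f : Λ → ℂ) :
    dotOp n x y * modeOp n f - modeOp n f * dotOp n x y = (f x - f y) • gOp n x y := by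
  rw [modeOp, Finset.mul_sum, Finset.sum_mul, ← Finset.sum_sub_distrib]
  have hterm : ∀ z, dotOp n x y * f z • oM n z - f z • oM n z * dotOp n x y =
      f z • (dotOp n x y * oM n z - oM n z * dotOp n x y) := by
    intro z; rw [mul_smul_comm, smul_mul_assoc, smul_sub]
  simp only [hterm]
  rw [← Finset.add_sum_erase _ _ (Finset.mem_univ x), ← Finset.add_sum_erase _ _
    (show y ∈ Finset.univ.erase x from Finset.mem_erase.2 ⟨hxy.symm, Finset.mem_univ _⟩),
    Finset.sum_eq_zero, comm_dot_first hxy, comm_dot_second hxy]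
  · module
  · intro z hz
    have hzy : z ≠ y := (Finset.mem_erase.1 hz).1
    have hzx : z ≠ x := (Finset.mem_erase.1 (Finset.mem_erase.1 hz).2).1
    rw [comm_dot_third hzx hzy, smul_zero]

lemma comm_P_g_first {x y : Λ} (hxy : x ≠ y) :
    oP n x * gOp n x y - gOp n x y * oP n x =
      -(oP n x * oM n y) - (2 : ℂ) • (oZ n x * oZ n y) := by
  rw [gOp]
  have e1 : oZ n x * oM n y * oP n x = (oP n x * oZ n x + oP n x) * oM n y := by
    rw [mul_assoc, siteOp_comm hxy.symm, ← mul_assoc, comm_ZP_same]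
  have e2 : oM n x * oZ n y * oP n x = (oP n x * oM n x - (2 : ℂ) • oZ n x) * oZ n y := by
    rw [mul_assoc, siteOp_comm hxy.symm, ← mul_assoc, comm_PM_same, add_sub_cancel_right]
  simp only [mul_sub, sub_mul, e1, e2, add_mul, smul_mul_assoc]
  simp only [mul_assoc]
  module

lemma comm_P_g_second {x y : Λ} (hxy : x ≠ y) :
    oP n y * gOp n x y - gOp n x y * oP n y =
      (oM n x * oP n y) + (2 : ℂ) • (oZ n x * oZ n y) := by
  rw [gOp]
  have e1 : oP n y * (oZ n x * oM n y) = oZ n x * (oM n y * oP n y + (2 : ℂ) • oZ n y) := by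
    rw [← mul_assoc, siteOp_comm hxy.symm, mul_assoc, comm_PM_same]
  have e2 : oP n y * (oM n x * oZ n y) = oM n x * (oZ n y * oP n y - oP n y) := by
    rw [← mul_assoc, siteOp_comm hxy.symm, mul_assoc, comm_ZP_same, add_sub_cancel_right]
  simp only [mul_sub, sub_mul, e1, e2, mul_add, mul_smul_comm]
  simp only [mul_assoc]
  module

lemma comm_P_g_third {x y z : Λ} (hzx : z ≠ x) (hzy : z ≠ y) :
    oP n z * gOp n x y - gOp n x y * oP n z = 0 := by
  rw [gOp]
  have e1 : oP n z * (oZ n x * oM n y) = oZ n x * oM n y * oP n z := by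
    rw [← mul_assoc, siteOp_comm hzx, mul_assoc, siteOp_comm hzy, mul_assoc]
  have e2 : oP n z * (oM n x * oZ n y) = oM n x * oZ n y * oP n z := by
    rw [← mul_assoc, siteOp_comm hzx, mul_assoc, siteOp_comm hzy, mul_assoc]
  rw [mul_sub, sub_mul, e1, e2, sub_self]

lemma comm_mode_g {x y : Λ} (hxy : x ≠ y) (f : Λ → ℂ) :
    (modeOp n f)ᴴ * gOp n x y - gOp n x y * (modeOp n f)ᴴ =
      star (f x) • (-(oP n x * oM n y) - (2 : ℂ) • (oZ n x * oZ n y)) +
      star (f y) • ((oM n x * oP n y) + (2 : ℂ) • (oZ n x * oZ n y)) := by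
  rw [modeOp_conj, Finset.mul_sum, Finset.sum_mul, ← Finset.sum_sub_distrib]
  have hterm : ∀ z, star (f z) • oP n z * gOp n x y - gOp n x y * star (f z) • oP n z =
      star (f z) • (oP n z * gOp n x y - gOp n x y * oP n z) := by
    intro z; rw [mul_smul_comm, smul_mul_assoc, smul_sub]
  simp only [hterm]
  rw [← Finset.add_sum_erase _ _ (Finset.mem_univ x), ← Finset.add_sum_erase _ _
    (show y ∈ Finset.univ.erase x from Finset.mem_erase.2 ⟨hxy.symm, Finset.mem_univ _⟩),
    Finset.sum_eq_zero, comm_P_g_first hxy, comm_P_g_second hxy, add_zero]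
  intro z hz
  have hzy : z ≠ y := (Finset.mem_erase.1 hz).1
  have hzx : z ≠ x := (Finset.mem_erase.1 (Finset.mem_erase.1 hz).2).1
  rw [comm_P_g_third hzx hzy, smul_zero]

/-- `[T*, [S_x·S_y, T]]`. -/
lemma double_comm_dot {x y : Λ} (hxy : x ≠ y) (f : Λ → ℂ) :
    (modeOp n f)ᴴ * (dotOp n x y * modeOp n f - modeOp n f * dotOp n x y) -
      (dotOp n x y * modeOp n f - modeOp n f * dotOp n x y) * (modeOp n f)ᴴ =
      (f x - f y) • (star (f x) • (-(oP n x * oM n y) - (2 : ℂ) • (oZ n x * oZ n y)) +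
      star (f y) • ((oM n x * oP n y) + (2 : ℂ) • (oZ n x * oZ n y))) := by
  rw [comm_dot_mode hxy, ← comm_mode_g hxy, mul_smul_comm, smul_mul_assoc, smul_sub]

/-- `S² - S_x·S_y = ½ T† T`. -/
lemma dot_sos {x y : Λ} (hxy : x ≠ y) :
    (oA n x * oB n y - oB n x * oA n y)ᴴ * (oA n x * oB n y - oB n x * oA n y) =
      (2 * ((n : ℂ) / 2) ^ 2) • (1 : Matrix (Λ → Fin (n + 1)) (Λ → Fin (n + 1)) ℂ)
        - (2 : ℂ) • dotOp n x y := by
  have hAA : ∀ z : Λ, (oA n z)ᴴ * oA n z = ((n : ℂ) / 2) • (1 : Matrix _ _ ℂ) + oZ n z := by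
    intro z
    rw [siteOp_conjTranspose, siteOp_mul, schwA_schwA, siteOp_add, siteOp_smul, siteOp_one]
  have hBB : ∀ z : Λ, (oB n z)ᴴ * oB n z = ((n : ℂ) / 2) • (1 : Matrix _ _ ℂ) - oZ n z := by
    intro z
    rw [siteOp_conjTranspose, siteOp_mul, schwB_schwB, siteOp_sub, siteOp_smul, siteOp_one]
  have hAB : ∀ z : Λ, (oA n z)ᴴ * oB n z = oP n z := by
    intro z
    rw [siteOp_conjTranspose, siteOp_mul, schwA_schwB]
  have hBA : ∀ z : Λ, (oB n z)ᴴ * oA n z = oM n z := by
    intro z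
    rw [siteOp_conjTranspose, siteOp_mul, schwB_schwA]
  have sw : ∀ (P Q R T : Matrix (Fin (n + 1)) (Fin (n + 1)) ℂ),
      (siteOp x P * siteOp y Q)ᴴ * (siteOp x R * siteOp y T) =
      ((siteOp x P)ᴴ * siteOp x R) * ((siteOp y Q)ᴴ * siteOp y T) := by
    intro P Q R T
    rw [Matrix.conjTranspose_mul, siteOp_conjTranspose, siteOp_conjTranspose,
      siteOp_comm hxy.symm, mul_assoc, ← mul_assoc (siteOp y Qᴴ), siteOp_comm hxy.symm]
    simp only [mul_assoc]
  rw [Matrix.conjTranspose_sub, sub_mul, mul_sub, mul_sub, sw, sw, sw, sw, hAA, hBB, hAB, hBA,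
    hAA, hBB, hAB, hBA, dotOp_eq]
  simp only [add_mul, mul_add, sub_mul, mul_sub, smul_mul_assoc, mul_smul_comm, Matrix.mul_one,
    Matrix.one_mul, smul_add, smul_sub, smul_smul]
  module

lemma zz_sos {x y : Λ} (hxy : x ≠ y) :
    (oA n x * oB n y)ᴴ * (oA n x * oB n y) + (oB n x * oA n y)ᴴ * (oB n x * oA n y) =
      (2 * ((n : ℂ) / 2) ^ 2) • (1 : Matrix (Λ → Fin (n + 1)) (Λ → Fin (n + 1)) ℂ)
        - (2 : ℂ) • (oZ n x * oZ n y) := by
  have hAA : ∀ z : Λ, (oA n z)ᴴ * oA n z = ((n : ℂ) / 2) • (1 : Matrix _ _ ℂ) + oZ n z := by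
    intro z
    rw [siteOp_conjTranspose, siteOp_mul, schwA_schwA, siteOp_add, siteOp_smul, siteOp_one]
  have hBB : ∀ z : Λ, (oB n z)ᴴ * oB n z = ((n : ℂ) / 2) • (1 : Matrix _ _ ℂ) - oZ n z := by
    intro z
    rw [siteOp_conjTranspose, siteOp_mul, schwB_schwB, siteOp_sub, siteOp_smul, siteOp_one]
  have sw : ∀ (P Q R T : Matrix (Fin (n + 1)) (Fin (n + 1)) ℂ),
      (siteOp x P * siteOp y Q)ᴴ * (siteOp x R * siteOp y T) =
      ((siteOp x P)ᴴ * siteOp x R) * ((siteOp y Q)ᴴ * siteOp y T) := by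
    intro P Q R T
    rw [Matrix.conjTranspose_mul, siteOp_conjTranspose, siteOp_conjTranspose,
      siteOp_comm hxy.symm, mul_assoc, ← mul_assoc (siteOp y Qᴴ), siteOp_comm hxy.symm]
    simp only [mul_assoc]
  rw [sw, sw, hAA, hBB, hAA, hBB]
  simp only [add_mul, mul_add, sub_mul, mul_sub, smul_mul_assoc, mul_smul_comm, Matrix.mul_one,
    Matrix.one_mul, smul_add, smul_sub, smul_smul]
  module

end Vale.Agent.P361.H
end

section

namespace Vale.Agent.P361.H

open Matrix

variable {n : ℕ} {Λ : Finset Site}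

lemma isNN_ne {x y : Λ} (h : IsNN x.1 y.1) : x ≠ y := by
  rintro rfl
  simp [IsNN] at h

lemma isNN_symm {x y : Site} (h : IsNN x y) : IsNN y x := by
  unfold IsNN at *
  rw [← h]
  exact Finset.sum_congr rfl fun i _ => abs_sub_comm _ _

lemma hamiltonian_eq : hamiltonian n Λ =
    -((1 / 2 : ℂ) • ∑ x : Λ, ∑ y : Λ, if IsNN x.1 y.1 then dotOp n x y else 0) := rfl

lemma magnetization_eq : magnetization n Λ = ∑ x : Λ, oZ n x := rfl

lemma dotOp_conj {x y : Λ} (hxy : x ≠ y) : (dotOp n x y)ᴴ = dotOp n x y := by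
  rw [dotOp_eq, Matrix.conjTranspose_add, Matrix.conjTranspose_smul, Matrix.conjTranspose_add,
    Matrix.conjTranspose_mul, Matrix.conjTranspose_mul, Matrix.conjTranspose_mul, oZ_conj, oZ_conj,
    oM_conj, oM_conj, oP_conj, oP_conj, siteOp_comm hxy.symm, siteOp_comm hxy.symm,
    siteOp_comm hxy.symm]
  have : star (1 / 2 : ℂ) = 1 / 2 := by simp
  rw [this, add_comm (oM n x * oP n y)]

lemma dotOp_transpose {x y : Λ} (hxy : x ≠ y) : (dotOp n x y)ᵀ = dotOp n x y := by
  rw [dotOp_eq, Matrix.transpose_add, Matrix.transpose_smul, Matrix.transpose_add,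
    Matrix.transpose_mul, Matrix.transpose_mul, Matrix.transpose_mul, oZ_transpose, oZ_transpose,
    oM_transpose, oM_transpose, oP_transpose, oP_transpose, siteOp_comm hxy.symm,
    siteOp_comm hxy.symm, siteOp_comm hxy.symm]
  rw [add_comm (oM n x * oP n y)]

lemma hamiltonian_conj : (hamiltonian n Λ)ᴴ = hamiltonian n Λ := by
  rw [hamiltonian_eq, Matrix.conjTranspose_neg, Matrix.conjTranspose_smul,
    Matrix.conjTranspose_sum]
  have : star (1 / 2 : ℂ) = 1 / 2 := by simp
  rw [this]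
  congr 2
  refine Finset.sum_congr rfl fun x _ => ?_
  rw [Matrix.conjTranspose_sum]
  refine Finset.sum_congr rfl fun y _ => ?_
  split_ifs with h
  · exact dotOp_conj (isNN_ne h)
  · exact Matrix.conjTranspose_zero

lemma hamiltonian_transpose : (hamiltonian n Λ)ᵀ = hamiltonian n Λ := by
  rw [hamiltonian_eq, Matrix.transpose_neg, Matrix.transpose_smul,
    Matrix.transpose_sum]
  congr 2
  refine Finset.sum_congr rfl fun x _ => ?_
  rw [Matrix.transpose_sum]
  refine Finset.sum_congr rfl fun y _ => ?_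
  split_ifs with h
  · exact dotOp_transpose (isNN_ne h)
  · exact Matrix.transpose_zero

lemma magnetization_conj : (magnetization n Λ)ᴴ = magnetization n Λ := by
  rw [magnetization_eq, Matrix.conjTranspose_sum]
  exact Finset.sum_congr rfl fun x _ => oZ_conj x

lemma magnetization_transpose : (magnetization n Λ)ᵀ = magnetization n Λ := by
  rw [magnetization_eq, Matrix.transpose_sum]
  exact Finset.sum_congr rfl fun x _ => oZ_transpose x

/-- The exponent `-β (H - h M)`. -/
noncomputable def expo (n : ℕ) (Λ : Finset Site) (β h : ℝ) :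
    Matrix (Λ → Fin (n + 1)) (Λ → Fin (n + 1)) ℂ :=
  -(β : ℂ) • (hamiltonian n Λ - (h : ℂ) • magnetization n Λ)

lemma expo_isHermitian (β h : ℝ) : (expo n Λ β h).IsHermitian := by
  unfold Matrix.IsHermitian expo
  rw [Matrix.conjTranspose_smul, Matrix.conjTranspose_sub, Matrix.conjTranspose_smul,
    hamiltonian_conj, magnetization_conj]
  simp

lemma expo_transpose (β h : ℝ) : (expo n Λ β h)ᵀ = expo n Λ β h := by
  unfold expo
  rw [Matrix.transpose_smul, Matrix.transpose_sub, Matrix.transpose_smul,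
    hamiltonian_transpose, magnetization_transpose]

/-- Partition function. -/
noncomputable def partZ (n : ℕ) (Λ : Finset Site) (β h : ℝ) : ℝ :=
  (trace (NormedSpace.exp (expo n Λ β h))).re

/-- Unnormalized expectation `Re Tr (X e^{-β(H-hM)})`. -/
noncomputable def tr (n : ℕ) (Λ : Finset Site) (β h : ℝ)
    (X : Matrix (Λ → Fin (n + 1)) (Λ → Fin (n + 1)) ℂ) : ℝ :=
  (trace (X * NormedSpace.exp (expo n Λ β h))).re

lemma partZ_pos (β h : ℝ) : 0 < partZ n Λ β h := trace_exp_pos _ (expo_isHermitian β h)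

lemma tr_add (β h : ℝ) (X Y : Matrix (Λ → Fin (n + 1)) (Λ → Fin (n + 1)) ℂ) :
    tr n Λ β h (X + Y) = tr n Λ β h X + tr n Λ β h Y := by
  simp [tr, Matrix.add_mul]

lemma tr_sub (β h : ℝ) (X Y : Matrix (Λ → Fin (n + 1)) (Λ → Fin (n + 1)) ℂ) :
    tr n Λ β h (X - Y) = tr n Λ β h X - tr n Λ β h Y := by
  simp [tr, Matrix.sub_mul]

lemma tr_smul (β h : ℝ) (c : ℝ) (X : Matrix (Λ → Fin (n + 1)) (Λ → Fin (n + 1)) ℂ) :
    tr n Λ β h ((c : ℂ) • X) = c * tr n Λ β h X := by
  simp [tr]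

lemma tr_sum {ι : Type*} (s : Finset ι) (β h : ℝ)
    (X : ι → Matrix (Λ → Fin (n + 1)) (Λ → Fin (n + 1)) ℂ) :
    tr n Λ β h (∑ i ∈ s, X i) = ∑ i ∈ s, tr n Λ β h (X i) := by
  simp [tr, Finset.sum_mul, Matrix.trace_sum, Complex.re_sum]

lemma tr_one (β h : ℝ) : tr n Λ β h 1 = partZ n Λ β h := by
  simp [tr, partZ]

lemma tr_zero (β h : ℝ) : tr n Λ β h 0 = 0 := by
  simp [tr]

lemma tr_star_mul_nonneg (β h : ℝ) (X : Matrix (Λ → Fin (n + 1)) (Λ → Fin (n + 1)) ℂ) :
    0 ≤ tr n Λ β h (Xᴴ * X) := trace_star_mul_exp_nonneg _ (expo_isHermitian β h) X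

/-- Invariance of traces under transposition. -/
lemma trace_transpose_exp (β h : ℝ) (X : Matrix (Λ → Fin (n + 1)) (Λ → Fin (n + 1)) ℂ) :
    trace (Xᵀ * NormedSpace.exp (expo n Λ β h)) = trace (X * NormedSpace.exp (expo n Λ β h)) := by
  conv_rhs => rw [← Matrix.trace_transpose, Matrix.transpose_mul, ← Matrix.exp_transpose,
    expo_transpose, Matrix.trace_mul_comm]

lemma trace_conjTranspose_exp (β h : ℝ) (X : Matrix (Λ → Fin (n + 1)) (Λ → Fin (n + 1)) ℂ) :
    trace (Xᴴ * NormedSpace.exp (expo n Λ β h)) =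
      star (trace (X * NormedSpace.exp (expo n Λ β h))) := by
  rw [← Matrix.trace_conjTranspose, Matrix.conjTranspose_mul, ← Matrix.exp_conjTranspose,
    (expo_isHermitian β h).eq, Matrix.trace_mul_comm]

lemma trace_PM_comm {x y : Λ} (hxy : x ≠ y) (β h : ℝ) :
    trace (oP n x * oM n y * NormedSpace.exp (expo n Λ β h)) =
    trace (oM n x * oP n y * NormedSpace.exp (expo n Λ β h)) := by
  rw [← trace_transpose_exp, Matrix.transpose_mul, oM_transpose, oP_transpose,
    siteOp_comm hxy.symm]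

lemma trace_PM_real {x y : Λ} (hxy : x ≠ y) (β h : ℝ) :
    trace (oP n x * oM n y * NormedSpace.exp (expo n Λ β h)) =
    ((tr n Λ β h (oP n x * oM n y) : ℝ) : ℂ) := by
  have h1 : star (trace (oP n x * oM n y * NormedSpace.exp (expo n Λ β h))) =
      trace (oP n x * oM n y * NormedSpace.exp (expo n Λ β h)) := by
    rw [← trace_conjTranspose_exp, Matrix.conjTranspose_mul, oM_conj, oP_conj,
      siteOp_comm hxy.symm, ← trace_PM_comm hxy]
  exact (Complex.conj_eq_iff_re.1 h1).symm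

lemma trace_ZZ_real {x y : Λ} (hxy : x ≠ y) (β h : ℝ) :
    trace (oZ n x * oZ n y * NormedSpace.exp (expo n Λ β h)) =
    ((tr n Λ β h (oZ n x * oZ n y) : ℝ) : ℂ) := by
  have h1 : star (trace (oZ n x * oZ n y * NormedSpace.exp (expo n Λ β h))) =
      trace (oZ n x * oZ n y * NormedSpace.exp (expo n Λ β h)) := by
    rw [← trace_conjTranspose_exp, Matrix.conjTranspose_mul, oZ_conj, oZ_conj,
      siteOp_comm hxy.symm]
  exact (Complex.conj_eq_iff_re.1 h1).symm

/-- Expectation of the double commutator with `S_x·S_y`. -/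
lemma tr_double_comm_dot {x y : Λ} (hxy : x ≠ y) (f : Λ → ℂ) (β h : ℝ) :
    tr n Λ β h ((modeOp n f)ᴴ * (dotOp n x y * modeOp n f - modeOp n f * dotOp n x y) -
      (dotOp n x y * modeOp n f - modeOp n f * dotOp n x y) * (modeOp n f)ᴴ) =
    - Complex.normSq (f x - f y) * (tr n Λ β h (dotOp n x y) + tr n Λ β h (oZ n x * oZ n y)) := by
  have hdot : tr n Λ β h (dotOp n x y) = tr n Λ β h (oZ n x * oZ n y) +
      tr n Λ β h (oP n x * oM n y) := by
    rw [dotOp_eq, tr_add]
    congr 1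
    have : ((1 / 2 : ℂ)) = (((1 / 2 : ℝ)) : ℂ) := by push_cast; rfl
    rw [this, tr_smul, tr_add]
    have h2 : tr n Λ β h (oM n x * oP n y) = tr n Λ β h (oP n x * oM n y) := by
      unfold tr; rw [trace_PM_comm hxy]
    rw [h2]; ring
  rw [double_comm_dot hxy, hdot]
  unfold tr
  rw [smul_mul_assoc, Matrix.trace_smul, Matrix.add_mul, Matrix.trace_add, smul_mul_assoc,
    smul_mul_assoc, Matrix.trace_smul, Matrix.trace_smul, Matrix.sub_mul, Matrix.add_mul,
    Matrix.trace_sub, Matrix.trace_add, Matrix.neg_mul, Matrix.trace_neg, smul_mul_assoc,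
    Matrix.trace_smul, ← trace_PM_comm hxy, trace_PM_real hxy, trace_ZZ_real hxy]
  set p := tr n Λ β h (oP n x * oM n y) with hp
  set q := tr n Λ β h (oZ n x * oZ n y) with hq
  have e : (f x - f y) • (star (f x) • (-(p : ℂ) - (2 : ℂ) • (q : ℂ)) +
      star (f y) • ((p : ℂ) + (2 : ℂ) • (q : ℂ))) =
      ((- Complex.normSq (f x - f y) * (p + 2 * q) : ℝ) : ℂ) := by
    have h3 := mul_star_self' (f x - f y)
    push_cast
    rw [← h3]
    simp only [smul_eq_mul, star_sub]
    ring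
  rw [e, Complex.ofReal_re, Complex.ofReal_re, Complex.ofReal_re]
  ring

lemma tr_dot_le {x y : Λ} (hxy : x ≠ y) (β h : ℝ) :
    tr n Λ β h (dotOp n x y) ≤ ((n : ℝ) / 2) ^ 2 * partZ n Λ β h := by
  have h1 := tr_star_mul_nonneg β h (oA n x * oB n y - oB n x * oA n y)
  rw [dot_sos hxy] at h1
  have e1 : (2 * ((n : ℂ) / 2) ^ 2) = (((2 * ((n : ℝ) / 2) ^ 2 : ℝ)) : ℂ) := by push_cast; rfl
  have e2 : (2 : ℂ) = ((2 : ℝ) : ℂ) := by push_cast; rfl
  rw [e1, e2, tr_sub, tr_smul, tr_smul, tr_one] at h1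
  linarith

lemma tr_zz_le {x y : Λ} (hxy : x ≠ y) (β h : ℝ) :
    tr n Λ β h (oZ n x * oZ n y) ≤ ((n : ℝ) / 2) ^ 2 * partZ n Λ β h := by
  have h1 := tr_star_mul_nonneg β h (oA n x * oB n y)
  have h2 := tr_star_mul_nonneg β h (oB n x * oA n y)
  have h3 := add_nonneg h1 h2
  rw [← tr_add, zz_sos hxy] at h3
  have e1 : (2 * ((n : ℂ) / 2) ^ 2) = (((2 * ((n : ℝ) / 2) ^ 2 : ℝ)) : ℂ) := by push_cast; rfl
  have e2 : (2 : ℂ) = ((2 : ℝ) : ℂ) := by push_cast; rfl
  rw [e1, e2, tr_sub, tr_smul, tr_smul, tr_one] at h3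
  linarith

/-- `[T*, T] = 2 ∑ |f|² S³`. -/
lemma comm_mode_mode (f : Λ → ℂ) :
    (modeOp n f)ᴴ * modeOp n f - modeOp n f * (modeOp n f)ᴴ =
      ∑ x, ((2 * Complex.normSq (f x) : ℝ) : ℂ) • oZ n x := by
  rw [modeOp_conj, modeOp, Finset.sum_mul_sum, Finset.sum_mul_sum]
  have hsw : ∑ i : Λ, ∑ j : Λ, f i • oM n i * star (f j) • oP n j =
      ∑ i : Λ, ∑ j : Λ, f j • oM n j * star (f i) • oP n i := Finset.sum_comm
  rw [hsw, ← Finset.sum_sub_distrib]
  refine Finset.sum_congr rfl fun x _ => ?_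
  rw [← Finset.sum_sub_distrib, Finset.sum_eq_single x]
  · rw [smul_mul_smul_comm, smul_mul_smul_comm, comm_PM_same, smul_add, smul_smul,
      mul_comm (f x), add_sub_cancel_left, star_mul_self'']
    congr 1
    push_cast; ring
  · intro y _ hyx
    rw [smul_mul_smul_comm, smul_mul_smul_comm, siteOp_comm hyx, mul_comm (f y), sub_self]
  · simp

/-- `[M, T] = -T`. -/
lemma comm_mag_mode (f : Λ → ℂ) :
    magnetization n Λ * modeOp n f - modeOp n f * magnetization n Λ = - modeOp n f := by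
  rw [magnetization_eq, modeOp, Finset.sum_mul_sum, Finset.sum_mul_sum]
  have hsw : ∑ i : Λ, ∑ j : Λ, f i • oM n i * oZ n j =
      ∑ i : Λ, ∑ j : Λ, f j • oM n j * oZ n i := Finset.sum_comm
  rw [hsw, ← Finset.sum_sub_distrib, ← Finset.sum_neg_distrib]
  refine Finset.sum_congr rfl fun x _ => ?_
  rw [← Finset.sum_sub_distrib, Finset.sum_eq_single x]
  · rw [mul_smul_comm, smul_mul_assoc, comm_ZM_same, smul_sub]
    abel
  · intro y _ hyx
    rw [mul_smul_comm, smul_mul_assoc, siteOp_comm hyx, sub_self]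
  · simp

/-- The double commutator bound for a mode `f`. -/
lemma tr_double_comm_le (f : Λ → ℂ) {β : ℝ} (hβ : 0 ≤ β) (h : ℝ) :
    tr n Λ β h ((modeOp n f)ᴴ * (modeOp n f * expo n Λ β h - expo n Λ β h * modeOp n f) -
      (modeOp n f * expo n Λ β h - expo n Λ β h * modeOp n f) * (modeOp n f)ᴴ) ≤
    β * (((n : ℝ) / 2) ^ 2 * (∑ x : Λ, ∑ y : Λ, if IsNN x.1 y.1 then
      Complex.normSq (f x - f y) else 0) * partZ n Λ β h +
      h * tr n Λ β h ((modeOp n f)ᴴ * modeOp n f - modeOp n f * (modeOp n f)ᴴ)) := by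
  set T := modeOp n f with hT
  have e1 : T * expo n Λ β h - expo n Λ β h * T =
      (β : ℂ) • ((hamiltonian n Λ * T - T * hamiltonian n Λ) + (h : ℂ) • T) := by
    have := comm_mag_mode (n := n) f
    rw [← hT] at this
    rw [expo]
    have h2 : magnetization n Λ * T = T * magnetization n Λ - T := by
      rw [sub_eq_iff_eq_add] at this; rw [this]; abel
    simp only [mul_smul_comm, smul_mul_assoc, mul_sub, sub_mul, h2]
    module
  have e2 : hamiltonian n Λ * T - T * hamiltonian n Λ =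
      ∑ x : Λ, ∑ y : Λ, if IsNN x.1 y.1 then
        (-(1 / 2) : ℂ) • (dotOp n x y * T - T * dotOp n x y) else 0 := by
    rw [hamiltonian_eq]
    simp only [neg_mul, mul_neg, smul_mul_assoc, mul_smul_comm, Finset.sum_mul, Finset.mul_sum,
      Finset.smul_sum]
    rw [← neg_sub_neg, neg_neg, neg_neg, ← Finset.sum_sub_distrib]
    refine Finset.sum_congr rfl fun x _ => ?_
    rw [← Finset.sum_sub_distrib]
    refine Finset.sum_congr rfl fun y _ => ?_
    split_ifs
    · module
    · simp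
  have e3 : Tᴴ * (T * expo n Λ β h - expo n Λ β h * T) -
      (T * expo n Λ β h - expo n Λ β h * T) * Tᴴ =
      (β : ℂ) • ((∑ x : Λ, ∑ y : Λ, if IsNN x.1 y.1 then
        (((-(1 / 2) : ℝ)) : ℂ) • (Tᴴ * (dotOp n x y * T - T * dotOp n x y) -
          (dotOp n x y * T - T * dotOp n x y) * Tᴴ) else 0) +
        (h : ℂ) • (Tᴴ * T - T * Tᴴ)) := by
    rw [e1, mul_smul_comm, smul_mul_assoc, ← smul_sub]
    congr 1
    rw [mul_add, add_mul, mul_smul_comm, smul_mul_assoc, add_sub_add_comm, ← smul_sub, e2]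
    congr 1
    rw [Finset.mul_sum, Finset.sum_mul, ← Finset.sum_sub_distrib]
    refine Finset.sum_congr rfl fun x _ => ?_
    rw [Finset.mul_sum, Finset.sum_mul, ← Finset.sum_sub_distrib]
    refine Finset.sum_congr rfl fun y _ => ?_
    split_ifs
    · rw [mul_smul_comm, smul_mul_assoc, ← smul_sub]
      push_cast; rfl
    · simp
  rw [e3, tr_smul, tr_add, tr_smul, tr_sum]
  refine mul_le_mul_of_nonneg_left ?_ hβ
  refine add_le_add_left ?_ _
  rw [Finset.mul_sum, Finset.sum_mul]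
  refine Finset.sum_le_sum fun x _ => ?_
  rw [tr_sum, Finset.mul_sum, Finset.sum_mul]
  refine Finset.sum_le_sum fun y _ => ?_
  split_ifs with hnn
  · rw [tr_smul, tr_double_comm_dot (isNN_ne hnn)]
    have h1 := tr_dot_le (n := n) (isNN_ne hnn) β h
    have h2 := tr_zz_le (n := n) (isNN_ne hnn) β h
    have h3 := Complex.normSq_nonneg (f x - f y)
    have h4 := mul_le_mul_of_nonneg_left (add_le_add h1 h2) h3
    linarith
  · rw [tr_zero]; simp

end Vale.Agent.P361.H
end

section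

namespace Vale.Agent.P361.H

open Matrix

lemma box_eq (N : ℕ) : box N = Fintype.piFinset fun _ : Fin 3 => Finset.Icc (-(N : ℤ)) N := rfl

lemma card_box (N : ℕ) : (box N).card = (2 * N + 1) ^ 3 := by
  rw [box_eq, Fintype.card_piFinset]
  simp only [Int.card_Icc, Finset.prod_const, Finset.card_univ, Fintype.card_fin]
  congr 1
  omega

lemma mem_box {N : ℕ} {x : Site} : x ∈ box N ↔ ∀ i, -(N : ℤ) ≤ x i ∧ x i ≤ N := by
  rw [box_eq, Fintype.mem_piFinset]
  simp

/-- Wave number factor. -/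
noncomputable def theta (N : ℕ) : ℝ := 2 * Real.pi / (2 * N + 1)

/-- Plane wave `exp(i k·x)`, `k = 2π l / (2N+1)`. -/
noncomputable def wave (N : ℕ) (l x : Site) : ℂ :=
  Complex.exp (((theta N * ∑ j, (l j : ℝ) * (x j : ℝ) : ℝ) : ℂ) * Complex.I)

lemma wave_normSq (N : ℕ) (l x : Site) : Complex.normSq (wave N l x) = 1 := by
  rw [Complex.normSq_eq_norm_sq, wave, Complex.norm_exp_ofReal_mul_I]; norm_num

lemma wave_star (N : ℕ) (l x : Site) : star (wave N l x) =
    Complex.exp (((-(theta N * ∑ j, (l j : ℝ) * (x j : ℝ)) : ℝ) : ℂ) * Complex.I) := by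
  rw [wave, Complex.star_def, ← Complex.exp_conj]
  congr 1
  simp

lemma normSq_one_sub_exp (a : ℝ) :
    Complex.normSq (1 - Complex.exp ((a : ℂ) * Complex.I)) = 2 * (1 - Real.cos a) := by
  rw [Complex.exp_mul_I, ← Complex.ofReal_cos, ← Complex.ofReal_sin, Complex.normSq_apply]
  simp only [Complex.sub_re, Complex.one_re, Complex.add_re, Complex.ofReal_re, Complex.mul_re,
    Complex.I_re, mul_zero, Complex.ofReal_im, Complex.I_im, mul_one, sub_self, add_zero,
    Complex.sub_im, Complex.one_im, Complex.add_im, Complex.mul_im, zero_add]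
  nlinarith [Real.sin_sq_add_cos_sq a]

lemma wave_sub (N : ℕ) (l x v : Site) :
    Complex.normSq (wave N l x - wave N l (x + v)) =
      2 * (1 - Real.cos (theta N * ∑ j, (l j : ℝ) * (v j : ℝ))) := by
  have : wave N l x - wave N l (x + v) = wave N l x *
      (1 - Complex.exp (((theta N * ∑ j, (l j : ℝ) * (v j : ℝ) : ℝ) : ℂ) * Complex.I)) := by
    rw [mul_sub, mul_one, wave, wave, ← Complex.exp_add]
    congr 2
    rw [← add_mul, ← Complex.ofReal_add, ← mul_add, ← Finset.sum_add_distrib]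
    simp only [Pi.add_apply]
    push_cast
    simp only [mul_add]
  rw [this, Complex.normSq_mul, wave_normSq, one_mul, normSq_one_sub_exp]

/-- The six unit vectors. -/
def dir (p : Fin 3 × Bool) : Site := Pi.single p.1 (if p.2 then 1 else -1)

lemma dir_injective : Function.Injective dir := by decide +revert

lemma isNN_iff (x y : Site) : IsNN x y ↔ ∃ p, y = x + dir p := by
  constructor
  · intro h
    unfold IsNN at h
    rw [Fin.sum_univ_three] at h
    have key : ∀ a b c : ℤ, |a| + |b| + |c| = 1 →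
        (a = 1 ∧ b = 0 ∧ c = 0) ∨ (a = -1 ∧ b = 0 ∧ c = 0) ∨ (a = 0 ∧ b = 1 ∧ c = 0) ∨
        (a = 0 ∧ b = -1 ∧ c = 0) ∨ (a = 0 ∧ b = 0 ∧ c = 1) ∨ (a = 0 ∧ b = 0 ∧ c = -1) := by
      intro a b c h
      rcases abs_cases a with ha | ha <;> rcases abs_cases b with hb | hb <;>
        rcases abs_cases c with hc | hc <;> omega
    have hx : ∀ p : Fin 3 × Bool, (y 0 = x 0 + dir p 0 ∧ y 1 = x 1 + dir p 1 ∧
        y 2 = x 2 + dir p 2) → y = x + dir p := by
      intro p hp
      ext i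
      fin_cases i
      · exact hp.1
      · exact hp.2.1
      · exact hp.2.2
    rcases key _ _ _ h with h | h | h | h | h | h
    · refine ⟨(0, false), hx _ ?_⟩
      simp [dir]; omega
    · refine ⟨(0, true), hx _ ?_⟩
      simp [dir]; omega
    · refine ⟨(1, false), hx _ ?_⟩
      simp [dir]; omega
    · refine ⟨(1, true), hx _ ?_⟩
      simp [dir]; omega
    · refine ⟨(2, false), hx _ ?_⟩
      simp [dir]; omega
    · refine ⟨(2, true), hx _ ?_⟩
      simp [dir]; omega
  · rintro ⟨p, rfl⟩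
    unfold IsNN
    have : ∀ p, ∑ i, |dir p i| = 1 := by decide
    rw [← this p]
    refine Finset.sum_congr rfl fun i _ => ?_
    rw [Pi.add_apply, sub_add_cancel_left, abs_neg]

lemma sum_nn_le (Λ : Finset Site) (x : Site) (g : Site → ℝ) (hg : ∀ y, 0 ≤ g y) :
    (∑ y : Λ, if IsNN x y.1 then g y.1 else 0) ≤ ∑ p, g (x + dir p) := by
  rw [Finset.sum_coe_sort Λ (fun y => if IsNN x y then g y else 0), ← Finset.sum_filter]
  have hinj : Function.Injective fun p => x + dir p := fun p q h => dir_injective (by simpa using h)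
  rw [← Finset.sum_image (f := g) (g := fun p => x + dir p) (s := Finset.univ)
    (fun p _ q _ h => hinj h)]
  refine Finset.sum_le_sum_of_subset_of_nonneg ?_ (fun y _ _ => hg y)
  intro y hy
  rw [Finset.mem_filter] at hy
  obtain ⟨p, hp⟩ := (isNN_iff x y).1 hy.2
  exact Finset.mem_image.2 ⟨p, Finset.mem_univ _, hp.symm⟩

/-- Dispersion `∑_j (1 - cos k_j)`. -/
noncomputable def disp (N : ℕ) (l : Site) : ℝ := ∑ j, (1 - Real.cos (theta N * (l j : ℝ)))

lemma disp_nonneg (N : ℕ) (l : Site) : 0 ≤ disp N l :=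
  Finset.sum_nonneg fun j _ => by have := Real.cos_le_one (theta N * (l j : ℝ)); linarith

lemma sum_wave_nn_le (Λ : Finset Site) (N : ℕ) (l : Site) :
    (∑ x : Λ, ∑ y : Λ, if IsNN x.1 y.1 then
      Complex.normSq (wave N l x.1 - wave N l y.1) else 0) ≤ Λ.card * (4 * disp N l) := by
  have h1 : ∀ x : Λ, (∑ y : Λ, if IsNN x.1 y.1 then
      Complex.normSq (wave N l x.1 - wave N l y.1) else 0) ≤ 4 * disp N l := by
    intro x
    refine (sum_nn_le Λ x.1 (fun y => Complex.normSq (wave N l x.1 - wave N l y))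
      (fun y => Complex.normSq_nonneg _)).trans (le_of_eq ?_)
    simp only [wave_sub]
    rw [Fintype.sum_prod_type, disp, Finset.mul_sum]
    refine Finset.sum_congr rfl fun j _ => ?_
    have e : ∀ b : Bool, ∑ i, (l i : ℝ) * ((dir (j, b) i : ℤ) : ℝ) =
        (l j : ℝ) * (if b then 1 else -1) := by
      intro b
      rw [Finset.sum_eq_single j]
      · cases b <;> simp [dir]
      · intro i _ hij
        simp [dir, Pi.single_eq_of_ne hij]
      · simp
    rw [Fintype.sum_bool, e, e]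
    simp only [if_true, Bool.false_eq_true, if_false, mul_one, mul_neg, Real.cos_neg]
    ring
  calc _ ≤ ∑ x : Λ, 4 * disp N l := Finset.sum_le_sum fun x _ => h1 x
    _ = _ := by simp

/-- One-dimensional orthogonality. -/
lemma sum_exp_Icc (N : ℕ) (d : ℤ) (hd : |d| ≤ 2 * N) :
    ∑ l ∈ Finset.Icc (-(N : ℤ)) N, Complex.exp (((theta N * ((l : ℝ) * (d : ℝ)) : ℝ) : ℂ) * Complex.I)
      = if d = 0 then (2 * N + 1 : ℂ) else 0 := by
  split_ifs with h0
  · subst h0
    simp
    push_cast [Int.card_Icc]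
    have : ((N : ℤ) + 1 + N).toNat = 2 * N + 1 := by omega
    rw [this]; push_cast; rfl
  · set ζ : ℂ := Complex.exp (((theta N * (d : ℝ) : ℝ) : ℂ) * Complex.I) with hζ
    have hL : (0 : ℝ) < 2 * N + 1 := by positivity
    have hζpow : ζ ^ (2 * N + 1) = 1 := by
      rw [hζ, ← Complex.exp_nat_mul, Complex.exp_eq_one_iff]
      refine ⟨d, ?_⟩
      rw [theta]
      push_cast
      have : (2 * (N : ℂ) + 1) ≠ 0 := by
        exact_mod_cast (Nat.succ_ne_zero (2 * N))
      field_simp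
    have hζ1 : ζ ≠ 1 := by
      intro h
      rw [hζ, Complex.exp_eq_one_iff] at h
      obtain ⟨m, hm⟩ := h
      have h2 : theta N * (d : ℝ) = m * (2 * Real.pi) := by
        have h3 : (((theta N * (d : ℝ) : ℝ) : ℂ)) * Complex.I = ((m * (2 * Real.pi) : ℝ) : ℂ) * Complex.I := by
          rw [hm]; push_cast; ring
        have h4 := mul_right_cancel₀ Complex.I_ne_zero h3
        exact_mod_cast h4
      rw [theta] at h2
      have h5 : (d : ℝ) = m * (2 * N + 1) := by
        have hpi := Real.pi_pos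
        field_simp at h2
        linarith
      have h6 : d = m * (2 * N + 1) := by exact_mod_cast h5
      have hm0 : m ≠ 0 := by rintro rfl; simp at h6; exact h0 h6
      have h7 : (2 * (N : ℤ) + 1) ≤ |d| := by
        rw [h6, abs_mul, abs_of_pos (show (0 : ℤ) < 2 * N + 1 by positivity)]
        have : 1 ≤ |m| := Int.one_le_abs hm0
        nlinarith
      omega
    have hterm : ∀ l : ℤ, Complex.exp (((theta N * ((l : ℝ) * (d : ℝ)) : ℝ) : ℂ) * Complex.I) =
        ζ ^ l := by
      intro l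
      rw [hζ, ← Complex.exp_int_mul]
      congr 1
      push_cast; ring
    simp only [hterm]
    have hζ0 : ζ ≠ 0 := Complex.exp_ne_zero _
    have hsum : ∑ l ∈ Finset.Icc (-(N : ℤ)) N, ζ ^ l =
        ζ ^ (-(N : ℤ)) * ∑ i ∈ Finset.range (2 * N + 1), ζ ^ i := by
      rw [Finset.mul_sum]
      refine Finset.sum_bij' (fun l _ => (l + N).toNat) (fun i _ => (i : ℤ) - N) ?_ ?_ ?_ ?_ ?_
      · intro l hl; rw [Finset.mem_Icc] at hl; rw [Finset.mem_range]; omega
      · intro i hi; rw [Finset.mem_range] at hi; rw [Finset.mem_Icc]; omega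
      · intro l hl; rw [Finset.mem_Icc] at hl; omega
      · intro i hi; omega
      · intro l hl
        rw [Finset.mem_Icc] at hl
        rw [← zpow_natCast, ← zpow_add₀ hζ0]
        congr 1
        omega
    rw [hsum, geom_sum_eq hζ1, hζpow, sub_self, zero_div, mul_zero]

/-- Orthogonality of plane waves on the box. -/
lemma wave_orthog (N : ℕ) {x y : Site} (hx : x ∈ box N) (hy : y ∈ box N) :
    ∑ l ∈ box N, wave N l x * star (wave N l y) =
      if x = y then ((2 * N + 1 : ℂ)) ^ 3 else 0 := by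
  have hterm : ∀ l : Site, wave N l x * star (wave N l y) =
      ∏ j, Complex.exp (((theta N * ((l j : ℝ) * (((x j - y j : ℤ)) : ℝ)) : ℝ) : ℂ) *
        Complex.I) := by
    intro l
    rw [wave_star, wave, ← Complex.exp_add, ← Complex.exp_sum]
    congr 1
    rw [← Finset.sum_mul, ← add_mul, ← Complex.ofReal_add, ← Complex.ofReal_sum]
    congr 2
    rw [← sub_eq_add_neg, ← mul_sub, ← Finset.mul_sum, ← Finset.sum_sub_distrib]
    congr 1
    refine Finset.sum_congr rfl fun j _ => ?_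
    push_cast; ring
  simp only [hterm]
  rw [box_eq, ← Finset.prod_univ_sum (fun _ : Fin 3 => Finset.Icc (-(N : ℤ)) N)
    (fun j l => Complex.exp (((theta N * ((l : ℝ) * (((x j - y j : ℤ)) : ℝ)) : ℝ) : ℂ) *
        Complex.I))]
  rw [mem_box] at hx hy
  have h1 : ∀ j, ∑ l ∈ Finset.Icc (-(N : ℤ)) N,
      Complex.exp (((theta N * ((l : ℝ) * (((x j - y j : ℤ)) : ℝ)) : ℝ) : ℂ) * Complex.I) =
      if x j - y j = 0 then (2 * N + 1 : ℂ) else 0 := by
    intro j
    refine sum_exp_Icc N (x j - y j) ?_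
    have := hx j
    have := hy j
    rw [abs_le]; omega
  simp only [h1]
  split_ifs with hxy
  · subst hxy; simp
  · obtain ⟨j, hj⟩ := Function.ne_iff.1 hxy
    refine Finset.prod_eq_zero (Finset.mem_univ j) ?_
    rw [if_neg (sub_ne_zero.2 hj)]

end Vale.Agent.P361.H
end

section

namespace Vale.Agent.P361.H

open Matrix

variable {n : ℕ}

/-- Local inequality `S⁻S⁺ ≤ n (n/2 - S³)`. -/
lemma local_raise_le (Λ : Finset Site) (x : Λ) (β h : ℝ) :
    tr n Λ β h (oM n x * oP n x) ≤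
      (n : ℝ) * ((n : ℝ) / 2 * partZ n Λ β h - tr n Λ β h (oZ n x)) := by
  set X : Matrix (Fin (n + 1)) (Fin (n + 1)) ℂ :=
    Matrix.diagonal fun j => ((Real.sqrt (((j : ℕ) : ℝ) * (((j : ℕ) : ℝ) - 1)) : ℝ) : ℂ) with hX
  have hXX : Xᴴ * X = ((n : ℂ) * ((n : ℂ) / 2)) • (1 : Matrix _ _ ℂ) - (n : ℂ) • spinZ n
      - spinLower n * (spinLower n)ᴴ := by
    rw [lower_raise, hX, Matrix.diagonal_conjTranspose, Matrix.diagonal_mul_diagonal, spinZ,
      ← Matrix.diagonal_one, ← Matrix.diagonal_smul, ← Matrix.diagonal_smul, Matrix.diagonal_sub,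
      Matrix.diagonal_sub]
    congr 1
    ext j
    have h : 0 ≤ ((j : ℕ) : ℝ) * (((j : ℕ) : ℝ) - 1) := by
      rcases Nat.eq_zero_or_pos (j : ℕ) with h | h
      · rw [h]; simp
      · have : (1 : ℝ) ≤ ((j : ℕ) : ℝ) := by exact_mod_cast h
        exact mul_nonneg (by positivity) (by linarith)
    simp only [Pi.star_apply, RCLike.star_def, Complex.conj_ofReal, Pi.smul_apply, smul_eq_mul,
      mul_one]
    rw [← Complex.ofReal_mul, Real.mul_self_sqrt h]
    push_cast; ring
  have h1 := tr_star_mul_nonneg (n := n) (Λ := Λ) β h (siteOp x X)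
  rw [siteOp_conjTranspose, siteOp_mul, hXX, siteOp_sub, siteOp_sub, siteOp_smul, siteOp_smul,
    siteOp_one, ← siteOp_mul] at h1
  have e1 : ((n : ℂ) * ((n : ℂ) / 2)) = (((n : ℝ) * ((n : ℝ) / 2) : ℝ) : ℂ) := by push_cast; rfl
  have e2 : (n : ℂ) = ((n : ℝ) : ℂ) := by push_cast; rfl
  rw [e1, e2, tr_sub, tr_sub, tr_smul, tr_smul, tr_one] at h1
  linarith

/-- Parseval. -/
lemma sum_mode (N : ℕ) :
    ∑ l ∈ box N, modeOp n (fun x : box N => wave N l x.1) *
      (modeOp n (fun x : box N => wave N l x.1))ᴴ =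
      ((((2 * N + 1 : ℝ)) ^ 3 : ℝ) : ℂ) • ∑ x : box N, oM n x * oP n x := by
  have h1 : ∀ l, modeOp n (fun x : box N => wave N l x.1) *
      (modeOp n (fun x : box N => wave N l x.1))ᴴ =
      ∑ x : box N, ∑ y : box N, (wave N l x.1 * star (wave N l y.1)) • (oM n x * oP n y) := by
    intro l
    rw [modeOp_conj, modeOp, Finset.sum_mul_sum]
    refine Finset.sum_congr rfl fun x _ => Finset.sum_congr rfl fun y _ => ?_
    rw [smul_mul_smul_comm]
  simp only [h1]
  rw [Finset.sum_comm, Finset.smul_sum]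
  refine Finset.sum_congr rfl fun x _ => ?_
  rw [Finset.sum_comm]
  simp only [← Finset.sum_smul]
  rw [Finset.sum_eq_single x]
  · rw [wave_orthog N x.2 x.2, if_pos rfl]
    congr 1
    push_cast; rfl
  · intro y _ hyx
    rw [wave_orthog N x.2 y.2, if_neg (fun h => hyx (Subtype.ext h.symm)), zero_smul]
  · simp

/-- Mean magnetization per site `⟨M⟩ / |Λ|`. -/
noncomputable def mag (n : ℕ) (Λ : Finset Site) (β h : ℝ) : ℝ :=
  tr n Λ β h (magnetization n Λ) / (Λ.card * partZ n Λ β h)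

lemma tr_mag (n N : ℕ) (β h : ℝ) : tr n (box N) β h (magnetization n (box N)) =
    mag n (box N) β h * ((box N).card * partZ n (box N) β h) := by
  rw [mag, div_mul_cancel₀]
  have h1 := partZ_pos (n := n) (Λ := box N) β h
  have h2 : 0 < ((box N).card : ℝ) := by
    rw [card_box]; exact Nat.cast_pos.2 (pow_pos (Nat.succ_pos _) 3)
  exact (mul_pos h2 h1).ne'

lemma exp_arith (β S D V Z μ h : ℝ) (hV : 0 < V) (hZ : 0 < Z) (hμ : 0 < μ) :
    β * (S * (V * (4 * D)) * Z + h * (2 * μ * (V * Z))) / (2 * μ * (V * Z)) =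
      β * (2 * S * D / μ + h) := by
  field_simp; ring

lemma mode_bound_aux (β h S V Z μ D P Q C X : ℝ) (hV : 0 < V) (hZ : 0 < Z)
    (hμ : 0 < μ) (hβ : 0 < β) (hS : 0 ≤ S)
    (hPQ : P - Q = 2 * μ * (V * Z)) (hQ : 0 < Q) (hls : (P - Q) * Real.log (P / Q) ≤ C)
    (hC : C ≤ β * (S * X * Z + h * (2 * μ * (V * Z)))) (hX : X ≤ V * (4 * D)) :
    2 * μ * (V * Z) / (Real.exp (β * (2 * S * D / μ + h)) - 1) ≤ Q := by
  have hbpos : 0 < 2 * μ * (V * Z) := by positivity
  have hC2 : C ≤ β * (S * (V * (4 * D)) * Z + h * (2 * μ * (V * Z))) := by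
    refine hC.trans ?_
    refine mul_le_mul_of_nonneg_left ?_ hβ.le
    refine add_le_add_left ?_ _
    refine mul_le_mul_of_nonneg_right ?_ hZ.le
    exact mul_le_mul_of_nonneg_left hX hS
  have hlow := lower_of_logsum P Q _ hQ.le (by rw [hPQ]; exact hbpos) (hls.trans hC2) hQ
  rw [hPQ, exp_arith β S D V Z μ h hV hZ hμ] at hlow
  exact hlow

lemma mode_bound (N : ℕ) {β h : ℝ} (hβ : 0 < β) (hμ : 0 < mag n (box N) β h) (l : Site) :
    2 * mag n (box N) β h * ((box N).card * partZ n (box N) β h) /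
      (Real.exp (β * (2 * ((n : ℝ) / 2) ^ 2 * disp N l / mag n (box N) β h + h)) - 1) ≤
    tr n (box N) β h (modeOp n (fun x : box N => wave N l x.1) *
      (modeOp n (fun x : box N => wave N l x.1))ᴴ) := by
  have hZ : 0 < partZ n (box N) β h := partZ_pos β h
  have hV : 0 < ((box N).card : ℝ) := by
    rw [card_box]; exact Nat.cast_pos.2 (pow_pos (Nat.succ_pos _) 3)
  obtain ⟨T, hT⟩ : ∃ T, T = modeOp n (fun x : box N => wave N l x.1) := ⟨_, rfl⟩
  have hb : tr n (box N) β h (Tᴴ * T - T * Tᴴ) =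
      2 * mag n (box N) β h * ((box N).card * partZ n (box N) β h) := by
    rw [hT, comm_mode_mode]
    simp only [wave_normSq, mul_one]
    rw [← Finset.smul_sum, ← magnetization_eq, tr_smul, tr_mag]
    ring
  have hC := tr_double_comm_le (n := n) (fun x : box N => wave N l x.1) hβ.le h
  rw [← hT, hb] at hC
  have hsum := sum_wave_nn_le (box N) N l
  have hls := logsum_trace (expo n (box N) β h) (expo_isHermitian β h) Tᴴ
  simp only [Matrix.conjTranspose_conjTranspose] at hls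
  have hPQ : tr n (box N) β h (Tᴴ * T) - tr n (box N) β h (T * Tᴴ) =
      2 * mag n (box N) β h * ((box N).card * partZ n (box N) β h) := by
    rw [← tr_sub, hb]
  have hbpos : 0 < 2 * mag n (box N) β h * ((box N).card * partZ n (box N) β h) :=
    mul_pos (mul_pos two_pos hμ) (mul_pos hV hZ)
  have hTne : Tᴴ ≠ 0 := by
    intro h0
    have hT0 : T = 0 := by
      have := congrArg Matrix.conjTranspose h0
      rwa [Matrix.conjTranspose_conjTranspose, Matrix.conjTranspose_zero] at this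
    rw [hT0] at hPQ
    simp only [Matrix.zero_mul, Matrix.mul_zero, tr_zero, sub_zero] at hPQ
    exact absurd hPQ hbpos.ne
  have hQpos : 0 < tr n (box N) β h (T * Tᴴ) := by
    have := trace_star_mul_exp_pos (expo n (box N) β h) (expo_isHermitian β h) Tᴴ hTne
    rwa [Matrix.conjTranspose_conjTranspose] at this
  have hS : (0 : ℝ) ≤ ((n : ℝ) / 2) ^ 2 := sq_nonneg _
  rw [← hT]
  exact mode_bound_aux β h (((n : ℝ) / 2) ^ 2) ((box N).card : ℝ) (partZ n (box N) β h)
    (mag n (box N) β h) (disp N l) (tr n (box N) β h (Tᴴ * T)) (tr n (box N) β h (T * Tᴴ)) _ _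
    hV hZ hμ hβ hS hPQ hQpos hls hC hsum

lemma sum_raise_le (n N : ℕ) (β h : ℝ) :
    ∑ x : box N, tr n (box N) β h (oM n x * oP n x) ≤
      (n : ℝ) * ((n : ℝ) / 2 - mag n (box N) β h) *
        (((2 * N + 1 : ℝ)) ^ 3 * partZ n (box N) β h) := by
  have hcard : ((box N).card : ℝ) = (2 * N + 1 : ℝ) ^ 3 := by rw [card_box]; push_cast; rfl
  have h0 : ∑ x : box N, tr n (box N) β h (oM n x * oP n x) ≤
      ∑ x : box N, (n : ℝ) * ((n : ℝ) / 2 * partZ n (box N) β h - tr n (box N) β h (oZ n x)) :=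
    Finset.sum_le_sum fun x _ => local_raise_le (box N) x β h
  refine h0.trans (le_of_eq ?_)
  have h1 := tr_mag n N β h
  rw [magnetization_eq, tr_sum, hcard] at h1
  rw [← Finset.mul_sum, Finset.sum_sub_distrib, h1, Finset.sum_const,
    Finset.card_univ, Fintype.card_coe, nsmul_eq_mul, hcard]
  ring

lemma arith_aux (V Z S0 μ c : ℝ) (hV : 0 < V) (hZ : 0 < Z)
    (h : 2 * μ * (V * Z) * S0 ≤ V * (2 * c * (c - μ) * (V * Z))) :
    μ * (V⁻¹ * S0) ≤ c * (c - μ) := by
  have h5 : 2 * (V * Z) * (μ * S0) ≤ 2 * (V * Z) * (V * (c * (c - μ))) := by linarith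
  have h6 := le_of_mul_le_mul_left h5 (by positivity)
  have h7 : V⁻¹ * (μ * S0) ≤ V⁻¹ * (V * (c * (c - μ))) :=
    mul_le_mul_of_nonneg_left h6 (by positivity)
  rw [← mul_assoc V⁻¹ V, inv_mul_cancel₀ hV.ne', one_mul] at h7
  linarith

/-- Finite-volume bound. -/
theorem finite_bound (n N : ℕ) {β h : ℝ} (hβ : 0 < β) 
    (hμ : 0 < mag n (box N) β h) :
    mag n (box N) β h * ((((2 * N + 1 : ℝ)) ^ 3)⁻¹ * ∑ l ∈ box N,
      1 / (Real.exp (β * (2 * ((n : ℝ) / 2) ^ 2 * disp N l / mag n (box N) β h + h)) - 1)) ≤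
    (n : ℝ) / 2 * ((n : ℝ) / 2 - mag n (box N) β h) := by
  have hZ : 0 < partZ n (box N) β h := partZ_pos β h
  have hcard : ((box N).card : ℝ) = (2 * N + 1 : ℝ) ^ 3 := by rw [card_box]; push_cast; rfl
  have hV : 0 < (2 * N + 1 : ℝ) ^ 3 :=
    pow_pos (by have := Nat.cast_nonneg (α := ℝ) N; linarith) 3
  have h1 := Finset.sum_le_sum fun l (_ : l ∈ box N) => mode_bound (n := n) N hβ hμ l
  rw [← tr_sum, sum_mode, tr_smul, tr_sum] at h1
  have h2 := sum_raise_le n N β h
  have h3 := h1.trans (mul_le_mul_of_nonneg_left h2 hV.le)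
  refine arith_aux _ (partZ n (box N) β h) _ _ _ hV hZ ?_
  rw [Finset.mul_sum]
  refine le_trans (le_of_eq ?_) (h3.trans (le_of_eq ?_))
  · refine Finset.sum_congr rfl fun l _ => ?_
    rw [hcard]; ring
  · ring

end Vale.Agent.P361.H
end

section

namespace Vale.Agent.P361.H

open MeasureTheory intervalIntegral Filter Topology

/-- `J(t) = π⁻¹ ∫₀^π exp(-t(1 - cos θ)) dθ`. -/
noncomputable def bJ (t : ℝ) : ℝ :=
  Real.pi⁻¹ * ∫ θ in (0 : ℝ)..Real.pi, Real.exp (-t * (1 - Real.cos θ))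

lemma bJ_nonneg (t : ℝ) : 0 ≤ bJ t := by
  unfold bJ
  refine mul_nonneg (inv_nonneg.2 Real.pi_pos.le) ?_
  exact intervalIntegral.integral_nonneg Real.pi_pos.le fun θ _ => (Real.exp_pos _).le

lemma bJ_integrable (t : ℝ) : IntervalIntegrable
    (fun θ => Real.exp (-t * (1 - Real.cos θ))) volume (0 : ℝ) Real.pi :=
  Continuous.intervalIntegrable (by fun_prop) _ _

lemma bJ_antitone {s t : ℝ} (h : s ≤ t) : bJ t ≤ bJ s := by
  unfold bJ
  refine mul_le_mul_of_nonneg_left ?_ (inv_nonneg.2 Real.pi_pos.le)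
  refine intervalIntegral.integral_mono_on Real.pi_pos.le (bJ_integrable t) (bJ_integrable s) ?_
  intro θ _
  refine Real.exp_le_exp.2 ?_
  have : 0 ≤ 1 - Real.cos θ := by have := Real.cos_le_one θ; linarith
  nlinarith

lemma bJ_continuous : Continuous bJ := by
  unfold bJ
  refine continuous_const.mul ?_
  refine intervalIntegral.continuous_parametric_intervalIntegral_of_continuous' ?_ _ _
  fun_prop

/-- Symmetric sums. -/
lemma sum_Icc_symm (N : ℕ) (g : ℝ → ℝ) (hg : ∀ x, g (-x) = g x) :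
    ∑ l ∈ Finset.Icc (-(N : ℤ)) N, g (l : ℝ) =
      2 * ∑ i ∈ Finset.range (N + 1), g (i : ℝ) - g 0 := by
  induction N with
  | zero => simp; ring
  | succ N ih =>
    have h1 : Finset.Icc (-((N + 1 : ℕ) : ℤ)) ((N + 1 : ℕ) : ℤ) =
        insert ((N + 1 : ℕ) : ℤ) (insert (-((N + 1 : ℕ) : ℤ)) (Finset.Icc (-(N : ℤ)) N)) := by
      ext l
      simp only [Finset.mem_Icc, Finset.mem_insert]
      omega
    rw [h1, Finset.sum_insert, Finset.sum_insert, ih, Finset.sum_range_succ _ (N + 1)]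
    · have : g (((-((N + 1 : ℕ) : ℤ)) : ℤ) : ℝ) = g ((N + 1 : ℕ) : ℝ) := by
        rw [← hg]; congr 1; push_cast; ring
      rw [this]
      push_cast
      ring
    · simp only [Finset.mem_Icc]; omega
    · simp only [Finset.mem_Icc, Finset.mem_insert]; omega

/-- Riemann-sum lower bound. -/
lemma riemann_lower (N : ℕ) (t : ℝ) (ht : 0 ≤ t) :
    bJ t - (2 * N + 1 : ℝ)⁻¹ ≤ (2 * N + 1 : ℝ)⁻¹ * ∑ l ∈ Finset.Icc (-(N : ℤ)) N,
      Real.exp (-t * (1 - Real.cos (2 * Real.pi / (2 * N + 1) * (l : ℝ)))) := by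
  set L : ℝ := 2 * N + 1 with hL
  have hLpos : 0 < L := by positivity
  have hpi := Real.pi_pos
  set w : ℝ := 2 * Real.pi / L with hw
  have hwpos : 0 < w := by positivity
  rw [sum_Icc_symm N (fun x => Real.exp (-t * (1 - Real.cos (w * x))))
    (fun x => by rw [mul_neg, Real.cos_neg])]
  set g : ℝ → ℝ := fun x => Real.exp (-t * (1 - Real.cos (min (w * x) Real.pi))) with hg
  have hanti : AntitoneOn g (Set.Icc (0 : ℝ) (0 + ((N + 1 : ℕ) : ℝ))) := by
    intro x hx y hy hxy
    refine Real.exp_le_exp.2 ?_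
    have h1 : Real.cos (min (w * y) Real.pi) ≤ Real.cos (min (w * x) Real.pi) := by
      refine Real.cos_le_cos_of_nonneg_of_le_pi ?_ (min_le_right _ _) ?_
      · exact le_min (mul_nonneg hwpos.le hx.1) hpi.le
      · exact min_le_min_right _ (mul_le_mul_of_nonneg_left hxy hwpos.le)
    nlinarith
  have h1 := hanti.integral_le_sum
  simp only [zero_add] at h1
  have hcont : Continuous g := by rw [hg]; fun_prop
  have hwN : ∀ i : ℕ, i < N + 1 → w * i ≤ Real.pi := by
    intro i hi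
    have : (i : ℝ) ≤ N := by exact_mod_cast Nat.lt_succ_iff.1 hi
    rw [hw, div_mul_eq_mul_div, div_le_iff₀ hLpos, hL]
    nlinarith
  have h2 : ∑ i ∈ Finset.range (N + 1), g (i : ℝ) =
      ∑ i ∈ Finset.range (N + 1), Real.exp (-t * (1 - Real.cos (w * (i : ℝ)))) := by
    refine Finset.sum_congr rfl fun i hi => ?_
    rw [hg]
    simp only
    rw [min_eq_left (hwN i (Finset.mem_range.1 hi))]
  rw [h2] at h1
  have h3 : ∫ x in (0 : ℝ)..(L / 2), g x ≤ ∫ x in (0 : ℝ)..((N + 1 : ℕ) : ℝ), g x := by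
    have hadd := intervalIntegral.integral_add_adjacent_intervals (μ := volume)
      (hcont.intervalIntegrable 0 (L / 2)) (hcont.intervalIntegrable (L / 2) ((N + 1 : ℕ) : ℝ))
    have : 0 ≤ ∫ x in (L / 2)..((N + 1 : ℕ) : ℝ), g x := by
      refine intervalIntegral.integral_nonneg ?_ fun x _ => (Real.exp_pos _).le
      rw [hL]; push_cast; linarith
    linarith
  have h4 : ∫ x in (0 : ℝ)..(L / 2), g x = w⁻¹ * ∫ θ in (0 : ℝ)..Real.pi,
      Real.exp (-t * (1 - Real.cos θ)) := by
    have e1 : ∫ x in (0 : ℝ)..(L / 2), g x = ∫ x in (0 : ℝ)..(L / 2),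
        (fun θ => Real.exp (-t * (1 - Real.cos θ))) (w * x) := by
      refine intervalIntegral.integral_congr fun x hx => ?_
      rw [Set.uIcc_of_le (by positivity)] at hx
      simp only [hg]
      rw [min_eq_left]
      calc w * x ≤ w * (L / 2) := mul_le_mul_of_nonneg_left hx.2 hwpos.le
        _ = Real.pi := by rw [hw]; field_simp
    rw [e1, intervalIntegral.integral_comp_mul_left (f := fun θ => Real.exp (-t * (1 - Real.cos θ)))
      hwpos.ne', mul_zero]
    have : w * (L / 2) = Real.pi := by rw [hw]; field_simp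
    rw [this, smul_eq_mul]
  have h5 : L * bJ t ≤ 2 * ∑ i ∈ Finset.range (N + 1), Real.exp (-t * (1 - Real.cos (w * (i : ℝ)))) := by
    have e : L * bJ t = 2 * (w⁻¹ * ∫ θ in (0 : ℝ)..Real.pi, Real.exp (-t * (1 - Real.cos θ))) := by
      rw [bJ, hw]; field_simp
    rw [e, ← h4]
    linarith
  have h6 : Real.exp (-t * (1 - Real.cos (w * 0))) = 1 := by simp
  rw [h6]
  have h7 : L⁻¹ * (L * bJ t) ≤ L⁻¹ * (2 * ∑ i ∈ Finset.range (N + 1),
      Real.exp (-t * (1 - Real.cos (w * (i : ℝ))))) :=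
    mul_le_mul_of_nonneg_left h5 (by positivity)
  rw [← mul_assoc, inv_mul_cancel₀ hLpos.ne', one_mul] at h7
  rw [mul_sub, mul_one]
  linarith

/-- Gaussian lower bound for `J`. -/
lemma bJ_gauss_lower {t : ℝ} (ht : 0 < t) :
    Real.pi⁻¹ * (∫ u in (0 : ℝ)..(Real.pi * Real.sqrt t), Real.exp (-(1 / 2) * u ^ 2)) ≤
      Real.sqrt t * bJ t := by
  have hs : 0 < Real.sqrt t := Real.sqrt_pos.2 ht
  have h1 : ∫ θ in (0 : ℝ)..Real.pi, Real.exp (-(1 / 2) * (Real.sqrt t * θ) ^ 2) ≤
      ∫ θ in (0 : ℝ)..Real.pi, Real.exp (-t * (1 - Real.cos θ)) := by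
    refine intervalIntegral.integral_mono_on Real.pi_pos.le
      (Continuous.intervalIntegrable (by fun_prop) _ _) (bJ_integrable t) ?_
    intro θ _
    refine Real.exp_le_exp.2 ?_
    rw [mul_pow, Real.sq_sqrt ht.le]
    have := Real.one_sub_sq_div_two_le_cos (x := θ)
    nlinarith
  rw [intervalIntegral.integral_comp_mul_left (f := fun u => Real.exp (-(1 / 2) * u ^ 2)) hs.ne',
    mul_zero, smul_eq_mul, mul_comm (Real.sqrt t) Real.pi] at h1
  rw [bJ]
  have h2 := mul_le_mul_of_nonneg_left h1 (mul_nonneg hs.le (inv_nonneg.2 Real.pi_pos.le))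
  calc _ = Real.sqrt t * Real.pi⁻¹ * ((Real.sqrt t)⁻¹ *
      ∫ u in (0 : ℝ)..(Real.pi * Real.sqrt t), Real.exp (-(1 / 2) * u ^ 2)) := by
        field_simp
    _ ≤ _ := h2
    _ = _ := by ring

lemma gauss_tendsto : Tendsto (fun t : ℝ => Real.pi⁻¹ *
    (∫ u in (0 : ℝ)..(Real.pi * Real.sqrt t), Real.exp (-(1 / 2) * u ^ 2))) atTop
    (𝓝 (Real.sqrt (2 * Real.pi))⁻¹) := by
  have h1 : Tendsto (fun X : ℝ => ∫ u in (0 : ℝ)..X, Real.exp (-(1 / 2) * u ^ 2)) atTop
      (𝓝 (∫ u in Set.Ioi (0 : ℝ), Real.exp (-(1 / 2) * u ^ 2))) := by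
    refine intervalIntegral_tendsto_integral_Ioi 0 ?_ tendsto_id
    exact (integrable_exp_neg_mul_sq (by norm_num)).integrableOn
  rw [integral_gaussian_Ioi] at h1
  have h2 : Tendsto (fun t : ℝ => Real.pi * Real.sqrt t) atTop atTop :=
    Tendsto.const_mul_atTop Real.pi_pos Real.tendsto_sqrt_atTop
  have h3 := (h1.comp h2).const_mul Real.pi⁻¹
  have e : Real.pi⁻¹ * (Real.sqrt (Real.pi / (1 / 2)) / 2) = (Real.sqrt (2 * Real.pi))⁻¹ := by
    have hpi := Real.pi_pos
    have h4 : Real.sqrt (2 * Real.pi) ^ 2 = 2 * Real.pi := Real.sq_sqrt (by positivity)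
    have h5 : 0 < Real.sqrt (2 * Real.pi) := Real.sqrt_pos.2 (by positivity)
    rw [show Real.pi / (1 / 2) = 2 * Real.pi by ring]
    generalize Real.sqrt (2 * Real.pi) = s at h4 h5
    have h6 : Real.pi = s ^ 2 / 2 := by linarith
    rw [h6]
    field_simp
  rw [e] at h3
  exact h3

/-- For every `c < (2π)^{-1/2}`, eventually `c ≤ √t J(t)`. -/
lemma bJ_asymp {c : ℝ} (hc : c < (Real.sqrt (2 * Real.pi))⁻¹) :
    ∀ᶠ t : ℝ in atTop, c ≤ Real.sqrt t * bJ t := by
  filter_upwards [gauss_tendsto.eventually (lt_mem_nhds hc), eventually_gt_atTop 0] with t h1 h2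
  exact h1.le.trans (bJ_gauss_lower h2)

/-- Partial geometric sums below `1/(e^y - 1)`. -/
lemma geom_le {y : ℝ} (hy : 0 < y) (R : ℕ) :
    ∑ r ∈ Finset.range R, Real.exp (-(((r : ℝ) + 1) * y)) ≤ 1 / (Real.exp y - 1) := by
  have h1 : 0 < Real.exp y - 1 := by have := Real.add_one_lt_exp hy.ne'; linarith
  rw [le_div_iff₀ h1]
  have h2 : ∀ R : ℕ, (∑ r ∈ Finset.range R, Real.exp (-(((r : ℝ) + 1) * y))) * (Real.exp y - 1) =
      1 - Real.exp (-((R : ℝ) * y)) := by
    intro R
    induction R with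
    | zero => simp
    | succ R ih =>
      rw [Finset.sum_range_succ, add_mul, ih, mul_sub, ← Real.exp_add]
      push_cast
      have : -(((R : ℝ) + 1) * y) + y = -(R * y) := by ring
      rw [this]; ring
  rw [h2]
  have := Real.exp_pos (-((R : ℝ) * y))
  linarith

end Vale.Agent.P361.H
end

section

namespace Vale.Agent.P361.H

open Filter Topology

/-- The predicted Bloch coefficient `ζ(3/2) / (8 π^{3/2} S^{3/2})`, here in terms of `S`. -/
noncomputable def blochCoeff (S : ℝ) : ℝ :=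
  (riemannZeta (3 / 2)).re / (8 * Real.pi ^ (3 / 2 : ℝ) * S ^ (3 / 2 : ℝ))

lemma rpow_three_half {x : ℝ} (hx : 0 ≤ x) : x ^ (3 / 2 : ℝ) = Real.sqrt x ^ 3 := by
  rw [Real.sqrt_eq_rpow, ← Real.rpow_natCast, ← Real.rpow_mul hx]
  norm_num

lemma zeta_hasSum : HasSum (fun r : ℕ => 1 / Real.sqrt ((r : ℝ) + 1) ^ 3) (riemannZeta (3 / 2)).re := by
  have h1 : riemannZeta (3 / 2) = ∑' r : ℕ, 1 / ((r : ℂ) + 1) ^ (3 / 2 : ℂ) :=
    zeta_eq_tsum_one_div_nat_add_one_cpow (by norm_num)
  have hterm : ∀ r : ℕ, 1 / ((r : ℂ) + 1) ^ (3 / 2 : ℂ) =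
      ((1 / Real.sqrt ((r : ℝ) + 1) ^ 3 : ℝ) : ℂ) := by
    intro r
    rw [← rpow_three_half (by positivity)]
    push_cast
    rw [Complex.ofReal_cpow (by positivity)]
    push_cast
    rfl
  have hsum : Summable (fun r : ℕ => 1 / Real.sqrt ((r : ℝ) + 1) ^ 3) := by
    have h2 : Summable (fun r : ℕ => 1 / ((r : ℝ)) ^ (3 / 2 : ℝ)) :=
      Real.summable_one_div_nat_rpow.2 (by norm_num)
    have h3 := (summable_nat_add_iff 1).2 h2
    refine h3.congr fun r => ?_
    push_cast
    rw [rpow_three_half (by positivity)]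
  simp only [hterm] at h1
  rw [h1, ← Complex.ofReal_tsum, Complex.ofReal_re]
  exact hsum.hasSum

/-- Abstract asymptotic step: a function `m ≤ S` satisfying the self-consistent bound
obeys the one-sided Bloch law. -/
theorem bloch_of_bound {S : ℝ} (hS : 0 < S) (m : ℝ → ℝ)
    (hm : ∀ β, 0 < β → ∀ q, 0 < q → q < m β → ∀ R : ℕ,
      q * ∑ r ∈ Finset.range R, (bJ (((r : ℝ) + 1) * (β * (2 * S ^ 2)) / q)) ^ 3 ≤
        S * (S - m β))
    {c : ℝ} (hc : c < blochCoeff S) :
    ∀ᶠ β : ℝ in atTop, c < β ^ (3 / 2 : ℝ) * (S - m β) := by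
  have hpi := Real.pi_pos
  -- choose `R`
  have hB : blochCoeff S = (riemannZeta (3 / 2)).re * (1 / (Real.sqrt (2 * Real.pi) ^ 3 *
      Real.sqrt (2 * S) ^ 3)) := by
    rw [blochCoeff, rpow_three_half hpi.le, rpow_three_half hS.le]
    have e : Real.sqrt (2 * Real.pi) ^ 3 * Real.sqrt (2 * S) ^ 3 =
        8 * Real.sqrt Real.pi ^ 3 * Real.sqrt S ^ 3 := by
      rw [← mul_pow, ← Real.sqrt_mul (by positivity),
        show 2 * Real.pi * (2 * S) = 2 ^ 2 * (Real.pi * S) by ring,
        Real.sqrt_mul (by positivity), Real.sqrt_sq (by norm_num), Real.sqrt_mul hpi.le]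
      ring
    rw [e]; ring
  have hR := zeta_hasSum.tendsto_sum_nat
  have hR' := hR.mul_const (1 / (Real.sqrt (2 * Real.pi) ^ 3 * Real.sqrt (2 * S) ^ 3))
  rw [← hB] at hR'
  obtain ⟨R, hRc⟩ := (hR'.eventually (lt_mem_nhds hc)).exists
  set K : ℝ := (∑ r ∈ Finset.range R, 1 / Real.sqrt ((r : ℝ) + 1) ^ 3) *
    (1 / (Real.sqrt (2 * Real.pi) ^ 3 * Real.sqrt (2 * S) ^ 3)) with hK
  -- choose `s`
  have hφ : Tendsto (fun s : ℝ => K * s ^ 4 * Real.sqrt s ^ 3) (𝓝[<] 1) (𝓝 K) := by
    have hc1 : Continuous (fun s : ℝ => K * s ^ 4 * Real.sqrt s ^ 3) := by fun_prop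
    have := (hc1.tendsto 1).mono_left (nhdsWithin_le_nhds (s := Set.Iio 1))
    simpa using this
  have hpos : ∀ᶠ s : ℝ in 𝓝[<] 1, 0 < s :=
    mem_nhdsWithin_of_mem_nhds (lt_mem_nhds one_pos)
  obtain ⟨s, hs1, hs2, hs3⟩ := ((hφ.eventually (lt_mem_nhds hRc)).and
    (hpos.and self_mem_nhdsWithin)).exists
  have hs3 : s < 1 := hs3
  -- asymptotics of `J`
  have hc0 : s * (Real.sqrt (2 * Real.pi))⁻¹ < (Real.sqrt (2 * Real.pi))⁻¹ := by
    have : 0 < (Real.sqrt (2 * Real.pi))⁻¹ := by positivity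
    nlinarith
  have hJ := bJ_asymp hc0
  have hJr : ∀ r ∈ Finset.range R, ∀ᶠ β : ℝ in atTop, s * (Real.sqrt (2 * Real.pi))⁻¹ ≤
      Real.sqrt ((((r : ℝ) + 1) * (2 * S) / s) * β) * bJ ((((r : ℝ) + 1) * (2 * S) / s) * β) := by
    intro r _
    have : Tendsto (fun β : ℝ => (((r : ℝ) + 1) * (2 * S) / s) * β) atTop atTop :=
      Tendsto.const_mul_atTop (by positivity) tendsto_id
    exact this.eventually hJ
  have hJall := (Finset.eventually_all (Finset.range R)).2 hJr
  have hlarge : ∀ᶠ β : ℝ in atTop, c < β ^ (3 / 2 : ℝ) * (S * (1 - s)) := by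
    have : Tendsto (fun β : ℝ => β ^ (3 / 2 : ℝ) * (S * (1 - s))) atTop atTop :=
      Tendsto.atTop_mul_const (mul_pos hS (by linarith)) (tendsto_rpow_atTop (by norm_num))
    exact this.eventually_gt_atTop c
  filter_upwards [hJall, hlarge, eventually_gt_atTop 0] with β h1 h2 hβ
  rcases le_or_gt (m β) (s * S) with hle | hgt
  · refine h2.trans_le (mul_le_mul_of_nonneg_left ?_ (by positivity))
    linarith
  · have hb := hm β hβ (s * S) (by positivity) hgt R
    have hsb : 0 < Real.sqrt β := Real.sqrt_pos.2 hβ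
    rw [rpow_three_half hβ.le]
    -- termwise bound
    have hterm : ∀ r ∈ Finset.range R, s ^ 3 * Real.sqrt s ^ 3 * (1 / (Real.sqrt (2 * Real.pi) ^ 3 *
        Real.sqrt (2 * S) ^ 3)) * (1 / Real.sqrt ((r : ℝ) + 1) ^ 3) ≤
        Real.sqrt β ^ 3 * (bJ (((r : ℝ) + 1) * (β * (2 * S ^ 2)) / (s * S))) ^ 3 := by
      intro r hr
      have h3 := h1 r hr
      have e1 : ((r : ℝ) + 1) * (β * (2 * S ^ 2)) / (s * S) = ((r : ℝ) + 1) * (2 * S) / s * β := by
        field_simp
      rw [e1]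
      set J := bJ (((r : ℝ) + 1) * (2 * S) / s * β) with hJdef
      have e2 : Real.sqrt (((r : ℝ) + 1) * (2 * S) / s * β) =
          Real.sqrt ((r : ℝ) + 1) * Real.sqrt (2 * S) / Real.sqrt s * Real.sqrt β := by
        rw [Real.sqrt_mul (by positivity), Real.sqrt_div (by positivity),
          Real.sqrt_mul (by positivity)]
      rw [e2] at h3
      have hss : 0 < Real.sqrt s := Real.sqrt_pos.2 hs2
      have hsr : 0 < Real.sqrt ((r : ℝ) + 1) := Real.sqrt_pos.2 (by positivity)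
      have hs2S : 0 < Real.sqrt (2 * S) := Real.sqrt_pos.2 (by positivity)
      have hs2p : 0 < Real.sqrt (2 * Real.pi) := Real.sqrt_pos.2 (by positivity)
      have h4 : s * Real.sqrt s * (1 / (Real.sqrt (2 * Real.pi) * Real.sqrt (2 * S))) *
          (1 / Real.sqrt ((r : ℝ) + 1)) ≤ Real.sqrt β * J := by
        have h5 := mul_le_mul_of_nonneg_left h3 (a := Real.sqrt s / (Real.sqrt ((r : ℝ) + 1) *
          Real.sqrt (2 * S))) (by positivity)
        refine le_trans (le_of_eq ?_) (h5.trans (le_of_eq ?_))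
        · field_simp
        · field_simp
      have h6 := pow_le_pow_left₀ (by positivity) h4 3
      refine le_trans (le_of_eq ?_) (h6.trans (le_of_eq ?_))
      · field_simp
      · ring
    have hsum := Finset.sum_le_sum hterm
    rw [← Finset.mul_sum, ← Finset.mul_sum] at hsum
    have hfin : K * s ^ 4 * Real.sqrt s ^ 3 ≤ Real.sqrt β ^ 3 * (S - m β) := by
      have h7 : Real.sqrt β ^ 3 * (s * S * ∑ r ∈ Finset.range R,
          (bJ (((r : ℝ) + 1) * (β * (2 * S ^ 2)) / (s * S))) ^ 3) ≤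
          Real.sqrt β ^ 3 * (S * (S - m β)) := mul_le_mul_of_nonneg_left hb (by positivity)
      have h8 : S * (K * s ^ 4 * Real.sqrt s ^ 3) ≤ S * (Real.sqrt β ^ 3 * (S - m β)) := by
        calc S * (K * s ^ 4 * Real.sqrt s ^ 3)
            = s * S * (s ^ 3 * Real.sqrt s ^ 3 * (1 / (Real.sqrt (2 * Real.pi) ^ 3 *
        Real.sqrt (2 * S) ^ 3)) * ∑ r ∈ Finset.range R, (1 / Real.sqrt ((r : ℝ) + 1) ^ 3)) := by
              rw [hK]; ring
          _ ≤ s * S * (Real.sqrt β ^ 3 * ∑ r ∈ Finset.range R,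
                (bJ (((r : ℝ) + 1) * (β * (2 * S ^ 2)) / (s * S))) ^ 3) :=
              mul_le_mul_of_nonneg_left hsum (by positivity)
          _ = Real.sqrt β ^ 3 * (s * S * ∑ r ∈ Finset.range R,
                (bJ (((r : ℝ) + 1) * (β * (2 * S ^ 2)) / (s * S))) ^ 3) := by ring
          _ ≤ Real.sqrt β ^ 3 * (S * (S - m β)) := h7
          _ = _ := by ring
      exact le_of_mul_le_mul_left h8 hS
    exact hs1.trans_le hfin

end Vale.Agent.P361.H
end

section

/-!
Part B: definitions. `hT = H + S²|E| ≥ 0`, `numOp = S|Λ| - M ≥ 0`.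
-/

namespace Vale.Agent.P361.B

open Matrix

/-- The cube `{0,…,L-1}³`. -/
noncomputable def cube (L : ℕ) : Finset Site := Fintype.piFinset fun _ : Fin 3 => Finset.Ico (0 : ℤ) L

/-- `H̃_Λ = ∑_{edges} (S² - S_x·S_y)`. -/
noncomputable def hT (n : ℕ) (Λ : Finset Site) : Matrix (Λ → Fin (n + 1)) (Λ → Fin (n + 1)) ℂ :=
  (1 / 2 : ℂ) • ∑ x : Λ, ∑ y : Λ,
    if IsNN x.1 y.1 then (((n : ℂ) / 2) ^ 2) • (1 : Matrix _ _ ℂ) - H.dotOp n x y else 0

/-- Number of lowered spins `∑_x (S - S³_x)`. -/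
noncomputable def numOp (n : ℕ) (Λ : Finset Site) : Matrix (Λ → Fin (n + 1)) (Λ → Fin (n + 1)) ℂ :=
  ∑ x : Λ, (((n : ℂ) / 2) • (1 : Matrix _ _ ℂ) - H.oZ n x)

/-- `Tr exp(-β H̃ - t N)`. -/
noncomputable def Zt (n : ℕ) (Λ : Finset Site) (β t : ℝ) : ℝ :=
  (trace (NormedSpace.exp (-((β : ℂ) • hT n Λ + (t : ℂ) • numOp n Λ)))).re

end Vale.Agent.P361.B
end

section

/-!
Convexity of the hyperbolicity cone of a real stable homogeneous polynomial (Garding), in the form of
real-rootedness along all directions of the cone, and log-concavity at the points of the cone.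
-/

namespace Vale.Agent.P361.LRO.T1

open MvPolynomial

variable {σ : Type*} [Fintype σ]

/-- real stability: no zero with all coordinates in the open upper half plane -/
def RStable (f : MvPolynomial σ ℝ) : Prop :=
  ∀ z : σ → ℂ, (∀ i, 0 < (z i).im) → aeval z f ≠ 0

theorem aeval_smul_hom {f : MvPolynomial σ ℝ} {N : ℕ} (hf : f.IsHomogeneous N) (c : ℂ)
    (z : σ → ℂ) : aeval (fun i => c * z i) f = c ^ N * aeval z f := by
  rw [aeval_def, aeval_def, eval₂_eq', eval₂_eq', Finset.mul_sum]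
  refine Finset.sum_congr rfl fun m hm => ?_
  have h1 : ∏ i, (c * z i) ^ m i = c ^ N * ∏ i, z i ^ m i := by
    simp only [mul_pow]
    rw [Finset.prod_mul_distrib, Finset.prod_pow_eq_pow_sum]
    congr 2
    have h2 := hf (mem_support_iff.1 hm)
    rw [← h2, Finsupp.weight_apply, Finsupp.sum_fintype]
    · simp
    · simp
  rw [h1]
  ring

omit [Fintype σ] in
theorem aeval_conj (f : MvPolynomial σ ℝ) (z : σ → ℂ) :
    aeval (fun i => (starRingEnd ℂ) (z i)) f = (starRingEnd ℂ) (aeval z f) := by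
  have h := comp_aeval_apply (R := ℝ) (f := z) (Complex.conjAe : ℂ →ₐ[ℝ] ℂ) f
  exact h.symm

omit [Fintype σ] in
theorem continuous_aeval (f : MvPolynomial σ ℝ) : Continuous fun z : σ → ℂ => aeval z f := by
  have h : (fun z : σ → ℂ => aeval z f) = fun z => eval z (map (algebraMap ℝ ℂ) f) := by
    funext z
    rw [eval_map, aeval_def]
  rw [h]
  exact MvPolynomial.continuous_eval _

/-- the restriction to a line -/
noncomputable def line (f : MvPolynomial σ ℝ) (p q : σ → ℂ) : Polynomial ℂ :=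
  aeval (fun i => Polynomial.C (p i) + Polynomial.C (q i) * Polynomial.X) f

omit [Fintype σ] in
theorem line_eval (f : MvPolynomial σ ℝ) (p q : σ → ℂ) (u : ℂ) :
    (line f p q).eval u = aeval (fun i => p i + q i * u) f := by
  have h := comp_aeval_apply (R := ℝ)
    (f := fun i => Polynomial.C (p i) + Polynomial.C (q i) * Polynomial.X)
    ((Polynomial.aeval u : Polynomial ℂ →ₐ[ℂ] ℂ).restrictScalars ℝ) f
  rw [line]
  have h2 : ∀ P : Polynomial ℂ,
      ((Polynomial.aeval u : Polynomial ℂ →ₐ[ℂ] ℂ).restrictScalars ℝ) P = P.eval u := by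
    intro P
    rw [AlgHom.restrictScalars_apply, Polynomial.coe_aeval_eq_eval]
  rw [h2] at h
  rw [h]
  congr 2
  funext i
  rw [h2]
  simp

omit [Fintype σ] in
theorem prod_lin (p q : σ → ℂ) (m : σ → ℕ) (s : Finset σ) :
    (∏ i ∈ s, (Polynomial.C (p i) + Polynomial.C (q i) * Polynomial.X) ^ m i).natDegree ≤
        ∑ i ∈ s, m i ∧
      (∏ i ∈ s, (Polynomial.C (p i) + Polynomial.C (q i) * Polynomial.X) ^ m i).coeff
        (∑ i ∈ s, m i) = ∏ i ∈ s, q i ^ m i := by
  classical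
  have key : ∀ (i : σ) (k : ℕ),
      ((Polynomial.C (p i) + Polynomial.C (q i) * Polynomial.X) ^ k).natDegree ≤ k ∧
      ((Polynomial.C (p i) + Polynomial.C (q i) * Polynomial.X) ^ k).coeff k = q i ^ k := by
    intro i k
    have hd1 : (Polynomial.C (p i) + Polynomial.C (q i) * Polynomial.X).natDegree ≤ 1 := by
      rw [add_comm]
      exact Polynomial.natDegree_linear_le
    induction k with
    | zero => simp
    | succ k ih =>
      refine ⟨?_, ?_⟩
      · refine (Polynomial.natDegree_pow_le).trans ?_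
        calc (k + 1) * _ ≤ (k + 1) * 1 := Nat.mul_le_mul_left _ hd1
          _ = k + 1 := mul_one _
      · rw [pow_succ, Polynomial.coeff_mul_add_eq_of_natDegree_le ih.1 hd1, ih.2, pow_succ]
        simp
  induction s using Finset.induction_on with
  | empty => simp
  | insert i s hi ih =>
    rw [Finset.prod_insert hi, Finset.sum_insert hi, Finset.prod_insert hi]
    refine ⟨(Polynomial.natDegree_mul_le).trans (add_le_add (key i (m i)).1 ih.1), ?_⟩
    rw [Polynomial.coeff_mul_add_eq_of_natDegree_le (key i (m i)).1 ih.1, (key i (m i)).2, ih.2]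

theorem line_degree {f : MvPolynomial σ ℝ} {N : ℕ} (hf : f.IsHomogeneous N) (p q : σ → ℂ) :
    (line f p q).natDegree ≤ N ∧ (line f p q).coeff N = aeval q f := by
  classical
  have hsum : ∀ m ∈ f.support, ∑ i, m i = N := by
    intro m hm
    have h2 := hf (mem_support_iff.1 hm)
    rw [← h2, Finsupp.weight_apply, Finsupp.sum_fintype]
    · simp
    · simp
  rw [line, aeval_def, eval₂_eq']
  refine ⟨?_, ?_⟩
  · refine Polynomial.natDegree_sum_le_of_forall_le _ _ fun m hm => ?_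
    refine (Polynomial.natDegree_mul_le).trans ?_
    have h1 : (algebraMap ℝ (Polynomial ℂ) (coeff m f)).natDegree = 0 := by
      rw [IsScalarTower.algebraMap_apply ℝ ℂ (Polynomial ℂ), Polynomial.algebraMap_eq]
      exact Polynomial.natDegree_C _
    have h2 := (prod_lin p q m Finset.univ).1
    rw [hsum m hm] at h2
    rw [h1, zero_add]
    exact h2
  · rw [Polynomial.finsetSum_coeff, aeval_def, eval₂_eq']
    refine Finset.sum_congr rfl fun m hm => ?_
    have h2 := (prod_lin p q m Finset.univ).2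
    rw [hsum m hm] at h2
    rw [IsScalarTower.algebraMap_apply ℝ ℂ (Polynomial ℂ), Polynomial.algebraMap_eq,
      Polynomial.coeff_C_mul, h2]

theorem prod_norm_ge (u : ℂ) (hu : 0 ≤ u.im) (s : Multiset ℂ) (hs : ∀ r ∈ s, r.im ≤ 0) :
    u.im ^ s.card ≤ ‖(s.map fun a => u - a).prod‖ := by
  induction s using Multiset.induction_on with
  | empty => simp
  | cons a s ih =>
    rw [Multiset.card_cons, Multiset.map_cons, Multiset.prod_cons, norm_mul, pow_succ']
    refine mul_le_mul ?_ (ih fun r hr => hs r (Multiset.mem_cons_of_mem hr)) (by positivity)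
      (norm_nonneg _)
    have h1 : (u - a).im ≤ ‖u - a‖ := (le_abs_self _).trans (Complex.abs_im_le_norm _)
    have h2 := hs a (Multiset.mem_cons_self a s)
    rw [Complex.sub_im] at h1
    linarith

theorem eval_norm_ge (P : Polynomial ℂ) (N : ℕ) (hdeg : P.natDegree ≤ N) (hc : P.coeff N ≠ 0)
    (hroot : ∀ u : ℂ, 0 ≤ u.im → P.eval u ≠ 0) (u : ℂ) (hu : 0 ≤ u.im) :
    ‖P.coeff N‖ * u.im ^ N ≤ ‖P.eval u‖ := by
  have hN : P.natDegree = N := le_antisymm hdeg (Polynomial.le_natDegree_of_ne_zero hc)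
  have hsp := IsAlgClosed.splits P
  have hcard := hsp.natDegree_eq_card_roots
  rw [hsp.eval_eq_prod_roots u, norm_mul, Polynomial.leadingCoeff, hN]
  refine mul_le_mul_of_nonneg_left ?_ (norm_nonneg _)
  have h1 := prod_norm_ge u hu P.roots fun r hr => by
    by_contra h
    exact hroot r (not_le.1 h).le (Polynomial.isRoot_of_mem_roots hr)
  rw [← hcard, hN] at h1
  exact h1

/-- the point `b` lies in the hyperbolicity cone -/
def Cone (f : MvPolynomial σ ℝ) (b : σ → ℝ) : Prop :=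
  ∀ s : ℝ, 0 ≤ s → aeval (fun i => ((b i + s : ℝ) : ℂ)) f ≠ 0

omit [Fintype σ] in
theorem aeval_shift_ne {f : MvPolynomial σ ℝ} (hs : RStable f) {b : σ → ℝ} (hb : Cone f b) (s : ℂ)
    (hre : 0 ≤ s.re) : aeval (fun i => (b i : ℂ) + s) f ≠ 0 := by
  rcases lt_trichotomy s.im 0 with h | h | h
  · intro h0
    have h1 := aeval_conj f fun i => (b i : ℂ) + s
    rw [h0, map_zero] at h1
    refine hs _ (fun i => ?_) h1
    simp only [map_add, Complex.conj_ofReal, Complex.add_im, Complex.ofReal_im, Complex.conj_im]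
    linarith
  · have h1 : s = (s.re : ℂ) := by
      apply Complex.ext
      · simp
      · simp [h]
    have h2 := hb s.re hre
    rw [h1]
    intro h0
    apply h2
    rw [← h0]
    congr 2
    funext i
    push_cast
    rfl
  · refine hs _ fun i => ?_
    simp only [Complex.add_im, Complex.ofReal_im, zero_add]
    exact h

/-- **Homotopy.** -/
theorem garding_bound {f : MvPolynomial σ ℝ} {N : ℕ} (hf : f.IsHomogeneous N) (hs : RStable f)
    {b : σ → ℝ} (hb : Cone f b) (d : σ → ℝ) {δ : ℝ} (hδ : 0 < δ) (u : ℂ) (hu : 0 ≤ u.im) :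
    ‖aeval (fun i => (b i : ℂ)) f‖ * u.im ^ N ≤
      ‖aeval (fun i => ((d i : ℂ) + δ * Complex.I) + b i * u) f‖ := by
  classical
  set B : ℂ := aeval (fun i => (b i : ℂ)) f with hB
  have hB0 : B ≠ 0 := by
    have := hb 0 le_rfl
    simpa using this
  set G : ℝ → ℂ → ℂ := fun l u =>
    aeval (fun i => ((l * d i : ℝ) : ℂ) + δ * Complex.I + b i * u) f with hG
  have hGc : Continuous fun x : ℝ × ℂ => G x.1 x.2 := by
    refine (continuous_aeval f).comp (continuous_pi fun i => ?_)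
    fun_prop
  -- no real root
  have hreal : ∀ (l : ℝ) (u : ℂ), u.im = 0 → G l u ≠ 0 := by
    intro l u hu
    refine hs _ fun i => ?_
    simp [hu, hδ]
  -- the bound for the good parameters
  have hbd : ∀ l : ℝ, (∀ u : ℂ, 0 ≤ u.im → G l u ≠ 0) → ∀ u : ℂ, 0 ≤ u.im →
      ‖B‖ * u.im ^ N ≤ ‖G l u‖ := by
    intro l hl u hu
    obtain ⟨h1, h2⟩ := line_degree hf (fun i => ((l * d i : ℝ) : ℂ) + δ * Complex.I)
      (fun i => (b i : ℂ))
    have h3 := eval_norm_ge (line f (fun i => ((l * d i : ℝ) : ℂ) + δ * Complex.I)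
      (fun i => (b i : ℂ))) N h1 (by rw [h2]; exact hB0)
      (fun u hu => by rw [line_eval]; exact hl u hu) u hu
    rw [h2, line_eval] at h3
    exact h3
  -- a bound for the roots
  obtain ⟨R, hR⟩ : ∃ R : ℝ, ∀ l ∈ Set.Icc (0 : ℝ) 1, ∀ u : ℂ, G l u = 0 → ‖u‖ ≤ R := by
    have hc := (continuous_aeval f).continuousAt (x := fun i => (b i : ℂ))
    have h1 : ∀ᶠ z in nhds (fun i => (b i : ℂ)), aeval z f ≠ 0 := hc.eventually_ne hB0
    obtain ⟨ε, hε, h2⟩ := Metric.eventually_nhds_iff.1 h1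
    set D : ℝ := ∑ i, |d i| + δ with hD
    have hD0 : 0 < D := by
      have : 0 ≤ ∑ i, |d i| := Finset.sum_nonneg fun i _ => abs_nonneg _
      linarith
    refine ⟨D / ε * 2, fun l hl u h0 => ?_⟩
    by_contra hu
    rw [not_le] at hu
    have hun : 0 < ‖u‖ := lt_trans (by positivity) hu
    have hu0 : u ≠ 0 := norm_pos_iff.1 hun
    have h3 : G l u = u ^ N * aeval (fun i => (b i : ℂ) +
        (((l * d i : ℝ) : ℂ) + δ * Complex.I) / u) f := by
      rw [← aeval_smul_hom hf]
      simp only [hG]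
      congr 2
      funext i
      field_simp
      ring
    rw [h3] at h0
    rcases mul_eq_zero.1 h0 with h4 | h4
    · exact hu0 (eq_zero_of_pow_eq_zero h4)
    · refine h2 ?_ h4
      rw [dist_pi_lt_iff hε]
      intro i
      rw [Complex.dist_eq, add_sub_cancel_left, norm_div, div_lt_iff₀ hun]
      have h5 : ‖((l * d i : ℝ) : ℂ) + δ * Complex.I‖ ≤ D := by
        refine (norm_add_le _ _).trans ?_
        have e1 : ‖((l * d i : ℝ) : ℂ)‖ = l * |d i| := by
          rw [Complex.norm_real, Real.norm_eq_abs, abs_mul, abs_of_nonneg hl.1]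
        have e2 : ‖(δ : ℂ) * Complex.I‖ = δ := by
          rw [norm_mul, Complex.norm_real, Complex.norm_I, mul_one, Real.norm_eq_abs,
            abs_of_pos hδ]
        rw [e1, e2]
        have h6 : |d i| ≤ ∑ i, |d i| :=
          Finset.single_le_sum (f := fun i => |d i|) (fun i _ => abs_nonneg _) (Finset.mem_univ i)
        have h7 : l * |d i| ≤ |d i| := by
          have := abs_nonneg (d i)
          nlinarith [hl.2]
        linarith
      have h6 : D < ε * ‖u‖ := by
        have h7 : D / ε * 2 < ‖u‖ := hu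
        have h8 : D = ε * (D / ε) := by field_simp
        have h9 : 0 < D / ε := by positivity
        rw [h8]
        exact mul_lt_mul_of_pos_left (by linarith) hε
      linarith
  -- the two closed sets
  set T : Set ℝ := {l | l ∈ Set.Icc (0 : ℝ) 1 ∧ ∃ u : ℂ, 0 ≤ u.im ∧ G l u = 0} with hT
  set T' : Set ℝ := {l | ∀ u : ℂ, 0 ≤ u.im → ‖B‖ * u.im ^ N ≤ ‖G l u‖} with hT'
  have hTc : IsClosed T := by
    have h1 : IsCompact ((Set.Icc (0 : ℝ) 1 ×ˢ Metric.closedBall (0 : ℂ) R) ∩
        {x : ℝ × ℂ | 0 ≤ x.2.im ∧ G x.1 x.2 = 0}) := by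
      refine (isCompact_Icc.prod (isCompact_closedBall _ _)).inter_right ?_
      refine IsClosed.inter ?_ ?_
      · exact isClosed_le continuous_const (Complex.continuous_im.comp continuous_snd)
      · exact isClosed_eq hGc continuous_const
    have h2 : T = Prod.fst '' ((Set.Icc (0 : ℝ) 1 ×ˢ Metric.closedBall (0 : ℂ) R) ∩
        {x : ℝ × ℂ | 0 ≤ x.2.im ∧ G x.1 x.2 = 0}) := by
      ext l
      constructor
      · rintro ⟨hl, u, hu, h0⟩
        refine ⟨(l, u), ⟨⟨hl, ?_⟩, hu, h0⟩, rfl⟩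
        rw [mem_closedBall_zero_iff]
        exact hR l hl u h0
      · rintro ⟨⟨l', u⟩, ⟨⟨hl, -⟩, hu, h0⟩, rfl⟩
        exact ⟨hl, u, hu, h0⟩
    rw [h2]
    exact (h1.image continuous_fst).isClosed
  have hTc' : IsClosed T' := by
    have h1 : T' = ⋂ u : {u : ℂ // 0 ≤ u.im}, {l | ‖B‖ * u.1.im ^ N ≤ ‖G l u.1‖} := by
      ext l
      simp only [hT', Set.mem_ofPred_eq, Set.mem_iInter, Subtype.forall]
    rw [h1]
    refine isClosed_iInter fun u => ?_
    refine isClosed_le continuous_const ?_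
    exact (hGc.comp (continuous_id.prodMk continuous_const)).norm
  have hcov : Set.Icc (0 : ℝ) 1 ⊆ T ∪ T' := by
    intro l hl
    by_cases h : ∃ u : ℂ, 0 ≤ u.im ∧ G l u = 0
    · exact Or.inl ⟨hl, h⟩
    · push Not at h
      exact Or.inr (hbd l h)
  have h0T' : (0 : ℝ) ∈ T' := by
    refine hbd 0 fun u hu h0 => ?_
    by_cases hu0 : u = 0
    · exact hreal 0 u (by rw [hu0]; rfl) h0
    · have h3 : G 0 u = u ^ N * aeval (fun i => (b i : ℂ) + δ * Complex.I / u) f := by
        rw [← aeval_smul_hom hf]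
        simp only [hG]
        congr 2
        funext i
        field_simp
        push_cast
        ring
      rw [h3] at h0
      rcases mul_eq_zero.1 h0 with h4 | h4
      · exact hu0 (eq_zero_of_pow_eq_zero h4)
      · refine aeval_shift_ne hs hb (δ * Complex.I / u) ?_ h4
        rw [Complex.div_re]
        simp only [Complex.mul_re, Complex.ofReal_re, Complex.I_re, mul_zero, Complex.ofReal_im,
          Complex.I_im, mul_one, sub_self, zero_mul, zero_div, Complex.mul_im, zero_add]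
        have := Complex.normSq_nonneg u
        positivity
  have h1T' : (1 : ℝ) ∈ T' := by
    by_contra h1
    have h2 : (1 : ℝ) ∈ T := by
      rcases hcov ⟨zero_le_one, le_rfl⟩ with h | h
      · exact h
      · exact absurd h h1
    obtain ⟨l, -, hl, hl'⟩ := isPreconnected_closed_iff.1 isPreconnected_Icc T T' hTc hTc' hcov
      ⟨1, ⟨zero_le_one, le_rfl⟩, h2⟩ ⟨0, ⟨le_rfl, zero_le_one⟩, h0T'⟩
    obtain ⟨-, u, hu, h0⟩ := hl
    rcases hu.lt_or_eq with h | h
    · have h3 := hl' u hu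
      rw [h0, norm_zero] at h3
      have h4 : 0 < ‖B‖ * u.im ^ N := mul_pos (norm_pos_iff.2 hB0) (pow_pos h N)
      linarith
    · exact hreal l u h.symm h0
  have h5 := h1T' u hu
  simp only [hG] at h5
  refine h5.trans_eq ?_
  congr 3
  funext i
  push_cast
  ring

/-- real-rootedness along the directions of the cone -/
theorem garding {f : MvPolynomial σ ℝ} {N : ℕ} (hf : f.IsHomogeneous N) (hs : RStable f)
    {b : σ → ℝ} (hb : Cone f b) (d : σ → ℝ) (u : ℂ) (hu : u.im ≠ 0) :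
    aeval (fun i => (d i : ℂ) + b i * u) f ≠ 0 := by
  have hB0 : aeval (fun i => (b i : ℂ)) f ≠ 0 := by
    have := hb 0 le_rfl
    simpa using this
  have key : ∀ u : ℂ, 0 < u.im → aeval (fun i => (d i : ℂ) + b i * u) f ≠ 0 := by
    intro u hu h0
    have h1 : Filter.Tendsto (fun δ : ℝ =>
        ‖aeval (fun i => ((d i : ℂ) + δ * Complex.I) + b i * u) f‖) (nhdsWithin 0 (Set.Ioi 0))
        (nhds ‖aeval (fun i => (d i : ℂ) + b i * u) f‖) := by
      have h2 : Continuous fun δ : ℝ =>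
          ‖aeval (fun i => ((d i : ℂ) + δ * Complex.I) + b i * u) f‖ := by
        refine ((continuous_aeval f).comp (continuous_pi fun i => ?_)).norm
        fun_prop
      have h3 := (h2.tendsto 0).mono_left (nhdsWithin_le_nhds (s := Set.Ioi (0 : ℝ)))
      simpa using h3
    have h2 : ‖aeval (fun i => (b i : ℂ)) f‖ * u.im ^ N ≤
        ‖aeval (fun i => (d i : ℂ) + b i * u) f‖ := by
      refine ge_of_tendsto h1 ?_
      filter_upwards [self_mem_nhdsWithin] with δ hδ
      exact garding_bound hf hs hb d hδ u hu.le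
    rw [h0, norm_zero] at h2
    have h4 : 0 < ‖aeval (fun i => (b i : ℂ)) f‖ * u.im ^ N :=
      mul_pos (norm_pos_iff.2 hB0) (pow_pos hu N)
    linarith
  rcases lt_or_gt_of_ne hu with h | h
  · intro h0
    have h1 := aeval_conj f fun i => (d i : ℂ) + b i * u
    rw [h0, map_zero] at h1
    refine key ((starRingEnd ℂ) u) (by rw [Complex.conj_im]; linarith) ?_
    rw [← h1]
    congr 2
    funext i
    simp
  · exact key u h

/-- a real polynomial with real zeros only is log-concave -/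
theorem real_rooted_ineq (g : Polynomial ℝ)
    (hg : ∀ z : ℂ, z.im ≠ 0 → Polynomial.aeval z g ≠ 0) (x : ℝ) :
    g.eval x * g.derivative.derivative.eval x ≤ g.derivative.eval x ^ 2 := by
  induction hn : g.natDegree using Nat.strong_induction_on generalizing g with
  | _ n ih =>
    by_cases hd : g.natDegree = 0
    · rw [Polynomial.eq_C_of_natDegree_eq_zero hd]
      simp
    · have h1 : (g.map (algebraMap ℝ ℂ)).degree ≠ 0 := by
        intro h
        rw [Polynomial.degree_map] at h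
        exact hd (Polynomial.natDegree_eq_of_degree_eq_some h)
      obtain ⟨z, hz⟩ := IsAlgClosed.exists_root (g.map (algebraMap ℝ ℂ)) h1
      rw [Polynomial.IsRoot, Polynomial.eval_map_algebraMap] at hz
      have him : z.im = 0 := by
        by_contra h
        exact hg z h hz
      have hz2 : z = ((z.re : ℝ) : ℂ) := by
        apply Complex.ext
        · simp
        · simp [him]
      have hroot : g.IsRoot z.re := by
        rw [hz2] at hz
        have h2 : Polynomial.aeval ((z.re : ℝ) : ℂ) g = ((g.eval z.re : ℝ) : ℂ) :=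
          Polynomial.aeval_algebraMap_apply_eq_algebraMap_eval z.re g
        rw [h2] at hz
        exact_mod_cast hz
      obtain ⟨h, rfl⟩ := Polynomial.dvd_iff_isRoot.2 hroot
      have hh0 : h ≠ 0 := by
        rintro rfl
        rw [mul_zero, Polynomial.natDegree_zero] at hd
        exact hd rfl
      have hlt : h.natDegree < n := by
        rw [← hn, Polynomial.natDegree_mul (Polynomial.X_sub_C_ne_zero _) hh0,
          Polynomial.natDegree_X_sub_C]
        omega
      have h3 := ih _ hlt h (fun w hw h0 => hg w hw (by rw [map_mul, h0, mul_zero])) rfl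
      have e1 : ((Polynomial.X - Polynomial.C z.re) * h).derivative =
          h + (Polynomial.X - Polynomial.C z.re) * h.derivative := by
        rw [Polynomial.derivative_mul]
        simp
      have e2 : ((Polynomial.X - Polynomial.C z.re) * h).derivative.derivative =
          2 * h.derivative + (Polynomial.X - Polynomial.C z.re) * h.derivative.derivative := by
        rw [e1, Polynomial.derivative_add, Polynomial.derivative_mul]
        simp
        ring
      rw [e2, e1]
      simp only [Polynomial.eval_mul, Polynomial.eval_add, Polynomial.eval_sub, Polynomial.eval_X,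
        Polynomial.eval_C, Polynomial.eval_ofNat]
      nlinarith [sq_nonneg (h.eval x), sq_nonneg (x - z.re),
        mul_nonneg (sq_nonneg (x - z.re)) (sub_nonneg.2 h3)]

/-- the real restriction to a line -/
noncomputable def lineR (f : MvPolynomial σ ℝ) (p q : σ → ℝ) : Polynomial ℝ :=
  aeval (fun i => Polynomial.C (p i) + Polynomial.C (q i) * Polynomial.X) f

omit [Fintype σ] in
theorem lineR_aeval (f : MvPolynomial σ ℝ) (p q : σ → ℝ) (u : ℂ) :
    Polynomial.aeval u (lineR f p q) = aeval (fun i => (p i : ℂ) + q i * u) f := by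
  rw [lineR]
  have h := comp_aeval_apply (R := ℝ)
    (f := fun i => Polynomial.C (p i) + Polynomial.C (q i) * Polynomial.X)
    (Polynomial.aeval u : Polynomial ℝ →ₐ[ℝ] ℂ) f
  rw [h]
  congr 2
  funext i
  simp

/-- **Log-concavity at the points of the cone.** -/
theorem garding_ineq {f : MvPolynomial σ ℝ} {N : ℕ} (hf : f.IsHomogeneous N) (hs : RStable f)
    {b : σ → ℝ} (hb : Cone f b) (d : σ → ℝ) :
    (lineR f b d).coeff 0 * (2 * (lineR f b d).coeff 2) ≤ (lineR f b d).coeff 1 ^ 2 := by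
  have h := real_rooted_ineq (lineR f b d) (fun z hz h0 => by
    rw [lineR_aeval] at h0
    have hz0 : z ≠ 0 := by
      rintro rfl
      exact hz rfl
    have h1 : aeval (fun i => (b i : ℂ) + d i * z) f =
        z ^ N * aeval (fun i => (d i : ℂ) + b i * z⁻¹) f := by
      rw [← aeval_smul_hom hf]
      congr 2
      funext i
      field_simp
      ring
    rw [h1] at h0
    rcases mul_eq_zero.1 h0 with h4 | h4
    · exact hz0 (eq_zero_of_pow_eq_zero h4)
    · refine garding hf hs hb d z⁻¹ ?_ h4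
      rw [Complex.inv_im]
      exact div_ne_zero (neg_ne_zero.2 hz) (Complex.normSq_pos.2 hz0).ne') 0
  rw [← Polynomial.coeff_zero_eq_eval_zero, ← Polynomial.coeff_zero_eq_eval_zero,
    ← Polynomial.coeff_zero_eq_eval_zero, Polynomial.coeff_derivative,
    Polynomial.coeff_derivative, Polynomial.coeff_derivative] at h
  norm_num at h
  linarith

end Vale.Agent.P361.LRO.T1
end

section

/-!
The one-node inequality for symmetric homogeneous stable laws (star-mesh inequality), from the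
convexity of the hyperbolicity cone.
-/

namespace Vale.Agent.P361.LRO.T1

open MvPolynomial

section coeffs

/-- the first coefficients of a product of linear polynomials -/
def J3 (P : Polynomial ℝ) (e q : ℝ) : Prop :=
  P.coeff 0 = 1 ∧ P.coeff 1 = e ∧ 2 * P.coeff 2 = e ^ 2 - q

theorem coeff_two_mul (P Q : Polynomial ℝ) :
    (P * Q).coeff 2 = P.coeff 0 * Q.coeff 2 + P.coeff 1 * Q.coeff 1 + P.coeff 2 * Q.coeff 0 := by
  rw [Polynomial.coeff_mul, Finset.Nat.sum_antidiagonal_eq_sum_range_succ_mk,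
    Finset.sum_range_succ, Finset.sum_range_succ, Finset.sum_range_one]

theorem coeff_one_mul' (P Q : Polynomial ℝ) :
    (P * Q).coeff 1 = P.coeff 0 * Q.coeff 1 + P.coeff 1 * Q.coeff 0 := by
  rw [Polynomial.mul_coeff_one]

theorem J3.mul {P Q : Polynomial ℝ} {e q e' q' : ℝ} (h : J3 P e q) (h' : J3 Q e' q') :
    J3 (P * Q) (e + e') (q + q') := by
  obtain ⟨h0, h1, h2⟩ := h
  obtain ⟨g0, g1, g2⟩ := h'
  refine ⟨by rw [Polynomial.mul_coeff_zero, h0, g0, one_mul], ?_, ?_⟩
  · rw [coeff_one_mul', h0, h1, g0, g1]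
    ring
  · rw [coeff_two_mul, h0, h1, g0, g1]
    linarith [h2, g2]

theorem J3.one : J3 1 0 0 := by
  refine ⟨by simp, ?_, ?_⟩
  · rw [Polynomial.coeff_one]
    simp
  · rw [Polynomial.coeff_one]
    simp

theorem J3.lin (a : ℝ) : J3 (Polynomial.C 1 + Polynomial.C a * Polynomial.X) a (a ^ 2) := by
  refine ⟨by simp, by simp [Polynomial.coeff_one], ?_⟩
  simp [Polynomial.coeff_one]

theorem J3.pow {P : Polynomial ℝ} {e q : ℝ} (h : J3 P e q) (n : ℕ) :
    J3 (P ^ n) (n * e) (n * q) := by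
  induction n with
  | zero => simpa using J3.one
  | succ n ih =>
    rw [pow_succ]
    have h1 := ih.mul h
    have e1 : (n : ℝ) * e + e = ((n + 1 : ℕ) : ℝ) * e := by push_cast; ring
    have e2 : (n : ℝ) * q + q = ((n + 1 : ℕ) : ℝ) * q := by push_cast; ring
    rwa [e1, e2] at h1

theorem J3.prod {V : Type*} (s : Finset V) (a : V → ℝ) (m : V → ℕ) :
    J3 (∏ x ∈ s, (Polynomial.C 1 + Polynomial.C (a x) * Polynomial.X) ^ m x)
      (∑ x ∈ s, m x * a x) (∑ x ∈ s, m x * a x ^ 2) := by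
  classical
  induction s using Finset.induction_on with
  | empty => simpa using J3.one
  | insert i s hi ih =>
    rw [Finset.prod_insert hi, Finset.sum_insert hi, Finset.sum_insert hi]
    exact ((J3.lin (a i)).pow (m i)).mul ih

end coeffs

section real

/-- the limit `τ → s` -/
theorem one_node_real (w0 w1 al E2 E0 la S S2 c s : ℝ) (hw1 : 0 < w1) (hs0 : 0 < s)
    (hs1 : s ≤ 1) (hs : w1 * (1 + s ^ 2) = w0 * s) (hcw : c * w1 = s * al)
    (hfun : ∀ τ : ℝ, 0 ≤ τ → τ < s →
      (w1 - τ * w0 + τ ^ 2 * w1) *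
        ((S ^ 2 - S2) * (w1 - τ * w0 + τ ^ 2 * w1) - 2 * S * al * (1 - τ ^ 2) +
          E2 * (1 + τ ^ 2) - τ * E0 - la * (1 - τ ^ 2) + 2 * c * S * (w0 - 2 * τ * w1) +
          2 * c ^ 2 * w1 - 4 * τ * c * al) ≤
      (S * (w1 - τ * w0 + τ ^ 2 * w1) - al * (1 - τ ^ 2) + c * (w0 - 2 * τ * w1)) ^ 2) :
    E2 * (1 + s ^ 2) - s * E0 - la * (1 - s ^ 2) - 2 * s ^ 2 * al ^ 2 / w1 ≤ 0 := by
  have hphi : ∀ τ : ℝ, s * (w1 - τ * w0 + τ ^ 2 * w1) = w1 * ((s - τ) * (1 - s * τ)) := by
    intro τ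
    linear_combination τ * hs
  have hcw0 : c * w0 = al * (1 + s ^ 2) := by
    have h1 : w1 * (c * w0) = w1 * (al * (1 + s ^ 2)) := by
      linear_combination w0 * hcw - al * hs
    exact mul_left_cancel₀ hw1.ne' h1
  set B : ℝ := |S| + |al| / w1 with hB
  set F : ℝ → ℝ := fun τ =>
    (S ^ 2 - S2) * (w1 - τ * w0 + τ ^ 2 * w1) - 2 * S * al * (1 - τ ^ 2) +
      E2 * (1 + τ ^ 2) - τ * E0 - la * (1 - τ ^ 2) + 2 * c * S * (w0 - 2 * τ * w1) +
      2 * c ^ 2 * w1 - 4 * τ * c * al - B ^ 2 * (w1 - τ * w0 + τ ^ 2 * w1)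
    with hF
  have hFle : ∀ τ : ℝ, 0 ≤ τ → τ < s → F τ ≤ 0 := by
    intro τ hτ0 hτs
    have h1 := hfun τ hτ0 hτs
    set φ : ℝ := w1 - τ * w0 + τ ^ 2 * w1 with hφ
    have h2 := hphi τ
    have hδ : 0 < s - τ := sub_pos.2 hτs
    have h3 : w1 * (s - τ) ^ 2 ≤ φ := by
      have h4 : s * (w1 * (s - τ) ^ 2) ≤ s * φ := by
        rw [h2]
        have h6 : s * (s - τ) ≤ 1 - s * τ := by
          have : s ^ 2 ≤ 1 := by
            have := pow_le_one₀ (n := 2) hs0.le hs1
            exact this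
          linarith
        have h7 := mul_le_mul_of_nonneg_left h6 (mul_nonneg hw1.le hδ.le)
        linarith
      exact le_of_mul_le_mul_left h4 hs0
    have h4 : 0 < φ := lt_of_lt_of_le (by positivity) h3
    have h5 : S * φ - al * (1 - τ ^ 2) + c * (w0 - 2 * τ * w1) = S * φ + al * (s - τ) ^ 2 := by
      linear_combination hcw0 - 2 * τ * hcw
    rw [h5] at h1
    have h6 : |S * φ + al * (s - τ) ^ 2| ≤ B * φ := by
      have a1 : (s - τ) ^ 2 ≤ φ / w1 := by
        rw [le_div_iff₀ hw1]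
        linarith
      calc |S * φ + al * (s - τ) ^ 2| ≤ |S * φ| + |al * (s - τ) ^ 2| := abs_add_le _ _
        _ = |S| * φ + |al| * (s - τ) ^ 2 := by
          rw [abs_mul, abs_mul, abs_of_pos h4, abs_of_nonneg (sq_nonneg (s - τ))]
        _ ≤ |S| * φ + |al| * (φ / w1) :=
          add_le_add le_rfl (mul_le_mul_of_nonneg_left a1 (abs_nonneg _))
        _ = B * φ := by
          rw [hB]
          ring
    have h7 : (S * φ + al * (s - τ) ^ 2) ^ 2 ≤ (B * φ) ^ 2 :=
      sq_le_sq.2 (h6.trans (le_abs_self _))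
    have h8 : φ * F τ ≤ 0 := by
      have h9 : φ * F τ = φ * ((S ^ 2 - S2) * φ - 2 * S * al * (1 - τ ^ 2) +
          E2 * (1 + τ ^ 2) - τ * E0 - la * (1 - τ ^ 2) + 2 * c * S * (w0 - 2 * τ * w1) +
          2 * c ^ 2 * w1 - 4 * τ * c * al) - (B * φ) ^ 2 := by
        simp only [hF]
        ring
      rw [h9]
      exact sub_nonpos.2 (h1.trans h7)
    by_contra h9
    exact absurd (mul_pos h4 (not_le.1 h9)) (not_lt.2 h8)
  have hFs : F s ≤ 0 := by
    have hc : Continuous F := by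
      simp only [hF]
      fun_prop
    have h1 : Filter.Tendsto F (nhdsWithin s (Set.Iio s)) (nhds (F s)) :=
      (hc.tendsto s).mono_left nhdsWithin_le_nhds
    refine le_of_tendsto h1 ?_
    have h2 : ∀ᶠ τ in nhdsWithin s (Set.Iio s), 0 < τ :=
      (eventually_gt_nhds hs0).filter_mono nhdsWithin_le_nhds
    filter_upwards [self_mem_nhdsWithin, h2] with τ hτ hτ0
    exact hFle τ hτ0.le hτ
  have h0 : w1 - s * w0 + s ^ 2 * w1 = 0 := by linear_combination hs
  have hcal : c * al = s * al ^ 2 / w1 := by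
    rw [eq_div_iff hw1.ne']
    linear_combination al * hcw
  have h1 : F s = E2 * (1 + s ^ 2) - s * E0 - la * (1 - s ^ 2) - 2 * s ^ 2 * al ^ 2 / w1 := by
    simp only [hF]
    rw [h0]
    have h2 : 2 * s ^ 2 * al ^ 2 / w1 = 2 * s * (c * al) := by
      rw [hcal]
      ring
    rw [h2]
    linear_combination (2 * S) * hcw0 + (2 * c - 4 * S * s) * hcw
  rw [← h1]
  exact hFs

end real

section law

variable {Om V : Type*} [Fintype Om] [Fintype V] [DecidableEq V]

/-- the generating polynomial of a law -/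
noncomputable def gen (W : Om → ℝ) (n : Om → V → ℕ) : MvPolynomial V ℝ :=
  ∑ w, C (W w) * ∏ x, X x ^ n w x

omit [DecidableEq V] in
theorem gen_aeval (W : Om → ℝ) (n : Om → V → ℕ) (y : V → ℂ) :
    aeval y (gen W n) = ∑ w, (W w : ℂ) * ∏ x, y x ^ n w x := by
  rw [gen, map_sum]
  refine Finset.sum_congr rfl fun w _ => ?_
  rw [map_mul, map_prod, aeval_C]
  congr 1
  refine Finset.prod_congr rfl fun x _ => ?_
  rw [map_pow, aeval_X]

omit [DecidableEq V] in
theorem gen_hom {W : Om → ℝ} {n : Om → V → ℕ} {N : ℕ}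
    (hdeg : ∀ w, W w ≠ 0 → ∑ x, n w x = N) : (gen W n).IsHomogeneous N := by
  refine IsHomogeneous.sum _ _ _ fun w _ => ?_
  by_cases hw : W w = 0
  · rw [hw, C_0, zero_mul]
    exact isHomogeneous_zero _ _ _
  · have h1 := (isHomogeneous_C V (W w)).mul (IsHomogeneous.prod Finset.univ
      (fun x => (X x : MvPolynomial V ℝ) ^ n w x) (fun x => n w x) (fun x _ => by
        have := (isHomogeneous_X ℝ x).pow (n w x)
        rwa [one_mul] at this))
    rwa [zero_add, hdeg w hw] at h1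

omit [DecidableEq V] in
theorem gen_lineR (W : Om → ℝ) (n : Om → V → ℕ) (b d : V → ℝ) :
    lineR (gen W n) b d = ∑ w, Polynomial.C (W w) *
      ∏ x, (Polynomial.C (b x) + Polynomial.C (d x) * Polynomial.X) ^ n w x := by
  rw [lineR, gen, map_sum]
  refine Finset.sum_congr rfl fun w _ => ?_
  rw [map_mul, map_prod, aeval_C]
  congr 1
  refine Finset.prod_congr rfl fun x _ => ?_
  rw [map_pow, aeval_X]

/-- sums over the configurations with `k` particles at `z` -/
noncomputable def Sk (W : Om → ℝ) (n : Om → V → ℕ) (z : V) (k : ℕ) (F : Om → ℝ) : ℝ :=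
  ∑ w, if n w z = k then W w * F w else 0

omit [Fintype V] [DecidableEq V] in
theorem Sk_add (W : Om → ℝ) (n : Om → V → ℕ) (z : V) (k : ℕ) (F G : Om → ℝ) :
    Sk W n z k (fun w => F w + G w) = Sk W n z k F + Sk W n z k G := by
  rw [Sk, Sk, Sk, ← Finset.sum_add_distrib]
  refine Finset.sum_congr rfl fun w _ => ?_
  split_ifs
  · ring
  · ring

omit [Fintype V] [DecidableEq V] in
theorem Sk_smul (W : Om → ℝ) (n : Om → V → ℕ) (z : V) (k : ℕ) (c : ℝ) (F : Om → ℝ) :
    Sk W n z k (fun w => c * F w) = c * Sk W n z k F := by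
  rw [Sk, Sk, Finset.mul_sum]
  refine Finset.sum_congr rfl fun w _ => ?_
  split_ifs
  · ring
  · ring

omit [Fintype V] [DecidableEq V] in
theorem Sk_split {W : Om → ℝ} {n : Om → V → ℕ} (hn : ∀ w x, n w x ≤ 2) (z : V)
    (F : ℕ → Om → ℝ) : ∑ w, W w * F (n w z) w =
      Sk W n z 0 (F 0) + Sk W n z 1 (F 1) + Sk W n z 2 (F 2) := by
  rw [Sk, Sk, Sk, ← Finset.sum_add_distrib, ← Finset.sum_add_distrib]
  refine Finset.sum_congr rfl fun w _ => ?_
  have h := hn w z
  interval_cases h1 : n w z <;> simp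

/-- the values of the polynomial, its first and second derivatives on the line through
`(1,…,1,-τ)` in the direction `(a, c)` -/
theorem line_coeffs {W : Om → ℝ} {n : Om → V → ℕ} (hn : ∀ w x, n w x ≤ 2) (z : V) (a : V → ℝ)
    (ha : a z = 0) (τ c : ℝ) :
    let P := lineR (gen W n) (fun x => if x = z then -τ else 1)
      (fun x => if x = z then c else a x)
    let e : Om → ℝ := fun w => ∑ x, n w x * a x
    let q : Om → ℝ := fun w => ∑ x, n w x * a x ^ 2
    P.coeff 0 = Sk W n z 0 (fun _ => 1) - τ * Sk W n z 1 (fun _ => 1) +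
        τ ^ 2 * Sk W n z 2 (fun _ => 1) ∧
    P.coeff 1 = Sk W n z 0 e + (c * Sk W n z 1 (fun _ => 1) - τ * Sk W n z 1 e) +
        (-2 * τ * c * Sk W n z 2 (fun _ => 1) + τ ^ 2 * Sk W n z 2 e) ∧
    2 * P.coeff 2 = Sk W n z 0 (fun w => e w ^ 2 - q w) +
        (2 * c * Sk W n z 1 e - τ * Sk W n z 1 (fun w => e w ^ 2 - q w)) +
        (2 * c ^ 2 * Sk W n z 2 (fun _ => 1) - 4 * τ * c * Sk W n z 2 e +
          τ ^ 2 * Sk W n z 2 (fun w => e w ^ 2 - q w)) := by
  intro P e q
  have hP : P = ∑ w, Polynomial.C (W w) *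
      ((Polynomial.C (-τ) + Polynomial.C c * Polynomial.X) ^ n w z *
        ∏ x ∈ Finset.univ.erase z,
          (Polynomial.C 1 + Polynomial.C (a x) * Polynomial.X) ^ n w x) := by
    change lineR (gen W n) _ _ = _
    rw [gen_lineR]
    refine Finset.sum_congr rfl fun w _ => ?_
    congr 1
    rw [← Finset.mul_prod_erase Finset.univ _ (Finset.mem_univ z), if_pos rfl, if_pos rfl]
    congr 1
    refine Finset.prod_congr rfl fun x hx => ?_
    rw [if_neg (Finset.ne_of_mem_erase hx), if_neg (Finset.ne_of_mem_erase hx)]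
  have hJ : ∀ w, J3 (∏ x ∈ Finset.univ.erase z,
      (Polynomial.C 1 + Polynomial.C (a x) * Polynomial.X) ^ n w x) (e w) (q w) := by
    intro w
    have h := J3.prod (Finset.univ.erase z) a (n w)
    have e1 : ∑ x ∈ Finset.univ.erase z, (n w x : ℝ) * a x = e w := by
      change _ = ∑ x, (n w x : ℝ) * a x
      rw [← Finset.add_sum_erase Finset.univ _ (Finset.mem_univ z), ha, mul_zero, zero_add]
    have e2 : ∑ x ∈ Finset.univ.erase z, (n w x : ℝ) * a x ^ 2 = q w := by
      change _ = ∑ x, (n w x : ℝ) * a x ^ 2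
      rw [← Finset.add_sum_erase Finset.univ _ (Finset.mem_univ z), ha]
      simp
    rwa [e1, e2] at h
  have hA : ∀ k : ℕ, P.coeff k = ∑ w, W w *
      ((Polynomial.C (-τ) + Polynomial.C c * Polynomial.X) ^ n w z *
        ∏ x ∈ Finset.univ.erase z,
          (Polynomial.C 1 + Polynomial.C (a x) * Polynomial.X) ^ n w x).coeff k := by
    intro k
    rw [hP, Polynomial.finsetSum_coeff]
    refine Finset.sum_congr rfl fun w _ => ?_
    rw [Polynomial.coeff_C_mul]
  -- coefficients of the powers of the node factor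
  have hN : ∀ m : ℕ, m ≤ 2 →
      ((Polynomial.C (-τ) + Polynomial.C c * Polynomial.X) ^ m).coeff 0 = (-τ) ^ m ∧
      ((Polynomial.C (-τ) + Polynomial.C c * Polynomial.X) ^ m).coeff 1 =
        (if m = 0 then 0 else if m = 1 then c else -2 * τ * c) ∧
      ((Polynomial.C (-τ) + Polynomial.C c * Polynomial.X) ^ m).coeff 2 =
        (if m = 2 then c ^ 2 else 0) := by
    intro m hm
    have l0 : (Polynomial.C (-τ) + Polynomial.C c * Polynomial.X).coeff 0 = -τ := by simp
    have l1 : (Polynomial.C (-τ) + Polynomial.C c * Polynomial.X).coeff 1 = c := by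
      rw [Polynomial.coeff_add, Polynomial.coeff_C_mul, Polynomial.coeff_X_one,
        Polynomial.coeff_C_of_ne_zero one_ne_zero]
      ring
    have l2 : (Polynomial.C (-τ) + Polynomial.C c * Polynomial.X).coeff 2 = 0 := by
      rw [Polynomial.coeff_add, Polynomial.coeff_C_mul, Polynomial.coeff_X,
        Polynomial.coeff_C_of_ne_zero two_ne_zero]
      norm_num
    interval_cases m
    · simp [Polynomial.coeff_one]
    · simp only [pow_one]
      rw [l0, l1, l2]
      simp
    · rw [pow_two, Polynomial.mul_coeff_zero, coeff_one_mul', coeff_two_mul, l0, l1, l2]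
      refine ⟨by ring, ?_, ?_⟩
      · simp
        ring
      · simp
        ring
  refine ⟨?_, ?_, ?_⟩
  · rw [hA 0]
    have h1 : ∀ w, ((Polynomial.C (-τ) + Polynomial.C c * Polynomial.X) ^ n w z *
        ∏ x ∈ Finset.univ.erase z,
          (Polynomial.C 1 + Polynomial.C (a x) * Polynomial.X) ^ n w x).coeff 0 =
        (-τ) ^ n w z := by
      intro w
      rw [Polynomial.mul_coeff_zero, (hJ w).1, (hN _ (hn w z)).1, mul_one]
    simp only [h1]
    rw [Sk_split hn z (fun k _ => (-τ) ^ k)]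
    have e0 : Sk W n z 0 (fun _ => (-τ) ^ 0) = Sk W n z 0 (fun _ => 1) := by simp
    have e1 : Sk W n z 1 (fun _ => (-τ) ^ 1) = -τ * Sk W n z 1 (fun _ => 1) := by
      rw [← Sk_smul]
      simp
    have e2 : Sk W n z 2 (fun _ => (-τ) ^ 2) = τ ^ 2 * Sk W n z 2 (fun _ => 1) := by
      rw [← Sk_smul]
      simp
    rw [e0, e1, e2]
    ring
  · rw [hA 1]
    have h1 : ∀ w, ((Polynomial.C (-τ) + Polynomial.C c * Polynomial.X) ^ n w z *
        ∏ x ∈ Finset.univ.erase z,
          (Polynomial.C 1 + Polynomial.C (a x) * Polynomial.X) ^ n w x).coeff 1 =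
        (-τ) ^ n w z * e w +
          (if n w z = 0 then 0 else if n w z = 1 then c else -2 * τ * c) := by
      intro w
      rw [coeff_one_mul', (hJ w).1, (hJ w).2.1, (hN _ (hn w z)).1, (hN _ (hn w z)).2.1, mul_one]
    simp only [h1]
    rw [Sk_split hn z (fun k w => (-τ) ^ k * e w +
      (if k = 0 then 0 else if k = 1 then c else -2 * τ * c))]
    have e0 : Sk W n z 0 (fun w => (-τ) ^ 0 * e w +
        (if (0 : ℕ) = 0 then 0 else if (0 : ℕ) = 1 then c else -2 * τ * c)) = Sk W n z 0 e := by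
      simp
    have e1 : Sk W n z 1 (fun w => (-τ) ^ 1 * e w +
        (if (1 : ℕ) = 0 then 0 else if (1 : ℕ) = 1 then c else -2 * τ * c)) =
        -τ * Sk W n z 1 e + c * Sk W n z 1 (fun _ => 1) := by
      rw [← Sk_smul, ← Sk_smul, ← Sk_add]
      simp
    have e2 : Sk W n z 2 (fun w => (-τ) ^ 2 * e w +
        (if (2 : ℕ) = 0 then 0 else if (2 : ℕ) = 1 then c else -2 * τ * c)) =
        τ ^ 2 * Sk W n z 2 e + (-2 * τ * c) * Sk W n z 2 (fun _ => 1) := by
      rw [← Sk_smul, ← Sk_smul, ← Sk_add]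
      simp
    rw [e0, e1, e2]
    ring
  · rw [hA 2, Finset.mul_sum]
    have h1 : ∀ w, 2 * (W w * ((Polynomial.C (-τ) + Polynomial.C c * Polynomial.X) ^ n w z *
        ∏ x ∈ Finset.univ.erase z,
          (Polynomial.C 1 + Polynomial.C (a x) * Polynomial.X) ^ n w x).coeff 2) =
        W w * ((-τ) ^ n w z * (e w ^ 2 - q w) +
          2 * (if n w z = 0 then 0 else if n w z = 1 then c else -2 * τ * c) * e w +
          2 * (if n w z = 2 then c ^ 2 else 0)) := by
      intro w
      rw [coeff_two_mul, (hJ w).1, (hJ w).2.1, (hN _ (hn w z)).1, (hN _ (hn w z)).2.1,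
        (hN _ (hn w z)).2.2, ← (hJ w).2.2]
      ring
    simp only [h1]
    rw [Sk_split hn z (fun k w => (-τ) ^ k * (e w ^ 2 - q w) +
          2 * (if k = 0 then 0 else if k = 1 then c else -2 * τ * c) * e w +
          2 * (if k = 2 then c ^ 2 else 0))]
    have e0 : Sk W n z 0 (fun w => (-τ) ^ 0 * (e w ^ 2 - q w) +
          2 * (if (0 : ℕ) = 0 then 0 else if (0 : ℕ) = 1 then c else -2 * τ * c) * e w +
          2 * (if (0 : ℕ) = 2 then c ^ 2 else 0)) = Sk W n z 0 (fun w => e w ^ 2 - q w) := by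
      simp
    have e1 : Sk W n z 1 (fun w => (-τ) ^ 1 * (e w ^ 2 - q w) +
          2 * (if (1 : ℕ) = 0 then 0 else if (1 : ℕ) = 1 then c else -2 * τ * c) * e w +
          2 * (if (1 : ℕ) = 2 then c ^ 2 else 0)) =
        -τ * Sk W n z 1 (fun w => e w ^ 2 - q w) + 2 * c * Sk W n z 1 e := by
      rw [← Sk_smul, ← Sk_smul, ← Sk_add]
      simp
    have e2 : Sk W n z 2 (fun w => (-τ) ^ 2 * (e w ^ 2 - q w) +
          2 * (if (2 : ℕ) = 0 then 0 else if (2 : ℕ) = 1 then c else -2 * τ * c) * e w +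
          2 * (if (2 : ℕ) = 2 then c ^ 2 else 0)) =
        τ ^ 2 * Sk W n z 2 (fun w => e w ^ 2 - q w) + (2 * (-2 * τ * c)) * Sk W n z 2 e +
          2 * c ^ 2 * Sk W n z 2 (fun _ => 1) := by
      rw [← Sk_smul, ← Sk_smul, ← Sk_smul, ← Sk_add, ← Sk_add]
      simp
    rw [e0, e1, e2]
    ring

/-- **One node**, in terms of the weights. -/
theorem one_node_core {W : Om → ℝ} {n : Om → V → ℕ} (hn : ∀ w x, n w x ≤ 2) {N : ℕ}
    (hdeg : ∀ w, W w ≠ 0 → ∑ x, n w x = N) (hst : RStable (gen W n)) (z : V) (a : V → ℝ)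
    (ha : a z = 0) (w0 w1 al E2 E0 la : ℝ) (hw1 : 0 < w1)
    (h00 : Sk W n z 0 (fun _ => 1) = w1) (h20 : Sk W n z 2 (fun _ => 1) = w1)
    (h10 : Sk W n z 1 (fun _ => 1) = w0)
    (h0A : Sk W n z 0 (fun w => ∑ x, ((n w x : ℝ) - 1) * a x) = -al)
    (h1A : Sk W n z 1 (fun w => ∑ x, ((n w x : ℝ) - 1) * a x) = 0)
    (h2A : Sk W n z 2 (fun w => ∑ x, ((n w x : ℝ) - 1) * a x) = al)
    (h0E : Sk W n z 0 (fun w => (∑ x, ((n w x : ℝ) - 1) * a x) ^ 2) = E2)
    (h1E : Sk W n z 1 (fun w => (∑ x, ((n w x : ℝ) - 1) * a x) ^ 2) = E0)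
    (h2E : Sk W n z 2 (fun w => (∑ x, ((n w x : ℝ) - 1) * a x) ^ 2) = E2)
    (h0L : Sk W n z 0 (fun w => ∑ x, ((n w x : ℝ) - 1) * a x ^ 2) = la)
    (h1L : Sk W n z 1 (fun w => ∑ x, ((n w x : ℝ) - 1) * a x ^ 2) = 0)
    (h2L : Sk W n z 2 (fun w => ∑ x, ((n w x : ℝ) - 1) * a x ^ 2) = -la)
    (s : ℝ) (hs0 : 0 < s) (hs1 : s ≤ 1) (hs : w1 * (1 + s ^ 2) = w0 * s) :
    E2 * (1 + s ^ 2) - s * E0 - la * (1 - s ^ 2) - 2 * s ^ 2 * al ^ 2 / w1 ≤ 0 := by
  set S : ℝ := ∑ x, a x with hS
  set S2 : ℝ := ∑ x, a x ^ 2 with hS2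
  have he : ∀ w, ∑ x, (n w x : ℝ) * a x = S + ∑ x, ((n w x : ℝ) - 1) * a x := by
    intro w
    rw [hS, ← Finset.sum_add_distrib]
    exact Finset.sum_congr rfl fun x _ => by ring
  have hq : ∀ w, ∑ x, (n w x : ℝ) * a x ^ 2 = S2 + ∑ x, ((n w x : ℝ) - 1) * a x ^ 2 := by
    intro w
    rw [hS2, ← Finset.sum_add_distrib]
    exact Finset.sum_congr rfl fun x _ => by ring
  -- the sums of `e` and of `e ^ 2 - q`
  have he' : ∀ k, Sk W n z k (fun w => ∑ x, (n w x : ℝ) * a x) =
      S * Sk W n z k (fun _ => 1) + Sk W n z k (fun w => ∑ x, ((n w x : ℝ) - 1) * a x) := by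
    intro k
    rw [← Sk_smul, ← Sk_add]
    congr 1
    funext w
    rw [he]
    ring
  have hq' : ∀ k, Sk W n z k (fun w => (∑ x, (n w x : ℝ) * a x) ^ 2 -
      ∑ x, (n w x : ℝ) * a x ^ 2) =
      (S ^ 2 - S2) * Sk W n z k (fun _ => 1) +
      (2 * S * Sk W n z k (fun w => ∑ x, ((n w x : ℝ) - 1) * a x) +
      (Sk W n z k (fun w => (∑ x, ((n w x : ℝ) - 1) * a x) ^ 2) +
      (-1) * Sk W n z k (fun w => ∑ x, ((n w x : ℝ) - 1) * a x ^ 2))) := by
    intro k
    rw [← Sk_smul, ← Sk_smul, ← Sk_smul, ← Sk_add, ← Sk_add, ← Sk_add]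
    congr 1
    funext w
    rw [he, hq]
    ring
  set c : ℝ := s * al / w1 with hc
  have hcw : c * w1 = s * al := by
    rw [hc]
    field_simp
  -- the three functions of `τ`
  have hfun : ∀ τ : ℝ, 0 ≤ τ → τ < s →
      (w1 - τ * w0 + τ ^ 2 * w1) *
        ((S ^ 2 - S2) * (w1 - τ * w0 + τ ^ 2 * w1) - 2 * S * al * (1 - τ ^ 2) +
          E2 * (1 + τ ^ 2) - τ * E0 - la * (1 - τ ^ 2) + 2 * c * S * (w0 - 2 * τ * w1) +
          2 * c ^ 2 * w1 - 4 * τ * c * al) ≤
      (S * (w1 - τ * w0 + τ ^ 2 * w1) - al * (1 - τ ^ 2) + c * (w0 - 2 * τ * w1)) ^ 2 := by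
    intro τ hτ0 hτs
    have hcone : Cone (gen W n) (fun x => if x = z then -τ else 1) := by
      intro r hr h0
      -- value at the shifted point
      have hval : aeval (fun i => (((if i = z then -τ else (1 : ℝ)) + r : ℝ) : ℂ)) (gen W n) =
          (((1 + r) ^ N * (w1 + w0 * ((r - τ) / (1 + r)) +
            w1 * ((r - τ) / (1 + r)) ^ 2) : ℝ) : ℂ) := by
        have h1r : (1 + r : ℝ) ≠ 0 := by positivity
        rw [gen_aeval]
        have h2 : ∀ w, (W w : ℂ) * ∏ x, (((if x = z then -τ else (1 : ℝ)) + r : ℝ) : ℂ) ^ n w x =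
            ((W w * ((1 + r) ^ N * ((r - τ) / (1 + r)) ^ n w z) : ℝ) : ℂ) := by
          intro w
          by_cases hw : W w = 0
          · rw [hw]
            simp
          · have h3 : ∏ x, ((if x = z then -τ else (1 : ℝ)) + r) ^ n w x =
                (1 + r) ^ N * ((r - τ) / (1 + r)) ^ n w z := by
              rw [← hdeg w hw, ← Finset.prod_pow_eq_pow_sum,
                ← Finset.mul_prod_erase Finset.univ _ (Finset.mem_univ z),
                ← Finset.mul_prod_erase Finset.univ (fun x => (1 + r) ^ n w x)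
                  (Finset.mem_univ z), if_pos rfl]
              have h4 : ∏ x ∈ Finset.univ.erase z, ((if x = z then -τ else (1 : ℝ)) + r) ^ n w x =
                  ∏ x ∈ Finset.univ.erase z, (1 + r) ^ n w x := by
                refine Finset.prod_congr rfl fun x hx => ?_
                rw [if_neg (Finset.ne_of_mem_erase hx)]
              rw [h4, div_pow]
              field_simp
              ring
            rw [← h3]
            push_cast
            rfl
        simp only [h2]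
        rw [← Complex.ofReal_sum]
        congr 1
        rw [Sk_split hn z (fun k _ => (1 + r) ^ N * ((r - τ) / (1 + r)) ^ k)]
        have e0 : ∀ k : ℕ, Sk W n z k (fun _ => (1 + r) ^ N * ((r - τ) / (1 + r)) ^ k) =
            ((1 + r) ^ N * ((r - τ) / (1 + r)) ^ k) * Sk W n z k (fun _ => 1) := by
          intro k
          rw [← Sk_smul]
          simp
        rw [e0, e0, e0, h00, h10, h20]
        ring
      rw [hval] at h0
      have h1 : (1 + r) ^ N * (w1 + w0 * ((r - τ) / (1 + r)) +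
            w1 * ((r - τ) / (1 + r)) ^ 2) = 0 := by exact_mod_cast h0
      have h1r : (0 : ℝ) < 1 + r := by positivity
      rcases mul_eq_zero.1 h1 with h2 | h2
      · exact (pow_pos h1r N).ne' h2
      · set t : ℝ := (r - τ) / (1 + r) with ht
        have ht1 : -s < t := by
          rw [ht, lt_div_iff₀ h1r]
          have a0 := mul_nonneg hs0.le hr
          linarith only [a0, hτs, hr]
        have h3 : s * (w1 + w0 * t + w1 * t ^ 2) = w1 * ((t + s) * (1 + s * t)) := by
          linear_combination (-t) * hs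
        have h4 : 0 < 1 + s * t := by
          have a1 := mul_lt_mul_of_pos_left ht1 hs0
          have a2 : s * s ≤ 1 := mul_le_one₀ hs1 hs0.le hs1
          linarith only [a1, a2]
        have h5 : 0 < w1 * ((t + s) * (1 + s * t)) := by
          have : 0 < t + s := by linarith
          positivity
        rw [h2, mul_zero] at h3
        linarith
    have h := garding_ineq (gen_hom hdeg) hst hcone (fun x => if x = z then c else a x)
    obtain ⟨l0, l1, l2⟩ := line_coeffs (W := W) hn z a ha τ c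
    rw [l2, l1, l0, he', he', he', hq', hq', hq', h00, h10, h20, h0A, h1A, h2A, h0E, h1E, h2E,
      h0L, h1L, h2L] at h
    refine le_trans (le_of_eq ?_) (h.trans (le_of_eq ?_))
    · ring
    · ring
  exact one_node_real w0 w1 al E2 E0 la S S2 c s hw1 hs0 hs1 hs hcw hfun

end law

end Vale.Agent.P361.LRO.T1
end

section

/-!
Theorem 1 (star-mesh inequality) for symmetric homogeneous stable laws.
-/

namespace Vale.Agent.P361.LRO.T1

open MvPolynomial

section thm

variable {Om V : Type*} [Fintype Om] [Fintype V] [DecidableEq V]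

/-- sums over the configurations which are charged at `z` -/
noncomputable def sA (W : Om → ℝ) (n : Om → V → ℕ) (z : V) (F : Om → ℝ) : ℝ :=
  ∑ w, if n w z = 1 then 0 else W w * F w

/-- sums over the configurations which are not charged at `z` -/
noncomputable def sB (W : Om → ℝ) (n : Om → V → ℕ) (z : V) (F : Om → ℝ) : ℝ :=
  ∑ w, if n w z = 1 then W w * F w else 0

/-- the conditional expectations -/
noncomputable def EA (W : Om → ℝ) (n : Om → V → ℕ) (z : V) (F : Om → ℝ) : ℝ :=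
  sA W n z F / sA W n z fun _ => 1

noncomputable def EB (W : Om → ℝ) (n : Om → V → ℕ) (z : V) (F : Om → ℝ) : ℝ :=
  sB W n z F / sB W n z fun _ => 1

omit [Fintype V] [DecidableEq V] in
theorem sA_eq {W : Om → ℝ} {n : Om → V → ℕ} (hn : ∀ w x, n w x ≤ 2) (z : V) (F : Om → ℝ) :
    sA W n z F = Sk W n z 0 F + Sk W n z 2 F := by
  rw [sA, Sk, Sk, ← Finset.sum_add_distrib]
  refine Finset.sum_congr rfl fun w _ => ?_
  have h := hn w z
  interval_cases h1 : n w z <;> simp

omit [Fintype V] [DecidableEq V] in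
theorem sB_eq (W : Om → ℝ) (n : Om → V → ℕ) (z : V) (F : Om → ℝ) :
    sB W n z F = Sk W n z 1 F := rfl

omit [Fintype V] [DecidableEq V] in
theorem Sk_symm {W : Om → ℝ} {n : Om → V → ℕ} (hn : ∀ w x, n w x ≤ 2) (ι : Equiv.Perm Om)
    (hWι : ∀ w, W (ι w) = W w) (hnι : ∀ w x, n (ι w) x = 2 - n w x) (z : V) {k : ℕ} (hk : k ≤ 2)
    (F : Om → ℝ) : Sk W n z k F = Sk W n z (2 - k) fun w => F (ι w) := by
  rw [Sk, Sk, ← Equiv.sum_comp ι]
  refine Finset.sum_congr rfl fun w _ => ?_
  have h := hn w z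
  rw [hnι, hWι]
  by_cases h1 : n w z = 2 - k
  · rw [if_pos (by omega), if_pos h1]
  · rw [if_neg (by omega), if_neg h1]

/-- the two weights: `2 w₁ ≤ w₀` -/
theorem two_mul_le {W : Om → ℝ} {n : Om → V → ℕ} (hn : ∀ w x, n w x ≤ 2) {N : ℕ}
    (hdeg : ∀ w, W w ≠ 0 → ∑ x, n w x = N) (hst : RStable (gen W n)) (z : V) (w0 w1 : ℝ)
    (hw1 : 0 < w1) (hw0 : 0 ≤ w0)
    (h00 : Sk W n z 0 (fun _ => 1) = w1) (h20 : Sk W n z 2 (fun _ => 1) = w1)
    (h10 : Sk W n z 1 (fun _ => 1) = w0) : 2 * w1 ≤ w0 := by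
  by_contra hlt
  rw [not_le] at hlt
  set r : ℝ := Real.sqrt (4 * w1 ^ 2 - w0 ^ 2) with hr
  have hr2 : r ^ 2 = 4 * w1 ^ 2 - w0 ^ 2 := Real.sq_sqrt (by nlinarith)
  have hrpos : 0 < r := Real.sqrt_pos.2 (by nlinarith)
  set t : ℂ := ⟨-w0 / (2 * w1), r / (2 * w1)⟩ with ht
  have htim : 0 < t.im := by
    change 0 < r / (2 * w1)
    positivity
  have hzero : (w1 : ℂ) + w0 * t + w1 * t ^ 2 = 0 := by
    apply Complex.ext
    · simp only [ht, Complex.add_re, Complex.mul_re, Complex.ofReal_re, Complex.ofReal_im,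
        pow_two, Complex.mul_im, zero_mul, sub_zero, Complex.zero_re]
      field_simp
      nlinarith [hr2]
    · simp only [ht, Complex.add_im, Complex.mul_re, Complex.ofReal_re, Complex.ofReal_im,
        pow_two, Complex.mul_im, zero_mul, Complex.zero_im]
      field_simp
      ring
  set u : ℂ := ⟨(|t.re| + 1) / t.im, 1⟩ with hu
  have hval : aeval (fun x => u * (if x = z then t else 1)) (gen W n) = 0 := by
    rw [aeval_smul_hom (gen_hom hdeg), gen_aeval]
    have h1 : ∀ w, (W w : ℂ) * ∏ x, (if x = z then t else 1) ^ n w x =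
        ((if n w z = 0 then W w * 1 else 0 : ℝ) : ℂ) +
          ((if n w z = 1 then W w * 1 else 0 : ℝ) : ℂ) * t +
          ((if n w z = 2 then W w * 1 else 0 : ℝ) : ℂ) * t ^ 2 := by
      intro w
      have h2 : ∏ x, (if x = z then t else (1 : ℂ)) ^ n w x = t ^ n w z := by
        rw [Finset.prod_eq_single z]
        · rw [if_pos rfl]
        · intro x _ hx
          rw [if_neg hx, one_pow]
        · intro h
          exact absurd (Finset.mem_univ z) h
      rw [h2]
      have h := hn w z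
      interval_cases h1 : n w z <;> simp
    simp only [h1]
    rw [Finset.sum_add_distrib, Finset.sum_add_distrib, ← Finset.sum_mul, ← Finset.sum_mul,
      ← Complex.ofReal_sum, ← Complex.ofReal_sum, ← Complex.ofReal_sum]
    have e0 : ∑ w, (if n w z = 0 then W w * 1 else 0) = w1 := h00
    have e1 : ∑ w, (if n w z = 1 then W w * 1 else 0) = w0 := h10
    have e2 : ∑ w, (if n w z = 2 then W w * 1 else 0) = w1 := h20
    rw [e0, e1, e2, hzero, mul_zero]
  refine hst _ (fun x => ?_) hval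
  by_cases hx : x = z
  · rw [if_pos hx, Complex.mul_im]
    change 0 < (|t.re| + 1) / t.im * t.im + 1 * t.re
    rw [div_mul_cancel₀ _ htim.ne', one_mul]
    have := neg_abs_le t.re
    linarith
  · rw [if_neg hx, mul_one]
    change (0 : ℝ) < 1
    exact one_pos

/-- **Theorem 1.** -/
theorem theorem_one {W : Om → ℝ} (hW : ∀ w, 0 ≤ W w) {n : Om → V → ℕ} (hn : ∀ w x, n w x ≤ 2)
    (hdeg : ∀ w, W w ≠ 0 → ∑ x, n w x = Fintype.card V) (ι : Equiv.Perm Om)
    (hWι : ∀ w, W (ι w) = W w) (hnι : ∀ w x, n (ι w) x = 2 - n w x)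
    (hst : ∀ y : V → ℂ, (∀ x, 0 < (y x).im) → ∑ w, (W w : ℂ) * ∏ x, y x ^ n w x ≠ 0)
    (z : V) (a : V → ℝ) (π : V → ℝ) (abar L eps : ℝ)
    (hπ : ∀ x, π x = EA W n z fun w => -((n w z : ℝ) - 1) * ((n w x : ℝ) - 1))
    (habar : abar = ∑ x, π x * (a x - a z)) (hL : L = ∑ x, π x * (a x - a z) ^ 2)
    (heps : eps = Real.sqrt (1 - 2 * sA W n z (fun _ => 1) /
      (sA W n z (fun _ => 1) + sB W n z (fun _ => 1)))) :
    EA W n z (fun w => (∑ x, a x * ((n w x : ℝ) - 1)) ^ 2) -
        EB W n z (fun w => (∑ x, a x * ((n w x : ℝ) - 1)) ^ 2) ≤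
      abar ^ 2 + 2 * eps / (1 + eps ^ 2) * (L - abar ^ 2) := by
  have hst' : RStable (gen W n) := by
    intro y hy
    rw [gen_aeval]
    exact hst y hy
  set w1 : ℝ := Sk W n z 2 (fun _ => 1) with hw1
  set w0 : ℝ := Sk W n z 1 (fun _ => 1) with hw0
  have h00 : Sk W n z 0 (fun _ => 1) = w1 := Sk_symm hn ι hWι hnι z (by norm_num) _
  have hw1n : 0 ≤ w1 := Finset.sum_nonneg fun w _ => by
    split_ifs
    · rw [mul_one]
      exact hW w
    · exact le_rfl
  have hw0n : 0 ≤ w0 := Finset.sum_nonneg fun w _ => by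
    split_ifs
    · rw [mul_one]
      exact hW w
    · exact le_rfl
  have hsA1 : sA W n z (fun _ => 1) = 2 * w1 := by
    rw [sA_eq hn, h00]
    ring
  have hsB1 : sB W n z (fun _ => 1) = w0 := rfl
  have hEBn : 0 ≤ EB W n z (fun w => (∑ x, a x * ((n w x : ℝ) - 1)) ^ 2) := by
    refine div_nonneg (Finset.sum_nonneg fun w _ => ?_) (by rw [hsB1]; exact hw0n)
    split_ifs
    · exact mul_nonneg (hW w) (sq_nonneg _)
    · exact le_rfl
  rcases hw1n.eq_or_lt with h0 | h0
  · -- no charge at `z`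
    have hEA0 : ∀ F, EA W n z F = 0 := by
      intro F
      rw [EA, hsA1, ← h0, mul_zero, div_zero]
    have h1 : abar = 0 := by
      rw [habar]
      refine Finset.sum_eq_zero fun x _ => ?_
      rw [hπ, hEA0, zero_mul]
    have h2 : L = 0 := by
      rw [hL]
      refine Finset.sum_eq_zero fun x _ => ?_
      rw [hπ, hEA0, zero_mul]
    rw [hEA0, h1, h2]
    simp only [zero_sub, ne_eq, OfNat.ofNat_ne_zero, not_false_eq_true, zero_pow, sub_self,
      mul_zero, add_zero]
    linarith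
  -- the shifted coefficients
  set b : V → ℝ := fun x => a x - a z with hb
  have hbz : b z = 0 := sub_self _
  set A : Om → ℝ := fun w => ∑ x, ((n w x : ℝ) - 1) * b x with hA
  set Q : Om → ℝ := fun w => ∑ x, ((n w x : ℝ) - 1) * b x ^ 2 with hQ
  have hjι : ∀ w x, ((n (ι w) x : ℝ) - 1) = -((n w x : ℝ) - 1) := by
    intro w x
    rw [hnι, Nat.cast_sub (hn w x)]
    push_cast
    ring
  have hAι : ∀ w, A (ι w) = -A w := by
    intro w
    simp only [hA]
    rw [← Finset.sum_neg_distrib]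
    refine Finset.sum_congr rfl fun x _ => ?_
    rw [hjι]
    ring
  have hQι : ∀ w, Q (ι w) = -Q w := by
    intro w
    simp only [hQ]
    rw [← Finset.sum_neg_distrib]
    refine Finset.sum_congr rfl fun x _ => ?_
    rw [hjι]
    ring
  have hneg : ∀ (k : ℕ) (F : Om → ℝ), Sk W n z k (fun w => -F w) = -Sk W n z k F := by
    intro k F
    have h := Sk_smul W n z k (-1) F
    have h' : (fun w => -1 * F w) = fun w => -F w := by
      funext w
      ring
    rw [h'] at h
    rw [h]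
    ring
  set al : ℝ := Sk W n z 2 A with hal
  set E2 : ℝ := Sk W n z 2 (fun w => A w ^ 2) with hE2
  set E0 : ℝ := Sk W n z 1 (fun w => A w ^ 2) with hE0
  set la : ℝ := -Sk W n z 2 Q with hla
  have h0A : Sk W n z 0 A = -al := by
    rw [Sk_symm hn ι hWι hnι z (by norm_num) A]
    simp only [hAι]
    exact hneg 2 A
  have h1A : Sk W n z 1 A = 0 := by
    have h := Sk_symm hn ι hWι hnι z (k := 1) (by norm_num) A
    simp only [hAι] at h
    have h' := hneg 1 A
    have h2 : Sk W n z 1 A = -Sk W n z 1 A := h.trans h'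
    linarith
  have h0E : Sk W n z 0 (fun w => A w ^ 2) = E2 := by
    rw [Sk_symm hn ι hWι hnι z (by norm_num) fun w => A w ^ 2]
    simp only [hAι, neg_sq]
    rfl
  have h0L : Sk W n z 0 Q = la := by
    rw [Sk_symm hn ι hWι hnι z (by norm_num) Q]
    simp only [hQι]
    exact hneg 2 Q
  have h1L : Sk W n z 1 Q = 0 := by
    have h := Sk_symm hn ι hWι hnι z (k := 1) (by norm_num) Q
    simp only [hQι] at h
    have h' := hneg 1 Q
    have h2 : Sk W n z 1 Q = -Sk W n z 1 Q := h.trans h'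
    linarith
  have h2L : Sk W n z 2 Q = -la := by
    rw [hla, neg_neg]
  have hle : 2 * w1 ≤ w0 := two_mul_le hn hdeg hst' z w0 w1 h0 hw0n h00 rfl rfl
  have hw0p : 0 < w0 := by linarith
  -- the root
  have heps2 : eps ^ 2 = (w0 - 2 * w1) / (w0 + 2 * w1) := by
    rw [heps, hsA1, hsB1, Real.sq_sqrt]
    · field_simp
      ring
    · rw [sub_nonneg, div_le_one (by positivity)]
      linarith
  have heps0 : 0 ≤ eps := by
    rw [heps]
    exact Real.sqrt_nonneg _
  have heps1 : eps < 1 := by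
    have h1 : eps ^ 2 < 1 := by
      rw [heps2, div_lt_one (by positivity)]
      linarith
    by_contra hc
    have h2 := one_le_pow₀ (not_lt.1 hc) (n := 2)
    linarith only [h1, h2]
  have h1e : 0 < 1 - eps := by linarith
  have h1e' : 0 < 1 + eps := by linarith
  have heq : w1 * (1 + ((1 - eps) / (1 + eps)) ^ 2) = w0 * ((1 - eps) / (1 + eps)) := by
    have h1 : eps ^ 2 * (w0 + 2 * w1) = w0 - 2 * w1 := by
      rw [heps2]
      field_simp
    field_simp
    linear_combination h1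
  have hcore := one_node_core hn hdeg hst' z b hbz w0 w1 al E2 E0 la h0 h00 rfl rfl h0A h1A rfl
    h0E rfl rfl h0L h1L h2L ((1 - eps) / (1 + eps)) (div_pos h1e h1e')
    ((div_le_one h1e').2 (by linarith)) heq
  -- the conditional expectations
  have hsum : ∀ w, W w ≠ 0 → ∑ x, a x * ((n w x : ℝ) - 1) = A w := by
    intro w hw
    have h1 : ∑ x, ((n w x : ℝ) - 1) = 0 := by
      rw [Finset.sum_sub_distrib, ← Nat.cast_sum, hdeg w hw]
      simp
    have h2 : A w = ∑ x, a x * ((n w x : ℝ) - 1) - a z * ∑ x, ((n w x : ℝ) - 1) := by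
      simp only [hA, hb]
      rw [Finset.mul_sum, ← Finset.sum_sub_distrib]
      refine Finset.sum_congr rfl fun x _ => ?_
      ring
    rw [h2, h1, mul_zero, sub_zero]
  have hSk : ∀ k, Sk W n z k (fun w => (∑ x, a x * ((n w x : ℝ) - 1)) ^ 2) =
      Sk W n z k (fun w => A w ^ 2) := by
    intro k
    rw [Sk, Sk]
    refine Finset.sum_congr rfl fun w _ => ?_
    by_cases hw : W w = 0
    · rw [hw, zero_mul, zero_mul]
    · rw [hsum w hw]
  have hEA2 : EA W n z (fun w => (∑ x, a x * ((n w x : ℝ) - 1)) ^ 2) = E2 / w1 := by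
    rw [EA, hsA1, sA_eq hn, hSk, hSk, h0E]
    field_simp
    ring
  have hEB2 : EB W n z (fun w => (∑ x, a x * ((n w x : ℝ) - 1)) ^ 2) = E0 / w0 := by
    rw [EB, hsB1, sB_eq, hSk]
  have hpi : ∀ c : V → ℝ, ∑ x, π x * c x =
      (Sk W n z 0 (fun w => ∑ x, ((n w x : ℝ) - 1) * c x) -
        Sk W n z 2 (fun w => ∑ x, ((n w x : ℝ) - 1) * c x)) / (2 * w1) := by
    intro c
    have h1 : ∀ x, π x * c x = (sA W n z (fun w => -((n w z : ℝ) - 1) *
        (((n w x : ℝ) - 1) * c x))) / (2 * w1) := by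
      intro x
      rw [hπ, EA, hsA1, div_mul_eq_mul_div, sA, sA, Finset.sum_mul]
      congr 1
      refine Finset.sum_congr rfl fun w _ => ?_
      split_ifs
      · ring
      · ring
    simp only [h1]
    rw [← Finset.sum_div]
    congr 1
    simp only [sA, Sk]
    rw [Finset.sum_comm, ← Finset.sum_sub_distrib]
    refine Finset.sum_congr rfl fun w _ => ?_
    have h := hn w z
    have h2 : ∑ x, -((n w z : ℝ) - 1) * (((n w x : ℝ) - 1) * c x) =
        -((n w z : ℝ) - 1) * ∑ x, ((n w x : ℝ) - 1) * c x := by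
      rw [Finset.mul_sum]
    by_cases h3 : n w z = 1
    · simp [h3]
    · simp only [if_neg h3]
      rw [← Finset.mul_sum, h2]
      interval_cases h1 : n w z
      · simp
      · exact absurd rfl h3
      · simp
        ring
  have habar2 : abar = -al / w1 := by
    have h1 := hpi b
    rw [← habar] at h1
    rw [h1]
    change (Sk W n z 0 A - Sk W n z 2 A) / (2 * w1) = _
    rw [h0A]
    field_simp
    ring
  have hL2 : L = la / w1 := by
    have h1 := hpi fun x => b x ^ 2
    rw [← hL] at h1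
    rw [h1]
    change (Sk W n z 0 Q - Sk W n z 2 Q) / (2 * w1) = _
    rw [h0L, h2L]
    field_simp
    ring
  rw [hEA2, hEB2, habar2, hL2]
  set s : ℝ := (1 - eps) / (1 + eps) with hs
  have hs0 : 0 < s := div_pos h1e h1e'
  have hK : 2 * eps / (1 + eps ^ 2) = (1 - s ^ 2) / (1 + s ^ 2) := by
    rw [hs, div_eq_div_iff (by positivity) (by positivity)]
    field_simp
    ring
  have hw0s : w0 = w1 * (1 + s ^ 2) / s := by
    rw [eq_div_iff hs0.ne', ← heq]
  rw [hK, hw0s]
  have h5 : 0 < w1 * (1 + s ^ 2) := by positivity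
  have h6 : E2 / w1 - E0 / (w1 * (1 + s ^ 2) / s) =
      (E2 * (1 + s ^ 2) - s * E0) / (w1 * (1 + s ^ 2)) := by
    field_simp
  have h7 : (-al / w1) ^ 2 + (1 - s ^ 2) / (1 + s ^ 2) * (la / w1 - (-al / w1) ^ 2) =
      (la * (1 - s ^ 2) + 2 * s ^ 2 * al ^ 2 / w1) / (w1 * (1 + s ^ 2)) := by
    field_simp
    ring
  rw [h6, h7]
  exact div_le_div_of_nonneg_right (by linarith) h5.le

end thm

end Vale.Agent.P361.LRO.T1
end

section

/-!
P361, bridge: the partition function of the physical circuit is the trace of a product of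
matrices on `V → Fin 2`.
-/

namespace Vale.Agent.P361.LRO.Br

open Finset Matrix

noncomputable section

section chain

variable {Y : Type} [Fintype Y] [DecidableEq Y] {R : Type} [CommRing R]

/-- Expansion of a product of matrices. -/
theorem chain : ∀ (n : ℕ) (M : Fin n → Matrix Y Y R) (b : Y) (g : Y → R),
    ∑ t : Fin n → Y, (∏ k : Fin n, M k (t k) ((Fin.cons b t : Fin (n + 1) → Y) k.castSucc)) *
      g ((Fin.cons b t : Fin (n + 1) → Y) (Fin.last n)) =
    ∑ a, g a * ((List.ofFn M).reverse).prod a b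
  | 0, M, b, g => by
    simp only [List.ofFn_zero, List.reverse_nil, List.prod_nil, Finset.univ_unique,
      Finset.sum_singleton, Finset.univ_eq_empty, Finset.prod_empty, one_mul]
    rw [Finset.sum_eq_single b]
    · simp
    · intro a _ h
      rw [Matrix.one_apply_ne h, mul_zero]
    · intro h
      exact absurd (Finset.mem_univ b) h
  | n + 1, M, b, g => by
    rw [← (Fin.consEquiv fun _ : Fin (n + 1) => Y).sum_comp, Fintype.sum_prod_type]
    have h : ∀ t₀ : Y, ∑ t' : Fin n → Y, (∏ k : Fin (n + 1), M k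
        ((Fin.consEquiv (fun _ : Fin (n + 1) => Y)) (t₀, t') k)
        ((Fin.cons b ((Fin.consEquiv (fun _ : Fin (n + 1) => Y)) (t₀, t')) :
          Fin (n + 2) → Y) k.castSucc)) *
        g ((Fin.cons b ((Fin.consEquiv (fun _ : Fin (n + 1) => Y)) (t₀, t')) :
          Fin (n + 2) → Y) (Fin.last (n + 1))) =
        M 0 t₀ b * ∑ a, g a * ((List.ofFn fun k : Fin n => M k.succ).reverse).prod a t₀ := by
      intro t₀
      rw [← chain n (fun k => M k.succ) t₀ g, Finset.mul_sum]
      refine Finset.sum_congr rfl fun t' _ => ?_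
      rw [Fin.prod_univ_succ, ← mul_assoc]
      congr 1
    rw [Finset.sum_congr rfl fun t₀ _ => h t₀, List.ofFn_succ, List.reverse_cons, List.prod_append,
      List.prod_singleton]
    simp only [Matrix.mul_apply, Finset.mul_sum]
    rw [Finset.sum_comm]
    refine Finset.sum_congr rfl fun a _ => Finset.sum_congr rfl fun t₀ _ => ?_
    ring

/-- Cyclic products. -/
theorem cyclic (n : ℕ) (M : Fin (n + 1) → Matrix Y Y R) :
    ∑ s : Fin (n + 1) → Y, ∏ k, M k (s k) (s (k - 1)) =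
      Matrix.trace (M 0 * ((List.ofFn fun k : Fin n => M k.succ).reverse).prod) := by
  rw [← (Fin.consEquiv fun _ : Fin (n + 1) => Y).sum_comp, Fintype.sum_prod_type, Matrix.trace]
  refine Finset.sum_congr rfl fun b _ => ?_
  rw [Matrix.diag_apply, Matrix.mul_apply, ← chain n (fun k => M k.succ) b fun a => M 0 b a]
  refine Finset.sum_congr rfl fun t _ => ?_
  rw [Fin.prod_univ_succ, mul_comm]
  congr 1
  · refine Finset.prod_congr rfl fun k _ => ?_
    have h : k.succ - 1 = k.castSucc := by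
      rw [← Fin.coeSucc_eq_succ, add_sub_cancel_right]
    rw [h]
    rfl
  · have h : (0 : Fin (n + 1)) - 1 = Fin.last n := by
      rw [sub_eq_iff_eq_add]
      simp
    rw [h]
    rfl

end chain

end

end Vale.Agent.P361.LRO.Br
end

section

/-!
# P361, block GEO, part 1: block averages in one direction

Everything here is finite combinatorics: `pav s g a` is the average of `g` over the block of
length `s` containing `a`, and tripling the block length costs at most `9 s ^ 2` times the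
Dirichlet energy of the line.
-/

namespace Vale.Agent.P361.LRO.Geo

open Finset

/-- average of `g` over the block of length `s` containing `a` -/
noncomputable def pav (s : ℕ) (g : ℕ → ℝ) (a : ℕ) : ℝ :=
  (∑ j ∈ range s, g (s * (a / s) + j)) / s

/-- energy of the line `0, .., n - 1` -/
noncomputable def len (n : ℕ) (g : ℕ → ℝ) : ℝ :=
  ∑ a ∈ range n, if a + 1 < n then (g (a + 1) - g a) ^ 2 else 0

/-- oscillation on a segment is controlled by its energy -/
lemma osc_le (g : ℕ → ℝ) (c m i j : ℕ) (hij : i ≤ j) (hj : j < m) :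
    (g (c + j) - g (c + i)) ^ 2 ≤
      m * ∑ r ∈ range m, if r + 1 < m then (g (c + r + 1) - g (c + r)) ^ 2 else 0 := by
  have h1 : g (c + j) - g (c + i) = ∑ r ∈ Ico i j, (g (c + r + 1) - g (c + r)) := by
    have := Finset.sum_Ico_consecutive (fun r => (g (c + r + 1) - g (c + r)))
      (Nat.zero_le i) hij
    have h2 : ∀ k, ∑ r ∈ Ico 0 k, (g (c + r + 1) - g (c + r)) = g (c + k) - g c := by
      intro k
      rw [← Finset.range_eq_Ico]
      have := Finset.sum_range_sub (fun r => g (c + r)) k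
      simpa [add_assoc] using this
    rw [h2, h2] at this
    linarith
  rw [h1]
  have hcard : ((Ico i j).card : ℝ) ≤ m := by
    rw [Nat.card_Ico]
    exact_mod_cast (Nat.sub_le j i).trans hj.le
  calc (∑ r ∈ Ico i j, (g (c + r + 1) - g (c + r))) ^ 2
      ≤ (Ico i j).card * ∑ r ∈ Ico i j, (g (c + r + 1) - g (c + r)) ^ 2 :=
        sq_sum_le_card_mul_sum_sq
    _ ≤ m * ∑ r ∈ range m, if r + 1 < m then (g (c + r + 1) - g (c + r)) ^ 2 else 0 := by
        refine mul_le_mul hcard ?_ (Finset.sum_nonneg fun _ _ => sq_nonneg _) (Nat.cast_nonneg _)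
        have h3 : ∑ r ∈ Ico i j, (g (c + r + 1) - g (c + r)) ^ 2
            = ∑ r ∈ Ico i j, if r + 1 < m then (g (c + r + 1) - g (c + r)) ^ 2 else 0 := by
          refine Finset.sum_congr rfl fun r hr => ?_
          rw [Finset.mem_Ico] at hr
          rw [if_pos (by omega)]
        rw [h3]
        refine Finset.sum_le_sum_of_subset_of_nonneg ?_ fun r _ _ => ?_
        · intro r hr
          rw [Finset.mem_Ico] at hr
          rw [Finset.mem_range]
          omega
        · split_ifs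
          · exact sq_nonneg _
          · exact le_rfl

lemma avg_sub_sq_le {m n : ℕ} (hm : 0 < m) (hn : 0 < n) (u v : ℕ → ℝ) (B : ℝ)
    (h : ∀ i < m, ∀ j < n, (u i - v j) ^ 2 ≤ B) :
    ((∑ i ∈ range m, u i) / m - (∑ j ∈ range n, v j) / n) ^ 2 ≤ B := by
  have hB : 0 ≤ B := le_trans (sq_nonneg _) (h 0 hm 0 hn)
  have hm' : (0 : ℝ) < m := by exact_mod_cast hm
  have hn' : (0 : ℝ) < n := by exact_mod_cast hn
  have key : (∑ i ∈ range m, u i) / m - (∑ j ∈ range n, v j) / n
      = (∑ i ∈ range m, ∑ j ∈ range n, (u i - v j)) / (m * n) := by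
    have : ∑ i ∈ range m, ∑ j ∈ range n, (u i - v j)
        = n * ∑ i ∈ range m, u i - m * ∑ j ∈ range n, v j := by
      simp only [Finset.sum_sub_distrib, Finset.sum_const, card_range, nsmul_eq_mul,
        Finset.mul_sum]
    rw [this]
    field_simp
  rw [key]
  have habs : |(∑ i ∈ range m, ∑ j ∈ range n, (u i - v j)) / ((m : ℝ) * n)| ≤ √B := by
    rw [abs_div, abs_of_pos (mul_pos hm' hn'), div_le_iff₀ (mul_pos hm' hn')]
    calc |∑ i ∈ range m, ∑ j ∈ range n, (u i - v j)|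
        ≤ ∑ i ∈ range m, |∑ j ∈ range n, (u i - v j)| := Finset.abs_sum_le_sum_abs _ _
      _ ≤ ∑ i ∈ range m, ∑ j ∈ range n, |u i - v j| :=
          Finset.sum_le_sum fun i _ => Finset.abs_sum_le_sum_abs _ _
      _ ≤ ∑ i ∈ range m, ∑ j ∈ range n, √B := by
          refine Finset.sum_le_sum fun i hi => Finset.sum_le_sum fun j hj => ?_
          rw [Finset.mem_range] at hi hj
          exact Real.abs_le_sqrt (h i hi j hj)
      _ = √B * (m * n) := by
          simp only [Finset.sum_const, card_range, nsmul_eq_mul]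
          ring
  calc ((∑ i ∈ range m, ∑ j ∈ range n, (u i - v j)) / ((m : ℝ) * n)) ^ 2
      = |(∑ i ∈ range m, ∑ j ∈ range n, (u i - v j)) / ((m : ℝ) * n)| ^ 2 := (sq_abs _).symm
    _ ≤ (√B) ^ 2 := pow_le_pow_left₀ (abs_nonneg _) habs 2
    _ = B := Real.sq_sqrt hB

/-- pointwise bound for tripling a block -/
lemma pav_step_pt {s : ℕ} (hs : 0 < s) (g : ℕ → ℝ) (a : ℕ) :
    (pav (3 * s) g a - pav s g a) ^ 2 ≤
      (3 * s : ℕ) * ∑ r ∈ range (3 * s), if r + 1 < 3 * s then
        (g (3 * s * (a / (3 * s)) + r + 1) - g (3 * s * (a / (3 * s)) + r)) ^ 2 else 0 := by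
  unfold pav
  set c := 3 * s * (a / (3 * s)) with hc
  have h3s : 0 < 3 * s := by omega
  -- the small block starts at `c + k`
  obtain ⟨k, hk, hk2⟩ : ∃ k, s * (a / s) = c + k ∧ k + s ≤ 3 * s := by
    have h1 : a / (3 * s) = a / s / 3 := by
      rw [mul_comm, Nat.div_div_eq_div_mul]
    have h2 : a / s = 3 * (a / s / 3) + (a / s) % 3 := (Nat.div_add_mod _ _).symm
    have h4 : (a / s) % 3 < 3 := Nat.mod_lt _ (by norm_num)
    refine ⟨s * ((a / s) % 3), ?_, ?_⟩
    · rw [hc, h1]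
      conv_lhs => rw [h2]
      ring
    · have : s * (a / s % 3) ≤ s * 2 := Nat.mul_le_mul_left _ (by omega)
      omega
  rw [hk]
  refine avg_sub_sq_le h3s hs (fun i => g (c + i)) (fun j => g (c + k + j)) _ ?_
  intro i hi j hj
  rw [add_assoc c k j]
  rcases le_total i (k + j) with h | h
  · have := osc_le g c (3 * s) i (k + j) h (by omega)
    rw [← neg_sq, neg_sub]
    exact this
  · exact osc_le g c (3 * s) (k + j) i h hi

/-- sum over a range of a block function -/
lemma sum_range_blocks (m q : ℕ) (F : ℕ → ℝ) :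
    ∑ a ∈ range (m * q), F a = ∑ t ∈ range q, ∑ r ∈ range m, F (m * t + r) := by
  induction q with
  | zero => simp
  | succ q ih =>
      rw [Nat.mul_succ, Finset.sum_range_succ, ← ih, Finset.sum_range_add]

lemma sum_pav {s : ℕ} (hs : 0 < s) (q : ℕ) (g : ℕ → ℝ) :
    ∑ a ∈ range (s * q), pav s g a = ∑ a ∈ range (s * q), g a := by
  rw [sum_range_blocks, sum_range_blocks]
  refine Finset.sum_congr rfl fun t _ => ?_
  have hs' : (0 : ℝ) < s := by exact_mod_cast hs
  have : ∀ r ∈ range s, pav s g (s * t + r) = (∑ j ∈ range s, g (s * t + j)) / s := by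
    intro r hr
    rw [Finset.mem_range] at hr
    unfold pav
    have : (s * t + r) / s = t := by
      rw [Nat.mul_add_div hs, Nat.div_eq_of_lt hr, add_zero]
    rw [this]
  rw [Finset.sum_congr rfl this, Finset.sum_const, card_range, nsmul_eq_mul]
  field_simp

lemma pav_sq_le {s : ℕ} (hs : 0 < s) (g : ℕ → ℝ) (a : ℕ) :
    (pav s g a) ^ 2 ≤ pav s (fun x => g x ^ 2) a := by
  unfold pav
  have hs' : (0 : ℝ) < s := by exact_mod_cast hs
  rw [div_pow, div_le_div_iff₀ (by positivity) hs']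
  have := sq_sum_le_card_mul_sum_sq (s := range s) (f := fun j => g (s * (a / s) + j))
  rw [card_range] at this
  nlinarith [this, hs']

/-- tripling the block length: the one dimensional estimate -/
lemma pav_step_sum {s : ℕ} (hs : 0 < s) (q : ℕ) (g : ℕ → ℝ) :
    ∑ a ∈ range (3 * s * q), (pav (3 * s) g a - pav s g a) ^ 2 ≤
      9 * (s : ℝ) ^ 2 * len (3 * s * q) g := by
  set m := 3 * s with hm
  have hm0 : 0 < m := by omega
  have h1 : ∑ a ∈ range (m * q), (pav m g a - pav s g a) ^ 2 ≤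
      ∑ a ∈ range (m * q), (m : ℝ) * ∑ r ∈ range m, (if r + 1 < m then
        (g (m * (a / m) + r + 1) - g (m * (a / m) + r)) ^ 2 else 0) := by
    refine Finset.sum_le_sum fun a _ => ?_
    have := pav_step_pt hs g a
    simpa [hm] using this
  refine h1.trans ?_
  rw [sum_range_blocks]
  have h2 : ∀ t ∈ range q, ∑ r' ∈ range m, (m : ℝ) * ∑ r ∈ range m, (if r + 1 < m then
        (g (m * ((m * t + r') / m) + r + 1) - g (m * ((m * t + r') / m) + r)) ^ 2 else 0)
      = (m : ℝ) * m * ∑ r ∈ range m, (if r + 1 < m then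
        (g (m * t + r + 1) - g (m * t + r)) ^ 2 else 0) := by
    intro t _
    have : ∀ r' ∈ range m, (m : ℝ) * ∑ r ∈ range m, (if r + 1 < m then
        (g (m * ((m * t + r') / m) + r + 1) - g (m * ((m * t + r') / m) + r)) ^ 2 else 0)
        = (m : ℝ) * ∑ r ∈ range m, (if r + 1 < m then
        (g (m * t + r + 1) - g (m * t + r)) ^ 2 else 0) := by
      intro r' hr'
      rw [Finset.mem_range] at hr'
      have : (m * t + r') / m = t := by
        rw [Nat.mul_add_div hm0, Nat.div_eq_of_lt hr', add_zero]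
      rw [this]
    rw [Finset.sum_congr rfl this, Finset.sum_const, card_range, nsmul_eq_mul]
    ring
  rw [Finset.sum_congr rfl h2, ← Finset.mul_sum]
  have h3 : ∑ t ∈ range q, ∑ r ∈ range m, (if r + 1 < m then
        (g (m * t + r + 1) - g (m * t + r)) ^ 2 else 0) ≤ len (m * q) g := by
    unfold len
    rw [sum_range_blocks]
    refine Finset.sum_le_sum fun t ht => Finset.sum_le_sum fun r hr => ?_
    rw [Finset.mem_range] at ht hr
    by_cases h : r + 1 < m
    · rw [if_pos h]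
      have : m * t + r + 1 < m * q := by
        have : m * (t + 1) ≤ m * q := Nat.mul_le_mul_left _ ht
        rw [Nat.mul_succ] at this
        omega
      rw [if_pos this]
    · rw [if_neg h]
      split_ifs
      · exact sq_nonneg _
      · exact le_rfl
  have h4 : (m : ℝ) * m = 9 * (s : ℝ) ^ 2 := by
    rw [hm]; push_cast; ring
  rw [h4]
  exact mul_le_mul_of_nonneg_left h3 (by positivity)

end Vale.Agent.P361.LRO.Geo
end

section

/-!
# P361, block GEO, part 2: block averages in four directions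
-/

namespace Vale.Agent.P361.LRO.Geo

open Finset Function

/-- space-time points: coordinates `0, 1, 2` space, `3` the number of the time window -/
abbrev Pt := Fin 4 → ℕ

/-- the box with side vector `N` -/
def box (N : Fin 4 → ℕ) : Finset Pt := Fintype.piFinset fun i => range (N i)

lemma mem_box {N : Fin 4 → ℕ} {x : Pt} : x ∈ box N ↔ ∀ i, x i < N i := by
  simp [box, Fintype.mem_piFinset]

lemma update_mem_box {N : Fin 4 → ℕ} {x : Pt} (hx : x ∈ box N) {i : Fin 4} {a : ℕ}
    (ha : a < N i) : update x i a ∈ box N := by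
  rw [mem_box] at hx ⊢
  intro j
  by_cases h : j = i
  · subst h; simpa using ha
  · simpa [update_of_ne h] using hx j

/-- block average in direction `i` -/
noncomputable def P (i : Fin 4) (s : ℕ) (f : Pt → ℝ) : Pt → ℝ :=
  fun x => pav s (fun a => f (update x i a)) (x i)

/-- Dirichlet energy in direction `i` -/
noncomputable def en (i : Fin 4) (N : Fin 4 → ℕ) (f : Pt → ℝ) : ℝ :=
  ∑ x ∈ box N, if x i + 1 < N i then (f (update x i (x i + 1)) - f x) ^ 2 else 0

lemma en_nonneg (i : Fin 4) (N : Fin 4 → ℕ) (f : Pt → ℝ) : 0 ≤ en i N f := by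
  refine Finset.sum_nonneg fun x _ => ?_
  split_ifs
  · exact sq_nonneg _
  · exact le_rfl

lemma sum_lines (N : Fin 4 → ℕ) (i : Fin 4) (F : Pt → ℝ) :
    (N i : ℝ) * ∑ x ∈ box N, F x = ∑ x ∈ box N, ∑ a ∈ range (N i), F (update x i a) := by
  rw [← Finset.sum_product']
  have h1 : (N i : ℝ) * ∑ x ∈ box N, F x = ∑ p ∈ box N ×ˢ range (N i), F p.1 := by
    rw [Finset.sum_product]
    simp only [Finset.sum_const, card_range, nsmul_eq_mul, Finset.mul_sum]
  rw [h1]
  refine Finset.sum_bij' (fun p _ => (update p.1 i p.2, p.1 i))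
    (fun p _ => (update p.1 i p.2, p.1 i)) ?_ ?_ ?_ ?_ ?_
  · intro p hp
    rw [Finset.mem_product, Finset.mem_range] at hp ⊢
    exact ⟨update_mem_box hp.1 hp.2, (mem_box.1 hp.1) i⟩
  · intro p hp
    rw [Finset.mem_product, Finset.mem_range] at hp ⊢
    exact ⟨update_mem_box hp.1 hp.2, (mem_box.1 hp.1) i⟩
  · intro p hp
    simp
  · intro p hp
    simp
  · intro p hp
    simp

lemma sum_le_of_lines (N : Fin 4 → ℕ) (i : Fin 4) (F G : Pt → ℝ)
    (h : ∀ x ∈ box N, ∑ a ∈ range (N i), F (update x i a) ≤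
      ∑ a ∈ range (N i), G (update x i a)) :
    ∑ x ∈ box N, F x ≤ ∑ x ∈ box N, G x := by
  rcases Nat.eq_zero_or_pos (N i) with h0 | h0
  · have : box N = ∅ := by
      rw [Finset.eq_empty_iff_forall_notMem]
      intro x hx
      have := (mem_box.1 hx) i
      omega
    rw [this]; simp
  · have h1 : (0 : ℝ) < N i := by exact_mod_cast h0
    have h2 := Finset.sum_le_sum h
    rw [← sum_lines, ← sum_lines] at h2
    exact le_of_mul_le_mul_left h2 h1

lemma P_update (i : Fin 4) (s : ℕ) (f : Pt → ℝ) (x : Pt) (a : ℕ) :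
    P i s f (update x i a) = pav s (fun b => f (update x i b)) a := by
  simp [P]

lemma P_step_sum (N : Fin 4 → ℕ) (i : Fin 4) {s : ℕ} (hs : 0 < s) (hN : 3 * s ∣ N i)
    (g : Pt → ℝ) :
    ∑ x ∈ box N, (P i (3 * s) g x - P i s g x) ^ 2 ≤ 9 * (s : ℝ) ^ 2 * en i N g := by
  unfold en
  rw [Finset.mul_sum]
  refine sum_le_of_lines N i _ _ fun x _ => ?_
  simp only [P_update, update_self, update_idem]
  obtain ⟨q, hq⟩ := hN
  have := pav_step_sum hs q (fun b => g (update x i b))
  rw [hq, ← Finset.mul_sum]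
  unfold len at this
  exact this

lemma P_diff (i j : Fin 4) (hij : i ≠ j) (s : ℕ) (f : Pt → ℝ) (x : Pt) :
    P j s f (update x i (x i + 1)) - P j s f x =
      P j s (fun y => f (update y i (y i + 1)) - f y) x := by
  unfold P pav
  simp only [update_of_ne hij, update_of_ne hij.symm, ← sub_div, ← Finset.sum_sub_distrib]
  congr 1
  refine Finset.sum_congr rfl fun a _ => ?_
  rw [update_comm hij]

lemma P_sq_le (j : Fin 4) {s : ℕ} (hs : 0 < s) (g : Pt → ℝ) (x : Pt) :
    (P j s g x) ^ 2 ≤ P j s (fun y => g y ^ 2) x :=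
  pav_sq_le hs _ _

/-- averaging in another direction does not increase the energy -/
lemma en_P_le (N : Fin 4 → ℕ) (i j : Fin 4) (hij : i ≠ j) {s : ℕ} (hs : 0 < s)
    (hN : s ∣ N j) (f : Pt → ℝ) : en i N (P j s f) ≤ en i N f := by
  unfold en
  have h1 : ∀ x ∈ box N, (if x i + 1 < N i then
        (P j s f (update x i (x i + 1)) - P j s f x) ^ 2 else 0) ≤
      if x i + 1 < N i then P j s (fun y => (f (update y i (y i + 1)) - f y) ^ 2) x else 0 := by
    intro x _
    split_ifs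
    · rw [P_diff i j hij]
      exact P_sq_le j hs _ x
    · exact le_rfl
  refine (Finset.sum_le_sum h1).trans ?_
  refine sum_le_of_lines N j _ _ fun x _ => ?_
  simp only [P_update, update_of_ne hij]
  obtain ⟨q, hq⟩ := hN
  by_cases h : x i + 1 < N i
  · simp only [if_pos h]
    rw [hq, sum_pav hs q (fun b => (f (update (update x j b) i (x i + 1))
      - f (update x j b)) ^ 2)]
  · simp only [if_neg h]
    exact le_rfl

lemma P_comm (i j : Fin 4) (hij : i ≠ j) (s t : ℕ) (f : Pt → ℝ) :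
    P i s (P j t f) = P j t (P i s f) := by
  funext x
  unfold P pav
  simp only [update_of_ne hij, update_of_ne hij.symm, Finset.sum_div]
  rw [Finset.sum_comm]
  refine Finset.sum_congr rfl fun a _ => Finset.sum_congr rfl fun b _ => ?_
  rw [update_comm hij, div_right_comm]

/-- invariance of `f` under changes of coordinate `i` inside blocks of length `s` -/
def Inv (i : Fin 4) (s : ℕ) (f : Pt → ℝ) : Prop :=
  ∀ x c, c / s = x i / s → f (update x i c) = f x

lemma Inv_P (i : Fin 4) (s : ℕ) (f : Pt → ℝ) : Inv i s (P i s f) := by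
  intro x c h
  unfold P pav
  simp only [update_self, update_idem, h]

lemma Inv_sub {i : Fin 4} {s : ℕ} {f g : Pt → ℝ} (hf : Inv i s f) (hg : Inv i s g) :
    Inv i s (fun x => f x - g x) := by
  intro x c hc
  simp only
  rw [hf x c hc, hg x c hc]

lemma Inv_mono {i : Fin 4} {s t : ℕ} {f : Pt → ℝ} (hf : Inv i (t * s) f) :
    Inv i s f := by
  intro x c hc
  refine hf x c ?_
  rw [mul_comm, ← Nat.div_div_eq_div_mul, ← Nat.div_div_eq_div_mul, hc]

lemma Inv_all {κ : Fin 4 → ℕ} {f : Pt → ℝ} (h : ∀ i, Inv i (κ i) f) {x y : Pt}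
    (hxy : ∀ i, y i / κ i = x i / κ i) : f y = f x := by
  have h1 : y = update (update (update (update x 0 (y 0)) 1 (y 1)) 2 (y 2)) 3 (y 3) := by
    funext j
    fin_cases j <;> simp [update]
  rw [h1, h 3 _ _ (by simpa [update] using hxy 3), h 2 _ _ (by simpa [update] using hxy 2),
    h 1 _ _ (by simpa [update] using hxy 1), h 0 _ _ (by simpa [update] using hxy 0)]

/-- sup bound for a function which is constant on the blocks -/
lemma sq_le_of_Inv {N κ : Fin 4 → ℕ} (hκ : ∀ i, 0 < κ i) (hN : ∀ i, κ i ∣ N i) {D : Pt → ℝ}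
    (h : ∀ i, Inv i (κ i) D) {x : Pt} (hx : x ∈ box N) :
    (D x) ^ 2 * (∏ i, (κ i : ℝ)) ≤ ∑ y ∈ box N, (D y) ^ 2 := by
  set B : Finset Pt := Fintype.piFinset fun i => Ico (κ i * (x i / κ i)) (κ i * (x i / κ i) + κ i)
    with hB
  have hcard : (B.card : ℝ) = ∏ i, (κ i : ℝ) := by
    rw [hB, Fintype.card_piFinset]
    simp
  have hsub : B ⊆ box N := by
    intro y hy
    rw [hB, Fintype.mem_piFinset] at hy
    rw [mem_box]
    intro i
    have h1 := hy i
    rw [Finset.mem_Ico] at h1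
    obtain ⟨q, hq⟩ := hN i
    have h2 := (mem_box.1 hx) i
    have h3 : x i / κ i < q := by
      rw [Nat.div_lt_iff_lt_mul (hκ i), mul_comm, ← hq]
      exact h2
    have h4 : κ i * (x i / κ i) + κ i ≤ N i := by
      rw [hq, ← Nat.mul_succ]
      exact Nat.mul_le_mul_left _ h3
    omega
  have hval : ∀ y ∈ B, (D y) ^ 2 = (D x) ^ 2 := by
    intro y hy
    rw [hB, Fintype.mem_piFinset] at hy
    rw [Inv_all h (x := x) (y := y)]
    intro i
    have h1 := hy i
    rw [Finset.mem_Ico] at h1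
    rw [Nat.div_eq_iff (hκ i)]
    have := hκ i
    constructor
    · rw [mul_comm]; exact h1.1
    · rw [mul_comm (x i / κ i)]; omega
  calc (D x) ^ 2 * (∏ i, (κ i : ℝ)) = ∑ y ∈ B, (D y) ^ 2 := by
        rw [Finset.sum_congr rfl hval, Finset.sum_const, nsmul_eq_mul, hcard, mul_comm]
    _ ≤ ∑ y ∈ box N, (D y) ^ 2 :=
        Finset.sum_le_sum_of_subset_of_nonneg hsub fun _ _ _ => sq_nonneg _

/-- block average with side vector `κ` -/
noncomputable def A (κ : Fin 4 → ℕ) (f : Pt → ℝ) : Pt → ℝ :=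
  P 0 (κ 0) (P 1 (κ 1) (P 2 (κ 2) (P 3 (κ 3) f)))

lemma A_split (κ : Fin 4 → ℕ) (f : Pt → ℝ) (i : Fin 4) :
    ∃ g : Pt → ℝ, (∀ t, A (update κ i t) f = P i t g) ∧
      (∀ N : Fin 4 → ℕ, (∀ j, 0 < κ j) → (∀ j, j ≠ i → κ j ∣ N j) → en i N g ≤ en i N f) := by
  fin_cases i
  · refine ⟨P 1 (κ 1) (P 2 (κ 2) (P 3 (κ 3) f)), fun t => ?_, fun N h0 h => ?_⟩
    · simp [A, update]
    · refine (en_P_le N 0 1 (by decide) (h0 1) (h 1 (by decide)) _).trans ?_
      refine (en_P_le N 0 2 (by decide) (h0 2) (h 2 (by decide)) _).trans ?_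
      exact en_P_le N 0 3 (by decide) (h0 3) (h 3 (by decide)) _
  · refine ⟨P 0 (κ 0) (P 2 (κ 2) (P 3 (κ 3) f)), fun t => ?_, fun N h0 h => ?_⟩
    · simp only [A]
      simp only [update, Fin.reduceEq, Fin.isValue, Fin.mk_one, dite_true, dite_false,
        eq_rec_constant]
      rw [P_comm 0 1 (by decide)]
    · refine (en_P_le N 1 0 (by decide) (h0 0) (h 0 (by decide)) _).trans ?_
      refine (en_P_le N 1 2 (by decide) (h0 2) (h 2 (by decide)) _).trans ?_
      exact en_P_le N 1 3 (by decide) (h0 3) (h 3 (by decide)) _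
  · refine ⟨P 0 (κ 0) (P 1 (κ 1) (P 3 (κ 3) f)), fun t => ?_, fun N h0 h => ?_⟩
    · simp only [A]
      simp only [update, Fin.reduceEq, Fin.isValue, Fin.reduceFinMk, dite_true, dite_false,
        eq_rec_constant]
      rw [P_comm 1 2 (by decide), P_comm 0 2 (by decide)]
    · refine (en_P_le N 2 0 (by decide) (h0 0) (h 0 (by decide)) _).trans ?_
      refine (en_P_le N 2 1 (by decide) (h0 1) (h 1 (by decide)) _).trans ?_
      exact en_P_le N 2 3 (by decide) (h0 3) (h 3 (by decide)) _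
  · refine ⟨P 0 (κ 0) (P 1 (κ 1) (P 2 (κ 2) f)), fun t => ?_, fun N h0 h => ?_⟩
    · simp only [A]
      simp only [update, Fin.reduceEq, Fin.isValue, Fin.reduceFinMk, dite_true, dite_false,
        eq_rec_constant]
      rw [P_comm 2 3 (by decide), P_comm 1 3 (by decide), P_comm 0 3 (by decide)]
    · refine (en_P_le N 3 0 (by decide) (h0 0) (h 0 (by decide)) _).trans ?_
      refine (en_P_le N 3 1 (by decide) (h0 1) (h 1 (by decide)) _).trans ?_
      exact en_P_le N 3 2 (by decide) (h0 2) (h 2 (by decide)) _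

lemma A_Inv (κ : Fin 4 → ℕ) (f : Pt → ℝ) (i : Fin 4) : Inv i (κ i) (A κ f) := by
  obtain ⟨g, hg, -⟩ := A_split κ f i
  have := hg (κ i)
  rw [update_eq_self] at this
  rw [this]
  exact Inv_P i (κ i) g

/-- one tripling step, `L²` bound -/
lemma A_step_sum (N κ : Fin 4 → ℕ) (i : Fin 4) (h0 : ∀ j, 0 < κ j)
    (hN : ∀ j, j ≠ i → κ j ∣ N j) (hi : 3 * κ i ∣ N i) (f : Pt → ℝ) :
    ∑ x ∈ box N, (A (update κ i (3 * κ i)) f x - A κ f x) ^ 2 ≤
      9 * (κ i : ℝ) ^ 2 * en i N f := by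
  obtain ⟨g, hg, hen⟩ := A_split κ f i
  have h1 := hg (3 * κ i)
  have h2 := hg (κ i)
  rw [update_eq_self] at h2
  rw [h1, h2]
  refine (P_step_sum N i (h0 i) hi g).trans ?_
  exact mul_le_mul_of_nonneg_left (hen N h0 hN) (by positivity)

end Vale.Agent.P361.LRO.Geo
end

section

/-!
# P361, block GEO, part 3: Poincaré inequality on boxes, chaining of block averages, and the
count of points where a function of small energy exceeds its mean.
-/

namespace Vale.Agent.P361.LRO.Geo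

open Finset Function

/-! ## One dimensional Poincaré inequality -/

lemma pav_sub_pt {s : ℕ} (hs : 0 < s) (g : ℕ → ℝ) (a : ℕ) :
    (pav s g a - g a) ^ 2 ≤ s * ∑ r ∈ range s, if r + 1 < s then
        (g (s * (a / s) + r + 1) - g (s * (a / s) + r)) ^ 2 else 0 := by
  unfold pav
  set c := s * (a / s) with hc
  have ha : a = c + a % s := (Nat.div_add_mod a s).symm
  have hmod := Nat.mod_lt a hs
  have key : ∀ i < s, ∀ j < 1, (g (c + i) - (fun _ : ℕ => g a) j) ^ 2 ≤
      s * ∑ r ∈ range s, if r + 1 < s then (g (c + r + 1) - g (c + r)) ^ 2 else 0 := by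
    intro i hi j _
    rcases le_total i (a % s) with h | h
    · have := osc_le g c s i (a % s) h hmod
      rw [← ha] at this
      rw [← neg_sq, neg_sub]
      exact this
    · have := osc_le g c s (a % s) i h hi
      rw [← ha] at this
      exact this
  have := avg_sub_sq_le hs (n := 1) one_pos (fun i => g (c + i)) (fun _ => g a) _ key
  simpa using this

lemma sum_block_energy {m : ℕ} (hm0 : 0 < m) (q : ℕ) (g : ℕ → ℝ) :
    ∑ a ∈ range (m * q), ((m : ℝ) * ∑ r ∈ range m, if r + 1 < m then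
        (g (m * (a / m) + r + 1) - g (m * (a / m) + r)) ^ 2 else 0) ≤
      (m : ℝ) ^ 2 * len (m * q) g := by
  rw [sum_range_blocks]
  have h2 : ∀ t ∈ range q, ∑ r' ∈ range m, ((m : ℝ) * ∑ r ∈ range m, if r + 1 < m then
        (g (m * ((m * t + r') / m) + r + 1) - g (m * ((m * t + r') / m) + r)) ^ 2 else 0)
      = (m : ℝ) ^ 2 * ∑ r ∈ range m, (if r + 1 < m then
        (g (m * t + r + 1) - g (m * t + r)) ^ 2 else 0) := by
    intro t _
    have : ∀ r' ∈ range m, ((m : ℝ) * ∑ r ∈ range m, if r + 1 < m then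
        (g (m * ((m * t + r') / m) + r + 1) - g (m * ((m * t + r') / m) + r)) ^ 2 else 0)
        = (m : ℝ) * ∑ r ∈ range m, (if r + 1 < m then
        (g (m * t + r + 1) - g (m * t + r)) ^ 2 else 0) := by
      intro r' hr'
      rw [Finset.mem_range] at hr'
      have : (m * t + r') / m = t := by
        rw [Nat.mul_add_div hm0, Nat.div_eq_of_lt hr', add_zero]
      rw [this]
    rw [Finset.sum_congr rfl this, Finset.sum_const, card_range, nsmul_eq_mul]
    ring
  rw [Finset.sum_congr rfl h2, ← Finset.mul_sum]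
  refine mul_le_mul_of_nonneg_left ?_ (by positivity)
  unfold len
  rw [sum_range_blocks]
  refine Finset.sum_le_sum fun t ht => Finset.sum_le_sum fun r hr => ?_
  rw [Finset.mem_range] at ht hr
  by_cases h : r + 1 < m
  · rw [if_pos h]
    have : m * t + r + 1 < m * q := by
      have : m * (t + 1) ≤ m * q := Nat.mul_le_mul_left _ ht
      rw [Nat.mul_succ] at this
      omega
    rw [if_pos this]
  · rw [if_neg h]
    split_ifs
    · exact sq_nonneg _
    · exact le_rfl

lemma pav_sub_sum {s : ℕ} (hs : 0 < s) (q : ℕ) (g : ℕ → ℝ) :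
    ∑ a ∈ range (s * q), (pav s g a - g a) ^ 2 ≤ (s : ℝ) ^ 2 * len (s * q) g :=
  (Finset.sum_le_sum fun a _ => pav_sub_pt hs g a).trans (sum_block_energy hs q g)

/-! ## Four directions -/

lemma P_sub_sum (N : Fin 4 → ℕ) (i : Fin 4) {s : ℕ} (hs : 0 < s) (hN : s ∣ N i)
    (g : Pt → ℝ) :
    ∑ x ∈ box N, (P i s g x - g x) ^ 2 ≤ (s : ℝ) ^ 2 * en i N g := by
  unfold en
  rw [Finset.mul_sum]
  refine sum_le_of_lines N i _ _ fun x _ => ?_
  simp only [P_update, update_self, update_idem]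
  obtain ⟨q, hq⟩ := hN
  have := pav_sub_sum hs q (fun b => g (update x i b))
  rw [hq, ← Finset.mul_sum]
  unfold len at this
  exact this

/-- total Dirichlet energy of `f` on the box with side vector `N` -/
noncomputable def En (N : Fin 4 → ℕ) (f : Pt → ℝ) : ℝ := ∑ i, en i N f

lemma En_nonneg (N : Fin 4 → ℕ) (f : Pt → ℝ) : 0 ≤ En N f :=
  Finset.sum_nonneg fun i _ => en_nonneg i N f

lemma four_sq (a b c d : ℝ) :
    (a + b + c + d) ^ 2 ≤ 4 * (a ^ 2 + b ^ 2 + c ^ 2 + d ^ 2) := by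
  nlinarith [sq_nonneg (a - b), sq_nonneg (a - c), sq_nonneg (a - d), sq_nonneg (b - c),
    sq_nonneg (b - d), sq_nonneg (c - d)]

/-- Poincaré inequality: replacing `f` by its block averages -/
lemma A_sub_sum (N κ : Fin 4 → ℕ) (s : ℕ) (h0 : ∀ j, 0 < κ j) (hN : ∀ j, κ j ∣ N j)
    (hs : ∀ j, κ j ≤ s) (f : Pt → ℝ) :
    ∑ x ∈ box N, (A κ f x - f x) ^ 2 ≤ 4 * (s : ℝ) ^ 2 * En N f := by
  set g3 := P 3 (κ 3) f with hg3
  set g2 := P 2 (κ 2) g3 with hg2
  set g1 := P 1 (κ 1) g2 with hg1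
  have hA : A κ f = P 0 (κ 0) g1 := rfl
  have e3 : ∑ x ∈ box N, (g3 x - f x) ^ 2 ≤ (s : ℝ) ^ 2 * en 3 N f := by
    refine (P_sub_sum N 3 (h0 3) (hN 3) f).trans ?_
    have := en_nonneg 3 N f
    have := hs 3
    gcongr
  have e2 : ∑ x ∈ box N, (g2 x - g3 x) ^ 2 ≤ (s : ℝ) ^ 2 * en 2 N f := by
    refine (P_sub_sum N 2 (h0 2) (hN 2) g3).trans ?_
    have h1 : en 2 N g3 ≤ en 2 N f := en_P_le N 2 3 (by decide) (h0 3) (hN 3) f
    have := en_nonneg 2 N g3
    have := hs 2
    gcongr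
  have e1 : ∑ x ∈ box N, (g1 x - g2 x) ^ 2 ≤ (s : ℝ) ^ 2 * en 1 N f := by
    refine (P_sub_sum N 1 (h0 1) (hN 1) g2).trans ?_
    have h1 : en 1 N g2 ≤ en 1 N f :=
      (en_P_le N 1 2 (by decide) (h0 2) (hN 2) g3).trans
        (en_P_le N 1 3 (by decide) (h0 3) (hN 3) f)
    have := en_nonneg 1 N g2
    have := hs 1
    gcongr
  have e0 : ∑ x ∈ box N, (A κ f x - g1 x) ^ 2 ≤ (s : ℝ) ^ 2 * en 0 N f := by
    rw [hA]
    refine (P_sub_sum N 0 (h0 0) (hN 0) g1).trans ?_
    have h1 : en 0 N g1 ≤ en 0 N f :=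
      (en_P_le N 0 1 (by decide) (h0 1) (hN 1) g2).trans
        ((en_P_le N 0 2 (by decide) (h0 2) (hN 2) g3).trans
          (en_P_le N 0 3 (by decide) (h0 3) (hN 3) f))
    have := en_nonneg 0 N g1
    have := hs 0
    gcongr
  have hpt : ∀ x ∈ box N, (A κ f x - f x) ^ 2 ≤
      4 * ((A κ f x - g1 x) ^ 2 + (g1 x - g2 x) ^ 2 + (g2 x - g3 x) ^ 2 + (g3 x - f x) ^ 2) := by
    intro x _
    have := four_sq (A κ f x - g1 x) (g1 x - g2 x) (g2 x - g3 x) (g3 x - f x)
    have e : A κ f x - f x = (A κ f x - g1 x) + (g1 x - g2 x) + (g2 x - g3 x) + (g3 x - f x) := by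
      ring
    rw [e]
    exact this
  refine (Finset.sum_le_sum hpt).trans ?_
  rw [← Finset.mul_sum, Finset.sum_add_distrib, Finset.sum_add_distrib, Finset.sum_add_distrib]
  unfold En
  rw [Fin.sum_univ_four]
  nlinarith

lemma A_step_one (N κ : Fin 4 → ℕ) (i : Fin 4) (s t : ℕ) (h0 : ∀ j, 0 < κ j)
    (hN : ∀ j, κ j ∣ N j) (ht : t = κ i ∨ (t = 3 * κ i ∧ κ i ≤ s)) (htN : t ∣ N i)
    (f : Pt → ℝ) :
    ∑ x ∈ box N, (A (update κ i t) f x - A κ f x) ^ 2 ≤ 9 * (s : ℝ) ^ 2 * en i N f := by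
  have hen := en_nonneg i N f
  rcases ht with ht | ⟨ht, hs⟩
  · rw [ht, update_eq_self]
    simp only [sub_self]
    simp only [ne_eq, OfNat.ofNat_ne_zero, not_false_eq_true, zero_pow, sum_const_zero]
    positivity
  · subst ht
    refine (A_step_sum N κ i h0 (fun j _ => hN j) htN f).trans ?_
    gcongr

/-- one step of the chain: some sides are tripled -/
lemma A_quad (N κ κ' : Fin 4 → ℕ) (s : ℕ) (h0 : ∀ j, 0 < κ j) (hN : ∀ j, κ j ∣ N j)
    (h : ∀ j, κ' j = κ j ∨ (κ' j = 3 * κ j ∧ κ j ≤ s)) (hN' : ∀ j, κ' j ∣ N j)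
    (f : Pt → ℝ) :
    ∑ x ∈ box N, (A κ' f x - A κ f x) ^ 2 ≤ 36 * (s : ℝ) ^ 2 * En N f := by
  have h0' : ∀ j, 0 < κ' j := by
    intro j
    have := h0 j
    rcases h j with h1 | ⟨h1, -⟩ <;> omega
  set κ1 := update κ 0 (κ' 0) with hκ1
  set κ2 := update κ1 1 (κ' 1) with hκ2
  set κ3 := update κ2 2 (κ' 2) with hκ3
  have hκ4 : κ' = update κ3 3 (κ' 3) := by
    funext j
    fin_cases j <;> simp [hκ1, hκ2, hκ3, update]
  have u1 : ∀ (g : Fin 4 → ℕ) (i : Fin 4), (∀ j, 0 < g j) → ∀ j, 0 < update g i (κ' i) j := by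
    intro g i hg j
    by_cases hj : j = i
    · subst hj; simpa using h0' j
    · rw [update_of_ne hj]; exact hg j
  have u2 : ∀ (g : Fin 4 → ℕ) (i : Fin 4), (∀ j, g j ∣ N j) → ∀ j, update g i (κ' i) j ∣ N j := by
    intro g i hg j
    by_cases hj : j = i
    · subst hj; simpa using hN' j
    · rw [update_of_ne hj]; exact hg j
  have s1 := A_step_one N κ 0 s (κ' 0) h0 hN (h 0) (hN' 0) f
  have s2 := A_step_one N κ1 1 s (κ' 1) (u1 κ 0 h0) (u2 κ 0 hN)
    (by have := h 1; simpa [hκ1, update] using this) (hN' 1) f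
  have s3 := A_step_one N κ2 2 s (κ' 2) (u1 κ1 1 (u1 κ 0 h0)) (u2 κ1 1 (u2 κ 0 hN))
    (by have := h 2; simpa [hκ1, hκ2, update] using this) (hN' 2) f
  have s4 := A_step_one N κ3 3 s (κ' 3) (u1 κ2 2 (u1 κ1 1 (u1 κ 0 h0)))
    (u2 κ2 2 (u2 κ1 1 (u2 κ 0 hN)))
    (by have := h 3; simpa [hκ1, hκ2, hκ3, update] using this) (hN' 3) f
  rw [← hκ1] at s1
  rw [← hκ2] at s2
  rw [← hκ3] at s3
  rw [← hκ4] at s4
  have hpt : ∀ x ∈ box N, (A κ' f x - A κ f x) ^ 2 ≤
      4 * ((A κ' f x - A κ3 f x) ^ 2 + (A κ3 f x - A κ2 f x) ^ 2 + (A κ2 f x - A κ1 f x) ^ 2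
        + (A κ1 f x - A κ f x) ^ 2) := by
    intro x _
    have := four_sq (A κ' f x - A κ3 f x) (A κ3 f x - A κ2 f x) (A κ2 f x - A κ1 f x)
      (A κ1 f x - A κ f x)
    have e : A κ' f x - A κ f x = (A κ' f x - A κ3 f x) + (A κ3 f x - A κ2 f x)
        + (A κ2 f x - A κ1 f x) + (A κ1 f x - A κ f x) := by
      ring
    rw [e]
    exact this
  refine (Finset.sum_le_sum hpt).trans ?_
  rw [← Finset.mul_sum, Finset.sum_add_distrib, Finset.sum_add_distrib, Finset.sum_add_distrib]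
  unfold En
  rw [Fin.sum_univ_four]
  nlinarith

/-- one step of the chain, pointwise bound -/
lemma A_pt (N κ κ' : Fin 4 → ℕ) (s : ℕ) (h0 : ∀ j, 0 < κ j) (hN : ∀ j, κ j ∣ N j)
    (h : ∀ j, κ' j = κ j ∨ (κ' j = 3 * κ j ∧ κ j ≤ s)) (hN' : ∀ j, κ' j ∣ N j)
    (f : Pt → ℝ) {x : Pt} (hx : x ∈ box N) :
    (A κ' f x - A κ f x) ^ 2 * (∏ j, (κ j : ℝ)) ≤ 36 * (s : ℝ) ^ 2 * En N f := by
  have h1 : ∀ j, Inv j (κ j) (fun x => A κ' f x - A κ f x) := by
    intro j
    refine Inv_sub ?_ (A_Inv κ f j)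
    have := A_Inv κ' f j
    rcases h j with h2 | ⟨h2, -⟩
    · rwa [h2] at this
    · rw [h2] at this
      exact Inv_mono this
  exact (sq_le_of_Inv h0 hN h1 hx).trans (A_quad N κ κ' s h0 hN h hN' f)

/-! ## Telescoping -/

lemma abs_tele (F φ : ℕ → ℝ) (m n : ℕ) (hmn : m ≤ n)
    (h : ∀ k, m ≤ k → k < n → |F (k + 1) - F k| ≤ φ k - φ (k + 1)) :
    |F n - F m| ≤ φ m - φ n := by
  induction n, hmn using Nat.le_induction with
  | base => simp
  | succ n hmn ih =>
      have h1 := ih fun k hk hkn => h k hk (by omega)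
      have h2 := h n hmn (by omega)
      have h3 : F (n + 1) - F m = (F (n + 1) - F n) + (F n - F m) := by ring
      rw [h3]
      refine (abs_add_le _ _).trans ?_
      linarith

/-- chaining over space cubes, time side `T` fixed -/
lemma chain3 (N : Fin 4 → ℕ) (f : Pt → ℝ) (m n T : ℕ) (hmn : m ≤ n) (hT : 0 < T)
    (hn : ∀ i, i ≠ 3 → 3 ^ n ∣ N i) (hTN : T ∣ N 3) {x : Pt} (hx : x ∈ box N) :
    |A ![3 ^ n, 3 ^ n, 3 ^ n, T] f x - A ![3 ^ m, 3 ^ m, 3 ^ m, T] f x| ≤
      15 * √(En N f / (3 ^ m * T)) := by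
  set S := √(En N f / T) with hS
  have hS0 : 0 ≤ S := Real.sqrt_nonneg _
  set q := √(1 / 3 : ℝ) with hq
  have hq0 : 0 ≤ q := Real.sqrt_nonneg _
  have hq2 : q ^ 2 = 1 / 3 := Real.sq_sqrt (by norm_num)
  have hq1 : q ≤ 3 / 5 := by nlinarith
  have hTr : (0 : ℝ) < T := by exact_mod_cast hT
  have hE := En_nonneg N f
  have hS2 : S ^ 2 = En N f / T := Real.sq_sqrt (by positivity)
  have key := abs_tele (fun k => A ![3 ^ k, 3 ^ k, 3 ^ k, T] f x) (fun k => 15 * S * q ^ k) m n
    hmn ?_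
  · refine key.trans ?_
    have h1 : √(En N f / (3 ^ m * T)) = S * q ^ m := by
      have h2 : En N f / (3 ^ m * T) = (S * q ^ m) ^ 2 := by
        rw [mul_pow, hS2, ← pow_mul, mul_comm m 2, pow_mul, hq2, div_pow, one_pow]
        field_simp
      rw [h2]
      exact Real.sqrt_sq (by positivity)
    rw [h1]
    have : 0 ≤ 15 * S * q ^ n := by positivity
    linarith
  · intro k hk hkn
    have hdiv : ∀ i, i ≠ 3 → 3 ^ (k + 1) ∣ N i := fun i hi =>
      (pow_dvd_pow 3 hkn).trans (hn i hi)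
    have hdiv' : ∀ i, i ≠ 3 → 3 ^ k ∣ N i := fun i hi =>
      (pow_dvd_pow 3 hkn.le).trans (hn i hi)
    have h1 := A_pt N ![3 ^ k, 3 ^ k, 3 ^ k, T] ![3 ^ (k + 1), 3 ^ (k + 1), 3 ^ (k + 1), T] (3 ^ k)
      (by intro j; fin_cases j <;> simp [hT])
      (by
        intro j
        fin_cases j
        · exact hdiv' 0 (by decide)
        · exact hdiv' 1 (by decide)
        · exact hdiv' 2 (by decide)
        · exact hTN)
      (by
        intro j
        fin_cases j
        · right; simp [pow_succ, mul_comm]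
        · right; simp [pow_succ, mul_comm]
        · right; simp [pow_succ, mul_comm]
        · left; simp)
      (by
        intro j
        fin_cases j
        · exact hdiv 0 (by decide)
        · exact hdiv 1 (by decide)
        · exact hdiv 2 (by decide)
        · exact hTN) f hx
    set D := A ![3 ^ (k + 1), 3 ^ (k + 1), 3 ^ (k + 1), T] f x
      - A ![3 ^ k, 3 ^ k, 3 ^ k, T] f x with hD
    have h2 : (∏ j, (((![3 ^ k, 3 ^ k, 3 ^ k, T] : Fin 4 → ℕ) j : ℕ) : ℝ))
        = (3 ^ k) ^ 3 * T := by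
      rw [Fin.prod_univ_four]
      change ((3 ^ k : ℕ) : ℝ) * ((3 ^ k : ℕ) : ℝ) * ((3 ^ k : ℕ) : ℝ) * (T : ℝ) = _
      push_cast
      ring
    rw [h2] at h1
    have h3 : D ^ 2 ≤ (6 * S * q ^ k) ^ 2 := by
      have h4 : (6 * S * q ^ k) ^ 2 = 36 * (En N f / T) / 3 ^ k := by
        rw [mul_pow, mul_pow, hS2, ← pow_mul, mul_comm k 2, pow_mul, hq2, div_pow, one_pow]
        ring
      rw [h4, le_div_iff₀ (by positivity)]
      have h5 : (0 : ℝ) < (3 ^ k) ^ 2 * T := by positivity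
      have h6 : D ^ 2 * 3 ^ k * ((3 ^ k) ^ 2 * T) ≤ 36 * (En N f / T) * ((3 ^ k) ^ 2 * T) := by
        have : 36 * (En N f / T) * ((3 ^ k) ^ 2 * T) = 36 * (3 ^ k) ^ 2 * En N f := by
          field_simp
        rw [this]
        push_cast at h1
        calc D ^ 2 * 3 ^ k * ((3 ^ k) ^ 2 * T) = D ^ 2 * ((3 ^ k) ^ 3 * T) := by ring
          _ ≤ _ := h1
      exact le_of_mul_le_mul_right h6 h5
    have h7 : |D| ≤ 6 * S * q ^ k := abs_le_of_sq_le_sq h3 (by positivity)
    refine h7.trans ?_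
    have h8 : 15 * S * q ^ k - 15 * S * q ^ (k + 1) = 15 * (S * q ^ k) * (1 - q) := by ring
    rw [h8]
    have h9 : 0 ≤ S * q ^ k := by positivity
    nlinarith

end Vale.Agent.P361.LRO.Geo
end

section

/-!
# P361, block GEO, part 4: the block average as a sum over a box, and the count of points where a
function exceeds its mean by `1 / 8`.
-/

namespace Vale.Agent.P361.LRO.Geo

open Finset Function

/-- the block average, written out -/
lemma A_eq (κ : Fin 4 → ℕ) (f : Pt → ℝ) (x : Pt) :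
    A κ f x = (∑ a ∈ range (κ 0), ∑ b ∈ range (κ 1), ∑ c ∈ range (κ 2), ∑ d ∈ range (κ 3),
      f ![κ 0 * (x 0 / κ 0) + a, κ 1 * (x 1 / κ 1) + b, κ 2 * (x 2 / κ 2) + c,
        κ 3 * (x 3 / κ 3) + d]) / (κ 0 * κ 1 * κ 2 * κ 3) := by
  have hup : ∀ a b c d : ℕ, update (update (update (update x 0 a) 1 b) 2 c) 3 d
      = ![a, b, c, d] := by
    intro a b c d
    funext j
    fin_cases j <;> simp [update]
  have h1 : ∀ y : Pt, ∀ a, update y 0 a 1 = y 1 := fun y a => by simp [update]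
  have h2 : ∀ y : Pt, ∀ a, update y 0 a 2 = y 2 := fun y a => by simp [update]
  have h3 : ∀ y : Pt, ∀ a, update y 0 a 3 = y 3 := fun y a => by simp [update]
  have h4 : ∀ y : Pt, ∀ a, update y 1 a 2 = y 2 := fun y a => by simp [update]
  have h5 : ∀ y : Pt, ∀ a, update y 1 a 3 = y 3 := fun y a => by simp [update]
  have h6 : ∀ y : Pt, ∀ a, update y 2 a 3 = y 3 := fun y a => by simp [update]
  unfold A P pav
  simp only [h1, h2, h3, h4, h5, h6, hup, Finset.sum_div]
  refine Finset.sum_congr rfl fun a _ => Finset.sum_congr rfl fun b _ =>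
    Finset.sum_congr rfl fun c _ => Finset.sum_congr rfl fun d _ => ?_
  simp only [div_div]
  congr 1
  ring

/-- count of the points where `f` exceeds a number close to its averages on blocks of side
at most `s` -/
lemma count_block (N κ : Fin 4 → ℕ) (s : ℕ) (h0 : ∀ j, 0 < κ j) (hN : ∀ j, κ j ∣ N j)
    (hs : ∀ j, κ j ≤ s) (f : Pt → ℝ) (v : ℝ)
    (hv : ∀ x ∈ box N, |A κ f x - v| ≤ 1 / 16) :
    (((box N).filter fun x => v + 1 / 8 ≤ f x).card : ℝ) ≤ 1024 * (s : ℝ) ^ 2 * En N f := by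
  have h1 := A_sub_sum N κ s h0 hN hs f
  have h2 : ∑ x ∈ (box N).filter (fun x => v + 1 / 8 ≤ f x), (1 / 256 : ℝ) ≤
      ∑ x ∈ box N, (A κ f x - f x) ^ 2 := by
    refine (Finset.sum_le_sum fun x hx => ?_).trans
      (Finset.sum_le_sum_of_subset_of_nonneg (Finset.filter_subset _ _)
        fun _ _ _ => sq_nonneg _)
    rw [Finset.mem_filter] at hx
    have h3 := (abs_le.1 (hv x hx.1)).2
    nlinarith [hx.2]
  rw [Finset.sum_const, nsmul_eq_mul] at h2
  nlinarith

end Vale.Agent.P361.LRO.Geo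
end

section

/-!
# P361 LRO, block (6): numerical lemmas for the ladder of scales
-/

namespace Vale.Agent.P361.LRO.Ind

private theorem nm_log_le {y : ℝ} (hy : 0 < y) : 5 * Real.log y ≤ 3 * y := by
  have h1 : Real.log (y / 2) ≤ y / 2 - 1 := Real.log_le_sub_one_of_pos (by positivity)
  rw [Real.log_div hy.ne' (by norm_num)] at h1
  have h2 := Real.log_two_lt_d9
  linarith

/-- the ground is out of reach of the bumps. -/
theorem num_ground : ∃ β0 : ℝ, 10 ≤ β0 ∧ ∀ (β h0 lam : ℝ) (s : ℕ), β0 ≤ β → 0 < h0 →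
    1 / β ≤ lam → β ^ 10 ≤ (3 : ℝ) ^ s → h0⁻¹ ≤ ((3 : ℝ) ^ s) ^ (5 / 2 : ℝ) →
    Real.exp (-(lam * (3 * (3 : ℝ) ^ s))) ≤ h0 := by
  refine ⟨10, le_refl _, ?_⟩
  intro β h0 lam s hβ hh0 hlam hs hh
  set X : ℝ := (3 : ℝ) ^ s with hX
  have hXpos : 0 < X := by positivity
  have hβpos : 0 < β := by linarith
  have hβ2 : β ^ 2 ≤ X := le_trans (pow_le_pow_right₀ (by linarith) (by norm_num)) hs
  have hβs : β ≤ Real.sqrt X := by
    rw [Real.le_sqrt hβpos.le hXpos.le]
    exact hβ2
  have hsq : Real.sqrt X * Real.sqrt X = X := Real.mul_self_sqrt hXpos.le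
  have hsqpos : 0 < Real.sqrt X := Real.sqrt_pos.2 hXpos
  have h1 : Real.sqrt X ≤ lam * X := by
    calc Real.sqrt X = (1 / β) * (β * Real.sqrt X) := by field_simp
      _ ≤ (1 / β) * (Real.sqrt X * Real.sqrt X) := by
          apply mul_le_mul_of_nonneg_left _ (by positivity)
          exact mul_le_mul_of_nonneg_right hβs hsqpos.le
      _ = (1 / β) * X := by rw [hsq]
      _ ≤ lam * X := mul_le_mul_of_nonneg_right hlam hXpos.le
  have h2 : (5 / 2) * Real.log X ≤ 3 * Real.sqrt X := by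
    have h3 := nm_log_le hsqpos
    rw [Real.log_sqrt hXpos.le] at h3
    linarith
  have h4 : Real.exp (-(5 / 2 * Real.log X)) ≤ h0 := by
    rw [Real.rpow_def_of_pos hXpos] at hh
    rw [Real.exp_neg]
    have h5 : h0⁻¹ ≤ Real.exp (5 / 2 * Real.log X) := by
      rw [mul_comm]; exact hh
    have := inv_anti₀ (inv_pos.2 hh0) h5
    rwa [inv_inv] at this
  refine le_trans (Real.exp_le_exp.2 ?_) h4
  have : lam * (3 * X) = 3 * (lam * X) := by ring
  rw [this]
  linarith

end Vale.Agent.P361.LRO.Ind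
end

section

/-!
P361, block twist, part 1: product operators on `V → Fin 2`, block sums of one site matrices,
pinching with respect to the number of down spins of a block.
-/

namespace Vale.Agent.P361.LRO.TwJ

set_option linter.all false

open Matrix Finset

variable {V : Type} [Fintype V] [DecidableEq V]

/-- Two by two matrices. -/
abbrev M2 : Type := Matrix (Fin 2) (Fin 2) ℂ

/-- Operators on `⊗_{x ∈ V} ℂ²`; basis `V → Fin 2`, `0` = up. -/
abbrev Opr (V : Type) : Type := Matrix (V → Fin 2) (V → Fin 2) ℂ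

/-- Product operator. -/
def P (B : V → M2) : Opr V := Matrix.of fun σ τ => ∏ y, B y (σ y) (τ y)

theorem P_mul (B C : V → M2) : P B * P C = P (fun y => B y * C y) := by
  ext σ τ
  simp only [P, Matrix.mul_apply, Matrix.of_apply]
  rw [Finset.prod_univ_sum, Fintype.piFinset_univ]
  refine Finset.sum_congr rfl fun ρ _ => ?_
  rw [← Finset.prod_mul_distrib]

theorem P_one : P (fun _ : V => (1 : M2)) = 1 := by
  ext σ τ
  simp only [P, Matrix.of_apply, Matrix.one_apply]
  by_cases h : σ = τ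
  · subst h; simp
  · rw [if_neg h]
    obtain ⟨y, hy⟩ := Function.ne_iff.mp h
    exact Finset.prod_eq_zero (Finset.mem_univ y) (by simp [hy])

theorem P_update (B : V → M2) (x : V) (A : M2) (σ τ : V → Fin 2) :
    P (Function.update B x A) σ τ = A (σ x) (τ x) * ∏ y ∈ univ.erase x, B y (σ y) (τ y) := by
  simp only [P, Matrix.of_apply]
  rw [← Finset.mul_prod_erase _ _ (Finset.mem_univ x)]
  congr 1
  · simp
  · refine Finset.prod_congr rfl fun y hy => ?_
    rw [Function.update_of_ne (Finset.ne_of_mem_erase hy)]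

theorem P_update_add (B : V → M2) (x : V) (A A' : M2) :
    P (Function.update B x (A + A')) = P (Function.update B x A) + P (Function.update B x A') := by
  ext σ τ
  simp only [P_update, Matrix.add_apply, add_mul]

theorem P_update_sub (B : V → M2) (x : V) (A A' : M2) :
    P (Function.update B x (A - A')) = P (Function.update B x A) - P (Function.update B x A') := by
  ext σ τ
  simp only [P_update, Matrix.sub_apply, sub_mul]

theorem P_update_smul (B : V → M2) (x : V) (c : ℂ) (A : M2) :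
    P (Function.update B x (c • A)) = c • P (Function.update B x A) := by
  ext σ τ
  simp only [P_update, Matrix.smul_apply, smul_eq_mul, mul_assoc]

/-- `A` at the site `x`. -/
def st (x : V) (A : M2) : Opr V := P (Function.update (fun _ => 1) x A)

theorem st_mul_P (x : V) (A : M2) (B : V → M2) :
    st x A * P B = P (Function.update B x (A * B x)) := by
  rw [st, P_mul]
  congr 1
  ext1 y
  by_cases h : y = x
  · subst h; simp
  · simp [Function.update_of_ne h]

theorem P_mul_st (x : V) (A : M2) (B : V → M2) :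
    P B * st x A = P (Function.update B x (B x * A)) := by
  rw [st, P_mul]
  congr 1
  ext1 y
  by_cases h : y = x
  · subst h; simp
  · simp [Function.update_of_ne h]

theorem st_add (x : V) (A A' : M2) : st x (A + A') = st x A + st x A' := P_update_add _ _ _ _

theorem st_sub (x : V) (A A' : M2) : st x (A - A') = st x A - st x A' := P_update_sub _ _ _ _

theorem st_smul (x : V) (c : ℂ) (A : M2) : st x (c • A) = c • st x A := P_update_smul _ _ _ _

theorem st_mul_st (x : V) (A B : M2) : st x A * st x B = st x (A * B) := by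
  rw [show st x B = P (Function.update (fun _ => 1) x B) from rfl, st_mul_P]
  simp [st, Function.update_idem]

theorem st_comm {x y : V} (h : x ≠ y) (A B : M2) : st x A * st y B = st y B * st x A := by
  conv_lhs => rw [show st y B = P (Function.update (fun _ => 1) y B) from rfl, st_mul_P]
  conv_rhs => rw [show st y B = P (Function.update (fun _ => 1) y B) from rfl, P_mul_st]
  simp [Function.update_of_ne h]

/-- Sum over the block of a one site matrix. -/
def Sg (b : Finset V) (A : M2) : Opr V := ∑ x ∈ b, st x A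

theorem Sg_smul (b : Finset V) (c : ℂ) (A : M2) : Sg b (c • A) = c • Sg b A := by
  simp [Sg, st_smul, Finset.smul_sum]

theorem Sg_comm (b : Finset V) (A B : M2) :
    Sg b A * Sg b B - Sg b B * Sg b A = Sg b (A * B - B * A) := by
  simp only [Sg, Finset.sum_mul_sum]
  rw [Finset.sum_comm (f := fun i j => st i B * st j A), ← Finset.sum_sub_distrib]
  refine Finset.sum_congr rfl fun x hx => ?_
  rw [← Finset.sum_sub_distrib, Finset.sum_eq_single x]
  · rw [st_mul_st, st_mul_st, st_sub]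
  · intro y _ hy
    rw [st_comm (Ne.symm hy), sub_self]
  · intro h; exact absurd hx h

/-- The matrix `G` at all sites of the block. -/
def blk (b : Finset V) (G : M2) : V → M2 := fun y => if y ∈ b then G else 1

/-- `G` acting at all sites of the block. -/
def pr (b : Finset V) (G : M2) : Opr V := P (blk b G)

theorem pr_mul (b : Finset V) (G H : M2) : pr b G * pr b H = pr b (G * H) := by
  rw [pr, pr, P_mul, pr]
  congr 1
  ext1 y
  simp only [blk]
  split_ifs <;> simp

theorem pr_one (b : Finset V) : pr b (1 : M2) = 1 := by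
  rw [pr, ← P_one]
  congr 1
  ext1 y
  simp [blk]

theorem Sg_mul_pr (b : Finset V) (A G : M2) :
    Sg b A * pr b G = ∑ x ∈ b, P (Function.update (blk b G) x (A * G)) := by
  rw [Sg, Finset.sum_mul]
  refine Finset.sum_congr rfl fun x hx => ?_
  rw [pr, st_mul_P]
  simp [blk, hx]

theorem pr_mul_Sg (b : Finset V) (A G : M2) :
    pr b G * Sg b A = ∑ x ∈ b, P (Function.update (blk b G) x (G * A)) := by
  rw [Sg, Finset.mul_sum]
  refine Finset.sum_congr rfl fun x hx => ?_
  rw [pr, P_mul_st]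
  simp [blk, hx]

/-- Lowering, raising, `S³`. -/
def sm : M2 := !![0, 0; 1, 0]
/-- Raising matrix. -/
def sp : M2 := !![0, 1; 0, 0]
/-- Third component. -/
noncomputable def sz : M2 := !![1 / 2, 0; 0, -(1 / 2)]

theorem comm_sz_sm : sz * sm - sm * sz = -sm := by
  ext i j; fin_cases i <;> fin_cases j <;> simp [sz, sm, Matrix.mul_apply, Fin.sum_univ_two] <;>
    norm_num

theorem comm_sz_sp : sz * sp - sp * sz = sp := by
  ext i j; fin_cases i <;> fin_cases j <;> simp [sz, sp, Matrix.mul_apply, Fin.sum_univ_two] <;>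
    norm_num

theorem comm_sp_sm : sp * sm - sm * sp = (2 : ℂ) • sz := by
  ext i j; fin_cases i <;> fin_cases j <;>
    simp [sz, sp, sm, Matrix.mul_apply, Fin.sum_univ_two]

/-- Number of down spins in the block. -/
def nb (b : Finset V) (σ : V → Fin 2) : ℤ := ∑ y ∈ b, ((σ y : ℕ) : ℤ)

theorem nb_nonneg (b : Finset V) (σ : V → Fin 2) : 0 ≤ nb b σ :=
  Finset.sum_nonneg fun _ _ => by positivity

/-- Pinching. -/
def Pi (b : Finset V) (q : ℤ) (X : Opr V) : Opr V :=
  Matrix.of fun σ τ => if nb b σ - nb b τ = q then X σ τ else 0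

theorem Pi_sub (b : Finset V) (q : ℤ) (X Y : Opr V) : Pi b q (X - Y) = Pi b q X - Pi b q Y := by
  ext σ τ; simp only [Pi, Matrix.of_apply, Matrix.sub_apply]; split_ifs <;> simp

theorem Pi_smul (b : Finset V) (q : ℤ) (c : ℂ) (X : Opr V) : Pi b q (c • X) = c • Pi b q X := by
  ext σ τ; simp only [Pi, Matrix.of_apply, Matrix.smul_apply]; split_ifs <;> simp

/-- An operator shifting the number of down spins by `r`. -/
def Shift (b : Finset V) (r : ℤ) (Y : Opr V) : Prop := ∀ σ τ, Y σ τ ≠ 0 → nb b σ - nb b τ = r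

theorem Shift.mul_Pi {b : Finset V} {r : ℤ} {Y : Opr V} (h : Shift b r Y) (q : ℤ) (X : Opr V) :
    Y * Pi b q X = Pi b (q + r) (Y * X) := by
  ext σ τ
  simp only [Pi, Matrix.mul_apply, Matrix.of_apply]
  by_cases hq : nb b σ - nb b τ = q + r
  · rw [if_pos hq]
    refine Finset.sum_congr rfl fun ρ _ => ?_
    by_cases hY : Y σ ρ = 0
    · simp [hY]
    · have := h _ _ hY
      rw [if_pos (by omega)]
  · rw [if_neg hq]
    refine Finset.sum_eq_zero fun ρ _ => ?_
    by_cases hY : Y σ ρ = 0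
    · simp [hY]
    · have := h _ _ hY
      rw [if_neg (by omega), mul_zero]

theorem Shift.Pi_mul {b : Finset V} {r : ℤ} {Y : Opr V} (h : Shift b r Y) (q : ℤ) (X : Opr V) :
    Pi b q X * Y = Pi b (q + r) (X * Y) := by
  ext σ τ
  simp only [Pi, Matrix.mul_apply, Matrix.of_apply]
  by_cases hq : nb b σ - nb b τ = q + r
  · rw [if_pos hq]
    refine Finset.sum_congr rfl fun ρ _ => ?_
    by_cases hY : Y ρ τ = 0
    · simp [hY]
    · have := h _ _ hY
      rw [if_pos (by omega)]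
  · rw [if_neg hq]
    refine Finset.sum_eq_zero fun ρ _ => ?_
    by_cases hY : Y ρ τ = 0
    · simp [hY]
    · have := h _ _ hY
      rw [if_neg (by omega), zero_mul]

theorem st_apply (x : V) (A : M2) (σ τ : V → Fin 2) :
    st x A σ τ = A (σ x) (τ x) * if (∀ y, y ≠ x → σ y = τ y) then 1 else 0 := by
  rw [st, P_update]
  congr 1
  split_ifs with h
  · exact Finset.prod_eq_one fun y hy => by
      rw [h y (Finset.ne_of_mem_erase hy), Matrix.one_apply_eq]
  · push Not at h
    obtain ⟨y, hy, hne⟩ := h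
    exact Finset.prod_eq_zero (Finset.mem_erase.2 ⟨hy, Finset.mem_univ y⟩)
      (Matrix.one_apply_ne hne)

theorem nb_of_agree {b : Finset V} {x : V} (hx : x ∈ b) {σ τ : V → Fin 2}
    (h : ∀ y, y ≠ x → σ y = τ y) : nb b σ - nb b τ = ((σ x : ℕ) : ℤ) - ((τ x : ℕ) : ℤ) := by
  rw [nb, nb, ← Finset.sum_sub_distrib, Finset.sum_eq_single x]
  · intro y _ hy; rw [h y hy, sub_self]
  · intro h'; exact absurd hx h'

theorem shift_st {b : Finset V} {x : V} (hx : x ∈ b) (A : M2) (r : ℤ)
    (hA : ∀ i j, A i j ≠ 0 → ((i : ℕ) : ℤ) - ((j : ℕ) : ℤ) = r) : Shift b r (st x A) := by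
  intro σ τ h
  rw [st_apply] at h
  have h1 := left_ne_zero_of_mul h
  have h2 := right_ne_zero_of_mul h
  have h3 : ∀ y, y ≠ x → σ y = τ y := by
    by_contra hc
    exact h2 (if_neg hc)
  rw [nb_of_agree hx h3]
  exact hA _ _ h1

theorem Shift.add {b : Finset V} {r : ℤ} {X Y : Opr V} (hX : Shift b r X) (hY : Shift b r Y) :
    Shift b r (X + Y) := by
  intro σ τ h
  by_cases h1 : X σ τ = 0
  · exact hY σ τ fun h2 => h (by rw [Matrix.add_apply, h1, h2, add_zero])
  · exact hX σ τ h1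

theorem shift_sum {ι : Type} {b : Finset V} {r : ℤ} (s : Finset ι) (X : ι → Opr V)
    (h : ∀ i ∈ s, Shift b r (X i)) : Shift b r (∑ i ∈ s, X i) := by
  intro σ τ hne
  rw [Matrix.sum_apply] at hne
  obtain ⟨i, hi, h'⟩ := Finset.exists_ne_zero_of_sum_ne_zero hne
  exact h i hi _ _ h'

theorem shift_Sm (b : Finset V) : Shift b 1 (Sg b sm) :=
  shift_sum _ _ fun x hx => shift_st hx _ _ fun i j h => by
    fin_cases i <;> fin_cases j <;> simp [sm] at h ⊢

theorem shift_Sp (b : Finset V) : Shift b (-1) (Sg b sp) :=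
  shift_sum _ _ fun x hx => shift_st hx _ _ fun i j h => by
    fin_cases i <;> fin_cases j <;> simp [sp] at h ⊢

theorem Sz_eq (b : Finset V) :
    Sg b sz = Matrix.diagonal fun σ : V → Fin 2 => (b.card : ℂ) / 2 - (nb b σ : ℂ) := by
  ext σ τ
  rw [Sg, Matrix.sum_apply]
  by_cases h : σ = τ
  · subst h
    rw [Matrix.diagonal_apply_eq]
    have : ∀ x ∈ b, st x sz σ σ = 1 / 2 - ((σ x : ℕ) : ℂ) := by
      intro x _
      rw [st_apply, if_pos (fun _ _ => rfl), mul_one]
      generalize σ x = i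
      fin_cases i <;> simp [sz]; norm_num
    rw [Finset.sum_congr rfl this, Finset.sum_sub_distrib, Finset.sum_const, nb]
    push_cast
    rw [nsmul_eq_mul]; ring
  · rw [Matrix.diagonal_apply_ne _ h]
    refine Finset.sum_eq_zero fun x _ => ?_
    rw [st_apply]
    by_cases hx : σ x = τ x
    · rw [if_neg, mul_zero]
      intro hc
      exact h (funext fun y => by
        by_cases hy : y = x
        · rw [hy, hx]
        · exact hc y hy)
    · have : sz (σ x) (τ x) = 0 := by
        revert hx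
        generalize σ x = i
        generalize τ x = j
        intro hx
        fin_cases i <;> fin_cases j <;> simp [sz] at hx ⊢
      rw [this, zero_mul]

theorem comm_Sz_apply (b : Finset V) (X : Opr V) (σ τ : V → Fin 2) :
    (Sg b sz * X - X * Sg b sz) σ τ = -((nb b σ - nb b τ : ℤ) : ℂ) * X σ τ := by
  rw [Sz_eq, Matrix.sub_apply, Matrix.diagonal_mul, Matrix.mul_diagonal]
  push_cast
  ring

theorem Pi_comm_Sz (b : Finset V) (q : ℤ) (X : Opr V) :
    Pi b q (Sg b sz * X - X * Sg b sz) = (-(q : ℂ)) • Pi b q X := by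
  ext σ τ
  simp only [Pi, Matrix.of_apply, Matrix.smul_apply, smul_eq_mul]
  split_ifs with h
  · rw [comm_Sz_apply, h]
  · simp

end Vale.Agent.P361.LRO.TwJ
end

section

/-!
P361, block twist, part 2: the rotated slice `T θ`, its derivative, and the operators
`A = ½ ∫ sin θ E₀`, `B = ½ ∫ sin θ cos θ E₀`, `C = ½ ∫ sin² θ E₁`.
-/

namespace Vale.Agent.P361.LRO.TwJ

set_option linter.all false

open Matrix Finset MeasureTheory intervalIntegral

variable {V : Type} [Fintype V] [DecidableEq V]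

/-- The one site matrix `cosh(k/2) + sinh(k/2) (cos θ σ³ + sin θ σ¹)`. -/
noncomputable def gm (k θ : ℝ) : M2 :=
  !![((Real.cosh (k / 2) + Real.sinh (k / 2) * Real.cos θ : ℝ) : ℂ),
      ((Real.sinh (k / 2) * Real.sin θ : ℝ) : ℂ);
     ((Real.sinh (k / 2) * Real.sin θ : ℝ) : ℂ),
      ((Real.cosh (k / 2) - Real.sinh (k / 2) * Real.cos θ : ℝ) : ℂ)]

/-- Its derivative. -/
noncomputable def gm' (k θ : ℝ) : M2 :=
  !![((-(Real.sinh (k / 2) * Real.sin θ) : ℝ) : ℂ), ((Real.sinh (k / 2) * Real.cos θ : ℝ) : ℂ);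
     ((Real.sinh (k / 2) * Real.cos θ : ℝ) : ℂ), ((Real.sinh (k / 2) * Real.sin θ : ℝ) : ℂ)]

theorem hasDerivAt_gm (k θ : ℝ) (i j : Fin 2) :
    HasDerivAt (fun θ => gm k θ i j) (gm' k θ i j) θ := by
  have hs := (Real.hasDerivAt_sin θ).const_mul (Real.sinh (k / 2))
  have hc := (Real.hasDerivAt_cos θ).const_mul (Real.sinh (k / 2))
  fin_cases i <;> fin_cases j
  · have := (hc.const_add (Real.cosh (k / 2))).ofReal_comp
    simpa [gm, gm'] using this
  · simpa [gm, gm'] using hs.ofReal_comp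
  · simpa [gm, gm'] using hs.ofReal_comp
  · have := (hc.const_sub (Real.cosh (k / 2))).ofReal_comp
    simpa [gm, gm'] using this

/-- Local commutator identity. -/
theorem gm_comm (k θ : ℝ) :
    ((Real.sin θ : ℝ) : ℂ) • (sm * gm k θ - gm k θ * sm) =
      ((Real.sin θ : ℝ) : ℂ) • gm' k θ
        - ((Real.cos θ : ℝ) : ℂ) • (sz * gm k θ - gm k θ * sz) := by
  ext i j
  fin_cases i <;> fin_cases j <;>
    simp [gm, gm', sm, sz, Matrix.mul_apply, Fin.sum_univ_two] <;> ring

/-- The rotated slice. -/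
noncomputable def Tw (b : Finset V) (k θ : ℝ) : Opr V := pr b (gm k θ)

/-- The derivative of the rotated slice. -/
noncomputable def Tw' (b : Finset V) (k θ : ℝ) : Opr V :=
  ∑ x ∈ b, P (Function.update (blk b (gm k θ)) x (gm' k θ))

theorem hasDerivAt_P (B : ℝ → V → M2) (B' : V → M2) (t : ℝ)
    (h : ∀ y i j, HasDerivAt (fun s => B s y i j) (B' y i j) t) (σ τ : V → Fin 2) :
    HasDerivAt (fun s => P (B s) σ τ)
      (∑ x, P (Function.update (B t) x (B' x)) σ τ) t := by
  have := HasDerivAt.fun_finset_prod (u := (Finset.univ : Finset V))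
    (f := fun y s => B s y (σ y) (τ y)) (f' := fun y => B' y (σ y) (τ y)) (x := t)
    (fun y _ => h y _ _)
  have h2 : (fun s => P (B s) σ τ) = fun x => ∏ i, B x i (σ i) (τ i) := rfl
  rw [h2]
  refine this.congr_deriv (Finset.sum_congr rfl fun x _ => ?_)
  rw [P_update, smul_eq_mul, mul_comm]

theorem P_update_zero (B : V → M2) (x : V) : P (Function.update B x (0 : M2)) = 0 := by
  ext σ τ
  rw [P_update]; simp

theorem hasDerivAt_pr (b : Finset V) (G : ℝ → M2) (G' : M2) (t : ℝ)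
    (h : ∀ i j, HasDerivAt (fun s => G s i j) (G' i j) t) (σ τ : V → Fin 2) :
    HasDerivAt (fun s => pr b (G s) σ τ)
      ((∑ x ∈ b, P (Function.update (blk b (G t)) x G')) σ τ) t := by
  have h1 := hasDerivAt_P (fun s => blk b (G s)) (fun y => if y ∈ b then G' else 0) t
    (fun y i j => by
      by_cases hy : y ∈ b
      · simpa [blk, hy] using h i j
      · simp only [blk, hy, if_false]
        exact hasDerivAt_const _ _) σ τ
  refine HasDerivAt.congr_deriv (f := fun s => pr b (G s) σ τ) h1 ?_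
  rw [Matrix.sum_apply, ← Finset.sum_subset (Finset.subset_univ b)]
  · refine Finset.sum_congr rfl fun x hx => ?_
    rw [if_pos hx]
  · intro x _ hx
    rw [if_neg hx, P_update_zero]; rfl

theorem hasDerivAt_Tw (b : Finset V) (k θ : ℝ) (σ τ : V → Fin 2) :
    HasDerivAt (fun θ => Tw b k θ σ τ) (Tw' b k θ σ τ) θ :=
  hasDerivAt_pr b _ _ θ (fun i j => hasDerivAt_gm k θ i j) σ τ

theorem Tw_comm (b : Finset V) (k θ : ℝ) :
    ((Real.sin θ : ℝ) : ℂ) • (Sg b sm * Tw b k θ - Tw b k θ * Sg b sm) =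
      ((Real.sin θ : ℝ) : ℂ) • Tw' b k θ
        - ((Real.cos θ : ℝ) : ℂ) • (Sg b sz * Tw b k θ - Tw b k θ * Sg b sz) := by
  simp only [Tw, Tw', Sg_mul_pr, pr_mul_Sg, ← Finset.sum_sub_distrib, Finset.smul_sum,
    ← P_update_sub, ← P_update_smul]
  exact Finset.sum_congr rfl fun x _ => by rw [gm_comm]

/-- Harmonic components. -/
noncomputable def E (b : Finset V) (k : ℝ) (q : ℤ) (θ : ℝ) : Opr V := Pi b q (Tw b k θ)

theorem E_comm (b : Finset V) (k : ℝ) (q : ℤ) (θ : ℝ) :
    ((Real.sin θ : ℝ) : ℂ) • (Sg b sm * E b k q θ - E b k q θ * Sg b sm) =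
      ((Real.sin θ : ℝ) : ℂ) • Pi b (q + 1) (Tw' b k θ)
        + (((q + 1 : ℤ) : ℂ) * ((Real.cos θ : ℝ) : ℂ)) • E b k (q + 1) θ := by
  rw [E, (shift_Sm b).mul_Pi, (shift_Sm b).Pi_mul, ← Pi_sub, ← Pi_smul, Tw_comm, Pi_sub, Pi_smul,
    Pi_smul, Pi_comm_Sz, E, smul_smul, sub_eq_add_neg, ← neg_smul]
  congr 2
  ring

theorem hasDerivAt_E (b : Finset V) (k : ℝ) (q : ℤ) (θ : ℝ) (σ τ : V → Fin 2) :
    HasDerivAt (fun θ => E b k q θ σ τ) (Pi b q (Tw' b k θ) σ τ) θ := by
  simp only [E, Pi, Matrix.of_apply]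
  split_ifs
  · exact hasDerivAt_Tw b k θ σ τ
  · exact hasDerivAt_const _ _

/-- `d/dθ (sin^{q+1} E_{q+1}) = sin^{q+1} [S⁻, E_q]`. -/
theorem hasDerivAt_sinE (b : Finset V) (k : ℝ) (q : ℕ) (θ : ℝ) (σ τ : V → Fin 2) :
    HasDerivAt (fun θ => ((Real.sin θ ^ (q + 1) : ℝ) : ℂ) * E b k ((q : ℤ) + 1) θ σ τ)
      (((Real.sin θ ^ (q + 1) : ℝ) : ℂ) *
        (Sg b sm * E b k q θ - E b k q θ * Sg b sm) σ τ) θ := by
  have h1 : HasDerivAt (fun θ => ((Real.sin θ ^ (q + 1) : ℝ) : ℂ))
      ((((q + 1 : ℕ) : ℝ) * Real.sin θ ^ q * Real.cos θ : ℝ) : ℂ) θ := by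
    have := ((Real.hasDerivAt_sin θ).pow (q + 1)).ofReal_comp
    simpa using this
  have h2 := h1.mul (hasDerivAt_E b k ((q : ℤ) + 1) θ σ τ)
  refine HasDerivAt.congr_deriv
    (f := fun θ => ((Real.sin θ ^ (q + 1) : ℝ) : ℂ) * E b k ((q : ℤ) + 1) θ σ τ) h2 ?_
  have h3 := congrFun (congrFun (E_comm b k q θ) σ) τ
  simp only [Matrix.smul_apply, Matrix.add_apply, smul_eq_mul] at h3
  push_cast at h3 ⊢
  linear_combination (-(Complex.sin (θ : ℂ) ^ q)) * h3

theorem continuous_E (b : Finset V) (k : ℝ) (q : ℤ) (σ τ : V → Fin 2) :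
    Continuous fun θ => E b k q θ σ τ :=
  continuous_iff_continuousAt.2 fun θ => (hasDerivAt_E b k q θ σ τ).continuousAt

/-- Weighted average of the harmonic component `E_q`. -/
noncomputable def Av (b : Finset V) (k : ℝ) (q : ℤ) (w : ℝ → ℝ) : Opr V :=
  Matrix.of fun σ τ => ∫ θ in (0 : ℝ)..Real.pi, ((w θ : ℝ) : ℂ) * E b k q θ σ τ

theorem continuous_comm (b : Finset V) (k : ℝ) (q : ℤ) (σ τ : V → Fin 2) (Y : Opr V) :
    Continuous fun θ => (Y * E b k q θ - E b k q θ * Y) σ τ := by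
  simp only [Matrix.sub_apply, Matrix.mul_apply]
  refine Continuous.sub (continuous_finset_sum _ fun ρ _ => ?_)
    (continuous_finset_sum _ fun ρ _ => ?_)
  · exact continuous_const.mul (continuous_E b k q ρ τ)
  · exact (continuous_E b k q σ ρ).mul continuous_const

theorem mul_Av (b : Finset V) (k : ℝ) (q : ℤ) {w : ℝ → ℝ} (hw : Continuous w) (Y : Opr V) :
    Y * Av b k q w = Matrix.of fun σ τ =>
      ∫ θ in (0 : ℝ)..Real.pi, ((w θ : ℝ) : ℂ) * (Y * E b k q θ) σ τ := by
  ext σ τ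
  simp only [Av, Matrix.mul_apply, Matrix.of_apply, Finset.mul_sum]
  rw [intervalIntegral.integral_finset_sum]
  · refine Finset.sum_congr rfl fun ρ _ => ?_
    rw [← intervalIntegral.integral_const_mul]
    congr 1
    ext θ
    ring
  · intro ρ _
    exact (((Complex.continuous_ofReal.comp hw).mul
      (continuous_const.mul (continuous_E b k q ρ τ))).intervalIntegrable _ _)

theorem Av_mul (b : Finset V) (k : ℝ) (q : ℤ) {w : ℝ → ℝ} (hw : Continuous w) (Y : Opr V) :
    Av b k q w * Y = Matrix.of fun σ τ =>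
      ∫ θ in (0 : ℝ)..Real.pi, ((w θ : ℝ) : ℂ) * (E b k q θ * Y) σ τ := by
  ext σ τ
  simp only [Av, Matrix.mul_apply, Matrix.of_apply, Finset.mul_sum]
  rw [intervalIntegral.integral_finset_sum]
  · refine Finset.sum_congr rfl fun ρ _ => ?_
    rw [← intervalIntegral.integral_mul_const]
    congr 1
    ext θ
    ring
  · intro ρ _
    exact (((Complex.continuous_ofReal.comp hw).mul
      ((continuous_E b k q σ ρ).mul continuous_const)).intervalIntegrable _ _)

theorem comm_Av (b : Finset V) (k : ℝ) (q : ℤ) {w : ℝ → ℝ} (hw : Continuous w) (Y : Opr V)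
    (σ τ : V → Fin 2) :
    (Y * Av b k q w - Av b k q w * Y) σ τ =
      ∫ θ in (0 : ℝ)..Real.pi, ((w θ : ℝ) : ℂ) * (Y * E b k q θ - E b k q θ * Y) σ τ := by
  rw [Matrix.sub_apply, mul_Av b k q hw, Av_mul b k q hw, Matrix.of_apply, Matrix.of_apply,
    ← intervalIntegral.integral_sub]
  · congr 1
    ext θ
    rw [Matrix.sub_apply]; ring
  · refine (Continuous.mul (Complex.continuous_ofReal.comp hw) ?_).intervalIntegrable _ _
    simp only [Matrix.mul_apply]
    exact continuous_finset_sum _ fun ρ _ => continuous_const.mul (continuous_E b k q ρ τ)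
  · refine (Continuous.mul (Complex.continuous_ofReal.comp hw) ?_).intervalIntegrable _ _
    simp only [Matrix.mul_apply]
    exact continuous_finset_sum _ fun ρ _ => (continuous_E b k q σ ρ).mul continuous_const

/-- `[S⁻, ∫ f sin^{q+1} E_q] = - ∫ f' sin^{q+1} E_{q+1}`. -/
theorem comm_Sm_Av (b : Finset V) (k : ℝ) (q : ℕ) (f f' : ℝ → ℝ)
    (hf : ∀ θ, HasDerivAt f (f' θ) θ) (hf' : Continuous f') :
    Sg b sm * Av b k q (fun θ => f θ * Real.sin θ ^ (q + 1))
      - Av b k q (fun θ => f θ * Real.sin θ ^ (q + 1)) * Sg b sm =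
      -Av b k ((q : ℤ) + 1) (fun θ => f' θ * Real.sin θ ^ (q + 1)) := by
  have hfc : Continuous f := continuous_iff_continuousAt.2 fun θ => (hf θ).continuousAt
  have hw : Continuous fun θ => f θ * Real.sin θ ^ (q + 1) :=
    hfc.mul (Real.continuous_sin.pow _)
  ext σ τ
  rw [comm_Av b k q hw, Matrix.neg_apply, Av, Matrix.of_apply]
  have h1 : ∀ θ ∈ Set.uIcc (0 : ℝ) Real.pi,
      HasDerivAt (fun θ => ((f θ : ℝ) : ℂ)) ((f' θ : ℝ) : ℂ) θ :=
    fun θ _ => (hf θ).ofReal_comp
  have h2 : ∀ θ ∈ Set.uIcc (0 : ℝ) Real.pi,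
      HasDerivAt (fun θ => ((Real.sin θ ^ (q + 1) : ℝ) : ℂ) * E b k ((q : ℤ) + 1) θ σ τ)
        (((Real.sin θ ^ (q + 1) : ℝ) : ℂ) *
          (Sg b sm * E b k q θ - E b k q θ * Sg b sm) σ τ) θ :=
    fun θ _ => hasDerivAt_sinE b k q θ σ τ
  have h3 := intervalIntegral.integral_mul_deriv_eq_deriv_mul h1 h2
    ((Complex.continuous_ofReal.comp hf').intervalIntegrable _ _)
    ((Continuous.mul (Complex.continuous_ofReal.comp (Real.continuous_sin.pow _))
      (continuous_comm b k q σ τ _)).intervalIntegrable _ _)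
  simp only [Real.sin_pi, Real.sin_zero] at h3
  have h4 : (∫ θ in (0 : ℝ)..Real.pi, (((f θ * Real.sin θ ^ (q + 1) : ℝ)) : ℂ) *
      (Sg b sm * E b k q θ - E b k q θ * Sg b sm) σ τ) =
      ∫ θ in (0 : ℝ)..Real.pi, ((f θ : ℝ) : ℂ) * (((Real.sin θ ^ (q + 1) : ℝ) : ℂ) *
          (Sg b sm * E b k q θ - E b k q θ * Sg b sm) σ τ) := by
    congr 1; ext θ; push_cast; ring
  have h5 : (∫ θ in (0 : ℝ)..Real.pi, (((f' θ * Real.sin θ ^ (q + 1) : ℝ)) : ℂ) *
      E b k ((q : ℤ) + 1) θ σ τ) =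
      ∫ θ in (0 : ℝ)..Real.pi, ((f' θ : ℝ) : ℂ) * (((Real.sin θ ^ (q + 1) : ℝ) : ℂ) *
          E b k ((q : ℤ) + 1) θ σ τ) := by
    congr 1; ext θ; push_cast; ring
  rw [h4, h5, h3]
  simp

/-- `½ ∫ sin θ E₀`. -/
noncomputable def opA (b : Finset V) (k : ℝ) : Opr V :=
  Av b k 0 fun θ => 1 / 2 * Real.sin θ ^ 1
/-- `½ ∫ sin θ cos θ E₀`. -/
noncomputable def opB (b : Finset V) (k : ℝ) : Opr V :=
  Av b k 0 fun θ => 1 / 2 * Real.cos θ * Real.sin θ ^ 1
/-- `½ ∫ sin² θ E₁`. -/
noncomputable def opC (b : Finset V) (k : ℝ) : Opr V :=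
  Av b k 1 fun θ => 1 / 2 * Real.sin θ ^ 2

theorem Av_zero (b : Finset V) (k : ℝ) (q : ℤ) : Av b k q (fun _ => 0) = 0 := by
  ext σ τ; simp [Av]

theorem comm_Sm_A (b : Finset V) (k : ℝ) : Sg b sm * opA b k = opA b k * Sg b sm := by
  have := comm_Sm_Av b k 0 (fun _ => 1 / 2) (fun _ => 0) (fun θ => hasDerivAt_const _ _)
    continuous_const
  simp only [Nat.cast_zero, zero_add, zero_mul, Av_zero, neg_zero] at this
  exact sub_eq_zero.1 this

theorem comm_Sm_B (b : Finset V) (k : ℝ) :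
    opB b k * Sg b sm = Sg b sm * opB b k - opC b k := by
  have := comm_Sm_Av b k 0 (fun θ => 1 / 2 * Real.cos θ) (fun θ => 1 / 2 * -Real.sin θ)
    (fun θ => (Real.hasDerivAt_cos θ).const_mul _) (continuous_const.mul Real.continuous_sin.neg)
  simp only [Nat.cast_zero, zero_add] at this
  have h2 : -Av b k 1 (fun θ => 1 / 2 * -Real.sin θ * Real.sin θ ^ 1) = opC b k := by
    ext σ τ
    simp only [opC, Av, Matrix.neg_apply, Matrix.of_apply, ← intervalIntegral.integral_neg]
    congr 1; ext θ; push_cast; ring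
  rw [h2] at this
  rw [← this, opB]
  abel

theorem comm_Sm_C (b : Finset V) (k : ℝ) : Sg b sm * opC b k = opC b k * Sg b sm := by
  have := comm_Sm_Av b k 1 (fun _ => 1 / 2) (fun _ => 0) (fun θ => hasDerivAt_const _ _)
    continuous_const
  simp only [Nat.cast_one, zero_mul, Av_zero, neg_zero] at this
  exact sub_eq_zero.1 this

end Vale.Agent.P361.LRO.TwJ
end

section

/-!
P361, block twist, part 3: the operators `A`, `B`, `C` on the ladder of a highest weight vector.
-/

namespace Vale.Agent.P361.LRO.TwJ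

set_option linter.all false

open Matrix Finset MeasureTheory intervalIntegral

variable {V : Type} [Fintype V] [DecidableEq V]

/-- Upper unipotent matrix. -/
noncomputable def Um (u : ℝ) : M2 := !![1, (u : ℂ); 0, 1]
/-- Lower unipotent matrix. -/
noncomputable def Lm (u : ℝ) : M2 := !![1, 0; (u : ℂ), 1]
/-- Diagonal matrix. -/
noncomputable def Dm (d : ℝ) : M2 := !![(d : ℂ), 0; 0, (d : ℂ)⁻¹]

theorem hasDerivAt_Um (u : ℝ) (i j : Fin 2) : HasDerivAt (fun u => Um u i j) (sp i j) u := by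
  fin_cases i <;> fin_cases j
  · simpa [Um, sp] using hasDerivAt_const u (1 : ℂ)
  · simpa [Um, sp] using (hasDerivAt_id u).ofReal_comp
  · simpa [Um, sp] using hasDerivAt_const u (0 : ℂ)
  · simpa [Um, sp] using hasDerivAt_const u (1 : ℂ)

theorem hasDerivAt_Lm (u : ℝ) (i j : Fin 2) : HasDerivAt (fun u => Lm u i j) (sm i j) u := by
  fin_cases i <;> fin_cases j
  · simpa [Lm, sm] using hasDerivAt_const u (1 : ℂ)
  · simpa [Lm, sm] using hasDerivAt_const u (0 : ℂ)
  · simpa [Lm, sm] using (hasDerivAt_id u).ofReal_comp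
  · simpa [Lm, sm] using hasDerivAt_const u (1 : ℂ)

theorem Um_mul_sp (u : ℝ) : Um u * sp = sp := by
  ext i j; fin_cases i <;> fin_cases j <;> simp [Um, sp, Matrix.mul_apply, Fin.sum_univ_two]

theorem sm_mul_Lm (u : ℝ) : sm * Lm u = sm := by
  ext i j; fin_cases i <;> fin_cases j <;> simp [Lm, sm, Matrix.mul_apply, Fin.sum_univ_two]

theorem gauss_aux {d β e : ℝ} (hd : d ≠ 0) (he : e * d = β ^ 2 + 1) :
    Lm (β / d) * Dm d * Um (β / d) = !![(d : ℂ), (β : ℂ); (β : ℂ), (e : ℂ)] := by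
  have hd' : (d : ℂ) ≠ 0 := by exact_mod_cast hd
  have he' : (e : ℂ) * d = β ^ 2 + 1 := by exact_mod_cast he
  ext i j
  fin_cases i <;> fin_cases j
  · simp [Lm, Dm, Um, Matrix.mul_apply, Fin.sum_univ_two]
  · simp [Lm, Dm, Um, Matrix.mul_apply, Fin.sum_univ_two]
    field_simp
  · simp [Lm, Dm, Um, Matrix.mul_apply, Fin.sum_univ_two]
    field_simp
  · simp [Lm, Dm, Um, Matrix.mul_apply, Fin.sum_univ_two]
    field_simp
    linear_combination -he'

theorem gauss (k θ : ℝ) (hd : Real.cosh (k / 2) + Real.sinh (k / 2) * Real.cos θ ≠ 0) :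
    Lm (Real.sinh (k / 2) * Real.sin θ / (Real.cosh (k / 2) + Real.sinh (k / 2) * Real.cos θ)) *
      Dm (Real.cosh (k / 2) + Real.sinh (k / 2) * Real.cos θ) *
      Um (Real.sinh (k / 2) * Real.sin θ / (Real.cosh (k / 2) + Real.sinh (k / 2) * Real.cos θ))
      = gm k θ := by
  have h1 := Real.cosh_sq (k / 2)
  have h2 := Real.sin_sq_add_cos_sq θ
  have key : (Real.cosh (k / 2) - Real.sinh (k / 2) * Real.cos θ) *
      (Real.cosh (k / 2) + Real.sinh (k / 2) * Real.cos θ) =
      (Real.sinh (k / 2) * Real.sin θ) ^ 2 + 1 := by nlinarith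
  rw [gauss_aux hd key]
  rfl

/-- `v` is supported on the configurations with `m` down spins in the block. -/
def Supp (b : Finset V) (m : ℤ) (v : (V → Fin 2) → ℂ) : Prop := ∀ σ, v σ ≠ 0 → nb b σ = m

theorem Shift.supp {b : Finset V} {r m : ℤ} {X : Opr V} {v : (V → Fin 2) → ℂ} (hX : Shift b r X)
    (hv : Supp b m v) : Supp b (m + r) (X *ᵥ v) := by
  intro σ hσ
  rw [Matrix.mulVec, dotProduct] at hσ
  obtain ⟨τ, _, hτ⟩ := Finset.exists_ne_zero_of_sum_ne_zero hσ
  have h1 := hX σ τ (left_ne_zero_of_mul hτ)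
  have h2 := hv τ (right_ne_zero_of_mul hτ)
  omega

theorem Pi_mulVec {b : Finset V} {m : ℤ} {v : (V → Fin 2) → ℂ} (hv : Supp b m v) (q : ℤ)
    (X : Opr V) (σ : V → Fin 2) :
    (Pi b q X *ᵥ v) σ = if nb b σ = m + q then (X *ᵥ v) σ else 0 := by
  simp only [Matrix.mulVec, dotProduct, Pi, Matrix.of_apply]
  split_ifs with h
  · refine Finset.sum_congr rfl fun τ _ => ?_
    by_cases h0 : v τ = 0
    · simp [h0]
    · rw [if_pos]
      have := hv τ h0
      omega
  · refine Finset.sum_eq_zero fun τ _ => ?_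
    by_cases h0 : v τ = 0
    · simp [h0]
    · rw [if_neg, zero_mul]
      have := hv τ h0
      omega

theorem pr_Um_mulVec (b : Finset V) {v : (V → Fin 2) → ℂ} (h : Sg b sp *ᵥ v = 0) (u : ℝ) :
    pr b (Um u) *ᵥ v = v := by
  have hd : ∀ (σ : V → Fin 2) (u : ℝ), HasDerivAt (fun u => (pr b (Um u) *ᵥ v) σ) 0 u := by
    intro σ u
    have h1 : HasDerivAt (fun u => ∑ τ, pr b (Um u) σ τ * v τ)
        (∑ τ, (∑ x ∈ b, P (Function.update (blk b (Um u)) x sp)) σ τ * v τ) u :=
      HasDerivAt.fun_sum fun τ _ =>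
        (hasDerivAt_pr b Um sp u (fun i j => hasDerivAt_Um u i j) σ τ).mul_const _
    have h2 : (∑ τ, (∑ x ∈ b, P (Function.update (blk b (Um u)) x sp)) σ τ * v τ) = 0 := by
      have h3 : (∑ x ∈ b, P (Function.update (blk b (Um u)) x sp)) = pr b (Um u) * Sg b sp := by
        rw [pr_mul_Sg, Um_mul_sp]
      rw [h3]
      have h4 : ((pr b (Um u) * Sg b sp) *ᵥ v) σ = 0 := by
        rw [← Matrix.mulVec_mulVec, h, Matrix.mulVec_zero]; rfl
      exact h4
    rw [h2] at h1
    exact h1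
  ext σ
  have h5 : (pr b (Um u) *ᵥ v) σ = (pr b (Um 0) *ᵥ v) σ :=
    is_const_of_deriv_eq_zero (f := fun u => (pr b (Um u) *ᵥ v) σ)
      (fun u => (hd σ u).differentiableAt) (fun u => (hd σ u).deriv) u 0
  rw [h5]
  have h6 : Um 0 = 1 := by
    ext i j; fin_cases i <;> fin_cases j <;> simp [Um]
  rw [h6, pr_one, Matrix.one_mulVec]

theorem Pi_zero_Lm (b : Finset V) (u : ℝ) : Pi b 0 (pr b (Lm u)) = 1 := by
  ext σ τ
  simp only [Pi, Matrix.of_apply]
  by_cases hst : σ = τ
  · subst hst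
    rw [sub_self, if_pos rfl, Matrix.one_apply_eq, pr, P, Matrix.of_apply]
    refine Finset.prod_eq_one fun y _ => ?_
    rw [blk]
    split_ifs
    · generalize σ y = i
      fin_cases i <;> simp [Lm]
    · rw [Matrix.one_apply_eq]
  · rw [Matrix.one_apply_ne hst]
    split_ifs with h
    · rw [pr, P, Matrix.of_apply]
      by_contra hne
      rw [← Ne, Finset.prod_ne_zero_iff] at hne
      have h1 : ∀ y ∈ b, ((τ y : ℕ) : ℤ) ≤ ((σ y : ℕ) : ℤ) := by
        intro y hy
        have := hne y (Finset.mem_univ y)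
        rw [blk, if_pos hy] at this
        revert this
        generalize σ y = i
        generalize τ y = j
        intro this
        fin_cases i <;> fin_cases j <;> simp [Lm] at this ⊢
      have h2 : ∀ y ∈ b, ((τ y : ℕ) : ℤ) = ((σ y : ℕ) : ℤ) :=
        (Finset.sum_eq_sum_iff_of_le h1).1 (by rw [nb, nb] at h; linarith)
      apply hst
      ext1 y
      by_cases hy : y ∈ b
      · have := h2 y hy
        apply Fin.ext
        omega
      · have := hne y (Finset.mem_univ y)
        rw [blk, if_neg hy] at this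
        by_contra hc
        exact this (Matrix.one_apply_ne hc)
    · rfl

theorem Pi_one_Lm (b : Finset V) (u : ℝ) : Pi b 1 (pr b (Lm u)) = (u : ℂ) • Sg b sm := by
  have hd : ∀ (σ τ : V → Fin 2) (u : ℝ),
      HasDerivAt (fun u => Pi b 1 (pr b (Lm u)) σ τ - (u : ℂ) * Sg b sm σ τ) 0 u := by
    intro σ τ u
    have h1 : HasDerivAt (fun u => Pi b 1 (pr b (Lm u)) σ τ)
        (Pi b 1 (∑ x ∈ b, P (Function.update (blk b (Lm u)) x sm)) σ τ) u := by
      simp only [Pi, Matrix.of_apply]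
      split_ifs
      · exact hasDerivAt_pr b Lm sm u (fun i j => hasDerivAt_Lm u i j) σ τ
      · exact hasDerivAt_const _ _
    have h3 : (∑ x ∈ b, P (Function.update (blk b (Lm u)) x sm)) = Sg b sm * pr b (Lm u) := by
      rw [Sg_mul_pr, sm_mul_Lm]
    have h4 : Pi b 1 (Sg b sm * pr b (Lm u)) = Sg b sm := by
      have := (shift_Sm b).mul_Pi 0 (pr b (Lm u))
      rw [zero_add, Pi_zero_Lm, mul_one] at this
      exact this.symm
    rw [h3, h4] at h1
    have h5 : HasDerivAt (fun u : ℝ => (u : ℂ) * Sg b sm σ τ) (Sg b sm σ τ) u := by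
      have := ((hasDerivAt_id u).ofReal_comp).mul_const (Sg b sm σ τ)
      simpa using this
    have := h1.sub h5
    rw [sub_self] at this
    exact this
  ext σ τ
  have h5 := is_const_of_deriv_eq_zero
    (f := fun u : ℝ => Pi b 1 (pr b (Lm u)) σ τ - (u : ℂ) * Sg b sm σ τ)
    (fun u => (hd σ τ u).differentiableAt) (fun u => (hd σ τ u).deriv) u 0
  have h6 : Lm 0 = 1 := by
    ext i j; fin_cases i <;> fin_cases j <;> simp [Lm]
  have h7 : Pi b 1 (1 : Opr V) σ τ = 0 := by
    simp only [Pi, Matrix.of_apply]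
    split_ifs with h
    · apply Matrix.one_apply_ne
      intro hc
      rw [hc, sub_self] at h
      exact absurd h (by norm_num)
    · rfl
  simp only [h6, pr_one, h7, Complex.ofReal_zero, zero_mul, sub_zero] at h5
  rw [Matrix.smul_apply, smul_eq_mul]
  linear_combination h5

theorem pr_Dm_mulVec (b : Finset V) {d : ℝ} (hd : d ≠ 0) {r N : ℕ} (hN : N + 2 * r = b.card)
    {v : (V → Fin 2) → ℂ} (hv : Supp b r v) : pr b (Dm d) *ᵥ v = ((d ^ N : ℝ) : ℂ) • v := by
  have hd' : (d : ℂ) ≠ 0 := by exact_mod_cast hd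
  ext σ
  rw [Matrix.mulVec, dotProduct, Finset.sum_eq_single σ]
  · rw [Pi.smul_apply, smul_eq_mul]
    by_cases h0 : v σ = 0
    · rw [h0]; simp
    congr 1
    have h1 := hv σ h0
    have h2 : pr b (Dm d) σ σ = ∏ y ∈ b, ((d : ℂ) * ((d : ℂ)⁻¹ ^ 2) ^ ((σ y : ℕ))) := by
      rw [pr, P, Matrix.of_apply, ← Finset.prod_subset (Finset.subset_univ b)]
      · refine Finset.prod_congr rfl fun y hy => ?_
        rw [blk, if_pos hy]
        generalize σ y = i
        fin_cases i
        · simp [Dm]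
        · simp [Dm]; field_simp
      · intro y _ hy
        rw [blk, if_neg hy, Matrix.one_apply_eq]
    have h3 : ∑ y ∈ b, (σ y : ℕ) = r := by
      have : ((∑ y ∈ b, (σ y : ℕ) : ℕ) : ℤ) = r := by rw [← h1, nb]; push_cast; rfl
      exact_mod_cast this
    rw [h2, Finset.prod_mul_distrib, Finset.prod_const, Finset.prod_pow_eq_pow_sum, h3, ← hN]
    push_cast
    rw [pow_add, pow_mul (d : ℂ) 2 r, mul_assoc, ← mul_pow]
    have : (d : ℂ) ^ 2 * (d : ℂ)⁻¹ ^ 2 = 1 := by field_simp
    rw [this, one_pow, mul_one]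
  · intro τ _ hτ
    have : pr b (Dm d) σ τ = 0 := by
      rw [pr, P, Matrix.of_apply]
      obtain ⟨y, hy⟩ := Function.ne_iff.mp hτ
      refine Finset.prod_eq_zero (Finset.mem_univ y) ?_
      rw [blk]
      split_ifs
      · revert hy
        generalize σ y = i
        generalize τ y = j
        intro hy
        fin_cases i <;> fin_cases j <;> simp [Dm] at hy ⊢
      · exact Matrix.one_apply_ne (Ne.symm hy)
    rw [this, zero_mul]
  · intro h; exact absurd (Finset.mem_univ _) h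

/-- `d(θ) = cosh(k/2) + sinh(k/2) cos θ`. -/
noncomputable def dd (k θ : ℝ) : ℝ := Real.cosh (k / 2) + Real.sinh (k / 2) * Real.cos θ

theorem dd_pos {k : ℝ} (hk : 0 ≤ k) (θ : ℝ) : 0 < dd k θ := by
  have h1 : 0 ≤ Real.sinh (k / 2) := Real.sinh_nonneg_iff.2 (by linarith)
  have h2 : 0 < Real.cosh (k / 2) - Real.sinh (k / 2) := by
    rw [Real.cosh_sub_sinh]; exact Real.exp_pos _
  have h3 := Real.neg_one_le_cos θ
  rw [dd]
  nlinarith

theorem continuous_dd (k : ℝ) : Continuous (dd k) := by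
  unfold dd; fun_prop

theorem E_mulVec {b : Finset V} {k : ℝ} (hk : 0 ≤ k) {r N : ℕ} (hN : N + 2 * r = b.card)
    {v : (V → Fin 2) → ℂ} (hv : Supp b r v) (h : Sg b sp *ᵥ v = 0) (q : ℤ) (θ : ℝ) :
    E b k q θ *ᵥ v = ((dd k θ ^ N : ℝ) : ℂ) •
      (Pi b q (pr b (Lm (Real.sinh (k / 2) * Real.sin θ / dd k θ))) *ᵥ v) := by
  have hd := (dd_pos hk θ).ne'
  have h1 : Tw b k θ *ᵥ v = ((dd k θ ^ N : ℝ) : ℂ) •
      (pr b (Lm (Real.sinh (k / 2) * Real.sin θ / dd k θ)) *ᵥ v) := by
    rw [Tw, ← gauss k θ hd, ← pr_mul, ← pr_mul, ← Matrix.mulVec_mulVec, pr_Um_mulVec b h,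
      ← Matrix.mulVec_mulVec]
    change _ *ᵥ (pr b (Dm (dd k θ)) *ᵥ v) = _
    rw [pr_Dm_mulVec b hd hN hv, Matrix.mulVec_smul]
    rfl
  ext σ
  rw [E, Pi_mulVec hv, Pi.smul_apply, Pi_mulVec hv, h1, Pi.smul_apply]
  split_ifs <;> simp

theorem E_zero_mulVec {b : Finset V} {k : ℝ} (hk : 0 ≤ k) {r N : ℕ} (hN : N + 2 * r = b.card)
    {v : (V → Fin 2) → ℂ} (hv : Supp b r v) (h : Sg b sp *ᵥ v = 0) (θ : ℝ) :
    E b k 0 θ *ᵥ v = ((dd k θ ^ N : ℝ) : ℂ) • v := by
  rw [E_mulVec hk hN hv h, Pi_zero_Lm, Matrix.one_mulVec]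

theorem E_one_mulVec {b : Finset V} {k : ℝ} (hk : 0 ≤ k) {r N : ℕ} (hN : N + 2 * r = b.card)
    {v : (V → Fin 2) → ℂ} (hv : Supp b r v) (h : Sg b sp *ᵥ v = 0) (θ : ℝ) :
    E b k 1 θ *ᵥ v =
      ((dd k θ ^ N * (Real.sinh (k / 2) * Real.sin θ / dd k θ) : ℝ) : ℂ) • (Sg b sm *ᵥ v) := by
  rw [E_mulVec hk hN hv h, Pi_one_Lm, Matrix.smul_mulVec, smul_smul]
  push_cast
  rfl

theorem Av_mulVec (b : Finset V) (k : ℝ) (q : ℤ) {w : ℝ → ℝ} (hw : Continuous w)
    (v : (V → Fin 2) → ℂ) (σ : V → Fin 2) :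
    (Av b k q w *ᵥ v) σ = ∫ θ in (0 : ℝ)..Real.pi, ((w θ : ℝ) : ℂ) * (E b k q θ *ᵥ v) σ := by
  simp only [Av, Matrix.mulVec, dotProduct, Matrix.of_apply, Finset.mul_sum]
  rw [intervalIntegral.integral_finset_sum]
  · refine Finset.sum_congr rfl fun τ _ => ?_
    rw [← intervalIntegral.integral_mul_const]
    congr 1
    ext θ
    ring
  · intro τ _
    exact (((Complex.continuous_ofReal.comp hw).mul
      ((continuous_E b k q σ τ).mul continuous_const)).intervalIntegrable _ _)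

theorem Av_mulVec_of {b : Finset V} {k : ℝ} {q : ℤ} {w : ℝ → ℝ} (hw : Continuous w)
    {v u : (V → Fin 2) → ℂ} {f : ℝ → ℝ} (h : ∀ θ, E b k q θ *ᵥ v = ((f θ : ℝ) : ℂ) • u) :
    Av b k q w *ᵥ v = ((∫ θ in (0 : ℝ)..Real.pi, w θ * f θ : ℝ) : ℂ) • u := by
  ext σ
  rw [Av_mulVec b k q hw, Pi.smul_apply, smul_eq_mul, ← intervalIntegral.integral_ofReal,
    ← intervalIntegral.integral_mul_const]
  congr 1
  ext θ
  rw [h, Pi.smul_apply, smul_eq_mul]
  push_cast
  ring

/-- `a(N) = ½ ∫ sin θ d^N`. -/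
noncomputable def aN (k : ℝ) (N : ℕ) : ℝ :=
  ∫ θ in (0 : ℝ)..Real.pi, 1 / 2 * Real.sin θ ^ 1 * dd k θ ^ N
/-- `b₀(N) = ½ ∫ sin θ cos θ d^N`. -/
noncomputable def b0N (k : ℝ) (N : ℕ) : ℝ :=
  ∫ θ in (0 : ℝ)..Real.pi, 1 / 2 * Real.cos θ * Real.sin θ ^ 1 * dd k θ ^ N
/-- `b₁(N) = ½ ∫ sin³ θ sinh(k/2) d^{N-1}`. -/
noncomputable def b1N (k : ℝ) (N : ℕ) : ℝ :=
  ∫ θ in (0 : ℝ)..Real.pi, 1 / 2 * Real.sin θ ^ 2 *
    (dd k θ ^ N * (Real.sinh (k / 2) * Real.sin θ / dd k θ))

section HW

variable {b : Finset V} {k : ℝ} {r N : ℕ} {v : (V → Fin 2) → ℂ}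

theorem opA_hw (hk : 0 ≤ k) (hN : N + 2 * r = b.card) (hv : Supp b r v)
    (h : Sg b sp *ᵥ v = 0) : opA b k *ᵥ v = ((aN k N : ℝ) : ℂ) • v :=
  Av_mulVec_of (by fun_prop) (E_zero_mulVec hk hN hv h)

theorem opB_hw (hk : 0 ≤ k) (hN : N + 2 * r = b.card) (hv : Supp b r v)
    (h : Sg b sp *ᵥ v = 0) : opB b k *ᵥ v = ((b0N k N : ℝ) : ℂ) • v :=
  Av_mulVec_of (by fun_prop) (E_zero_mulVec hk hN hv h)

theorem opC_hw (hk : 0 ≤ k) (hN : N + 2 * r = b.card) (hv : Supp b r v)
    (h : Sg b sp *ᵥ v = 0) : opC b k *ᵥ v = ((b1N k N : ℝ) : ℂ) • (Sg b sm *ᵥ v) :=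
  Av_mulVec_of (by fun_prop) (E_one_mulVec hk hN hv h)

theorem opA_ladder (hk : 0 ≤ k) (hN : N + 2 * r = b.card) (hv : Supp b r v)
    (h : Sg b sp *ᵥ v = 0) (p : ℕ) :
    opA b k *ᵥ (Sg b sm ^ p *ᵥ v) = ((aN k N : ℝ) : ℂ) • (Sg b sm ^ p *ᵥ v) := by
  induction p with
  | zero => simpa using opA_hw hk hN hv h
  | succ p ih =>
    rw [pow_succ', ← Matrix.mulVec_mulVec, Matrix.mulVec_mulVec _ (opA b k), ← comm_Sm_A,
      ← Matrix.mulVec_mulVec, ih, Matrix.mulVec_smul]

theorem opC_ladder (hk : 0 ≤ k) (hN : N + 2 * r = b.card) (hv : Supp b r v)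
    (h : Sg b sp *ᵥ v = 0) (p : ℕ) :
    opC b k *ᵥ (Sg b sm ^ p *ᵥ v) = ((b1N k N : ℝ) : ℂ) • (Sg b sm ^ (p + 1) *ᵥ v) := by
  induction p with
  | zero => simpa using opC_hw hk hN hv h
  | succ p ih =>
    rw [pow_succ', ← Matrix.mulVec_mulVec, Matrix.mulVec_mulVec _ (opC b k), ← comm_Sm_C,
      ← Matrix.mulVec_mulVec, ih, Matrix.mulVec_smul, pow_succ' _ (p + 1),
      ← Matrix.mulVec_mulVec]

theorem opB_ladder (hk : 0 ≤ k) (hN : N + 2 * r = b.card) (hv : Supp b r v)
    (h : Sg b sp *ᵥ v = 0) (p : ℕ) :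
    opB b k *ᵥ (Sg b sm ^ p *ᵥ v) =
      ((b0N k N - p * b1N k N : ℝ) : ℂ) • (Sg b sm ^ p *ᵥ v) := by
  induction p with
  | zero => simpa using opB_hw hk hN hv h
  | succ p ih =>
    have h1 : opB b k *ᵥ (Sg b sm *ᵥ (Sg b sm ^ p *ᵥ v)) =
        Sg b sm *ᵥ (opB b k *ᵥ (Sg b sm ^ p *ᵥ v)) - opC b k *ᵥ (Sg b sm ^ p *ᵥ v) := by
      rw [Matrix.mulVec_mulVec _ (opB b k), comm_Sm_B, Matrix.sub_mulVec, ← Matrix.mulVec_mulVec]
    have h2 : Sg b sm ^ (p + 1) *ᵥ v = Sg b sm *ᵥ (Sg b sm ^ p *ᵥ v) := by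
      rw [pow_succ', Matrix.mulVec_mulVec]
    rw [h2, h1, ih, opC_ladder hk hN hv h, h2, Matrix.mulVec_smul, ← sub_smul]
    congr 1
    push_cast
    ring

end HW

end Vale.Agent.P361.LRO.TwJ
end

section

/-!
Shared definitions for the operator part (spin 1/2 on a finite set of sites `V`).
-/

namespace Vale.Agent.P361.LRO.Energy

open Matrix Finset

noncomputable section

/-- Spin-1/2 configurations, `0` = up. -/
abbrev Cfg (V : Type*) := V → Fin 2

variable {V : Type*} [Fintype V] [DecidableEq V]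

/-- The permutation operator `P_{xy}` on configurations. -/
def swapM (x y : V) : Matrix (Cfg V) (Cfg V) ℂ :=
  Matrix.of fun σ τ => if σ ∘ Equiv.swap x y = τ then 1 else 0

/-- The singlet projector `h_{xy} = (1 - P_{xy})/2`. -/
def hM (x y : V) : Matrix (Cfg V) (Cfg V) ℂ := (1 / 2 : ℂ) • (1 - swapM x y)

/-- `S³_x`. -/
def szM (x : V) : Matrix (Cfg V) (Cfg V) ℂ :=
  Matrix.diagonal fun σ => if σ x = 0 then (1 / 2 : ℂ) else -(1 / 2)

/-- Gibbs expectation `tr (e^X A) / tr e^X`. -/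
def ex {ι : Type*} [Fintype ι] [DecidableEq ι] (X A : Matrix ι ι ℂ) : ℝ :=
  (trace (NormedSpace.exp X * A)).re / (trace (NormedSpace.exp X)).re

end

end Vale.Agent.P361.LRO.Energy
end

section

/-! # P361 LRO, block (7): trace lemmas (helper348)

`tr exp` of a principal submatrix; `tr exp (X ⊗ 1)`. -/

namespace Vale.Agent.P361.LRO.Energy

open Matrix Finset
open scoped ComplexOrder Kronecker

variable {ι κ : Type*} [Fintype ι] [DecidableEq ι] [Fintype κ] [DecidableEq κ]

/-- `tr exp` of a principal submatrix (block form) -/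
theorem tr_exp_block_le {μ : Type*} [Fintype μ] [DecidableEq μ] {W : Matrix (κ ⊕ μ) (κ ⊕ μ) ℂ}
    (hW : W.IsHermitian) :
    (trace (NormedSpace.exp (W.submatrix Sum.inl Sum.inl))).re ≤ (trace (NormedSpace.exp W)).re := by
  have hA : (W.submatrix (Sum.inl : κ → κ ⊕ μ) Sum.inl).IsHermitian := hW.submatrix _
  set A := W.submatrix (Sum.inl : κ → κ ⊕ μ) Sum.inl with hAdef
  set U := (hA.eigenvectorUnitary : Matrix κ κ ℂ) with hU
  have hUU : star U * U = 1 := Unitary.coe_star_mul_self _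
  set V : Matrix (κ ⊕ μ) (κ ⊕ μ) ℂ := Matrix.fromBlocks U 0 0 1 with hV
  have hstar : star V = Matrix.fromBlocks (star U) 0 0 1 := by
    rw [hV, Matrix.star_eq_conjTranspose, Matrix.fromBlocks_conjTranspose]
    simp [Matrix.star_eq_conjTranspose]
  have hVV : star V * V = 1 := by
    rw [hstar, hV, Matrix.fromBlocks_multiply]
    simp [hUU, Matrix.fromBlocks_one]
  have hWb : W = Matrix.fromBlocks A W.toBlocks₁₂ W.toBlocks₂₁ W.toBlocks₂₂ := by
    conv_lhs => rw [← Matrix.fromBlocks_toBlocks W]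
    rfl
  have hP := peierls hW hVV
  refine le_trans ?_ hP
  rw [Fintype.sum_sum_type, trace_exp_re hA]
  have hx : ∀ i : κ, ((star V * W * V) (Sum.inl i) (Sum.inl i)).re = hA.eigenvalues i := by
    intro i
    have h2 : (star V * W * V) (Sum.inl i) (Sum.inl i) = (star U * A * U) i i := by
      rw [hstar, hV, hWb, Matrix.fromBlocks_multiply, Matrix.fromBlocks_multiply,
        Matrix.fromBlocks_apply₁₁]
      simp
    rw [h2]
    have h1 : A = U * diagonal (RCLike.ofReal ∘ hA.eigenvalues) * star U := by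
      have := hA.spectral_theorem
      rwa [Unitary.conjStarAlgAut_apply] at this
    have h3 : star U * A * U = diagonal (RCLike.ofReal ∘ hA.eigenvalues) := by
      calc star U * A * U = star U * (U * diagonal (RCLike.ofReal ∘ hA.eigenvalues) * star U) * U := by
            rw [← h1]
        _ = (star U * U) * diagonal (RCLike.ofReal ∘ hA.eigenvalues) * (star U * U) := by
            simp only [Matrix.mul_assoc]
        _ = _ := by rw [hUU, Matrix.one_mul, Matrix.mul_one]
    rw [h3, Matrix.diagonal_apply_eq]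
    simp
  simp only [hx]
  exact le_add_of_nonneg_right (Finset.sum_nonneg fun i _ => (Real.exp_pos _).le)

/-- `tr exp` of a principal submatrix -/
theorem tr_exp_submatrix_le {W : Matrix ι ι ℂ} (hW : W.IsHermitian) {f : κ → ι}
    (hf : Function.Injective f) :
    (trace (NormedSpace.exp (W.submatrix f f))).re ≤ (trace (NormedSpace.exp W)).re := by
  classical
  let e : κ ⊕ ↥(Set.range f)ᶜ ≃ ι :=
    (Equiv.sumCongr (Equiv.ofInjective f hf) (Equiv.refl _)).trans (Equiv.Set.sumCompl (Set.range f))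
  have he : ∀ k, e (Sum.inl k) = f k := by
    intro k
    simp [e]
  have h1 := tr_exp_block_le (hW.submatrix (e : κ ⊕ ↥(Set.range f)ᶜ → ι))
  rw [trace_exp_submatrix] at h1
  have h2 : (W.submatrix (e : κ ⊕ ↥(Set.range f)ᶜ → ι) e).submatrix (Sum.inl : κ → _) Sum.inl =
      W.submatrix f f := by
    ext i j
    simp only [Matrix.submatrix_apply, he]
  rwa [h2] at h1

/-- `tr exp (X ⊗ 1)` -/
theorem tr_exp_kron_one {α β γ : Type*} [Fintype α] [DecidableEq α] [Fintype β] [DecidableEq β]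
    [Fintype γ] [DecidableEq γ] (e : α × β ≃ γ) {X : Matrix α α ℂ} {Y : Matrix γ γ ℂ}
    (h : Y.submatrix e e = X ⊗ₖ (1 : Matrix β β ℂ)) :
    (trace (NormedSpace.exp Y)).re = Fintype.card β * (trace (NormedSpace.exp X)).re := by
  rw [← trace_exp_submatrix e, h]
  have h1 : X ⊗ₖ (1 : Matrix β β ℂ) = Matrix.blockDiagonal fun _ : β => X := by
    ext ⟨i, k⟩ ⟨j, l⟩
    simp only [Matrix.kroneckerMap_apply, Matrix.blockDiagonal_apply, Matrix.one_apply]
    split_ifs <;> simp
  rw [h1, Matrix.exp_blockDiagonal, Matrix.trace_blockDiagonal]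
  have h2 : ∀ k : β, (NormedSpace.exp fun _ : β => X) k = NormedSpace.exp X := by
    intro k
    open scoped Matrix.Norms.Operator in
    exact congrFun (Pi.exp_def (fun _ : β => X)) k
  simp only [h2, Finset.sum_const, Finset.card_univ, nsmul_eq_mul]
  rw [← Complex.ofReal_natCast, Complex.re_ofReal_mul]

end Vale.Agent.P361.LRO.Energy
end

section

/-! # P361 LRO, block (7a): energy bound by Peierls–Bogoliubov (helper348)

`β ∑_{e touches Q} c_e ⟨h_e⟩ ≤ |Q| log 2 + β ∑_{e ∈ ∂Q} c_e` for any finite family of bonds `e = {a e, b e}` with weights `c e ≥ 0` and any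
fields `h_x ≥ 0` on `Q` (arbitrary outside `Q`). -/

namespace Vale.Agent.P361.LRO.Energy

open Matrix Finset
open scoped ComplexOrder Kronecker

set_option linter.unusedSectionVars false

noncomputable section

variable {V : Type*} [Fintype V] [DecidableEq V]

theorem comp_swap_swap (x y : V) (σ : Cfg V) : (σ ∘ Equiv.swap x y) ∘ Equiv.swap x y = σ := by
  ext z; simp

theorem swapM_isHermitian (x y : V) : (swapM x y).IsHermitian := by
  ext σ τ
  simp only [Matrix.conjTranspose_apply, swapM, Matrix.of_apply]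
  have h : (τ ∘ Equiv.swap x y = σ) ↔ (σ ∘ Equiv.swap x y = τ) := by
    constructor
    · rintro rfl; exact comp_swap_swap x y τ
    · rintro rfl; exact comp_swap_swap x y σ
  simp only [h]
  split_ifs <;> simp

theorem swapM_sq (x y : V) : swapM x y * swapM x y = 1 := by
  ext σ τ
  rw [Matrix.mul_apply]
  simp only [swapM, Matrix.of_apply]
  rw [Finset.sum_eq_single (σ ∘ Equiv.swap x y)]
  · rw [if_pos rfl, one_mul, comp_swap_swap, Matrix.one_apply]
  · intro ρ _ hρ
    rw [if_neg (fun h => hρ h.symm), zero_mul]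
  · intro h; exact absurd (Finset.mem_univ _) h

theorem hM_isHermitian (x y : V) : (hM x y).IsHermitian := by
  unfold hM
  have h1 : ((1 : Matrix (Cfg V) (Cfg V) ℂ) - swapM x y).IsHermitian :=
    Matrix.isHermitian_one.sub (swapM_isHermitian x y)
  ext σ τ
  have := congrFun (congrFun h1 σ) τ
  rw [Matrix.conjTranspose_apply] at this
  rw [Matrix.conjTranspose_apply, Matrix.smul_apply, Matrix.smul_apply, star_smul, this]
  simp

theorem hM_sq (x y : V) : hM x y * hM x y = hM x y := by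
  unfold hM
  rw [Matrix.smul_mul, Matrix.mul_smul, Matrix.sub_mul, Matrix.mul_sub, Matrix.mul_sub, swapM_sq,
    Matrix.mul_one, Matrix.one_mul, Matrix.mul_one]
  module

theorem hM_posSemidef (x y : V) : (hM x y).PosSemidef := by
  have h : hM x y = (hM x y)ᴴ * hM x y := by
    rw [(hM_isHermitian x y).eq, hM_sq]
  rw [h]
  exact Matrix.posSemidef_conjTranspose_mul_self _

theorem one_sub_hM_posSemidef (x y : V) : ((1 : Matrix (Cfg V) (Cfg V) ℂ) - hM x y).PosSemidef := by
  have h0 : ((1 : Matrix (Cfg V) (Cfg V) ℂ) - hM x y).IsHermitian :=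
    Matrix.isHermitian_one.sub (hM_isHermitian x y)
  have h : (1 : Matrix (Cfg V) (Cfg V) ℂ) - hM x y =
      ((1 : Matrix (Cfg V) (Cfg V) ℂ) - hM x y)ᴴ * ((1 : Matrix (Cfg V) (Cfg V) ℂ) - hM x y) := by
    rw [h0.eq, Matrix.sub_mul, Matrix.mul_sub, Matrix.mul_sub, hM_sq, Matrix.mul_one,
      Matrix.one_mul, Matrix.mul_one]
    abel
  rw [h]
  exact Matrix.posSemidef_conjTranspose_mul_self _

theorem szM_isHermitian (x : V) : (szM x).IsHermitian := by
  unfold szM
  rw [Matrix.isHermitian_diagonal_iff]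
  intro σ
  split_ifs <;> simp [IsSelfAdjoint]

theorem half_sub_szM_posSemidef (x : V) :
    ((1 / 2 : ℂ) • (1 : Matrix (Cfg V) (Cfg V) ℂ) - szM x).PosSemidef := by
  have h : (1 / 2 : ℂ) • (1 : Matrix (Cfg V) (Cfg V) ℂ) - szM x =
      Matrix.diagonal fun σ : Cfg V => if σ x = 0 then (0 : ℂ) else 1 := by
    ext σ τ
    by_cases hστ : σ = τ
    · subst hστ
      simp only [Matrix.sub_apply, Matrix.smul_apply, Matrix.one_apply_eq, szM,
        Matrix.diagonal_apply_eq, smul_eq_mul]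
      split_ifs <;> norm_num
    · simp [szM, hστ]
  rw [h]
  refine Matrix.PosSemidef.diagonal fun σ => ?_
  simp only [Pi.zero_apply]
  split_ifs <;> simp

theorem smul_real_posSemidef {ι : Type*} [Fintype ι] [DecidableEq ι] {A : Matrix ι ι ℂ} (hA : A.PosSemidef)
    {c : ℝ} (hc : 0 ≤ c) : ((c : ℂ) • A).PosSemidef :=
  Matrix.PosSemidef.smul hA (by simpa using hc)

theorem smul_real_isHermitian {ι : Type*} [Fintype ι] [DecidableEq ι] {A : Matrix ι ι ℂ} (hA : A.IsHermitian)
    (c : ℝ) : ((c : ℂ) • A).IsHermitian := by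
  rw [Matrix.IsHermitian, Matrix.conjTranspose_smul, hA.eq]
  simp

theorem sum_isHermitian {ι κ : Type*} [Fintype ι] [DecidableEq ι] (s : Finset κ) {A : κ → Matrix ι ι ℂ}
    (hA : ∀ k ∈ s, (A k).IsHermitian) : (∑ k ∈ s, A k).IsHermitian := by
  classical
  induction s using Finset.induction_on with
  | empty => simp
  | insert a s ha ih =>
    rw [Finset.sum_insert ha]
    exact (hA a (Finset.mem_insert_self _ _)).add (ih fun k hk => hA k (Finset.mem_insert_of_mem hk))

/-! ### Splitting off `Q` -/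

variable (Q : Finset V)

/-- configurations outside / inside `Q` -/
def splitQ : ((({x // x ∉ Q}) → Fin 2) × (({x // ¬ x ∉ Q}) → Fin 2)) ≃ Cfg V :=
  (Equiv.piEquivPiSubtypeProd (fun x => x ∉ Q) (fun _ => Fin 2)).symm

/-- extension by `up` -/
def extQ (s : ({x // x ∉ Q}) → Fin 2) : Cfg V := splitQ Q (s, 0)

variable {Q}

theorem splitQ_out (p : (({x // x ∉ Q}) → Fin 2) × (({x // ¬ x ∉ Q}) → Fin 2)) {x : V} (hx : x ∉ Q) :
    splitQ Q p x = p.1 ⟨x, hx⟩ := by
  simp [splitQ, Equiv.piEquivPiSubtypeProd, hx]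

theorem splitQ_in (p : (({x // x ∉ Q}) → Fin 2) × (({x // ¬ x ∉ Q}) → Fin 2)) {x : V} (hx : ¬ x ∉ Q) :
    splitQ Q p x = p.2 ⟨x, hx⟩ := by
  simp only [splitQ, Equiv.piEquivPiSubtypeProd, Equiv.coe_fn_symm_mk]
  rw [dif_neg hx]

theorem extQ_out (s : ({x // x ∉ Q}) → Fin 2) {x : V} (hx : x ∉ Q) : extQ Q s x = s ⟨x, hx⟩ :=
  splitQ_out (s, 0) hx

theorem extQ_injective : Function.Injective (extQ Q) := by
  intro s t h
  have := (splitQ Q).injective h
  exact (Prod.mk.inj this).1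

/-- an operator which does not act on `Q` -/
def OffQ (Q : Finset V) (A : Matrix (Cfg V) (Cfg V) ℂ) : Prop :=
  ∀ s t q q', A (splitQ Q (s, q)) (splitQ Q (t, q')) = if q = q' then A (extQ Q s) (extQ Q t) else 0

theorem offQ_add {A B : Matrix (Cfg V) (Cfg V) ℂ} (hA : OffQ Q A) (hB : OffQ Q B) : OffQ Q (A + B) := by
  intro s t q q'
  simp only [Matrix.add_apply, hA s t q q', hB s t q q']
  split_ifs <;> simp

theorem offQ_smul (c : ℂ) {A : Matrix (Cfg V) (Cfg V) ℂ} (hA : OffQ Q A) : OffQ Q (c • A) := by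
  intro s t q q'
  simp only [Matrix.smul_apply, hA s t q q']
  split_ifs <;> simp

theorem offQ_sub {A B : Matrix (Cfg V) (Cfg V) ℂ} (hA : OffQ Q A) (hB : OffQ Q B) : OffQ Q (A - B) := by
  intro s t q q'
  simp only [Matrix.sub_apply, hA s t q q', hB s t q q']
  split_ifs <;> simp

theorem offQ_sum {κ : Type*} (s : Finset κ) {A : κ → Matrix (Cfg V) (Cfg V) ℂ} (hA : ∀ k ∈ s, OffQ Q (A k)) :
    OffQ Q (∑ k ∈ s, A k) := by
  classical
  induction s using Finset.induction_on with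
  | empty =>
    intro s t q q'
    simp
  | insert a s ha ih =>
    rw [Finset.sum_insert ha]
    exact offQ_add (hA a (Finset.mem_insert_self _ _)) (ih fun k hk => hA k (Finset.mem_insert_of_mem hk))

theorem splitQ_eq_iff (s t : ({x // x ∉ Q}) → Fin 2) (q q' : ({x // ¬ x ∉ Q}) → Fin 2) :
    splitQ Q (s, q) = splitQ Q (t, q') ↔ q = q' ∧ extQ Q s = extQ Q t := by
  rw [(splitQ Q).injective.eq_iff, extQ_injective.eq_iff, Prod.mk.injEq]
  exact and_comm

theorem offQ_one : OffQ Q (1 : Matrix (Cfg V) (Cfg V) ℂ) := by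
  intro s t q q'
  simp only [Matrix.one_apply, splitQ_eq_iff]
  split_ifs <;> simp_all

theorem offQ_szM {x : V} (hx : x ∉ Q) : OffQ Q (szM x) := by
  intro s t q q'
  simp only [szM, Matrix.diagonal_apply, splitQ_eq_iff, extQ_out _ hx, splitQ_out _ hx]
  by_cases h1 : q = q'
  · simp [h1]
  · simp [h1]

theorem swap_comp_split {x y : V} (hx : x ∉ Q) (hy : y ∉ Q) (s : ({x // x ∉ Q}) → Fin 2)
    (q : ({x // ¬ x ∉ Q}) → Fin 2) : splitQ Q (s, q) ∘ Equiv.swap x y =
      splitQ Q (s ∘ Equiv.swap ⟨x, hx⟩ ⟨y, hy⟩, q) := by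
  funext z
  by_cases hz : z ∉ Q
  · rw [splitQ_out _ hz, Function.comp_apply]
    have h1 : Equiv.swap x y z = ((Equiv.swap (⟨x, hx⟩ : {x // x ∉ Q}) ⟨y, hy⟩ ⟨z, hz⟩ : {x // x ∉ Q}) : V) := by
      rw [Equiv.swap_apply_def, Equiv.swap_apply_def]
      simp only [Subtype.mk.injEq]
      split_ifs <;> rfl
    have h2 : Equiv.swap x y z ∉ Q := by
      rw [h1]
      exact (Equiv.swap (⟨x, hx⟩ : {x // x ∉ Q}) ⟨y, hy⟩ ⟨z, hz⟩).property
    rw [splitQ_out _ h2]
    simp only [Function.comp_apply]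
    congr 1
    exact Subtype.ext h1
  · have h1 : z ≠ x := by rintro rfl; exact hz hx
    have h2 : z ≠ y := by rintro rfl; exact hz hy
    rw [splitQ_in _ hz, Function.comp_apply, Equiv.swap_apply_of_ne_of_ne h1 h2, splitQ_in _ hz]

theorem offQ_swapM {x y : V} (hx : x ∉ Q) (hy : y ∉ Q) : OffQ Q (swapM x y) := by
  intro s t q q'
  have h0 : extQ Q s ∘ Equiv.swap x y = extQ Q (s ∘ Equiv.swap ⟨x, hx⟩ ⟨y, hy⟩) :=
    swap_comp_split hx hy s 0
  simp only [swapM, Matrix.of_apply, h0, swap_comp_split hx hy, splitQ_eq_iff]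
  by_cases h1 : q = q'
  · simp [h1]
  · simp [h1]

theorem offQ_hM {x y : V} (hx : x ∉ Q) (hy : y ∉ Q) : OffQ Q (hM x y) :=
  offQ_smul _ (offQ_sub offQ_one (offQ_swapM hx hy))

theorem tr_exp_offQ {A : Matrix (Cfg V) (Cfg V) ℂ} (hA : OffQ Q A) :
    (trace (NormedSpace.exp A)).re =
      (2 : ℝ) ^ Q.card * (trace (NormedSpace.exp (A.submatrix (extQ Q) (extQ Q)))).re := by
  have h : A.submatrix (splitQ Q) (splitQ Q) =
      (A.submatrix (extQ Q) (extQ Q)) ⊗ₖ (1 : Matrix (({x // ¬ x ∉ Q}) → Fin 2) (({x // ¬ x ∉ Q}) → Fin 2) ℂ) := by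
    ext ⟨s, q⟩ ⟨t, q'⟩
    rw [Matrix.submatrix_apply, hA s t q q', Matrix.kroneckerMap_apply, Matrix.one_apply,
      Matrix.submatrix_apply]
    split_ifs <;> simp
  rw [tr_exp_kron_one (splitQ Q) h]
  congr 1
  rw [Fintype.card_fun, Fintype.card_fin]
  have : Fintype.card {x // ¬ x ∉ Q} = Q.card := by
    rw [Fintype.card_subtype]
    congr 1
    ext x
    simp
  rw [this]
  push_cast
  rfl

/-- both ends in `Q`: no energy when `Q` is up -/
theorem hM_sub_in {x y : V} (hx : x ∈ Q) (hy : y ∈ Q) : (hM x y).submatrix (extQ Q) (extQ Q) = 0 := by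
  ext s t
  have h1 : extQ Q s ∘ Equiv.swap x y = extQ Q s := by
    funext z
    simp only [Function.comp_apply, extQ]
    have h0 : ∀ {w : V}, w ∈ Q → splitQ Q (s, 0) w = 0 := by
      intro w hw
      rw [splitQ_in _ (not_not.2 hw)]
      rfl
    rcases eq_or_ne z x with rfl | hzx
    · rw [Equiv.swap_apply_left, h0 hy, h0 hx]
    · rcases eq_or_ne z y with rfl | hzy
      · rw [Equiv.swap_apply_right, h0 hx, h0 hy]
      · rw [Equiv.swap_apply_of_ne_of_ne hzx hzy]
  simp only [Matrix.submatrix_apply, hM, Matrix.smul_apply, Matrix.sub_apply, swapM, Matrix.of_apply, h1,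
    Matrix.one_apply, sub_self, smul_zero, Matrix.zero_apply]

theorem szM_sub_in {x : V} (hx : x ∈ Q) : (szM x).submatrix (extQ Q) (extQ Q) =
    (1 / 2 : ℂ) • (1 : Matrix (({x // x ∉ Q}) → Fin 2) (({x // x ∉ Q}) → Fin 2) ℂ) := by
  ext s t
  have h0 : extQ Q s x = 0 := by
    rw [extQ, splitQ_in _ (not_not.2 hx)]
    rfl
  by_cases hst : s = t
  · subst hst
    simp [szM, h0]
  · have : extQ Q s ≠ extQ Q t := fun h => hst (extQ_injective h)
    simp [szM, this, hst]

variable {ι : Type*} [Fintype ι] [DecidableEq ι]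

/-- exponent of the Gibbs state: `β (∑_x h_x S³_x - ∑_e c_e h_e)` -/
def gibX (β : ℝ) (h : V → ℝ) (a b : ι → V) (c : ι → ℝ) : Matrix (Cfg V) (Cfg V) ℂ :=
  ∑ x, ((β * h x : ℝ) : ℂ) • szM x - ∑ e, ((β * c e : ℝ) : ℂ) • hM (a e) (b e)

theorem gibX_isHermitian (β : ℝ) (h : V → ℝ) (a b : ι → V) (c : ι → ℝ) : (gibX β h a b c).IsHermitian :=
  (sum_isHermitian _ fun _ _ => smul_real_isHermitian (szM_isHermitian _) _).sub
    (sum_isHermitian _ fun _ _ => smul_real_isHermitian (hM_isHermitian _ _) _)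

theorem ex_add (X A B : Matrix (Cfg V) (Cfg V) ℂ) : ex X (A + B) = ex X A + ex X B := by
  unfold ex
  rw [Matrix.mul_add, Matrix.trace_add, Complex.add_re, add_div]

theorem ex_smul (X : Matrix (Cfg V) (Cfg V) ℂ) (c : ℝ) (A : Matrix (Cfg V) (Cfg V) ℂ) :
    ex X ((c : ℂ) • A) = c * ex X A := by
  unfold ex
  rw [Matrix.mul_smul, Matrix.trace_smul, smul_eq_mul, Complex.re_ofReal_mul, mul_div_assoc]

theorem ex_zero (X : Matrix (Cfg V) (Cfg V) ℂ) : ex X 0 = 0 := by
  simp [ex]

theorem ex_sum {κ : Type*} (X : Matrix (Cfg V) (Cfg V) ℂ) (s : Finset κ) (A : κ → Matrix (Cfg V) (Cfg V) ℂ) :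
    ex X (∑ k ∈ s, A k) = ∑ k ∈ s, ex X (A k) := by
  classical
  induction s using Finset.induction_on with
  | empty => simp [ex_zero]
  | insert a s ha ih => rw [Finset.sum_insert ha, Finset.sum_insert ha, ex_add, ih]

/-- **(7a)** energy of the bonds touching `Q` -/
theorem energy_le {β : ℝ} (hβ : 0 ≤ β) (h : V → ℝ) (a b : ι → V) {c : ι → ℝ} (hc : ∀ e, 0 ≤ c e) (Q : Finset V)
    (hh : ∀ x ∈ Q, 0 ≤ h x) :
    β * ∑ e with (a e ∈ Q ∨ b e ∈ Q), c e * ex (gibX β h a b c) (hM (a e) (b e)) ≤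
      Q.card * Real.log 2 + β * ∑ e with ((a e ∈ Q ∨ b e ∈ Q) ∧ ¬ (a e ∈ Q ∧ b e ∈ Q)), c e := by
  classical
  set X := gibX β h a b c with hX
  have hXh : X.IsHermitian := gibX_isHermitian β h a b c
  -- the part of the Hamiltonian touching Q
  set T : Finset ι := Finset.univ.filter fun e => (a e ∈ Q ∨ b e ∈ Q) with hT
  set Y : Matrix (Cfg V) (Cfg V) ℂ := ∑ e ∈ T, ((β * c e : ℝ) : ℂ) • hM (a e) (b e) with hY
  have hYh : Y.IsHermitian := sum_isHermitian _ fun _ _ => smul_real_isHermitian (hM_isHermitian _ _) _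
  have hPB := peierls_bogoliubov hXh hYh
  have hexY : (trace (NormedSpace.exp X * Y)).re / (trace (NormedSpace.exp X)).re =
      β * ∑ e ∈ T, c e * ex X (hM (a e) (b e)) := by
    change ex X Y = _
    rw [hY, ex_sum, Finset.mul_sum]
    refine Finset.sum_congr rfl fun e _ => ?_
    rw [ex_smul]
    ring
  -- the operator off Q
  set A : Matrix (Cfg V) (Cfg V) ℂ := ∑ x with x ∉ Q, ((β * h x : ℝ) : ℂ) • szM x -
    ∑ e with ¬ (a e ∈ Q ∨ b e ∈ Q), ((β * c e : ℝ) : ℂ) • hM (a e) (b e) with hA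
  have hAoff : OffQ Q A := by
    refine offQ_sub (offQ_sum _ fun x hx => offQ_smul _ (offQ_szM (Finset.mem_filter.1 hx).2))
      (offQ_sum _ fun e he => offQ_smul _ ?_)
    have h2 := (Finset.mem_filter.1 he).2
    rw [not_or] at h2
    exact offQ_hM h2.1 h2.2
  have hAh : A.IsHermitian :=
    (sum_isHermitian _ fun _ _ => smul_real_isHermitian (szM_isHermitian _) _).sub
      (sum_isHermitian _ fun _ _ => smul_real_isHermitian (hM_isHermitian _ _) _)
  set D : Matrix (Cfg V) (Cfg V) ℂ := ∑ x ∈ Q, ((β * h x : ℝ) : ℂ) • szM x with hD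
  have hXAD : X = A + D - Y := by
    rw [hX, hA, hD, hY, gibX, hT]
    rw [← Finset.sum_filter_add_sum_filter_not Finset.univ (fun x => x ∉ Q)
      (fun x => ((β * h x : ℝ) : ℂ) • (szM x : Matrix (Cfg V) (Cfg V) ℂ)),
      ← Finset.sum_filter_add_sum_filter_not Finset.univ (fun e => a e ∈ Q ∨ b e ∈ Q)
      (fun e => ((β * c e : ℝ) : ℂ) • (hM (a e) (b e) : Matrix (Cfg V) (Cfg V) ℂ))]
    have h3 : (Finset.univ.filter fun x => ¬ x ∉ Q) = Q := by
      ext x; simp
    rw [h3]
    abel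
  set H : ℝ := ∑ x ∈ Q, β * h x / 2 with hH
  -- upper bound of tr exp (X + Y)
  have hup : (trace (NormedSpace.exp (X + Y))).re ≤ Real.exp H * (trace (NormedSpace.exp A)).re := by
    have h1 : X + Y = A + D := by rw [hXAD]; abel
    have hDh : D.IsHermitian := sum_isHermitian _ fun _ _ => smul_real_isHermitian (szM_isHermitian _) _
    rw [h1, ← trace_exp_add_smul_one]
    refine trace_exp_mono (hAh.add hDh) (hAh.add (smul_real_isHermitian Matrix.isHermitian_one H)) ?_
    have h2 : A + (H : ℂ) • (1 : Matrix (Cfg V) (Cfg V) ℂ) - (A + D) =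
        ∑ x ∈ Q, ((β * h x : ℝ) : ℂ) • ((1 / 2 : ℂ) • (1 : Matrix (Cfg V) (Cfg V) ℂ) - szM x) := by
      simp only [smul_sub, Finset.sum_sub_distrib, smul_smul, ← Finset.sum_smul]
      rw [hH, ← hD]
      push_cast
      have h4 : (∑ x ∈ Q, (β : ℂ) * (h x : ℂ) * (1 / 2)) = ∑ x ∈ Q, (β : ℂ) * (h x : ℂ) / 2 :=
        Finset.sum_congr rfl fun x _ => by ring
      rw [h4]
      abel
    rw [h2]
    exact Matrix.posSemidef_sum _ fun x hx =>
      smul_real_posSemidef (half_sub_szM_posSemidef x) (mul_nonneg hβ (hh x hx))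
  -- lower bound of tr exp X
  set G : ℝ := β * ∑ e with ((a e ∈ Q ∨ b e ∈ Q) ∧ ¬ (a e ∈ Q ∧ b e ∈ Q)), c e with hG
  have hAsub : (A.submatrix (extQ Q) (extQ Q)).IsHermitian := hAh.submatrix _
  have hlow : Real.exp (H - G) * (trace (NormedSpace.exp (A.submatrix (extQ Q) (extQ Q)))).re ≤
      (trace (NormedSpace.exp X)).re := by
    refine le_trans ?_ (tr_exp_submatrix_le hXh (extQ_injective (Q := Q)))
    rw [← trace_exp_add_smul_one]
    refine trace_exp_mono (hAsub.add (smul_real_isHermitian Matrix.isHermitian_one _)) (hXh.submatrix _) ?_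
    have hDsub : D.submatrix (extQ Q) (extQ Q) =
        (H : ℂ) • (1 : Matrix (({x // x ∉ Q}) → Fin 2) (({x // x ∉ Q}) → Fin 2) ℂ) := by
      rw [hD, submatrix_sum_eq, hH]
      push_cast
      rw [Finset.sum_smul]
      refine Finset.sum_congr rfl fun x hx => ?_
      rw [Matrix.submatrix_smul, Pi.smul_apply, Pi.smul_apply, szM_sub_in hx, smul_smul]
      congr 1
      ring
    have h2 : X.submatrix (extQ Q) (extQ Q) - (A.submatrix (extQ Q) (extQ Q) +
        ((H - G : ℝ) : ℂ) • (1 : Matrix (({x // x ∉ Q}) → Fin 2) (({x // x ∉ Q}) → Fin 2) ℂ)) =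
        ∑ e with ((a e ∈ Q ∨ b e ∈ Q) ∧ ¬ (a e ∈ Q ∧ b e ∈ Q)), ((β * c e : ℝ) : ℂ) •
          ((1 : Matrix (Cfg V) (Cfg V) ℂ) - hM (a e) (b e)).submatrix (extQ Q) (extQ Q) := by
      have hYsub : Y.submatrix (extQ Q) (extQ Q) =
          ∑ e with ((a e ∈ Q ∨ b e ∈ Q) ∧ ¬ (a e ∈ Q ∧ b e ∈ Q)), ((β * c e : ℝ) : ℂ) •
          (hM (a e) (b e)).submatrix (extQ Q) (extQ Q) := by
        rw [hY, submatrix_sum_eq, hT, ← Finset.filter_filter, eq_comm]
        refine Finset.sum_subset_zero_on_sdiff (Finset.filter_subset _ _) ?_ ?_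
        · intro e he
          rw [Finset.mem_sdiff] at he
          have h5 : a e ∈ Q ∧ b e ∈ Q := by
            by_contra h6
            exact he.2 (Finset.mem_filter.2 ⟨he.1, h6⟩)
          rw [Matrix.submatrix_smul, Pi.smul_apply, Pi.smul_apply, hM_sub_in h5.1 h5.2, smul_zero]
        · intro e _
          rfl
      have h1sub : (1 : Matrix (Cfg V) (Cfg V) ℂ).submatrix (extQ Q) (extQ Q) =
          (1 : Matrix (({x // x ∉ Q}) → Fin 2) (({x // x ∉ Q}) → Fin 2) ℂ) :=
        Matrix.submatrix_one (extQ Q) extQ_injective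
      have e1 : X.submatrix (extQ Q) (extQ Q) = A.submatrix (extQ Q) (extQ Q) +
          D.submatrix (extQ Q) (extQ Q) - Y.submatrix (extQ Q) (extQ Q) := by
        rw [hXAD]
        rfl
      rw [e1, hDsub, hYsub]
      simp only [Matrix.submatrix_sub, Pi.sub_apply, h1sub, smul_sub, Finset.sum_sub_distrib]
      have e2 : (∑ e with ((a e ∈ Q ∨ b e ∈ Q) ∧ ¬ (a e ∈ Q ∧ b e ∈ Q)), ((β * c e : ℝ) : ℂ) •
          (1 : Matrix (({x // x ∉ Q}) → Fin 2) (({x // x ∉ Q}) → Fin 2) ℂ)) =
          (G : ℂ) • (1 : Matrix (({x // x ∉ Q}) → Fin 2) (({x // x ∉ Q}) → Fin 2) ℂ) := by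
        rw [← Finset.sum_smul, hG]
        push_cast
        rw [Finset.mul_sum]
      rw [e2]
      push_cast
      module
    rw [h2]
    exact Matrix.posSemidef_sum _ fun e _ => smul_real_posSemidef
      ((one_sub_hM_posSemidef _ _).submatrix _) (mul_nonneg hβ (hc e))
  have htA := tr_exp_offQ hAoff
  have hp1 := trace_exp_pos hXh
  have hp2 : 0 < (trace (NormedSpace.exp (A.submatrix (extQ Q) (extQ Q)))).re := trace_exp_pos hAsub
  rw [hexY] at hPB
  have hl1 : Real.log (trace (NormedSpace.exp (X + Y))).re ≤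
      H + (Q.card * Real.log 2 + Real.log (trace (NormedSpace.exp (A.submatrix (extQ Q) (extQ Q)))).re) := by
    have h1 := Real.log_le_log (trace_exp_pos (hXh.add hYh)) hup
    rwa [htA, Real.log_mul (Real.exp_pos _).ne' (by positivity), Real.log_exp,
      Real.log_mul (by positivity) hp2.ne', Real.log_pow] at h1
  have hl2 : H - G + Real.log (trace (NormedSpace.exp (A.submatrix (extQ Q) (extQ Q)))).re ≤
      Real.log (trace (NormedSpace.exp X)).re := by
    have h1 := Real.log_le_log (by positivity) hlow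
    rwa [Real.log_mul (Real.exp_pos _).ne' hp2.ne', Real.log_exp] at h1
  linarith

end

end Vale.Agent.P361.LRO.Energy
end

section

/-!
Hermitian forms of hemispheres on `ℂ²` and the two-site lemmas (P361, step (8)).
-/

namespace Vale.Agent.P361.LRO

open Complex

noncomputable section

/-- The Hermitian form of the hemisphere centred at the angle `g` in the (1,3) plane. -/
def Q (g : ℝ) (u : Fin 2 → ℂ) : ℝ :=
  Real.cos g * (normSq (u 0) - normSq (u 1)) +
    2 * Real.sin g * ((u 0).re * (u 1).re + (u 0).im * (u 1).im)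

/-- The bilinear pairing on `ℂ²`. -/
def dot (u v : Fin 2 → ℂ) : ℂ := u 0 * v 0 + u 1 * v 1

/-- The symplectic rotation `(v₁, -v₀)`. -/
def eps (v : Fin 2 → ℂ) : Fin 2 → ℂ := ![v 1, -v 0]

@[simp] lemma eps_zero (v : Fin 2 → ℂ) : eps v 0 = v 1 := rfl
@[simp] lemma eps_one (v : Fin 2 → ℂ) : eps v 1 = -v 0 := rfl

lemma Q_eps (g : ℝ) (v : Fin 2 → ℂ) : Q g (eps v) = -Q g v := by
  simp only [Q, eps_zero, eps_one, normSq_neg, neg_re, neg_im]; ring

lemma Q_smul (g : ℝ) (k : ℂ) (v : Fin 2 → ℂ) : Q g (k • v) = normSq k * Q g v := by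
  simp only [Q, Pi.smul_apply, smul_eq_mul, normSq_mul, mul_re, mul_im]
  rw [normSq_apply k]; ring

lemma Q_zero (g : ℝ) : Q g 0 = 0 := by simp [Q]

lemma ne_zero_of_Q_pos {g : ℝ} {v : Fin 2 → ℂ} (h : 0 < Q g v) : v ≠ 0 := by
  rintro rfl; rw [Q_zero] at h; exact lt_irrefl _ h

lemma eps_ne_zero {v : Fin 2 → ℂ} (h : v ≠ 0) : eps v ≠ 0 := by
  intro h0
  apply h
  funext i
  have h1 := congrFun h0 0
  have h2 := congrFun h0 1
  simp only [eps_zero, eps_one, Pi.zero_apply, neg_eq_zero] at h1 h2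
  fin_cases i <;> simp [h1, h2]

lemma dot_eps (v : Fin 2 → ℂ) : dot (eps v) v = 0 := by
  simp only [dot, eps_zero, eps_one]; ring

/-- Quadratic form identity. -/
lemma Q_comb (g a b : ℝ) (p q : Fin 2 → ℂ) :
    Q g ((a : ℂ) • p + (b : ℂ) • q) =
      a * (a + b) * Q g p + b * (a + b) * Q g q - a * b * Q g (p - q) := by
  simp only [Q, Pi.add_apply, Pi.sub_apply, Pi.smul_apply, smul_eq_mul, normSq_apply, add_re,
    add_im, sub_re, sub_im, mul_re, mul_im, ofReal_re, ofReal_im]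
  ring

lemma dot_ne_zero {g : ℝ} {u w : Fin 2 → ℂ} (hu : 0 < Q g u) (hw : 0 ≤ Q g w) (hw0 : w ≠ 0) :
    dot u w ≠ 0 := by
  intro h
  have hk : ∃ k : ℂ, w = k • eps u := by
    by_cases h0 : u 0 = 0
    · have h1 : u 1 ≠ 0 := by
        intro h1
        apply ne_zero_of_Q_pos hu
        funext i; fin_cases i <;> simp [h0, h1]
      have hw1 : w 1 = 0 := by
        have : u 1 * w 1 = 0 := by simpa [dot, h0] using h
        exact (mul_eq_zero.mp this).resolve_left h1
      refine ⟨w 0 / u 1, ?_⟩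
      funext i
      fin_cases i
      · simp [h1]
      · simp [hw1, h0]
    · refine ⟨-(w 1) / u 0, ?_⟩
      have e0 : w 0 = -(u 1 * w 1) / u 0 := by
        rw [eq_div_iff h0]
        have : u 0 * w 0 + u 1 * w 1 = 0 := h
        linear_combination this
      funext i
      fin_cases i
      · simp only [Fin.zero_eta, Pi.smul_apply, eps_zero, smul_eq_mul]
        rw [e0]; ring
      · simp only [Fin.mk_one, Pi.smul_apply, eps_one, smul_eq_mul]
        field_simp
  obtain ⟨k, rfl⟩ := hk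
  have hk0 : k ≠ 0 := by
    rintro rfl; exact hw0 (zero_smul _ _)
  rw [Q_smul, Q_eps] at hw
  have := normSq_pos.mpr hk0
  nlinarith [mul_pos this hu]

lemma dot_comm_cone (u w : Fin 2 → ℂ) : dot u w = dot w u := by simp only [dot]; ring

lemma dot_ne_zero' {g : ℝ} {u w : Fin 2 → ℂ} (hu : 0 ≤ Q g u) (hu0 : u ≠ 0) (hw : 0 < Q g w) :
    dot u w ≠ 0 := by
  rw [dot_comm_cone]; exact dot_ne_zero hw hu hu0

/-- `w` pairs nontrivially with the open cone: `w` is in the closed cone. -/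
lemma mem_of_dot_open {g : ℝ} {w : Fin 2 → ℂ} (h : ∀ u, 0 < Q g u → dot u w ≠ 0)
    (hne : ∃ u, 0 < Q g u) : w ≠ 0 ∧ 0 ≤ Q g w := by
  constructor
  · rintro rfl
    obtain ⟨u, hu⟩ := hne
    exact h u hu (by simp [dot])
  · by_contra hc
    rw [not_le] at hc
    exact h (eps w) (by rw [Q_eps]; linarith) (dot_eps w)

/-- `w` pairs nontrivially with the closed cone: `w` is in the open cone. -/
lemma mem_of_dot_closed {g : ℝ} {w : Fin 2 → ℂ} (h : ∀ u, u ≠ 0 → 0 ≤ Q g u → dot u w ≠ 0)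
    (hne : ∃ u : Fin 2 → ℂ, u ≠ 0 ∧ 0 ≤ Q g u) : 0 < Q g w := by
  have hw0 : w ≠ 0 := by
    rintro rfl
    obtain ⟨u, hu0, hu⟩ := hne
    exact h u hu0 hu (by simp [dot])
  by_contra hc
  rw [not_lt] at hc
  exact h (eps w) (eps_ne_zero hw0) (by rw [Q_eps]; linarith) (dot_eps w)

/-- A boundary vector of every cone. -/
def bd : Fin 2 → ℂ := ![1, I]

lemma bd_ne_zero : bd ≠ 0 := by
  intro h
  have := congrFun h 0
  simp [bd] at this

lemma Q_bd (g : ℝ) : Q g bd = 0 := by simp [Q, bd]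

/-- Bilinear form of a `2 × 2` matrix. -/
def bil (M : Fin 2 → Fin 2 → ℂ) (u v : Fin 2 → ℂ) : ℂ :=
  ∑ s, ∑ t, M s t * u s * v t

/-- `M v` and `Mᵀ v`. -/
def app (M : Fin 2 → Fin 2 → ℂ) (v : Fin 2 → ℂ) : Fin 2 → ℂ := fun s => M s 0 * v 0 + M s 1 * v 1

lemma bil_eq (M : Fin 2 → Fin 2 → ℂ) (u v : Fin 2 → ℂ) : bil M u v = dot u (app M v) := by
  simp only [bil, dot, app, Fin.sum_univ_two]; ring

lemma bil_swap (M : Fin 2 → Fin 2 → ℂ) (u v : Fin 2 → ℂ) :
    bil M v u = dot u (app (fun s t => M t s) v) := by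
  simp only [bil, dot, app, Fin.sum_univ_two]; ring

lemma app_sub (M : Fin 2 → Fin 2 → ℂ) (v : Fin 2 → ℂ) :
    app M v - app (fun s t => M t s) v = (M 0 1 - M 1 0) • eps v := by
  funext i
  fin_cases i
  · simp [app]; ring
  · simp [app]; ring

/-- The swap-gate lemma, open cones. -/
lemma swap_open {g : ℝ} {M : Fin 2 → Fin 2 → ℂ} {a b : ℝ} (ha : 0 ≤ a) (hb : 0 ≤ b)
    (hab : 0 < a + b) (h : ∀ u v, 0 < Q g u → 0 < Q g v → bil M u v ≠ 0)
    {u v : Fin 2 → ℂ} (hu : 0 < Q g u) (hv : 0 < Q g v) :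
    (a : ℂ) * bil M u v + (b : ℂ) * bil M v u ≠ 0 := by
  set p := app M v with hp
  set q := app (fun s t => M t s) v with hq
  have hP : p ≠ 0 ∧ 0 ≤ Q g p := mem_of_dot_open
    (fun w hw => by rw [hp, ← bil_eq]; exact h w v hw hv) ⟨u, hu⟩
  have hQ : q ≠ 0 ∧ 0 ≤ Q g q := mem_of_dot_open
    (fun w hw => by rw [hq, ← bil_swap]; exact h v w hv hw) ⟨u, hu⟩
  have key : (a : ℂ) * bil M u v + (b : ℂ) * bil M v u =
      dot u ((a : ℂ) • p + (b : ℂ) • q) := by
    rw [bil_eq, bil_swap]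
    simp only [dot, Pi.add_apply, Pi.smul_apply, smul_eq_mul, hp, hq]; ring
  have hsub : p - q = (M 0 1 - M 1 0) • eps v := by rw [hp, hq]; exact app_sub M v
  have hQc := Q_comb g a b p q
  rw [hsub, Q_smul, Q_eps] at hQc
  rw [key]
  by_cases hc : M 0 1 - M 1 0 = 0
  · have hpq : p = q := by
      have := hsub; rw [hc, zero_smul] at this; exact sub_eq_zero.mp this
    rw [← hpq, ← add_smul, show dot u (((a : ℂ) + b) • p) = ((a : ℂ) + b) * dot u p by
      simp only [dot, Pi.smul_apply, smul_eq_mul]; ring]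
    refine mul_ne_zero ?_ (dot_ne_zero hu hP.2 hP.1)
    intro h0
    have : ((a + b : ℝ) : ℂ) = 0 := by push_cast; exact h0
    rw [ofReal_eq_zero] at this
    linarith
  · rcases ha.eq_or_lt with ha0 | ha0
    · have : ((a : ℂ) • p + (b : ℂ) • q) = (b : ℂ) • q := by rw [← ha0]; simp
      rw [this, show dot u ((b : ℂ) • q) = (b : ℂ) * dot u q by
        simp only [dot, Pi.smul_apply, smul_eq_mul]; ring]
      refine mul_ne_zero ?_ (dot_ne_zero hu hQ.2 hQ.1)
      intro h0
      rw [ofReal_eq_zero] at h0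
      linarith
    · rcases hb.eq_or_lt with hb0 | hb0
      · have : ((a : ℂ) • p + (b : ℂ) • q) = (a : ℂ) • p := by rw [← hb0]; simp
        rw [this, show dot u ((a : ℂ) • p) = (a : ℂ) * dot u p by
          simp only [dot, Pi.smul_apply, smul_eq_mul]; ring]
        refine mul_ne_zero ?_ (dot_ne_zero hu hP.2 hP.1)
        intro h0
        rw [ofReal_eq_zero] at h0
        linarith
      · have hcp := normSq_pos.mpr hc
        have : 0 < Q g ((a : ℂ) • p + (b : ℂ) • q) := by
          rw [hQc]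
          have h1 := mul_nonneg (mul_nonneg ha hab.le) hP.2
          have h2 := mul_nonneg (mul_nonneg hb hab.le) hQ.2
          have h3 : 0 < a * b * (normSq (M 0 1 - M 1 0) * Q g v) := by positivity
          linarith
        exact dot_ne_zero hu this.le (ne_zero_of_Q_pos this)

/-- The swap-gate lemma, closed cones. -/
lemma swap_closed {g : ℝ} {M : Fin 2 → Fin 2 → ℂ} {a b : ℝ} (ha : 0 ≤ a) (hb : 0 ≤ b)
    (hab : 0 < a + b)
    (h : ∀ u v, u ≠ 0 → 0 ≤ Q g u → v ≠ 0 → 0 ≤ Q g v → bil M u v ≠ 0)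
    {u v : Fin 2 → ℂ} (hu0 : u ≠ 0) (hu : 0 ≤ Q g u) (hv0 : v ≠ 0) (hv : 0 ≤ Q g v) :
    (a : ℂ) * bil M u v + (b : ℂ) * bil M v u ≠ 0 := by
  set p := app M v with hp
  set q := app (fun s t => M t s) v with hq
  have hP : 0 < Q g p := mem_of_dot_closed
    (fun w hw0 hw => by rw [hp, ← bil_eq]; exact h w v hw0 hw hv0 hv) ⟨u, hu0, hu⟩
  have hQ : 0 < Q g q := mem_of_dot_closed
    (fun w hw0 hw => by rw [hq, ← bil_swap]; exact h v w hv0 hv hw0 hw) ⟨u, hu0, hu⟩
  have key : (a : ℂ) * bil M u v + (b : ℂ) * bil M v u =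
      dot u ((a : ℂ) • p + (b : ℂ) • q) := by
    rw [bil_eq, bil_swap]
    simp only [dot, Pi.add_apply, Pi.smul_apply, smul_eq_mul, hp, hq]; ring
  have hsub : p - q = (M 0 1 - M 1 0) • eps v := by rw [hp, hq]; exact app_sub M v
  have hQc := Q_comb g a b p q
  rw [hsub, Q_smul, Q_eps] at hQc
  rw [key]
  have : 0 < Q g ((a : ℂ) • p + (b : ℂ) • q) := by
    rw [hQc]
    have h3 : 0 ≤ a * b * (normSq (M 0 1 - M 1 0) * Q g v) :=
      mul_nonneg (mul_nonneg ha hb) (mul_nonneg (normSq_nonneg _) hv)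
    rcases ha.eq_or_lt with ha0 | ha0
    · have hb0 : 0 < b := by linarith
      have h2 := mul_pos (mul_pos hb0 hab) hQ
      have h1 := mul_nonneg (mul_nonneg ha hab.le) hP.le
      linarith
    · have h1 := mul_pos (mul_pos ha0 hab) hP
      have h2 := mul_nonneg (mul_nonneg hb hab.le) hQ.le
      linarith
  exact dot_ne_zero' hu hu0 this

/-- A matrix which is nonvanishing on closed cone × closed cone has nonzero trace. -/
lemma trace_ne_zero {g : ℝ} {M : Fin 2 → Fin 2 → ℂ}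
    (h : ∀ u v, u ≠ 0 → 0 ≤ Q g u → v ≠ 0 → 0 ≤ Q g v → bil M u v ≠ 0) :
    M 0 0 + M 1 1 ≠ 0 := by
  intro htr
  have hmap : ∀ v : Fin 2 → ℂ, v ≠ 0 → 0 ≤ Q g v → 0 < Q g (app M v) := fun v hv0 hv =>
    mem_of_dot_closed (fun w hw0 hw => by rw [← bil_eq]; exact h w v hw0 hw hv0 hv)
      ⟨v, hv0, hv⟩
  have h1 := hmap bd bd_ne_zero (Q_bd g).ge
  have h2 := hmap (app M bd) (ne_zero_of_Q_pos h1) h1.le
  have h3 : app M (app M bd) = (M 0 1 * M 1 0 - M 0 0 * M 1 1) • bd := by
    have e : M 1 1 = -M 0 0 := by linear_combination htr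
    funext i
    fin_cases i
    · simp only [app, Fin.zero_eta, Pi.smul_apply, smul_eq_mul, e]; ring
    · simp only [app, Fin.mk_one, Pi.smul_apply, smul_eq_mul, e]; ring
  rw [h3, Q_smul, Q_bd, mul_zero] at h2
  exact lt_irrefl _ h2

end

end Vale.Agent.P361.LRO
end

section

/-!
Stability of states on `V → Fin 2` with respect to a hemisphere, gates, nonvanishing trace
(P361, step (8)).
-/

namespace Vale.Agent.P361.LRO

open Complex Matrix

noncomputable section

variable {V : Type*} [Fintype V] [DecidableEq V]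

/-- The multilinear form with coefficients `ψ`. -/
def L {ι : Type*} [Fintype ι] (ψ : (V → ι) → ℂ) (k : V → ι → ℂ) : ℂ :=
  ∑ σ : V → ι, ψ σ * ∏ x, k x (σ x)

lemma prod_update_eq {ι : Type*} (k : V → ι → ℂ) (x : V) (m : ι → ℂ) (σ : V → ι) :
    ∏ y, (Function.update k x m) y (σ y) = m (σ x) * ∏ y ∈ Finset.univ.erase x, k y (σ y) := by
  rw [← Finset.mul_prod_erase Finset.univ _ (Finset.mem_univ x)]
  simp only [Function.update_self]
  congr 1
  refine Finset.prod_congr rfl fun y hy => ?_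
  rw [Function.update_of_ne (Finset.ne_of_mem_erase hy)]

lemma L_update {ι : Type*} [Fintype ι] [DecidableEq ι] (ψ : (V → ι) → ℂ) (k : V → ι → ℂ) (x : V)
    (m : ι → ℂ) :
    L ψ (Function.update k x m) = ∑ i, m i * L ψ (Function.update k x (Pi.single i 1)) := by
  simp only [L, prod_update_eq, Finset.mul_sum]
  rw [Finset.sum_comm]
  refine Finset.sum_congr rfl fun σ _ => ?_
  rw [Finset.sum_eq_single (σ x)]
  · simp only [Pi.single_eq_same]; ring
  · intro i _ hi
    rw [Pi.single_eq_of_ne (Ne.symm hi)]; ring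
  · intro h; exact absurd (Finset.mem_univ _) h

/-- Open stability. -/
def OSt (g : ℝ) (ψ : (V → Fin 2) → ℂ) : Prop :=
  ∀ z : V → Fin 2 → ℂ, (∀ x, 0 < Q g (z x)) → L ψ z ≠ 0

/-- Closed stability. -/
def SSt (g : ℝ) (ψ : (V → Fin 2) → ℂ) : Prop :=
  ∀ z : V → Fin 2 → ℂ, (∀ x, z x ≠ 0 ∧ 0 ≤ Q g (z x)) → L ψ z ≠ 0

lemma SSt.o {g : ℝ} {ψ : (V → Fin 2) → ℂ} (h : SSt g ψ) : OSt g ψ := fun z hz =>
  h z fun x => ⟨ne_zero_of_Q_pos (hz x), (hz x).le⟩

/-- Operators which preserve both stabilities. -/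
structure Good (g : ℝ) (A : Matrix (V → Fin 2) (V → Fin 2) ℂ) : Prop where
  o : ∀ ψ, OSt g ψ → OSt g (A *ᵥ ψ)
  s : ∀ ψ, SSt g ψ → SSt g (A *ᵥ ψ)

/-- Operators which improve the stability. -/
def Strict (g : ℝ) (A : Matrix (V → Fin 2) (V → Fin 2) ℂ) : Prop :=
  ∀ ψ, OSt g ψ → SSt g (A *ᵥ ψ)

/-- Operators which may spoil the stability. -/
def Weak (g : ℝ) (A : Matrix (V → Fin 2) (V → Fin 2) ℂ) : Prop :=
  ∀ ψ, SSt g ψ → OSt g (A *ᵥ ψ)

lemma Strict.good {g : ℝ} {A : Matrix (V → Fin 2) (V → Fin 2) ℂ} (h : Strict g A) : Good g A :=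
  ⟨fun ψ hψ => (h ψ hψ).o, fun ψ hψ => h ψ hψ.o⟩

lemma Good.one {g : ℝ} : Good g (1 : Matrix (V → Fin 2) (V → Fin 2) ℂ) :=
  ⟨fun ψ h => by rwa [one_mulVec], fun ψ h => by rwa [one_mulVec]⟩

lemma Good.mul {g : ℝ} {A B : Matrix (V → Fin 2) (V → Fin 2) ℂ} (hA : Good g A) (hB : Good g B) :
    Good g (A * B) :=
  ⟨fun ψ h => by rw [← mulVec_mulVec]; exact hA.o _ (hB.o _ h),
    fun ψ h => by rw [← mulVec_mulVec]; exact hA.s _ (hB.s _ h)⟩

lemma Good.pow {g : ℝ} {A : Matrix (V → Fin 2) (V → Fin 2) ℂ} (hA : Good g A) (n : ℕ) :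
    Good g (A ^ n) := by
  induction n with
  | zero => rw [pow_zero]; exact Good.one
  | succ n ih => rw [pow_succ]; exact ih.mul hA

lemma Good.list {g : ℝ} {l : List (Matrix (V → Fin 2) (V → Fin 2) ℂ)}
    (h : ∀ A ∈ l, Good g A) : Good g l.prod := by
  induction l with
  | nil => rw [List.prod_nil]; exact Good.one
  | cons a l ih =>
    rw [List.prod_cons]
    exact (h a (by simp)).mul (ih fun A hA => h A (by simp [hA]))

lemma Strict.mul_left {g : ℝ} {A B : Matrix (V → Fin 2) (V → Fin 2) ℂ} (hA : Good g A)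
    (hB : Strict g B) : Strict g (A * B) := fun ψ h => by
  rw [← mulVec_mulVec]; exact hA.s _ (hB _ h)

lemma Strict.weak_strict {g : ℝ} {A R B : Matrix (V → Fin 2) (V → Fin 2) ℂ} (hA : Strict g A)
    (hR : Weak g R) (hB : Strict g B) : Strict g (A * R * B) := fun ψ h => by
  rw [← mulVec_mulVec, ← mulVec_mulVec]; exact hA _ (hR _ (hB _ h))

/-- Product operators. -/
def prodMat (R : V → Matrix (Fin 2) (Fin 2) ℂ) : Matrix (V → Fin 2) (V → Fin 2) ℂ :=
  Matrix.of fun σ τ => ∏ y, R y (σ y) (τ y)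

lemma L_prodMat (R : V → Matrix (Fin 2) (Fin 2) ℂ) (ψ : (V → Fin 2) → ℂ) (z : V → Fin 2 → ℂ) :
    L (prodMat R *ᵥ ψ) z = L ψ (fun y t => ∑ s, z y s * R y s t) := by
  have h1 : ∀ τ : V → Fin 2, ∏ x, ∑ s, z x s * R x s (τ x) =
      ∑ σ : V → Fin 2, ∏ x, z x (σ x) * R x (σ x) (τ x) := by
    intro τ
    rw [Finset.prod_univ_sum, Fintype.piFinset_univ]
  simp only [L]
  simp_rw [h1, mulVec, dotProduct, prodMat, Matrix.of_apply, Finset.sum_mul, Finset.mul_sum]
  rw [Finset.sum_comm]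
  refine Finset.sum_congr rfl fun τ _ => Finset.sum_congr rfl fun σ _ => ?_
  rw [Finset.prod_mul_distrib]; ring

/-- A product operator with all factors mapping the closed cone into the open cone. -/
lemma strict_prodMat {g : ℝ} {R : V → Matrix (Fin 2) (Fin 2) ℂ}
    (h : ∀ y (u : Fin 2 → ℂ), u ≠ 0 → 0 ≤ Q g u → 0 < Q g (fun t => ∑ s, u s * R y s t)) :
    Strict g (prodMat R) := by
  intro ψ hψ z hz
  rw [L_prodMat]
  exact hψ _ fun x => h x (z x) (hz x).1 (hz x).2

/-- The swap of the spins at `x` and `y`. -/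
def swapMat (x y : V) : Matrix (V → Fin 2) (V → Fin 2) ℂ :=
  Matrix.of fun σ τ => if τ = σ ∘ Equiv.swap x y then 1 else 0

lemma swapMat_mulVec (x y : V) (ψ : (V → Fin 2) → ℂ) :
    swapMat x y *ᵥ ψ = fun σ => ψ (σ ∘ Equiv.swap x y) := by
  funext σ
  simp only [mulVec, dotProduct, swapMat, Matrix.of_apply, ite_mul, one_mul, zero_mul,
    Finset.sum_ite_eq', Finset.mem_univ, if_true]

lemma L_swap (x y : V) (ψ : (V → Fin 2) → ℂ) (z : V → Fin 2 → ℂ) :
    L (fun σ => ψ (σ ∘ Equiv.swap x y)) z = L ψ (z ∘ Equiv.swap x y) := by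
  simp only [L]
  refine Fintype.sum_equiv (Equiv.arrowCongr (Equiv.swap x y) (Equiv.refl (Fin 2))) _ _ fun σ => ?_
  have e : (Equiv.arrowCongr (Equiv.swap x y) (Equiv.refl (Fin 2))) σ = σ ∘ Equiv.swap x y := by
    funext w; simp [Equiv.arrowCongr]
  rw [e]
  congr 1
  rw [← Equiv.prod_comp (Equiv.swap x y)]
  rfl

omit [Fintype V] in
lemma comp_swap_eq {x y : V} (hxy : x ≠ y) (z : V → Fin 2 → ℂ) :
    z ∘ Equiv.swap x y = Function.update (Function.update z x (z y)) y (z x) := by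
  funext w
  by_cases hy : w = y
  · subst hy; simp
  · rw [Function.update_of_ne hy]
    by_cases hx : w = x
    · subst hx; simp
    · rw [Function.update_of_ne hx]
      simp [Equiv.swap_apply_of_ne_of_ne hx hy]

lemma L_two {x y : V} (hxy : x ≠ y) (ψ : (V → Fin 2) → ℂ) (z : V → Fin 2 → ℂ)
    (u v : Fin 2 → ℂ) :
    L ψ (Function.update (Function.update z x u) y v) =
      bil (fun s t => L ψ (Function.update (Function.update z x (Pi.single s 1)) y
        (Pi.single t 1))) u v := by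
  rw [L_update]
  simp only [Function.update_comm hxy]
  simp only [L_update (m := u)]
  simp only [bil, Fin.sum_univ_two]
  ring

/-- The swap gate. -/
def gate (a b : ℝ) (x y : V) : Matrix (V → Fin 2) (V → Fin 2) ℂ :=
  (a : ℂ) • (1 : Matrix (V → Fin 2) (V → Fin 2) ℂ) + (b : ℂ) • swapMat x y

lemma L_gate (a b : ℝ) (x y : V) (ψ : (V → Fin 2) → ℂ) (z : V → Fin 2 → ℂ) :
    L (gate a b x y *ᵥ ψ) z = (a : ℂ) * L ψ z + (b : ℂ) * L ψ (z ∘ Equiv.swap x y) := by
  rw [← L_swap]
  simp only [gate, add_mulVec, smul_mulVec, one_mulVec, swapMat_mulVec, L, Pi.add_apply,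
    Pi.smul_apply, smul_eq_mul, Finset.mul_sum, ← Finset.sum_add_distrib]
  refine Finset.sum_congr rfl fun σ _ => ?_
  ring

lemma good_gate {g : ℝ} {a b : ℝ} (ha : 0 ≤ a) (hb : 0 ≤ b) (hab : 0 < a + b) (x y : V) :
    Good g (gate a b x y) := by
  by_cases hxy : x = y
  · subst hxy
    have e : gate a b x x = ((a + b : ℝ) : ℂ) • (1 : Matrix (V → Fin 2) (V → Fin 2) ℂ) := by
      have : swapMat x x = (1 : Matrix (V → Fin 2) (V → Fin 2) ℂ) := by
        ext σ τ
        simp only [swapMat, Equiv.swap_self, Matrix.of_apply, Matrix.one_apply, Equiv.coe_refl,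
          Function.comp_id, eq_comm]
      rw [gate, this, ← add_smul]; push_cast; rfl
    have h0 : (((a + b : ℝ) : ℂ)) ≠ 0 := by
      rw [Ne, ofReal_eq_zero]; exact hab.ne'
    have hL : ∀ (ψ : (V → Fin 2) → ℂ) (z : V → Fin 2 → ℂ),
        L (gate a b x x *ᵥ ψ) z = ((a + b : ℝ) : ℂ) * L ψ z := by
      intro ψ z
      rw [e]
      simp only [smul_mulVec, one_mulVec, L, Pi.smul_apply, smul_eq_mul, Finset.mul_sum, mul_assoc]
    exact ⟨fun ψ hψ z hz => by rw [hL]; exact mul_ne_zero h0 (hψ z hz),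
      fun ψ hψ z hz => by rw [hL]; exact mul_ne_zero h0 (hψ z hz)⟩
  · have hself : ∀ z : V → Fin 2 → ℂ, z = Function.update (Function.update z x (z x)) y (z y) := by
      intro z; simp
    constructor
    · intro ψ hψ z hz
      rw [L_gate, comp_swap_eq hxy, L_two hxy]
      nth_rewrite 1 [hself z]
      rw [L_two hxy]
      refine swap_open ha hb hab (fun u v hu hv => ?_) (hz x) (hz y)
      rw [← L_two hxy]
      refine hψ _ fun w => ?_
      by_cases hy : w = y
      · subst hy; simpa using hv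
      · rw [Function.update_of_ne hy]
        by_cases hx : w = x
        · subst hx; simpa using hu
        · rw [Function.update_of_ne hx]; exact hz w
    · intro ψ hψ z hz
      rw [L_gate, comp_swap_eq hxy, L_two hxy]
      nth_rewrite 1 [hself z]
      rw [L_two hxy]
      refine swap_closed ha hb hab (fun u v hu0 hu hv0 hv => ?_) (hz x).1 (hz x).2 (hz y).1
        (hz y).2
      rw [← L_two hxy]
      refine hψ _ fun w => ?_
      by_cases hy : w = y
      · subst hy; simpa using ⟨hv0, hv⟩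
      · rw [Function.update_of_ne hy]
        by_cases hx : w = x
        · subst hx; simpa using ⟨hu0, hu⟩
        · rw [Function.update_of_ne hx]; exact hz w

/-- Product states of the closed cone are open stable. -/
lemma oSt_prod {g : ℝ} {w : V → Fin 2 → ℂ} (hw : ∀ x, w x ≠ 0 ∧ 0 ≤ Q g (w x)) :
    OSt g (fun τ => ∏ x, w x (τ x)) := by
  intro z hz
  have : L (fun τ => ∏ x, w x (τ x)) z = ∏ x, dot (z x) (w x) := by
    simp only [L, dot]
    have h2 : ∀ x, z x 0 * w x 0 + z x 1 * w x 1 = ∑ s, z x s * w x s := fun x => by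
      rw [Fin.sum_univ_two]
    simp_rw [h2]
    rw [Finset.prod_univ_sum, Fintype.piFinset_univ]
    refine Finset.sum_congr rfl fun σ _ => ?_
    rw [Finset.prod_mul_distrib]; ring
  rw [this]
  exact Finset.prod_ne_zero_iff.mpr fun x _ => dot_ne_zero (hz x) (hw x).2 (hw x).1

lemma sum_arrow (F : (V → Fin 2) → (V → Fin 2) → ℂ) :
    ∑ ρ : V → Fin 2 × Fin 2, F (fun x => (ρ x).1) (fun x => (ρ x).2) = ∑ σ, ∑ τ, F σ τ := by
  rw [← Fintype.sum_prod_type']
  exact Fintype.sum_equiv (Equiv.arrowProdEquivProdArrow V (fun _ => Fin 2) (fun _ => Fin 2)) _ _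
    fun ρ => rfl

/-- A strict operator has nonzero trace. -/
theorem Strict.trace_ne_zero {g : ℝ} {A : Matrix (V → Fin 2) (V → Fin 2) ℂ} (hA : Strict g A) :
    A.trace ≠ 0 := by
  set φ : (V → Fin 2 × Fin 2) → ℂ := fun ρ => A (fun x => (ρ x).1) (fun x => (ρ x).2) with hφ
  -- the kernel with the sites of `T` contracted
  let K : Finset V → (V → Fin 2 → ℂ) → (V → Fin 2 → ℂ) → V → Fin 2 × Fin 2 → ℂ :=
    fun T z w x i => if x ∈ T then (if i.1 = i.2 then 1 else 0) else z x i.1 * w x i.2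
  have key : ∀ T : Finset V, ∀ z w : V → Fin 2 → ℂ, (∀ x, z x ≠ 0 ∧ 0 ≤ Q g (z x)) →
      (∀ x, w x ≠ 0 ∧ 0 ≤ Q g (w x)) → L φ (K T z w) ≠ 0 := by
    intro T
    induction T using Finset.induction_on with
    | empty =>
      intro z w hz hw
      have e : L φ (K ∅ z w) = L (A *ᵥ fun τ => ∏ x, w x (τ x)) z := by
        have h1 : L φ (K ∅ z w) = ∑ σ, ∑ τ, A σ τ * ∏ x, (z x (σ x) * w x (τ x)) := by
          rw [← sum_arrow (fun σ τ => A σ τ * ∏ x, (z x (σ x) * w x (τ x)))]
          simp only [L, K, Finset.notMem_empty, if_false, hφ]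
        rw [h1]
        simp only [L, mulVec, dotProduct, Finset.sum_mul]
        refine Finset.sum_congr rfl fun σ _ => Finset.sum_congr rfl fun τ _ => ?_
        rw [Finset.prod_mul_distrib]
        ring
      rw [e]
      exact hA _ (oSt_prod hw) z hz
    | insert x T hx ih =>
      intro z w hz hw
      have hupd : ∀ u v : Fin 2 → ℂ, K T (Function.update z x u) (Function.update w x v) =
          Function.update (K T z w) x (fun i => u i.1 * v i.2) := by
        intro u v
        funext y i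
        by_cases hy : y = x
        · subst hy; simp [K, hx]
        · simp [K, Function.update_of_ne hy]
      have hins : K (insert x T) z w =
          Function.update (K T z w) x (fun i => if i.1 = i.2 then 1 else 0) := by
        funext y i
        by_cases hy : y = x
        · subst hy; simp [K]
        · simp [K, hy]
      set M : Fin 2 → Fin 2 → ℂ := fun s t =>
        L φ (Function.update (K T z w) x (Pi.single (s, t) 1)) with hM
      have hb : ∀ u v : Fin 2 → ℂ,
          L φ (K T (Function.update z x u) (Function.update w x v)) = bil M u v := by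
        intro u v
        rw [hupd, L_update, Fintype.sum_prod_type]
        simp only [bil, hM]
        refine Finset.sum_congr rfl fun s _ => Finset.sum_congr rfl fun t _ => ?_
        ring
      have ht : L φ (K (insert x T) z w) = M 0 0 + M 1 1 := by
        rw [hins, L_update, Fintype.sum_prod_type]
        simp [Fin.sum_univ_two, hM]
      rw [ht]
      refine LRO.trace_ne_zero (g := g) fun u v hu0 hu hv0 hv => ?_
      rw [← hb]
      refine ih _ _ (fun y => ?_) (fun y => ?_)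
      · by_cases hy : y = x
        · subst hy; simpa using ⟨hu0, hu⟩
        · rw [Function.update_of_ne hy]; exact hz y
      · by_cases hy : y = x
        · subst hy; simpa using ⟨hv0, hv⟩
        · rw [Function.update_of_ne hy]; exact hw y
  have hfin := key Finset.univ (fun _ => bd) (fun _ => bd)
    (fun _ => ⟨bd_ne_zero, (Q_bd g).ge⟩) (fun _ => ⟨bd_ne_zero, (Q_bd g).ge⟩)
  have e : L φ (K Finset.univ (fun _ => bd) (fun _ => bd)) = A.trace := by
    have h1 : L φ (K Finset.univ (fun _ => bd) (fun _ => bd)) =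
        ∑ σ, ∑ τ, A σ τ * ∏ x, (if σ x = τ x then 1 else 0) := by
      rw [← sum_arrow (fun σ τ => A σ τ * ∏ x, (if σ x = τ x then 1 else 0))]
      simp only [L, K, Finset.mem_univ, if_true, hφ]
    rw [h1]
    simp only [Matrix.trace, Matrix.diag_apply]
    refine Finset.sum_congr rfl fun σ _ => ?_
    rw [Finset.sum_eq_single σ]
    · simp
    · intro τ _ hτ
      have : ∃ x, σ x ≠ τ x := by
        by_contra hc
        exact hτ (funext fun x => (not_not.mp fun hx => hc ⟨x, hx⟩).symm)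
      obtain ⟨x, hx⟩ := this
      rw [Finset.prod_eq_zero (Finset.mem_univ x) (if_neg hx), mul_zero]
    · intro h; exact absurd (Finset.mem_univ _) h
  rwa [e] at hfin

end

end Vale.Agent.P361.LRO
end

section

/-!
Field layers, insertions, parity, and the zero-free region (P361, step (8)).
-/

namespace Vale.Agent.P361.LRO

open Complex Matrix

noncomputable section

variable {V : Type*} [Fintype V] [DecidableEq V]

lemma Q_eq (g : ℝ) (u : Fin 2 → ℂ) :
    Q g u = Real.cos g * (normSq (u 0) - normSq (u 1)) +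
      2 * Real.sin g * ((starRingEnd ℂ) (u 0) * u 1).re := by
  simp only [Q, mul_re, conj_re, conj_im]; ring

lemma osc_bound {b n0 n1 cr ci r : ℝ} (hr0 : 0 ≤ r) (hr2 : r ^ 2 = n0 * n1)
    (hc : n0 * n1 = cr ^ 2 + ci ^ 2) :
    |cr * (Real.cos (2 * b) - 1) + ci * Real.sin (2 * b)| ≤ 2 * |b| * r := by
  refine abs_le_of_sq_le_sq ?_ (by positivity)
  have hs : Real.sin b ^ 2 ≤ b ^ 2 := by
    have := Real.abs_sin_le_abs (x := b)
    exact sq_le_sq.mpr this
  have h1 : (Real.cos (2 * b) - 1) ^ 2 + Real.sin (2 * b) ^ 2 = 4 * Real.sin b ^ 2 := by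
    rw [Real.cos_two_mul, Real.sin_two_mul]
    have := Real.sin_sq_add_cos_sq b
    have hcb : Real.cos b ^ 2 = 1 - Real.sin b ^ 2 := by linarith
    have : (2 * Real.cos b ^ 2 - 1 - 1) ^ 2 + (2 * Real.sin b * Real.cos b) ^ 2 =
        (2 * Real.cos b ^ 2 - 2) ^ 2 + 4 * Real.sin b ^ 2 * Real.cos b ^ 2 := by ring
    rw [this, hcb]; ring
  set C := Real.cos (2 * b) - 1
  set S := Real.sin (2 * b)
  have h2 : (cr * C + ci * S) ^ 2 ≤ (cr ^ 2 + ci ^ 2) * (C ^ 2 + S ^ 2) := by
    nlinarith [sq_nonneg (cr * S - ci * C)]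
  calc (cr * C + ci * S) ^ 2
      ≤ (cr ^ 2 + ci ^ 2) * (4 * Real.sin b ^ 2) := by rw [← h1]; exact h2
    _ ≤ (cr ^ 2 + ci ^ 2) * (4 * b ^ 2) := by
        refine mul_le_mul_of_nonneg_left (by linarith) (by positivity)
    _ = (2 * |b| * r) ^ 2 := by rw [← hc, ← hr2, mul_pow, mul_pow, sq_abs]; ring

lemma field_aux {cg sg a b r X E Q0 : ℝ} (ha : 0 < a) (hab : |b| * |sg| < a * cg)
    (hXr : 4 * a * r ≤ X) (hX0 : 0 < X) (hE : |E| ≤ 2 * |b| * r) (hQ : 0 ≤ Q0) :
    0 < Q0 + (cg * X + 2 * sg * E) := by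
  have h1 : |2 * sg * E| ≤ |b| * |sg| * (4 * r) := by
    calc |2 * sg * E| = 2 * |sg| * |E| := by rw [abs_mul, abs_mul, abs_two]
      _ ≤ 2 * |sg| * (2 * |b| * r) := mul_le_mul_of_nonneg_left hE (by positivity)
      _ = |b| * |sg| * (4 * r) := by ring
  have h2 := neg_le_of_abs_le h1
  have h3 : |b| * |sg| * (4 * a * r) ≤ |b| * |sg| * X :=
    mul_le_mul_of_nonneg_left hXr (by positivity)
  have h4 : |b| * |sg| * X < a * cg * X := mul_lt_mul_of_pos_right hab hX0
  have h5 : 0 < a * (cg * X - |b| * |sg| * (4 * r)) := by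
    have : a * (cg * X - |b| * |sg| * (4 * r)) = a * cg * X - |b| * |sg| * (4 * a * r) := by ring
    rw [this]; linarith
  have h6 : 0 < cg * X - |b| * |sg| * (4 * r) := (mul_pos_iff_of_pos_left ha).mp h5
  linarith

lemma field_real {cg sg a b n0 n1 cr ci : ℝ} (hcg : 0 < cg) (hab : |b| * |sg| < a * cg)
    (hn0 : 0 ≤ n0) (hn1 : 0 ≤ n1) (hn : 0 < n0 + n1) (hc : n0 * n1 = cr ^ 2 + ci ^ 2)
    (hQ : 0 ≤ cg * (n0 - n1) + 2 * sg * cr) :
    0 < cg * (Real.exp (2 * a) * n0 - Real.exp (-(2 * a)) * n1) +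
      2 * sg * (cr * Real.cos (2 * b) + ci * Real.sin (2 * b)) := by
  have ha : 0 < a := by
    by_contra h
    rw [not_lt] at h
    have h1 : a * cg ≤ 0 := mul_nonpos_of_nonpos_of_nonneg h hcg.le
    have h2 : 0 ≤ |b| * |sg| := by positivity
    linarith
  obtain ⟨p, q, hp, hq⟩ : ∃ p q : ℝ, p = Real.exp a ∧ q = Real.exp (-a) := ⟨_, _, rfl, rfl⟩
  have hpq : p * q = 1 := by rw [hp, hq, ← Real.exp_add]; simp
  have hp2 : Real.exp (2 * a) = p ^ 2 := by rw [hp, ← Real.exp_nat_mul]; norm_num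
  have hq2 : Real.exp (-(2 * a)) = q ^ 2 := by
    rw [hq, ← Real.exp_nat_mul]; congr 1; push_cast; ring
  have hp0 : 0 < p := hp ▸ Real.exp_pos _
  have hq0 : 0 < q := hq ▸ Real.exp_pos _
  have hsinh : 2 * a ≤ p - q := by
    have := Real.self_le_sinh_iff.mpr ha.le
    rw [Real.sinh_eq, ← hp, ← hq] at this
    linarith
  obtain ⟨r, hr⟩ : ∃ r : ℝ, r = Real.sqrt (n0 * n1) := ⟨_, rfl⟩
  have hr0 : 0 ≤ r := hr ▸ Real.sqrt_nonneg _
  have hr2 : r ^ 2 = n0 * n1 := by rw [hr]; exact Real.sq_sqrt (mul_nonneg hn0 hn1)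
  obtain ⟨X, hX⟩ : ∃ X : ℝ, X = (p ^ 2 - 1) * n0 + (1 - q ^ 2) * n1 := ⟨_, rfl⟩
  have hX' : X = (p - q) * (p * n0 + q * n1) := by
    rw [hX]; linear_combination (n0 - n1) * hpq
  have hamgm : 2 * r ≤ p * n0 + q * n1 := by
    refine (abs_le_of_sq_le_sq' ?_ (by positivity)).2
    have : (2 * r) ^ 2 = 4 * (p * n0) * (q * n1) := by
      rw [mul_pow, hr2]; linear_combination (-(4 * n0 * n1)) * hpq
    rw [this]
    nlinarith [sq_nonneg (p * n0 - q * n1)]
  have hXr : 4 * a * r ≤ X := by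
    rw [hX']
    calc 4 * a * r = (2 * a) * (2 * r) := by ring
      _ ≤ (p - q) * (p * n0 + q * n1) := mul_le_mul hsinh hamgm (by positivity) (by linarith)
  have hX0 : 0 < X := by
    rw [hX']
    refine mul_pos (by linarith) ?_
    rcases hn0.eq_or_lt with h | h
    · have h1 : 0 < n1 := by linarith
      have h2 := mul_pos hq0 h1
      rw [← h]; linarith
    · have h1 := mul_pos hp0 h
      have h2 := mul_nonneg hq0.le hn1
      linarith
  have hosc := osc_bound (b := b) hr0 hr2 hc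
  have := field_aux ha hab hXr hX0 hosc hQ
  rw [hp2, hq2]
  convert this using 1
  rw [hX]; ring

/-- The factor of a field layer. -/
def fieldFac (s : ℂ) : Matrix (Fin 2) (Fin 2) ℂ := !![exp s, 0; 0, exp (-s)]

/-- The field layer `∏_x exp(s_x σ³_x)`. -/
def fieldMat (s : V → ℂ) : Matrix (V → Fin 2) (V → Fin 2) ℂ := prodMat fun y => fieldFac (s y)

lemma Q_field {g : ℝ} (hg : 0 < Real.cos g) {s : ℂ} (hs : |s.im| * |Real.sin g| < s.re * Real.cos g)
    {u : Fin 2 → ℂ} (hu0 : u ≠ 0) (hu : 0 ≤ Q g u) :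
    0 < Q g (fun t => ∑ i, u i * fieldFac s i t) := by
  have e0 : ∑ i, u i * fieldFac s i 0 = u 0 * exp s := by
    simp [fieldFac, Fin.sum_univ_two]
  have e1 : ∑ i, u i * fieldFac s i 1 = u 1 * exp (-s) := by
    simp [fieldFac, Fin.sum_univ_two]
  simp only [Q_eq, e0, e1]
  have hn : 0 < normSq (u 0) + normSq (u 1) := by
    have h0 := normSq_nonneg (u 0)
    have h1 := normSq_nonneg (u 1)
    rcases h0.eq_or_lt with h | h
    · rcases h1.eq_or_lt with h' | h'
      · exfalso; apply hu0; funext i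
        fin_cases i
        · exact normSq_eq_zero.mp h.symm
        · exact normSq_eq_zero.mp h'.symm
      · linarith
    · linarith
  have hc : normSq (u 0) * normSq (u 1) =
      ((starRingEnd ℂ) (u 0) * u 1).re ^ 2 + ((starRingEnd ℂ) (u 0) * u 1).im ^ 2 := by
    simp only [mul_re, mul_im, conj_re, conj_im, normSq_apply]; ring
  have key := field_real (ci := ((starRingEnd ℂ) (u 0) * u 1).im) hg hs (normSq_nonneg _)
    (normSq_nonneg _) hn hc (by rw [← Q_eq]; exact hu)
  have n0 : normSq (u 0 * exp s) = Real.exp (2 * s.re) * normSq (u 0) := by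
    rw [normSq_mul, normSq_eq_norm_sq (exp s), norm_exp, ← Real.exp_nat_mul, mul_comm]
    norm_num
  have n1 : normSq (u 1 * exp (-s)) = Real.exp (-(2 * s.re)) * normSq (u 1) := by
    rw [normSq_mul, normSq_eq_norm_sq (exp (-s)), norm_exp, ← Real.exp_nat_mul, mul_comm, neg_re]
    congr 2; push_cast; ring
  have nc : ((starRingEnd ℂ) (u 0 * exp s) * (u 1 * exp (-s))).re =
      ((starRingEnd ℂ) (u 0) * u 1).re * Real.cos (2 * s.im) +
        ((starRingEnd ℂ) (u 0) * u 1).im * Real.sin (2 * s.im) := by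
    have e2 : (starRingEnd ℂ) (u 0 * exp s) * (u 1 * exp (-s)) =
        ((starRingEnd ℂ) (u 0) * u 1) * exp ((-(2 * s.im) : ℝ) * I) := by
      rw [map_mul, ← exp_conj]
      have : exp ((starRingEnd ℂ) s) * exp (-s) = exp ((-(2 * s.im) : ℝ) * I) := by
        rw [← exp_add]
        congr 1
        apply Complex.ext
        · simp
        · simp; ring
      linear_combination ((starRingEnd ℂ) (u 0) * u 1) * this
    rw [e2, mul_re, exp_ofReal_mul_I_re, exp_ofReal_mul_I_im, Real.cos_neg, Real.sin_neg]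
    ring
  rw [n0, n1, nc]
  exact key

lemma strict_field {g : ℝ} (hg : 0 < Real.cos g) {s : V → ℂ}
    (hs : ∀ x, |(s x).im| * |Real.sin g| < (s x).re * Real.cos g) :
    Strict g (fieldMat s) :=
  strict_prodMat fun y _ hu0 hu => Q_field hg (hs y) hu0 hu

/-- Insertion of a one-site matrix. -/
def ins (x : V) (R : Matrix (Fin 2) (Fin 2) ℂ) : Matrix (V → Fin 2) (V → Fin 2) ℂ :=
  prodMat fun y => if y = x then R else 1

lemma L_smul_update (ψ : (V → Fin 2) → ℂ) (z : V → Fin 2 → ℂ) (x : V) (k : ℂ) (m : Fin 2 → ℂ) :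
    L ψ (Function.update z x (k • m)) = k * L ψ (Function.update z x m) := by
  rw [L_update, L_update (m := m), Finset.mul_sum]
  refine Finset.sum_congr rfl fun i _ => ?_
  simp only [Pi.smul_apply, smul_eq_mul]; ring

lemma L_ins_rank_one (x : V) (k : ℂ) (u : Fin 2 → ℂ) (ψ : (V → Fin 2) → ℂ) (z : V → Fin 2 → ℂ) :
    L (ins x (Matrix.of fun s t => k * (u s * u t)) *ᵥ ψ) z =
      (k * dot (z x) u) * L ψ (Function.update z x u) := by
  rw [ins, L_prodMat, ← L_smul_update]
  congr 1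
  funext y t
  by_cases hy : y = x
  · subst hy
    simp only [if_true, Function.update_self, Pi.smul_apply, smul_eq_mul, Matrix.of_apply, dot,
      Fin.sum_univ_two]
    ring
  · rw [Function.update_of_ne hy]
    simp [hy, Matrix.one_apply]

lemma good_ins {g : ℝ} (x : V) {k : ℂ} (hk : k ≠ 0) {u : Fin 2 → ℂ} (hu : 0 < Q g u) :
    Good g (ins x (Matrix.of fun s t => k * (u s * u t))) := by
  constructor
  · intro ψ hψ z hz
    rw [L_ins_rank_one]
    refine mul_ne_zero (mul_ne_zero hk (dot_ne_zero (hz x) hu.le (ne_zero_of_Q_pos hu))) ?_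
    refine hψ _ fun y => ?_
    by_cases hy : y = x
    · subst hy; simpa using hu
    · rw [Function.update_of_ne hy]; exact hz y
  · intro ψ hψ z hz
    rw [L_ins_rank_one]
    refine mul_ne_zero (mul_ne_zero hk (dot_ne_zero' (hz x).2 (hz x).1 hu)) ?_
    refine hψ _ fun y => ?_
    by_cases hy : y = x
    · subst hy; simpa using ⟨ne_zero_of_Q_pos hu, hu.le⟩
    · rw [Function.update_of_ne hy]; exact hz y

lemma weak_ins {g : ℝ} (x : V) {k : ℂ} (hk : k ≠ 0) {u : Fin 2 → ℂ} (hu0 : u ≠ 0)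
    (hu : 0 ≤ Q g u) :
    Weak g (ins x (Matrix.of fun s t => k * (u s * u t))) := by
  intro ψ hψ z hz
  rw [L_ins_rank_one]
  refine mul_ne_zero (mul_ne_zero hk (dot_ne_zero (hz x) hu hu0)) ?_
  refine hψ _ fun y => ?_
  by_cases hy : y = x
  · subst hy; simpa using ⟨hu0, hu⟩
  · rw [Function.update_of_ne hy]; exact ⟨ne_zero_of_Q_pos (hz y), (hz y).le⟩

/-- Pauli matrices. -/
def s1 : Matrix (Fin 2) (Fin 2) ℂ := !![0, 1; 1, 0]
def s3 : Matrix (Fin 2) (Fin 2) ℂ := !![1, 0; 0, -1]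

lemma ins_apply (x : V) (R : Matrix (Fin 2) (Fin 2) ℂ) (σ τ : V → Fin 2) :
    ins x R σ τ = R (σ x) (τ x) *
      ∏ y ∈ Finset.univ.erase x, (1 : Matrix (Fin 2) (Fin 2) ℂ) (σ y) (τ y) := by
  rw [ins, prodMat, Matrix.of_apply, ← Finset.mul_prod_erase Finset.univ _ (Finset.mem_univ x),
    if_pos rfl]
  congr 1
  refine Finset.prod_congr rfl fun y hy => ?_
  rw [if_neg (Finset.ne_of_mem_erase hy)]

lemma ins_one (x : V) : ins x (1 : Matrix (Fin 2) (Fin 2) ℂ) = 1 := by
  ext σ τ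
  simp only [ins, prodMat, Matrix.of_apply, ite_self, Matrix.one_apply]
  by_cases h : σ = τ
  · subst h; simp
  · rw [if_neg h]
    obtain ⟨y, hy⟩ := Function.ne_iff.mp h
    exact Finset.prod_eq_zero (Finset.mem_univ y) (if_neg hy)

lemma ins_comb (x : V) (a b c : ℂ) (R1 R2 R3 : Matrix (Fin 2) (Fin 2) ℂ) :
    ins x (a • R1 + b • R2 + c • R3) = a • ins x R1 + b • ins x R2 + c • ins x R3 := by
  ext σ τ
  simp only [Matrix.add_apply, Matrix.smul_apply, smul_eq_mul, ins_apply]
  ring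

/-- Parity. -/
def par : Matrix (V → Fin 2) (V → Fin 2) ℂ :=
  Matrix.diagonal fun σ => ∏ x, (if σ x = 0 then (1 : ℂ) else -1)

lemma par_sq : (par : Matrix (V → Fin 2) (V → Fin 2) ℂ) * par = 1 := by
  rw [par, Matrix.diagonal_mul_diagonal, ← Matrix.diagonal_one]
  congr 1
  funext σ
  rw [← Finset.prod_mul_distrib]
  refine Finset.prod_eq_one fun x _ => ?_
  split_ifs <;> norm_num

lemma par_swap (x y : V) : par * swapMat x y = swapMat x y * par := by
  ext σ τ
  rw [par, Matrix.diagonal_mul, Matrix.mul_diagonal, swapMat, Matrix.of_apply]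
  by_cases h : τ = σ ∘ Equiv.swap x y
  · rw [if_pos h, mul_one, one_mul, h]
    rw [← Equiv.prod_comp (Equiv.swap x y)]
    rfl
  · rw [if_neg h]; ring

omit [DecidableEq V] in
lemma fieldMat_eq_diagonal [DecidableEq V] (s : V → ℂ) :
    fieldMat s = Matrix.diagonal fun σ => ∏ y, fieldFac (s y) (σ y) (σ y) := by
  ext σ τ
  rw [Matrix.diagonal_apply, fieldMat, prodMat, Matrix.of_apply]
  by_cases h : σ = τ
  · subst h; simp
  · rw [if_neg h]
    obtain ⟨y, hy⟩ := Function.ne_iff.mp h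
    refine Finset.prod_eq_zero (Finset.mem_univ y) ?_
    have : ∀ i j : Fin 2, i ≠ j → fieldFac (s y) i j = 0 := by
      intro i j hij
      fin_cases i <;> fin_cases j <;> simp_all [fieldFac]
    exact this _ _ hy

lemma par_field (s : V → ℂ) : par * fieldMat s = fieldMat s * par := by
  rw [fieldMat_eq_diagonal, par, Matrix.diagonal_mul_diagonal, Matrix.diagonal_mul_diagonal]
  congr 1
  funext σ
  ring

lemma par_gate (a b : ℝ) (x y : V) : par * gate a b x y = gate a b x y * par := by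
  rw [gate, Matrix.mul_add, Matrix.add_mul, Matrix.mul_smul, Matrix.smul_mul, Matrix.mul_smul,
    Matrix.smul_mul, par_swap, Matrix.mul_one, Matrix.one_mul]

lemma par_s1 (x : V) : par * ins x s1 = -(ins x s1 * par) := by
  ext σ τ
  rw [Matrix.neg_apply, par, Matrix.diagonal_mul, Matrix.mul_diagonal, ins_apply]
  by_cases h : ∀ y ∈ Finset.univ.erase x, σ y = τ y
  · rw [← Finset.mul_prod_erase Finset.univ (fun y => if σ y = 0 then (1 : ℂ) else -1)
      (Finset.mem_univ x),
      ← Finset.mul_prod_erase Finset.univ (fun y => if τ y = 0 then (1 : ℂ) else -1)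
      (Finset.mem_univ x)]
    have e : ∏ y ∈ Finset.univ.erase x, (if σ y = 0 then (1 : ℂ) else -1) =
        ∏ y ∈ Finset.univ.erase x, (if τ y = 0 then (1 : ℂ) else -1) :=
      Finset.prod_congr rfl fun y hy => by rw [h y hy]
    rw [e]
    have k : ∀ i j : Fin 2, (if i = 0 then (1 : ℂ) else -1) * s1 i j =
        -(s1 i j * (if j = 0 then (1 : ℂ) else -1)) := by
      intro i j
      fin_cases i <;> fin_cases j <;> simp [s1]
    linear_combination ((∏ y ∈ Finset.univ.erase x, (if τ y = 0 then (1 : ℂ) else -1)) *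
      ∏ y ∈ Finset.univ.erase x, (1 : Matrix (Fin 2) (Fin 2) ℂ) (σ y) (τ y)) * k (σ x) (τ x)
  · simp only [not_forall] at h
    obtain ⟨y, hy, hne⟩ := h
    have : ∏ y ∈ Finset.univ.erase x, (1 : Matrix (Fin 2) (Fin 2) ℂ) (σ y) (τ y) = 0 :=
      Finset.prod_eq_zero hy (Matrix.one_apply_ne hne)
    rw [this]; ring

lemma trace_s1 (x : V) {A : Matrix (V → Fin 2) (V → Fin 2) ℂ} (hA : par * A = A * par) :
    (ins x s1 * A).trace = 0 := by
  have h1 : (ins x s1 * A).trace = -(ins x s1 * A).trace := by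
    calc (ins x s1 * A).trace = (par * par * (ins x s1 * A)).trace := by
          rw [par_sq, Matrix.one_mul]
      _ = (par * (ins x s1 * A) * par).trace := by
          rw [Matrix.mul_assoc par par, Matrix.trace_mul_comm]
      _ = -(ins x s1 * A).trace := by
          rw [← Matrix.mul_assoc, par_s1, Matrix.neg_mul, Matrix.neg_mul, Matrix.trace_neg]
          congr 1
          rw [Matrix.mul_assoc (ins x s1), hA, ← Matrix.mul_assoc, Matrix.mul_assoc _ par par,
            par_sq, Matrix.mul_one]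
  have h2 : (2 : ℂ) * (ins x s1 * A).trace = 0 := by linear_combination h1
  simpa using h2

/-- The vector of the insertion `1 + sin t σ¹ + cos t σ³`. -/
def uvec (t : ℂ) : Fin 2 → ℂ := ![cos (t / 2), sin (t / 2)]

lemma Q_uvec (g : ℝ) (t : ℂ) : Q g (uvec t) = Real.cos (t.re - g) := by
  have hc : cos (t / 2) = (Real.cos (t.re / 2) * Real.cosh (t.im / 2) : ℝ) -
      (Real.sin (t.re / 2) * Real.sinh (t.im / 2) : ℝ) * I := by
    rw [cos_eq]
    have h1 : (t / 2).re = t.re / 2 := by simp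
    have h2 : (t / 2).im = t.im / 2 := by simp
    rw [h1, h2]; push_cast; ring
  have hs : sin (t / 2) = (Real.sin (t.re / 2) * Real.cosh (t.im / 2) : ℝ) +
      (Real.cos (t.re / 2) * Real.sinh (t.im / 2) : ℝ) * I := by
    rw [sin_eq]
    have h1 : (t / 2).re = t.re / 2 := by simp
    have h2 : (t / 2).im = t.im / 2 := by simp
    rw [h1, h2]; push_cast; ring
  have c0 : (uvec t 0) = cos (t / 2) := rfl
  have c1 : (uvec t 1) = sin (t / 2) := rfl
  have cre : (cos (t / 2)).re = Real.cos (t.re / 2) * Real.cosh (t.im / 2) := by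
    rw [hc]; simp [-ofReal_mul, -ofReal_cos, -ofReal_cosh, -ofReal_sin, -ofReal_sinh]
  have cim : (cos (t / 2)).im = -(Real.sin (t.re / 2) * Real.sinh (t.im / 2)) := by
    rw [hc]; simp [-ofReal_mul, -ofReal_cos, -ofReal_cosh, -ofReal_sin, -ofReal_sinh]
  have sre : (sin (t / 2)).re = Real.sin (t.re / 2) * Real.cosh (t.im / 2) := by
    rw [hs]; simp [-ofReal_mul, -ofReal_cos, -ofReal_cosh, -ofReal_sin, -ofReal_sinh]
  have sim : (sin (t / 2)).im = Real.cos (t.re / 2) * Real.sinh (t.im / 2) := by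
    rw [hs]; simp [-ofReal_mul, -ofReal_cos, -ofReal_cosh, -ofReal_sin, -ofReal_sinh]
  simp only [Q, c0, c1, normSq_apply, cre, cim, sre, sim]
  have hh := Real.cosh_sq (t.im / 2)
  have h2 : t.re = 2 * (t.re / 2) := by ring
  rw [Real.cos_sub, h2, Real.cos_two_mul', Real.sin_two_mul]
  have h3 : 2 * (t.re / 2) / 2 = t.re / 2 := by ring
  rw [h3]
  linear_combination (Real.cos g * (Real.cos (t.re / 2) ^ 2 - Real.sin (t.re / 2) ^ 2) +
    2 * Real.sin g * (Real.sin (t.re / 2) * Real.cos (t.re / 2))) * hh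

lemma R_eq (t : ℂ) :
    (Matrix.of fun i j => (2 : ℂ) * (uvec t i * uvec t j)) =
      (1 : ℂ) • (1 : Matrix (Fin 2) (Fin 2) ℂ) + sin t • s1 + cos t • s3 := by
  have h2 : t = 2 * (t / 2) := by ring
  have hc : cos t = cos (t / 2) ^ 2 - sin (t / 2) ^ 2 := by
    conv_lhs => rw [h2, cos_two_mul']
  have hs : sin t = 2 * sin (t / 2) * cos (t / 2) := by
    conv_lhs => rw [h2, sin_two_mul]
  have h1 := sin_sq_add_cos_sq (t / 2)
  rw [hc, hs]
  ext i j
  fin_cases i <;> fin_cases j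
  · simp [uvec, s1, s3]; linear_combination h1
  · simp [uvec, s1, s3]; ring
  · simp [uvec, s1, s3]; ring
  · simp [uvec, s1, s3]; linear_combination h1

/-- Nonvanishing with an insertion. -/
theorem trace_ins_ne_zero {g : ℝ} (x : V) {t : ℂ} (ht : 0 < Real.cos (t.re - g))
    {A : Matrix (V → Fin 2) (V → Fin 2) ℂ} (hA : Strict g A) (hp : par * A = A * par) :
    A.trace + cos t * (ins x s3 * A).trace ≠ 0 := by
  have h1 : Strict g (ins x (Matrix.of fun i j => (2 : ℂ) * (uvec t i * uvec t j)) * A) :=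
    Strict.mul_left (good_ins x two_ne_zero (by rw [Q_uvec]; exact ht)) hA
  have h2 := h1.trace_ne_zero
  rw [R_eq, ins_comb, ins_one, Matrix.add_mul, Matrix.add_mul, Matrix.trace_add,
    Matrix.trace_add, Matrix.smul_mul, Matrix.smul_mul, Matrix.smul_mul, Matrix.trace_smul,
    Matrix.trace_smul, Matrix.trace_smul, trace_s1 x hp, Matrix.one_mul] at h2
  simpa using h2

/-- The magnetization does not vanish. -/
theorem trace_s3_ne_zero {g : ℝ} (x : V) {A B : Matrix (V → Fin 2) (V → Fin 2) ℂ}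
    (hA : Strict g A) (hB : Strict g B) (hp : par * (B * A) = (B * A) * par) :
    (ins x s3 * (B * A)).trace ≠ 0 := by
  have hw : Weak g (ins x (Matrix.of fun i j => (1 : ℂ) * (![1, -I] i * ![1, -I] j))) :=
    weak_ins x one_ne_zero (by
      intro h; have := congrFun h 0; simp at this) (by simp [Q])
  have h1 := (Strict.weak_strict hA hw hB).trace_ne_zero
  have e : (Matrix.of fun i j => (1 : ℂ) * (![1, -I] i * ![1, -I] j)) =
      (0 : ℂ) • (1 : Matrix (Fin 2) (Fin 2) ℂ) + (-I) • s1 + (1 : ℂ) • s3 := by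
    ext i j
    fin_cases i <;> fin_cases j <;> simp [s1, s3]
  rw [Matrix.mul_assoc, Matrix.trace_mul_comm, Matrix.mul_assoc, e, ins_comb, Matrix.add_mul,
    Matrix.add_mul, Matrix.trace_add, Matrix.trace_add, Matrix.smul_mul, Matrix.smul_mul,
    Matrix.smul_mul, Matrix.trace_smul, Matrix.trace_smul, Matrix.trace_smul,
    trace_s1 x hp] at h1
  simpa using h1

/-- The region: from the zero-free strip to the half plane. -/
theorem region {Z W : ℂ} {al : ℝ} (hal0 : 0 ≤ al) (hal : al < Real.pi / 2) (hW : W ≠ 0)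
    (h : ∀ t : ℂ, |t.re| < Real.pi - al → Z + cos t * W ≠ 0) :
    Real.cos al ≤ (Z / W).re := by
  by_contra hc
  rw [not_le] at hc
  obtain ⟨t0, ht0⟩ := cos_surjective (-(Z / W))
  set n : ℤ := round (t0.re / (2 * Real.pi)) with hn
  set t : ℂ := t0 - n * (2 * Real.pi) with ht
  have hct : cos t = -(Z / W) := by rw [ht, cos_sub_int_mul_two_pi, ht0]
  have hre : t.re = t0.re - n * (2 * Real.pi) := by rw [ht]; simp
  have hpi := Real.pi_pos
  have hle : |t.re| ≤ Real.pi := by
    have h1 := abs_sub_round (t0.re / (2 * Real.pi))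
    have h2 : t.re = 2 * Real.pi * (t0.re / (2 * Real.pi) - n) := by
      rw [hre]; field_simp
    rw [h2, abs_mul, abs_of_pos (by positivity : 0 < 2 * Real.pi)]
    calc 2 * Real.pi * |t0.re / (2 * Real.pi) - n| ≤ 2 * Real.pi * (1 / 2) :=
          mul_le_mul_of_nonneg_left h1 (by positivity)
      _ = Real.pi := by ring
  have hz : Z + cos t * W = 0 := by rw [hct]; field_simp; ring
  have hlt : |t.re| < Real.pi - al := by
    by_contra hge
    rw [not_lt] at hge
    have hcos : Real.cos t.re ≤ -Real.cos al := by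
      rw [← Real.cos_abs, ← Real.cos_pi_sub]
      exact Real.cos_le_cos_of_nonneg_of_le_pi (by linarith) hle hge
    have hcal : 0 < Real.cos al := Real.cos_pos_of_mem_Ioo ⟨by linarith, hal⟩
    have hre2 : (cos t).re = Real.cos t.re * Real.cosh t.im := by
      rw [cos_eq]
      have : cos (t.re : ℂ) * cosh (t.im : ℂ) - sin (t.re : ℂ) * sinh (t.im : ℂ) * I =
          (Real.cos t.re * Real.cosh t.im : ℝ) - (Real.sin t.re * Real.sinh t.im : ℝ) * I := by
        push_cast; ring
      rw [this]; simp [-ofReal_mul, -ofReal_cos, -ofReal_cosh, -ofReal_sin, -ofReal_sinh]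
    have h1 : (cos t).re = -(Z / W).re := by rw [hct, neg_re]
    have h2 := Real.one_le_cosh t.im
    rw [hre2] at h1
    nlinarith [mul_nonneg (sub_nonneg.mpr h2) hcal.le]
  exact h t hlt hz

end

end Vale.Agent.P361.LRO
end

section

/-!
P361, stage 3: from all moments to the exponential moment (finite sums).
-/

namespace Vale.Agent.P361.LRO.Bloch

open Finset

/-- `κ^m E[x^m] ≤ m!` for all `m` implies `E[exp (κ x / 2)] ≤ 2` (finite measures). -/
theorem exp_moment {ι : Type*} [Fintype ι] {w x : ι → ℝ} {κ S : ℝ}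
    (hm : ∀ m : ℕ, κ ^ m * ∑ i, w i * x i ^ m ≤ (m.factorial : ℝ) * S) :
    ∑ i, w i * Real.exp (κ * x i / 2) ≤ 2 * S := by
  have h1 : HasSum (fun m : ℕ => ∑ i, w i * ((κ * x i / 2) ^ m / (m.factorial : ℝ)))
      (∑ i, w i * Real.exp (κ * x i / 2)) := by
    refine hasSum_sum fun i _ => ?_
    have := (NormedSpace.expSeries_div_hasSum_exp (𝔸 := ℝ) (κ * x i / 2)).mul_left (w i)
    rwa [← Real.exp_eq_exp_ℝ] at this
  have h2 : HasSum (fun m : ℕ => (1 / 2 : ℝ) ^ m * S) (2 * S) := by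
    have := (hasSum_geometric_of_lt_one (r := (1 / 2 : ℝ)) (by norm_num) (by norm_num)).mul_right S
    norm_num at this
    simpa using this
  refine hasSum_le (fun m => ?_) h1 h2
  have h3 : ∑ i, w i * ((κ * x i / 2) ^ m / (m.factorial : ℝ)) =
      (1 / 2 : ℝ) ^ m / (m.factorial : ℝ) * (κ ^ m * ∑ i, w i * x i ^ m) := by
    rw [Finset.mul_sum, Finset.mul_sum]
    refine Finset.sum_congr rfl fun i _ => ?_
    rw [div_pow, mul_pow, div_pow, one_pow]
    ring
  rw [h3]
  have hf : (0 : ℝ) < (m.factorial : ℝ) := by exact_mod_cast m.factorial_pos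
  calc (1 / 2 : ℝ) ^ m / (m.factorial : ℝ) * (κ ^ m * ∑ i, w i * x i ^ m)
      ≤ (1 / 2 : ℝ) ^ m / (m.factorial : ℝ) * ((m.factorial : ℝ) * S) :=
        mul_le_mul_of_nonneg_left (hm m) (by positivity)
    _ = (1 / 2 : ℝ) ^ m * S := by field_simp

end Vale.Agent.P361.LRO.Bloch
end
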