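import Mathlib
import Vale.Agent.P361.Bd6.B2
import Vale.Agent.P361.Model
import Vale.Agent.P361.Bd6.B1
import Vale.Agent.P361.MathlibUsed

set_option linter.all false

section

/-!
Finite-volume magnetization, convexity of the pressure, and the right derivative.
-/

namespace Vale.Agent.P361

open Matrix Filter Topology Finset
open scoped ComplexOrder Kronecker

/-- Total finite-volume magnetization `⟨M⟩`. -/
noncomputable def gibbsMag (n : ℕ) (Λ : Finset Site) (β h : ℝ) : ℝ :=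
  (trace (NormedSpace.exp (expo n Λ β h) * magnetization n Λ)).re /
    (trace (NormedSpace.exp (expo n Λ β h))).re

theorem magnetization_isHermitian (n : ℕ) (Λ : Finset Site) :
    (magnetization n Λ).IsHermitian := by
  rw [Matrix.IsHermitian, magnetization, Matrix.conjTranspose_sum]
  refine Finset.sum_congr rfl fun x _ => ?_
  exact siteOp_isHermitian x (spin_isHermitian n 2)

theorem expo_shift (n : ℕ) (Λ : Finset Site) (β h h' : ℝ) :
    expo n Λ β h' = expo n Λ β h + ((β * (h' - h) : ℝ) : ℂ) • magnetization n Λ := by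
  unfold expo
  push_cast
  module

/-- Supporting line inequality for the logarithm of the partition function. -/
theorem log_trace_support (n : ℕ) (Λ : Finset Site) (β h h' : ℝ) :
    Real.log (trace (NormedSpace.exp (expo n Λ β h))).re + β * (h' - h) * gibbsMag n Λ β h ≤
      Real.log (trace (NormedSpace.exp (expo n Λ β h'))).re := by
  have hY : (((β * (h' - h) : ℝ) : ℂ) • magnetization n Λ).IsHermitian := by
    rw [Matrix.IsHermitian, Matrix.conjTranspose_smul, magnetization_isHermitian n Λ]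
    simp
  have h1 := peierls_bogoliubov (expo_isHermitian n Λ β h) hY
  rw [← expo_shift] at h1
  refine le_trans (le_of_eq ?_) h1
  congr 1
  rw [Matrix.mul_smul, Matrix.trace_smul, smul_eq_mul, Complex.re_ofReal_mul]
  unfold gibbsMag
  ring

theorem finPressure_def (n : ℕ) (Λ : Finset Site) (β h : ℝ) :
    finPressure n Λ β h = (β * Λ.card)⁻¹ * Real.log
      (trace (NormedSpace.exp (expo n Λ β h))).re := rfl

theorem finPressure_support (n : ℕ) {Λ : Finset Site} (hΛ : Λ.Nonempty) {β : ℝ} (hβ : 0 < β)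
    (h h' : ℝ) :
    finPressure n Λ β h + (h' - h) * (gibbsMag n Λ β h / Λ.card) ≤ finPressure n Λ β h' := by
  have h1 := log_trace_support n Λ β h h'
  have hc : (0 : ℝ) < Λ.card := by exact_mod_cast hΛ.card_pos
  rw [finPressure_def, finPressure_def]
  have h2 := mul_le_mul_of_nonneg_left h1 (a := (β * Λ.card)⁻¹) (by positivity)
  refine le_trans (le_of_eq ?_) h2
  field_simp

theorem convexOn_of_support {f g : ℝ → ℝ} (hfg : ∀ x y, f x + (y - x) * g x ≤ f y) :
    ConvexOn ℝ Set.univ f := by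
  refine ⟨convex_univ, ?_⟩
  intro x _ y _ a b ha hb hab
  simp only [smul_eq_mul]
  set z := a * x + b * y with hz
  have h1 := hfg z x
  have h2 := hfg z y
  have h3 : a * (x - z) + b * (y - z) = 0 := by
    have : a * (x - z) + b * (y - z) = (a * x + b * y) - (a + b) * z := by ring
    rw [this, hab, hz]; ring
  calc f z = a * (f z + (x - z) * g z) + b * (f z + (y - z) * g z) := by
        have : a * (f z + (x - z) * g z) + b * (f z + (y - z) * g z) =
          (a + b) * f z + (a * (x - z) + b * (y - z)) * g z := by ring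
        rw [this, hab, h3]; ring
    _ ≤ a * f x + b * f y := by
        exact add_le_add (mul_le_mul_of_nonneg_left h1 ha) (mul_le_mul_of_nonneg_left h2 hb)

theorem finPressure_convex (n : ℕ) {Λ : Finset Site} (hΛ : Λ.Nonempty) {β : ℝ} (hβ : 0 < β) :
    ConvexOn ℝ Set.univ (finPressure n Λ β) :=
  convexOn_of_support (finPressure_support n hΛ hβ)

theorem box_nonempty (N : ℕ) : (box N).Nonempty := by
  rw [← Finset.card_pos, card_box]; positivity

theorem pressure_convex (n : ℕ) {β : ℝ} (hβ : 0 < β) :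
    ConvexOn ℝ Set.univ (pressure n β) := by
  refine ⟨convex_univ, ?_⟩
  intro x _ y _ a b ha hb hab
  refine le_of_tendsto_of_tendsto' (pressure_tendsto n hβ (a • x + b • y))
    (((pressure_tendsto n hβ x).const_smul a).add ((pressure_tendsto n hβ y).const_smul b))
    fun N => ?_
  exact (finPressure_convex n (box_nonempty N) hβ).2 (Set.mem_univ x) (Set.mem_univ y) ha hb hab

/-- The right derivative of the pressure exists at every field. -/
theorem pressure_hasRightDeriv (n : ℕ) {β : ℝ} (hβ : 0 < β) (h : ℝ) :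
    HasDerivWithinAt (pressure n β) (derivWithin (pressure n β) (Set.Ioi h) h) (Set.Ioi h) h :=
  (pressure_convex n hβ).hasDerivWithinAt_rightDeriv_of_mem_interior (by simp)

theorem spontMag_hasDeriv (n : ℕ) {β : ℝ} (hβ : 0 < β) :
    HasDerivWithinAt (pressure n β) (spontMag n β) (Set.Ioi 0) 0 :=
  pressure_hasRightDeriv n hβ 0

theorem rightDeriv_le_slope' (n : ℕ) {β : ℝ} (hβ : 0 < β) {h₀ h : ℝ} (hh : h₀ < h) :
    derivWithin (pressure n β) (Set.Ioi h₀) h₀ ≤ (pressure n β h - pressure n β h₀) / (h - h₀) := by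
  have := (pressure_convex n hβ).rightDeriv_le_slope_of_mem_interior (x := h₀) (y := h)
    (by simp) (Set.mem_univ _) hh
  rwa [slope_def_field] at this

end Vale.Agent.P361
end

section

namespace Vale.Agent.P361.H

open Matrix Filter Topology

variable {n : ℕ}

lemma finPressure_eq (Λ : Finset Site) (β h : ℝ) :
    finPressure n Λ β h = (β * Λ.card)⁻¹ * Real.log (partZ n Λ β h) := rfl

/-- Peierls–Bogoliubov for the field dependence. -/
lemma log_partZ_le (Λ : Finset Site) (β h h' : ℝ) :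
    Real.log (partZ n Λ β h) + β * (h' - h) * (tr n Λ β h (magnetization n Λ) / partZ n Λ β h) ≤
      Real.log (partZ n Λ β h') := by
  have h1 := peierls_bogoliubov (expo n Λ β h) (expo n Λ β h') (expo_isHermitian β h)
    (expo_isHermitian β h')
  have e : expo n Λ β h' - expo n Λ β h = ((β * (h' - h) : ℝ) : ℂ) • magnetization n Λ := by
    unfold expo; push_cast; module
  rw [e] at h1
  change Real.log (partZ n Λ β h) + tr n Λ β h (((β * (h' - h) : ℝ) : ℂ) • magnetization n Λ) /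
    partZ n Λ β h ≤ Real.log (partZ n Λ β h') at h1
  rw [tr_smul, mul_div_assoc] at h1
  exact h1

lemma mag_ge (N : ℕ) {β h₀ h : ℝ} (hβ : 0 < β) (hh : h₀ < h) :
    (finPressure n (box N) β h - finPressure n (box N) β h₀) / (h - h₀) ≤
      mag n (box N) β h := by
  have hZ : 0 < partZ n (box N) β h := partZ_pos β h
  have hV : 0 < ((box N).card : ℝ) := by rw [card_box]; positivity
  have hd : 0 < h - h₀ := sub_pos.2 hh
  have h1 := log_partZ_le (n := n) (box N) β h h₀
  rw [finPressure_eq, finPressure_eq, div_le_iff₀ hd, ← mul_sub, mag]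
  rw [inv_mul_le_iff₀ (by positivity)]
  have e : β * (h₀ - h) * (tr n (box N) β h (magnetization n (box N)) / partZ n (box N) β h) =
    -(β * ((box N).card : ℝ) * (tr n (box N) β h (magnetization n (box N)) /
      (((box N).card : ℝ) * partZ n (box N) β h) * (h - h₀))) := by
    field_simp; ring
  rw [e] at h1
  linarith

/-- Product structure of the momentum sum. -/
lemma sum_box_exp (N : ℕ) (t : ℝ) :
    ∑ l ∈ box N, Real.exp (-t * disp N l) =
      (∑ l ∈ Finset.Icc (-(N : ℤ)) N,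
        Real.exp (-t * (1 - Real.cos (2 * Real.pi / (2 * N + 1) * (l : ℝ))))) ^ 3 := by
  have h1 : ∀ l : Site, Real.exp (-t * disp N l) =
      ∏ j, Real.exp (-t * (1 - Real.cos (2 * Real.pi / (2 * N + 1) * ((l j : ℤ) : ℝ)))) := by
    intro l
    rw [disp, Finset.mul_sum, Real.exp_sum]; rfl
  simp only [h1]
  rw [box_eq, ← Finset.prod_univ_sum (fun _ : Fin 3 => Finset.Icc (-(N : ℤ)) N)
    (fun _ l => Real.exp (-t * (1 - Real.cos (2 * Real.pi / (2 * N + 1) * (l : ℝ)))))]
  simp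

lemma sum_box_lower (N : ℕ) {t : ℝ} (ht : 0 ≤ t) :
    (max (bJ t - (2 * N + 1 : ℝ)⁻¹) 0) ^ 3 ≤
      ((2 * N + 1 : ℝ) ^ 3)⁻¹ * ∑ l ∈ box N, Real.exp (-t * disp N l) := by
  rw [sum_box_exp, ← inv_pow, ← mul_pow]
  refine pow_le_pow_left₀ (le_max_right _ _) ?_ 3
  refine max_le (riemann_lower N t ht) ?_
  exact mul_nonneg (by positivity) (Finset.sum_nonneg fun l _ => (Real.exp_pos _).le)

lemma series_lower (N R : ℕ) {β h q μ S : ℝ} (hβ : 0 < β) (hh : 0 < h) (hq : 0 < q)
    (hμ : q ≤ μ) (hS : 0 ≤ S) :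
    q * ∑ r ∈ Finset.range R, Real.exp (-(((r : ℝ) + 1) * (β * h))) *
      (max (bJ (((r : ℝ) + 1) * (β * S) / q) - (2 * N + 1 : ℝ)⁻¹) 0) ^ 3 ≤
    μ * (((2 * N + 1 : ℝ) ^ 3)⁻¹ * ∑ l ∈ box N,
      1 / (Real.exp (β * (S * disp N l / μ + h)) - 1)) := by
  have hμ0 : 0 < μ := hq.trans_le hμ
  have hV : 0 < ((2 * N + 1 : ℝ) ^ 3)⁻¹ := by positivity
  have hy : ∀ l, 0 < β * (S * disp N l / μ + h) := by
    intro l
    have := disp_nonneg N l
    positivity
  have h1 : ∀ r : ℕ, Real.exp (-(((r : ℝ) + 1) * (β * h))) *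
      (max (bJ (((r : ℝ) + 1) * (β * S) / q) - (2 * N + 1 : ℝ)⁻¹) 0) ^ 3 ≤
      ((2 * N + 1 : ℝ) ^ 3)⁻¹ * ∑ l ∈ box N,
        Real.exp (-(((r : ℝ) + 1) * (β * (S * disp N l / μ + h)))) := by
    intro r
    have ht : 0 ≤ ((r : ℝ) + 1) * (β * S) / q := by positivity
    refine (mul_le_mul_of_nonneg_left (sum_box_lower N ht) (Real.exp_pos _).le).trans ?_
    rw [← mul_assoc, mul_comm (Real.exp _), mul_assoc, Finset.mul_sum]
    refine mul_le_mul_of_nonneg_left (Finset.sum_le_sum fun l _ => ?_) hV.le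
    rw [← Real.exp_add]
    refine Real.exp_le_exp.2 ?_
    have hD := disp_nonneg N l
    have hdiv : S * disp N l / μ ≤ S * disp N l / q :=
      div_le_div_of_nonneg_left (mul_nonneg hS hD) hq hμ
    have h2 : ((r : ℝ) + 1) * β * (S * disp N l / μ) ≤ ((r : ℝ) + 1) * β * (S * disp N l / q) :=
      mul_le_mul_of_nonneg_left hdiv (by positivity)
    have e1 : -(((r : ℝ) + 1) * (β * h)) + -(((r : ℝ) + 1) * (β * S) / q) * disp N l =
      -(((r : ℝ) + 1) * (β * h)) - ((r : ℝ) + 1) * β * (S * disp N l / q) := by ring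
    have e2 : -(((r : ℝ) + 1) * (β * (S * disp N l / μ + h))) =
      -(((r : ℝ) + 1) * (β * h)) - ((r : ℝ) + 1) * β * (S * disp N l / μ) := by ring
    rw [e1, e2]
    linarith
  have h3 : ∑ r ∈ Finset.range R, Real.exp (-(((r : ℝ) + 1) * (β * h))) *
      (max (bJ (((r : ℝ) + 1) * (β * S) / q) - (2 * N + 1 : ℝ)⁻¹) 0) ^ 3 ≤
      ((2 * N + 1 : ℝ) ^ 3)⁻¹ * ∑ l ∈ box N, 1 / (Real.exp (β * (S * disp N l / μ + h)) - 1) := by
    refine (Finset.sum_le_sum fun r _ => h1 r).trans ?_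
    rw [← Finset.mul_sum, Finset.sum_comm]
    refine mul_le_mul_of_nonneg_left (Finset.sum_le_sum fun l _ => ?_) hV.le
    exact geom_le (hy l) R
  exact mul_le_mul hμ h3 (Finset.sum_nonneg fun r _ =>
    mul_nonneg (Real.exp_pos _).le (pow_nonneg (le_max_right _ _) 3)) hμ0.le

lemma finite_bound' (n N R : ℕ) {β h q : ℝ} (hβ : 0 < β) (hh : 0 < h) (hq : 0 < q)
    (hμ : q ≤ mag n (box N) β h) :
    q * ∑ r ∈ Finset.range R, Real.exp (-(((r : ℝ) + 1) * (β * h))) *
      (max (bJ (((r : ℝ) + 1) * (β * (2 * ((n : ℝ) / 2) ^ 2)) / q) - (2 * N + 1 : ℝ)⁻¹) 0) ^ 3 ≤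
    (n : ℝ) / 2 * ((n : ℝ) / 2 - mag n (box N) β h) :=
  (series_lower N R hβ hh hq hμ (mul_nonneg two_pos.le (sq_nonneg _))).trans
    (finite_bound n N hβ (hq.trans_le hμ))

/-- Infinite-volume bound: `m` is any lower bound for the slopes of the pressure to the right
of `h₀ ≥ 0`. -/
theorem limit_bound (n R : ℕ) {β : ℝ} (hβ : 0 < β) (p : ℝ → ℝ)
    (hp : ∀ h, Tendsto (fun N => finPressure n (box N) β h) atTop (𝓝 (p h))) (m : ℝ)
    {h₀ : ℝ} (hh₀ : 0 ≤ h₀)
    (hm : ∀ h, h₀ < h → m ≤ (p h - p h₀) / (h - h₀)) {q : ℝ} (hq : 0 < q) (hqm : q < m) :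
    q * ∑ r ∈ Finset.range R, Real.exp (-(((r : ℝ) + 1) * (β * h₀))) *
      (bJ (((r : ℝ) + 1) * (β * (2 * ((n : ℝ) / 2) ^ 2)) / q)) ^ 3 ≤
    (n : ℝ) / 2 * ((n : ℝ) / 2 - m) := by
  have hinv : Tendsto (fun N : ℕ => (2 * (N : ℝ) + 1)⁻¹) atTop (𝓝 0) := by
    refine tendsto_inv_atTop_zero.comp ?_
    refine tendsto_atTop_add_const_right _ _ ?_
    exact Tendsto.const_mul_atTop two_pos tendsto_natCast_atTop_atTop
  have step : ∀ h, h₀ < h → q * ∑ r ∈ Finset.range R, Real.exp (-(((r : ℝ) + 1) * (β * h))) *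
      (bJ (((r : ℝ) + 1) * (β * (2 * ((n : ℝ) / 2) ^ 2)) / q)) ^ 3 ≤
      (n : ℝ) / 2 * ((n : ℝ) / 2 - m) := by
    intro h hh
    have hdiff : Tendsto (fun N => (finPressure n (box N) β h - finPressure n (box N) β h₀) /
        (h - h₀)) atTop (𝓝 ((p h - p h₀) / (h - h₀))) := ((hp h).sub (hp h₀)).div_const _
    have hge : m ≤ (p h - p h₀) / (h - h₀) := hm h hh
    have hev : ∀ᶠ N : ℕ in atTop,
        q < (finPressure n (box N) β h - finPressure n (box N) β h₀) / (h - h₀) :=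
      hdiff.eventually (lt_mem_nhds (hqm.trans_le hge))
    have hL : Tendsto (fun N : ℕ => q * ∑ r ∈ Finset.range R,
        Real.exp (-(((r : ℝ) + 1) * (β * h))) *
        (max (bJ (((r : ℝ) + 1) * (β * (2 * ((n : ℝ) / 2) ^ 2)) / q) - (2 * N + 1 : ℝ)⁻¹) 0) ^ 3)
        atTop (𝓝 (q * ∑ r ∈ Finset.range R, Real.exp (-(((r : ℝ) + 1) * (β * h))) *
        (max (bJ (((r : ℝ) + 1) * (β * (2 * ((n : ℝ) / 2) ^ 2)) / q) - 0) 0) ^ 3)) := by
      refine Tendsto.const_mul _ (tendsto_finsetSum _ fun r _ => ?_)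
      refine Tendsto.const_mul _ (Tendsto.pow ?_ 3)
      exact (tendsto_const_nhds.sub hinv).max tendsto_const_nhds
    have hR : Tendsto (fun N : ℕ => (n : ℝ) / 2 * ((n : ℝ) / 2 -
        (finPressure n (box N) β h - finPressure n (box N) β h₀) / (h - h₀))) atTop
        (𝓝 ((n : ℝ) / 2 * ((n : ℝ) / 2 - (p h - p h₀) / (h - h₀)))) :=
      Tendsto.const_mul _ (tendsto_const_nhds.sub hdiff)
    have hle := le_of_tendsto_of_tendsto hL hR (by
      filter_upwards [hev] with N hN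
      have h1 := mag_ge (n := n) N hβ hh
      refine (finite_bound' n N R hβ (hh₀.trans_lt hh) hq (hN.le.trans h1)).trans ?_
      exact mul_le_mul_of_nonneg_left (by linarith) (by positivity))
    have hmax : ∀ r : ℕ, max (bJ (((r : ℝ) + 1) * (β * (2 * ((n : ℝ) / 2) ^ 2)) / q) - 0) 0 =
        bJ (((r : ℝ) + 1) * (β * (2 * ((n : ℝ) / 2) ^ 2)) / q) := by
      intro r; rw [sub_zero, max_eq_left (bJ_nonneg _)]
    simp only [hmax] at hle
    refine hle.trans ?_
    exact mul_le_mul_of_nonneg_left (by linarith) (by positivity)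
  have hlim : Tendsto (fun h : ℝ => q * ∑ r ∈ Finset.range R,
      Real.exp (-(((r : ℝ) + 1) * (β * h))) *
      (bJ (((r : ℝ) + 1) * (β * (2 * ((n : ℝ) / 2) ^ 2)) / q)) ^ 3) (𝓝[>] h₀)
      (𝓝 (q * ∑ r ∈ Finset.range R, Real.exp (-(((r : ℝ) + 1) * (β * h₀))) *
      (bJ (((r : ℝ) + 1) * (β * (2 * ((n : ℝ) / 2) ^ 2)) / q)) ^ 3)) := by
    have hc : Continuous (fun h : ℝ => q * ∑ r ∈ Finset.range R,
      Real.exp (-(((r : ℝ) + 1) * (β * h))) *
      (bJ (((r : ℝ) + 1) * (β * (2 * ((n : ℝ) / 2) ^ 2)) / q)) ^ 3) := by fun_prop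
    exact (hc.tendsto h₀).mono_left nhdsWithin_le_nhds
  exact le_of_tendsto hlim (by
    filter_upwards [self_mem_nhdsWithin] with h hh
    exact step h hh)

/-- The same with `q = m`. -/
theorem limit_bound_self (n R : ℕ) {β : ℝ} (hβ : 0 < β) (p : ℝ → ℝ)
    (hp : ∀ h, Tendsto (fun N => finPressure n (box N) β h) atTop (𝓝 (p h))) (m : ℝ)
    {h₀ : ℝ} (hh₀ : 0 ≤ h₀)
    (hm : ∀ h, h₀ < h → m ≤ (p h - p h₀) / (h - h₀)) (hm0 : 0 < m) :
    m * ∑ r ∈ Finset.range R, Real.exp (-(((r : ℝ) + 1) * (β * h₀))) *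
      (bJ (((r : ℝ) + 1) * (β * (2 * ((n : ℝ) / 2) ^ 2)) / m)) ^ 3 ≤
    (n : ℝ) / 2 * ((n : ℝ) / 2 - m) := by
  have hlim : Tendsto (fun q : ℝ => q * ∑ r ∈ Finset.range R,
      Real.exp (-(((r : ℝ) + 1) * (β * h₀))) *
      (bJ (((r : ℝ) + 1) * (β * (2 * ((n : ℝ) / 2) ^ 2)) / q)) ^ 3) (𝓝[<] m)
      (𝓝 (m * ∑ r ∈ Finset.range R, Real.exp (-(((r : ℝ) + 1) * (β * h₀))) *
      (bJ (((r : ℝ) + 1) * (β * (2 * ((n : ℝ) / 2) ^ 2)) / m)) ^ 3)) := by
    refine Tendsto.mono_left ?_ nhdsWithin_le_nhds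
    refine Tendsto.mul tendsto_id (tendsto_finsetSum _ fun r _ => ?_)
    refine Tendsto.const_mul _ (Tendsto.pow ?_ 3)
    exact (bJ_continuous.tendsto _).comp (tendsto_const_nhds.div tendsto_id hm0.ne')
  refine le_of_tendsto hlim ?_
  have h1 : ∀ᶠ q : ℝ in 𝓝[<] m, 0 < q := mem_nhdsWithin_of_mem_nhds (lt_mem_nhds hm0)
  filter_upwards [h1, self_mem_nhdsWithin] with q hq hqm
  exact limit_bound n R hβ p hp m hh₀ hm hq hqm

end Vale.Agent.P361.H
end

section

namespace Vale.Agent.P361.H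

open MeasureTheory Filter Topology

/-- The Brillouin zone `[-π, π]³`. -/
def cube : Set (Fin 3 → ℝ) := Set.univ.pi fun _ => Set.Icc (-Real.pi) Real.pi

lemma integral_symm (t : ℝ) :
    ∫ θ in Set.Icc (-Real.pi) Real.pi, Real.exp (-t * (1 - Real.cos θ)) = 2 * Real.pi * bJ t := by
  have hpi := Real.pi_pos
  rw [integral_Icc_eq_integral_Ioc, ← intervalIntegral.integral_of_le (by linarith)]
  have hint : ∀ a b : ℝ, IntervalIntegrable (fun θ => Real.exp (-t * (1 - Real.cos θ))) volume a b :=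
    fun a b => Continuous.intervalIntegrable (by fun_prop) _ _
  rw [← intervalIntegral.integral_add_adjacent_intervals (hint (-Real.pi) 0) (hint 0 Real.pi)]
  have h1 : ∫ θ in (-Real.pi)..0, Real.exp (-t * (1 - Real.cos θ)) =
      ∫ θ in (0 : ℝ)..Real.pi, Real.exp (-t * (1 - Real.cos θ)) := by
    have := intervalIntegral.integral_comp_neg (a := 0) (b := Real.pi)
      (fun θ => Real.exp (-t * (1 - Real.cos θ)))
    simp only [Real.cos_neg, neg_zero] at this
    exact this.symm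
  rw [h1, bJ]
  field_simp
  ring

end Vale.Agent.P361.H
end

section

namespace Vale.Agent.P361.H

open MeasureTheory Filter Topology

/-- Right derivative of the pressure at the field `h`. -/
noncomputable def magAt (n : ℕ) (β h : ℝ) : ℝ := derivWithin (pressure n β) (Set.Ioi h) h

lemma magAt_slope (n : ℕ) {β : ℝ} (hβ : 0 < β) (h₀ : ℝ) :
    ∀ h, h₀ < h → magAt n β h₀ ≤ (pressure n β h - pressure n β h₀) / (h - h₀) :=
  fun _ hh => rightDeriv_le_slope' n hβ hh

/-- Series form of the bound at field `h₀ ≥ 0`. -/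
theorem magAt_series (n R : ℕ) {β h₀ : ℝ} (hβ : 0 < β) (hh₀ : 0 ≤ h₀) (hm : 0 < magAt n β h₀) :
    magAt n β h₀ * ∑ r ∈ Finset.range R, Real.exp (-(((r : ℝ) + 1) * (β * h₀))) *
      (bJ (((r : ℝ) + 1) * (β * (2 * ((n : ℝ) / 2) ^ 2)) / magAt n β h₀)) ^ 3 ≤
    (n : ℝ) / 2 * ((n : ℝ) / 2 - magAt n β h₀) :=
  limit_bound_self n R hβ (pressure n β) (fun h => pressure_tendsto n hβ h) _ hh₀
    (magAt_slope n hβ h₀) hm

theorem spontMag_le (n : ℕ) {β : ℝ} (hβ : 0 < β) (hn : 1 ≤ n) : spontMag n β ≤ (n : ℝ) / 2 := by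
  have hS : 0 < (n : ℝ) / 2 := by
    have : (1 : ℝ) ≤ n := by exact_mod_cast hn
    linarith
  rcases le_or_gt (spontMag n β) 0 with h | h
  · linarith
  · have h1 := magAt_series n 0 hβ le_rfl (h₀ := 0) h
    simp only [Finset.range_zero, Finset.sum_empty, mul_zero] at h1
    have h2 := (mul_nonneg_iff_of_pos_left hS).1 h1
    change 0 ≤ (n : ℝ) / 2 - spontMag n β at h2
    linarith

/-- One-sided Bloch law. -/
theorem one_sided_bloch {n : ℕ} (hn : 1 ≤ n) {c : ℝ} (hc : c < blochCoeff ((n : ℝ) / 2)) :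
    ∀ᶠ β : ℝ in atTop, c < β ^ (3 / 2 : ℝ) * ((n : ℝ) / 2 - spontMag n β) := by
  have hS : 0 < (n : ℝ) / 2 := by
    have : (1 : ℝ) ≤ n := by exact_mod_cast hn
    linarith
  refine bloch_of_bound hS (spontMag n) ?_ hc
  intro β hβ q hq hqm R
  have h := limit_bound n R hβ (pressure n β) (fun h => pressure_tendsto n hβ h)
    (spontMag n β) le_rfl (magAt_slope n hβ 0) hq hqm
  simpa using h

end Vale.Agent.P361.H
end

section

namespace Vale.Agent.P361.Bridge

open Filter Topology MeasureTheory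

lemma pressure_eq (n : ℕ) (β h : ℝ) : Model.pressure n β h = pressure n β h := rfl

theorem main_thermo (n : ℕ) (hn : 1 ≤ n) (β : ℝ) (hβ : 0 < β) :
    (∀ h : ℝ, Tendsto (fun N : ℕ => Model.finPressure n N β h) atTop
      (𝓝 (Model.pressure n β h))) ∧
    ConvexOn ℝ Set.univ (Model.pressure n β) ∧
    HasDerivWithinAt (Model.pressure n β) (Model.spontMag n β) (Set.Ioi 0) 0 ∧
    Model.spontMag n β ≤ (n : ℝ) / 2 :=
  ⟨fun h => pressure_tendsto n hβ h, pressure_convex n hβ, spontMag_hasDeriv n hβ,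
    H.spontMag_le n hβ hn⟩

theorem main_bloch (n : ℕ) (hn : 1 ≤ n) (c : ℝ) (hc : c < (riemannZeta (3 / 2)).re /
    (8 * Real.pi ^ (3 / 2 : ℝ) * ((n : ℝ) / 2) ^ (3 / 2 : ℝ))) :
    ∀ᶠ β : ℝ in atTop, c < β ^ (3 / 2 : ℝ) * ((n : ℝ) / 2 - Model.spontMag n β) :=
  H.one_sided_bloch hn hc

end Vale.Agent.P361.Bridge
end

section

/-!
Part B, steps D1 and D3: subadditivity of `log Zt` and comparison of the pressure with one cube.
-/

namespace Vale.Agent.P361.B

open Matrix Finset Filter Topology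
open scoped ComplexOrder Kronecker

set_option linter.unusedSectionVars false

section General

variable {α β γ : Type*} [Fintype α] [DecidableEq α] [Fintype β] [DecidableEq β]
  [Fintype γ] [DecidableEq γ]

/-- `tr exp (X₁ ⊗ 1 + 1 ⊗ X₂) = tr e^{X₁} tr e^{X₂}`. -/
theorem trace_exp_kron {X₁ : Matrix α α ℂ} {X₂ : Matrix β β ℂ}
    (h₁ : X₁.IsHermitian) (h₂ : X₂.IsHermitian) :
    trace (NormedSpace.exp (X₁ ⊗ₖ (1 : Matrix β β ℂ) + (1 : Matrix α α ℂ) ⊗ₖ X₂)) =
      ((∑ p : α × β, Real.exp (h₁.eigenvalues p.1 + h₂.eigenvalues p.2) : ℝ) : ℂ) := by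
  set U₁ := (h₁.eigenvectorUnitary : Matrix α α ℂ) with hU₁
  set U₂ := (h₂.eigenvectorUnitary : Matrix β β ℂ) with hU₂
  have hUU₁ : star U₁ * U₁ = 1 := Unitary.coe_star_mul_self _
  have hUU₂ : star U₂ * U₂ = 1 := Unitary.coe_star_mul_self _
  set W := U₁ ⊗ₖ U₂ with hW
  have hstarW : star W = star U₁ ⊗ₖ star U₂ := by
    rw [hW, Matrix.star_eq_conjTranspose, Matrix.conjTranspose_kronecker]; rfl
  have hWW : star W * W = 1 := by
    rw [hstarW, hW, ← Matrix.mul_kronecker_mul, hUU₁, hUU₂, Matrix.one_kronecker_one]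
  have hWW' : W * star W = 1 := mul_eq_one_comm.1 hWW
  have hinv : star W = W⁻¹ := (Matrix.inv_eq_left_inv hWW).symm
  have hunit : IsUnit W := ⟨⟨W, star W, hWW', hWW⟩, rfl⟩
  have e3 : star W * (X₁ ⊗ₖ (1 : Matrix β β ℂ) + (1 : Matrix α α ℂ) ⊗ₖ X₂) * W =
      diagonal (fun p : α × β => (h₁.eigenvalues p.1 : ℂ) + (h₂.eigenvalues p.2 : ℂ)) := by
    rw [Matrix.mul_add, Matrix.add_mul, hstarW, hW, ← Matrix.mul_kronecker_mul,
      ← Matrix.mul_kronecker_mul, ← Matrix.mul_kronecker_mul, ← Matrix.mul_kronecker_mul,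
      Matrix.mul_one, Matrix.mul_one, hUU₁, hUU₂, diag_conj_eigen h₁, diag_conj_eigen h₂]
    ext p q
    obtain ⟨p1, p2⟩ := p
    obtain ⟨q1, q2⟩ := q
    simp only [Matrix.add_apply, Matrix.kroneckerMap_apply, Matrix.diagonal_apply,
      Matrix.one_apply, Prod.mk.injEq]
    by_cases h1 : p1 = q1 <;> by_cases h2 : p2 = q2 <;> simp [h1, h2]
  have e4 : X₁ ⊗ₖ (1 : Matrix β β ℂ) + (1 : Matrix α α ℂ) ⊗ₖ X₂ =
      W * diagonal (fun p : α × β => (h₁.eigenvalues p.1 : ℂ) + (h₂.eigenvalues p.2 : ℂ)) *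
        W⁻¹ := by
    rw [← e3, ← hinv]
    calc X₁ ⊗ₖ (1 : Matrix β β ℂ) + (1 : Matrix α α ℂ) ⊗ₖ X₂ =
        (W * star W) * (X₁ ⊗ₖ (1 : Matrix β β ℂ) + (1 : Matrix α α ℂ) ⊗ₖ X₂) *
          (W * star W) := by rw [hWW', Matrix.one_mul, Matrix.mul_one]
      _ = _ := by simp only [Matrix.mul_assoc]
  rw [e4, Matrix.exp_conj _ _ hunit, Matrix.exp_diagonal, Matrix.trace_mul_comm,
    ← Matrix.mul_assoc, ← hinv, hWW, Matrix.one_mul, Matrix.trace_diagonal, Complex.ofReal_sum]
  refine Finset.sum_congr rfl fun p _ => ?_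
  rw [Pi.exp_def]
  simp [← Complex.exp_eq_exp_ℂ]

/-- Subadditivity tool: if `Y ≤ X₁ ⊗ 1 + 1 ⊗ X₂` then `tr e^Y ≤ tr e^{X₁} tr e^{X₂}`. -/
theorem trace_exp_prod_ge [Nonempty α] [Nonempty β] (e : α × β ≃ γ) {X₁ : Matrix α α ℂ}
    {X₂ : Matrix β β ℂ}
    {Y : Matrix γ γ ℂ} (h₁ : X₁.IsHermitian) (h₂ : X₂.IsHermitian) (hY : Y.IsHermitian)
    (hP : ((X₁ ⊗ₖ (1 : Matrix β β ℂ) + (1 : Matrix α α ℂ) ⊗ₖ X₂) - Y.submatrix e e).PosSemidef) :
    (trace (NormedSpace.exp Y)).re ≤
    (trace (NormedSpace.exp X₁)).re * (trace (NormedSpace.exp X₂)).re := by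
  have hY' : (Y.submatrix e e).IsHermitian := hY.submatrix e
  have hX : (X₁ ⊗ₖ (1 : Matrix β β ℂ) + (1 : Matrix α α ℂ) ⊗ₖ X₂).IsHermitian := by
    rw [Matrix.IsHermitian, Matrix.conjTranspose_add, Matrix.conjTranspose_kronecker,
      Matrix.conjTranspose_kronecker, h₁, h₂, Matrix.conjTranspose_one, Matrix.conjTranspose_one]
  have h := trace_exp_mono hY' hX hP
  rw [trace_exp_submatrix, trace_exp_kron h₁ h₂, Complex.ofReal_re] at h
  refine h.trans (le_of_eq ?_)
  rw [trace_exp_re h₁, trace_exp_re h₂, Finset.sum_mul_sum, Fintype.sum_prod_type]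
  simp_rw [Real.exp_add]

end General

section

variable {d κ : Type*} [Fintype d] [DecidableEq d] [Fintype κ]
  {V : Type*} [Fintype V] [DecidableEq V]
  {V₁ : Type*} [Fintype V₁] [DecidableEq V₁] {V₂ : Type*} [Fintype V₂] [DecidableEq V₂]

/-- Splitting identity of the total exponent. -/
theorem totOp_split_eq (b c : ℝ) (S : κ → Matrix d d ℂ)
    (F : Matrix d d ℂ) (adj : V → V → Prop) [DecidableRel adj] (f : V₁ ⊕ V₂ ≃ V) :
    (totOp b c S F adj).submatrix (confEquiv f) (confEquiv f) -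
      (totOp b c S F (fun x y : V₁ => adj (f (Sum.inl x)) (f (Sum.inl y))) ⊗ₖ
          (1 : Matrix (V₂ → d) (V₂ → d) ℂ) +
        (1 : Matrix (V₁ → d) (V₁ → d) ℂ) ⊗ₖ
          totOp b c S F (fun x y : V₂ => adj (f (Sum.inr x)) (f (Sum.inr y)))) =
      (b : ℂ) • ((∑ x : V₁, ∑ y : V₂, if adj (f (Sum.inl x)) (f (Sum.inr y)) then
          (pairOp c S (f (Sum.inl x)) (f (Sum.inr y))).submatrix (confEquiv f) (confEquiv f)
          else 0) +
        (∑ x : V₂, ∑ y : V₁, if adj (f (Sum.inr x)) (f (Sum.inl y)) then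
          (pairOp c S (f (Sum.inr x)) (f (Sum.inl y))).submatrix (confEquiv f) (confEquiv f)
          else 0)) := by
  have h2 : ∀ x y : V, (if adj x y then pairOp c S x y else 0).submatrix
      (confEquiv f) (confEquiv f) = if adj x y then (pairOp c S x y).submatrix
      (confEquiv f) (confEquiv f) else 0 := by
    intro x y
    by_cases h : adj x y
    · rw [if_pos h, if_pos h]
    · rw [if_neg h, if_neg h]
      ext i j; rfl
  have h3 : ∀ x y : V₁, (if adj (f (Sum.inl x)) (f (Sum.inl y)) then pairOp c S x y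
      else 0) ⊗ₖ (1 : Matrix (V₂ → d) (V₂ → d) ℂ) =
      if adj (f (Sum.inl x)) (f (Sum.inl y)) then
        pairOp c S x y ⊗ₖ (1 : Matrix (V₂ → d) (V₂ → d) ℂ) else 0 := by
    intro x y
    by_cases h : adj (f (Sum.inl x)) (f (Sum.inl y))
    · rw [if_pos h, if_pos h]
    · rw [if_neg h, if_neg h]
      exact Matrix.zero_kronecker _
  have h4 : ∀ x y : V₂, (1 : Matrix (V₁ → d) (V₁ → d) ℂ) ⊗ₖ
      (if adj (f (Sum.inr x)) (f (Sum.inr y)) then pairOp c S x y else 0) =
      if adj (f (Sum.inr x)) (f (Sum.inr y)) then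
        (1 : Matrix (V₁ → d) (V₁ → d) ℂ) ⊗ₖ pairOp c S x y else 0 := by
    intro x y
    by_cases h : adj (f (Sum.inr x)) (f (Sum.inr y))
    · rw [if_pos h, if_pos h]
    · rw [if_neg h, if_neg h]
      exact Matrix.kronecker_zero _
  simp only [totOp, Matrix.submatrix_add, Pi.add_apply, Matrix.submatrix_smul, Pi.smul_apply,
    submatrix_sum_eq, h2, Matrix.add_kronecker, Matrix.smul_kronecker, sum_kron,
    Matrix.kronecker_add, Matrix.kronecker_smul, kron_sum, h3, h4]
  simp only [← Equiv.sum_comp f, Fintype.sum_sum_type, pairOp_inl, pairOp_inr, siteOpV_inl,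
    siteOpV_inr, Finset.sum_add_distrib, smul_add]
  abel

/-- Subadditivity of `logZ` when the pair terms are negative. -/
theorem logZ_subadd [Nonempty d] {b c : ℝ} (hb : 0 ≤ b) {S : κ → Matrix d d ℂ}
    (hS : ∀ a, (S a).IsHermitian) {F : Matrix d d ℂ} (hF : F.IsHermitian)
    (adj : V → V → Prop) [DecidableRel adj] (hadj : ∀ x, ¬ adj x x)
    (hneg : ∀ x y : V, x ≠ y → (-pairOp c S x y).PosSemidef) (f : V₁ ⊕ V₂ ≃ V) :
    logZ b c S F adj ≤
    logZ b c S F (fun x y : V₁ => adj (f (Sum.inl x)) (f (Sum.inl y))) +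
      logZ b c S F (fun x y : V₂ => adj (f (Sum.inr x)) (f (Sum.inr y))) := by
  have h1 := totOp_isHermitian b c hS hF (fun x y : V₁ => adj (f (Sum.inl x)) (f (Sum.inl y)))
    (fun x => hadj _)
  have h2 := totOp_isHermitian b c hS hF (fun x y : V₂ => adj (f (Sum.inr x)) (f (Sum.inr y)))
    (fun x => hadj _)
  have h3 := totOp_isHermitian b c hS hF adj hadj
  have key : ((totOp b c S F (fun x y : V₁ => adj (f (Sum.inl x)) (f (Sum.inl y))) ⊗ₖ
          (1 : Matrix (V₂ → d) (V₂ → d) ℂ) +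
        (1 : Matrix (V₁ → d) (V₁ → d) ℂ) ⊗ₖ
          totOp b c S F (fun x y : V₂ => adj (f (Sum.inr x)) (f (Sum.inr y)))) -
      (totOp b c S F adj).submatrix (confEquiv f) (confEquiv f)).PosSemidef := by
    have e := totOp_split_eq b c S F adj f
    rw [← neg_sub, e, ← smul_neg, neg_add, ← Finset.sum_neg_distrib, ← Finset.sum_neg_distrib]
    refine Matrix.PosSemidef.smul ?_ (by simpa using hb)
    refine Matrix.PosSemidef.add ?_ ?_
    · refine Matrix.posSemidef_sum _ fun x _ => ?_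
      rw [← Finset.sum_neg_distrib]
      refine Matrix.posSemidef_sum _ fun y _ => ?_
      split_ifs
      · refine Matrix.PosSemidef.submatrix (hneg _ _ ?_) _
        intro h
        simpa using f.injective h
      · rw [neg_zero]; exact Matrix.PosSemidef.zero
    · refine Matrix.posSemidef_sum _ fun x _ => ?_
      rw [← Finset.sum_neg_distrib]
      refine Matrix.posSemidef_sum _ fun y _ => ?_
      split_ifs
      · refine Matrix.PosSemidef.submatrix (hneg _ _ ?_) _
        intro h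
        simpa using f.injective h
      · rw [neg_zero]; exact Matrix.PosSemidef.zero
  have h := trace_exp_prod_ge (confEquiv f) h1 h2 h3 key
  have p1 := trace_exp_pos h1
  have p2 := trace_exp_pos h2
  have p3 := trace_exp_pos h3
  unfold logZ
  rw [← Real.log_mul p1.ne' p2.ne']
  exact Real.log_le_log p3 h

end

section Lattice

variable {n : ℕ} {Λ : Finset Site}

/-- One-site field term. -/
noncomputable def fld (n : ℕ) (t : ℝ) : Matrix (Fin (n + 1)) (Fin (n + 1)) ℂ :=
  -((t : ℂ) • (((n : ℂ) / 2) • (1 : Matrix (Fin (n + 1)) (Fin (n + 1)) ℂ) - spin n 2))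

theorem fld_isHermitian (n : ℕ) (t : ℝ) : (fld n t).IsHermitian := by
  rw [fld, Matrix.IsHermitian, Matrix.conjTranspose_neg, Matrix.conjTranspose_smul,
    Matrix.conjTranspose_sub, Matrix.conjTranspose_smul, Matrix.conjTranspose_one,
    spin_isHermitian n 2]
  simp

theorem pairOp_eq_dot (x y : Λ) : pairOp (-((n : ℝ) / 2) ^ 2) (spin n) x y =
    -((((n : ℂ) / 2) ^ 2) • (1 : Matrix (Λ → Fin (n + 1)) (Λ → Fin (n + 1)) ℂ) -
      H.dotOp n x y) := by
  unfold pairOp H.dotOp
  simp only [siteOp_eq_siteOpV]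
  push_cast
  module

theorem neg_pairOp_posSemidef {x y : Λ} (hxy : x ≠ y) :
    (-pairOp (-((n : ℝ) / 2) ^ 2) (spin n) x y).PosSemidef := by
  rw [pairOp_eq_dot, neg_neg]
  have h := H.dot_sos (n := n) hxy
  have h2 : (((n : ℂ) / 2) ^ 2) • (1 : Matrix (Λ → Fin (n + 1)) (Λ → Fin (n + 1)) ℂ) -
      H.dotOp n x y = (1 / 2 : ℂ) • ((H.oA n x * H.oB n y - H.oB n x * H.oA n y)ᴴ *
        (H.oA n x * H.oB n y - H.oB n x * H.oA n y)) := by
    rw [h]
    module
  rw [h2]
  exact Matrix.PosSemidef.smul (Matrix.posSemidef_conjTranspose_mul_self _)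
    (by norm_num [Complex.le_def])

theorem totOp_eq_hT (β t : ℝ) : totOp (V := Λ) (β / 2) (-((n : ℝ) / 2) ^ 2) (spin n) (fld n t)
      (fun x y => IsNN x.1 y.1) =
      -((β : ℂ) • hT n Λ + (t : ℂ) • numOp n Λ) := by
  unfold totOp hT numOp fld
  simp only [pairOp_eq_dot]
  have e1 : (∑ x : Λ, ∑ y : Λ, if IsNN x.1 y.1 then
      -((((n : ℂ) / 2) ^ 2) • (1 : Matrix (Λ → Fin (n + 1)) (Λ → Fin (n + 1)) ℂ) -
      H.dotOp n x y) else 0) = -∑ x : Λ, ∑ y : Λ, if IsNN x.1 y.1 then
      ((((n : ℂ) / 2) ^ 2) • (1 : Matrix (Λ → Fin (n + 1)) (Λ → Fin (n + 1)) ℂ) -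
      H.dotOp n x y) else 0 := by
    rw [← Finset.sum_neg_distrib]
    refine Finset.sum_congr rfl fun x _ => ?_
    rw [← Finset.sum_neg_distrib]
    refine Finset.sum_congr rfl fun y _ => ?_
    split_ifs <;> simp
  rw [e1]
  have e2 : ∀ x : Λ, siteOpV x (-((t : ℂ) • (((n : ℂ) / 2) •
      (1 : Matrix (Fin (n + 1)) (Fin (n + 1)) ℂ) - spin n 2))) =
      -((t : ℂ) • (((n : ℂ) / 2) • (1 : Matrix _ _ ℂ) - H.oZ n x)) := by
    intro x
    rw [siteOpV_neg, siteOpV_smul, siteOpV_sub, siteOpV_smul, siteOpV_one,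
      ← siteOp_eq_siteOpV]
    rfl
  simp only [e2, Finset.sum_neg_distrib, ← Finset.smul_sum]
  push_cast
  module

theorem log_Zt_eq (β t : ℝ) : Real.log (Zt n Λ β t) =
    lz (β / 2) (-((n : ℝ) / 2) ^ 2) n (fld n t) Λ := by
  unfold lz logZ Zt
  rw [totOp_eq_hT]

theorem hT_isHermitian : (hT n Λ).IsHermitian := by
  have h := totOp_isHermitian (V := Λ) ((-2 : ℝ) / 2) (-((n : ℝ) / 2) ^ 2) (spin_isHermitian n)
    (fld_isHermitian n 0) (fun x y => IsNN x.1 y.1) (fun x => isNN_irrefl x.1)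
  rw [totOp_eq_hT] at h
  have h2 : hT n Λ = (1 / 2 : ℂ) • (-((((-2 : ℝ) : ℂ)) • hT n Λ + ((0 : ℝ) : ℂ) • numOp n Λ)) := by
    push_cast
    module
  rw [h2, Matrix.IsHermitian, Matrix.conjTranspose_smul, h]
  congr 1
  simp

theorem expo_isHermitian' (β t : ℝ) :
    (-((β : ℂ) • hT n Λ + (t : ℂ) • numOp n Λ)).IsHermitian := by
  rw [← totOp_eq_hT]
  exact totOp_isHermitian (V := Λ) (β / 2) (-((n : ℝ) / 2) ^ 2) (spin_isHermitian n)
    (fld_isHermitian n t) (fun x y => IsNN x.1 y.1) (fun x => isNN_irrefl x.1)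

theorem Zt_pos (β t : ℝ) : 0 < Zt n Λ β t := trace_exp_pos (expo_isHermitian' β t)

theorem hT_posSemidef : (hT n Λ).PosSemidef := by
  unfold hT
  refine Matrix.PosSemidef.smul ?_ (by norm_num [Complex.le_def])
  refine Matrix.posSemidef_sum _ fun x _ => Matrix.posSemidef_sum _ fun y _ => ?_
  split_ifs with h
  · have h2 := neg_pairOp_posSemidef (n := n) (Λ := Λ) (x := x) (y := y) (by
      rintro rfl; exact isNN_irrefl _ h)
    rwa [pairOp_eq_dot, neg_neg] at h2
  · exact Matrix.PosSemidef.zero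

end Lattice

section Ground

variable {n : ℕ} {Λ : Finset Site}

/-- The fully polarized configuration. -/
def e0 (n : ℕ) (Λ : Finset Site) : (Λ → Fin (n + 1)) → ℂ := Pi.single (fun _ => 0) 1

theorem oB_e0 (y : Λ) : H.oB n y *ᵥ e0 n Λ = 0 := by
  ext σ
  rw [e0, Matrix.mulVec_single_one]
  refine (H.siteOp_apply y (H.schwB n) σ (fun _ => 0)).trans ?_
  simp [H.schwB]

theorem oZ_e0 (y : Λ) : H.oZ n y *ᵥ e0 n Λ = ((n : ℂ) / 2) • e0 n Λ := by
  have h : H.oZ n y = ((n : ℂ) / 2) • (1 : Matrix _ _ ℂ) - (H.oB n y)ᴴ * H.oB n y := by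
    rw [siteOp_conjTranspose, H.siteOp_mul, H.schwB_schwB, H.siteOp_sub, H.siteOp_smul,
      H.siteOp_one]
    abel
  rw [h, Matrix.sub_mulVec, ← Matrix.mulVec_mulVec, oB_e0, Matrix.mulVec_zero, sub_zero,
    Matrix.smul_mulVec, Matrix.one_mulVec]

theorem pair_e0 {x y : Λ} (hxy : x ≠ y) :
    ((((n : ℂ) / 2) ^ 2) • (1 : Matrix (Λ → Fin (n + 1)) (Λ → Fin (n + 1)) ℂ) -
      H.dotOp n x y) *ᵥ e0 n Λ = 0 := by
  have h := H.dot_sos (n := n) hxy
  have h2 : (((n : ℂ) / 2) ^ 2) • (1 : Matrix (Λ → Fin (n + 1)) (Λ → Fin (n + 1)) ℂ) -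
      H.dotOp n x y = (1 / 2 : ℂ) • ((H.oA n x * H.oB n y - H.oB n x * H.oA n y)ᴴ *
        (H.oA n x * H.oB n y - H.oB n x * H.oA n y)) := by
    rw [h]
    module
  rw [h2, Matrix.smul_mulVec, ← Matrix.mulVec_mulVec, Matrix.sub_mulVec,
    H.siteOp_comm hxy (H.schwB n) (H.schwA n), ← Matrix.mulVec_mulVec, ← Matrix.mulVec_mulVec,
    oB_e0, oB_e0]
  simp

theorem hT_e0 : hT n Λ *ᵥ e0 n Λ = 0 := by
  unfold hT
  rw [Matrix.smul_mulVec, Matrix.sum_mulVec]
  rw [Finset.sum_eq_zero, smul_zero]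
  intro x _
  rw [Matrix.sum_mulVec]
  refine Finset.sum_eq_zero fun y _ => ?_
  split_ifs with h
  · exact pair_e0 (by rintro rfl; exact isNN_irrefl _ h)
  · exact Matrix.zero_mulVec _

theorem numOp_e0 : numOp n Λ *ᵥ e0 n Λ = 0 := by
  unfold numOp
  rw [Matrix.sum_mulVec]
  refine Finset.sum_eq_zero fun x _ => ?_
  rw [Matrix.sub_mulVec, oZ_e0, Matrix.smul_mulVec, Matrix.one_mulVec, sub_self]

theorem one_le_Zt (β t : ℝ) : 1 ≤ Zt n Λ β t := by
  have h0 : (-((β : ℂ) • hT n Λ + (t : ℂ) • numOp n Λ)) *ᵥ e0 n Λ = 0 := by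
    rw [Matrix.neg_mulVec, Matrix.add_mulVec, Matrix.smul_mulVec, Matrix.smul_mulVec, hT_e0,
      numOp_e0]
    simp
  have hH := expo_isHermitian' (n := n) (Λ := Λ) β t
  unfold Zt
  generalize -((β : ℂ) • hT n Λ + (t : ℂ) • numOp n Λ) = X at h0 hH ⊢
  have h := peierls hH (V := 1) (by simp)
  refine le_trans ?_ h
  rw [star_one, Matrix.one_mul, Matrix.mul_one]
  have h1 : X (fun _ => 0) (fun _ => 0) = 0 := by
    have := congrFun h0 (fun _ => 0)
    rw [e0, Matrix.mulVec_single_one] at this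
    exact this
  have h2 : Real.exp ((X (fun _ => 0) (fun _ => 0)).re) ≤ ∑ i, Real.exp ((X i i).re) :=
    Finset.single_le_sum (f := fun i => Real.exp ((X i i).re))
      (fun _ _ => (Real.exp_pos _).le) (Finset.mem_univ _)
  refine le_trans ?_ h2
  rw [h1]
  simp

theorem numOp_posSemidef : (numOp n Λ).PosSemidef := by
  unfold numOp
  refine Matrix.posSemidef_sum _ fun x _ => ?_
  have h : ((n : ℂ) / 2) • (1 : Matrix (Λ → Fin (n + 1)) (Λ → Fin (n + 1)) ℂ) - H.oZ n x =
      (H.oB n x)ᴴ * H.oB n x := by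
    rw [siteOp_conjTranspose, H.siteOp_mul, H.schwB_schwB, H.siteOp_sub, H.siteOp_smul,
      H.siteOp_one]
  rw [h]
  exact Matrix.posSemidef_conjTranspose_mul_self _

theorem Zt_le_card {β t : ℝ} (hβ : 0 ≤ β) (ht : 0 ≤ t) :
    Zt n Λ β t ≤ ((n : ℝ) + 1) ^ Λ.card := by
  have h := trace_exp_mono (expo_isHermitian' (n := n) (Λ := Λ) β t)
    (Y := (0 : Matrix (Λ → Fin (n + 1)) (Λ → Fin (n + 1)) ℂ)) Matrix.isHermitian_zero (by
      rw [zero_sub, neg_neg]
      exact (hT_posSemidef.smul (by simpa using hβ)).add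
        (numOp_posSemidef.smul (by simpa using ht)))
  refine le_trans h (le_of_eq ?_)
  rw [NormedSpace.exp_zero, Matrix.trace_one, Complex.natCast_re]
  simp

/-- Monotonicity in both parameters. -/
theorem Zt_anti {β β' t t' : ℝ} (hβ : β ≤ β') (ht : t ≤ t') :
    Zt n Λ β' t' ≤ Zt n Λ β t := by
  refine trace_exp_mono (expo_isHermitian' (n := n) (Λ := Λ) β' t')
    (expo_isHermitian' (n := n) (Λ := Λ) β t) ?_
  have e : -((β : ℂ) • hT n Λ + (t : ℂ) • numOp n Λ) - -((β' : ℂ) • hT n Λ + (t' : ℂ) • numOp n Λ)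
      = ((β' - β : ℝ) : ℂ) • hT n Λ + ((t' - t : ℝ) : ℂ) • numOp n Λ := by
    push_cast
    module
  rw [e]
  exact (hT_posSemidef.smul (by rw [Complex.zero_le_real]; linarith)).add
    (numOp_posSemidef.smul (by rw [Complex.zero_le_real]; linarith))

end Ground

section SetFunction

variable {n : ℕ} {β t : ℝ}

theorem log_Zt_nonneg (Λ : Finset Site) : 0 ≤ Real.log (Zt n Λ β t) :=
  Real.log_nonneg (one_le_Zt β t)

theorem log_Zt_le (hβ : 0 ≤ β) (ht : 0 ≤ t) (Λ : Finset Site) :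
    Real.log (Zt n Λ β t) ≤ Real.log ((n : ℝ) + 1) * Λ.card := by
  have h := Real.log_le_log (Zt_pos β t) (Zt_le_card (n := n) (Λ := Λ) hβ ht)
  rwa [Real.log_pow, mul_comm] at h

theorem log_Zt_subadd (hβ : 0 ≤ β) (Λ₁ Λ₂ : Finset Site) (h : Disjoint Λ₁ Λ₂) :
    Real.log (Zt n (Λ₁ ∪ Λ₂) β t) ≤ Real.log (Zt n Λ₁ β t) + Real.log (Zt n Λ₂ β t) := by
  simp only [log_Zt_eq]
  unfold lz
  exact logZ_subadd (V := (Λ₁ ∪ Λ₂ : Finset Site)) (by positivity) (spin_isHermitian n)
    (fld_isHermitian n t) (fun x y : (Λ₁ ∪ Λ₂ : Finset Site) => IsNN x.1 y.1)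
    (fun x => isNN_irrefl x.1) (fun x y hxy => neg_pairOp_posSemidef hxy)
    (Equiv.Finset.union Λ₁ Λ₂ h)

theorem log_Zt_translate (v : Site) (Λ : Finset Site) :
    Real.log (Zt n (Λ.map (addRightEmbedding v)) β t) = Real.log (Zt n Λ β t) := by
  simp only [log_Zt_eq]
  exact lz_translate v Λ

/-- Superadditive companion of `log Zt`. -/
noncomputable def gset (n : ℕ) (β t : ℝ) (Λ : Finset Site) : ℝ :=
  Real.log ((n : ℝ) + 1) * Λ.card - Real.log (Zt n Λ β t)

theorem gset_superadd (hβ : 0 ≤ β) (Λ₁ Λ₂ : Finset Site) (h : Disjoint Λ₁ Λ₂) :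
    gset n β t Λ₁ + gset n β t Λ₂ ≤ gset n β t (Λ₁ ∪ Λ₂) := by
  unfold gset
  rw [Finset.card_union_of_disjoint h]
  push_cast
  linarith [log_Zt_subadd (n := n) (t := t) hβ Λ₁ Λ₂ h]

theorem gset_translate (v : Site) (Λ : Finset Site) :
    gset n β t (Λ.map (addRightEmbedding v)) = gset n β t Λ := by
  unfold gset
  rw [log_Zt_translate, Finset.card_map]

theorem gset_nonneg (hβ : 0 ≤ β) (ht : 0 ≤ t) (Λ : Finset Site) : 0 ≤ gset n β t Λ := by
  unfold gset
  linarith [log_Zt_le (n := n) hβ ht Λ]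

theorem cube_eq (L : ℕ) : cube L = P361.cube L := rfl

/-- (D3) -/
theorem log_Zt_cube_mul (hβ : 0 ≤ β) (ht : 0 ≤ t) (q L : ℕ) (hL : 0 < L) :
    Real.log (Zt n (cube (q * L)) β t) ≤ (q : ℝ) ^ 3 * Real.log (Zt n (cube L) β t) := by
  have h := G_cube_mul (G := gset n β t) (gset_superadd hβ) gset_translate
    (gset_nonneg hβ ht) L q (q * L) hL le_rfl
  unfold gset at h
  rw [card_cube, card_cube] at h
  rw [cube_eq, cube_eq]
  push_cast at h
  nlinarith

/-- Existence of the limit along boxes. -/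
theorem log_Zt_box_le (hβ : 0 ≤ β) (ht : 0 ≤ t) {a : ℝ} (L : ℕ) (hL : 0 < L)
    (ha : Tendsto (fun N : ℕ => Real.log (Zt n (box N) β t) / ((box N).card : ℝ)) atTop (𝓝 a)) :
    a ≤ Real.log (Zt n (cube L) β t) / (L : ℝ) ^ 3 := by
  have hLR : (0 : ℝ) < L := by exact_mod_cast hL
  -- lower bound for the superadditive function along boxes
  have h1 : ∀ N : ℕ, ((((2 * N + 1) / L : ℕ) : ℝ) / ((2 * N + 1 : ℕ) : ℝ)) ^ 3 *
      gset n β t (cube L) ≤ gset n β t (box N) / ((box N).card : ℝ) := by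
    intro N
    have h := G_cube_mul (G := gset n β t) (gset_superadd hβ) gset_translate
      (gset_nonneg hβ ht) L ((2 * N + 1) / L) (2 * N + 1) hL (Nat.div_mul_le_self _ _)
    rw [box_eq_map, gset_translate, Finset.card_map, card_cube]
    have hpos : (0 : ℝ) < ((2 * N + 1 : ℕ) : ℝ) := by positivity
    rw [Nat.cast_pow, le_div_iff₀ (by positivity), div_pow]
    rw [cube_eq]
    calc _ = (((2 * N + 1) / L : ℕ) : ℝ) ^ 3 * gset n β t (P361.cube L) := by
          field_simp
      _ ≤ _ := h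
  have h2 : Tendsto (fun N : ℕ => ((((2 * N + 1) / L : ℕ) : ℝ) / ((2 * N + 1 : ℕ) : ℝ)) ^ 3 *
      gset n β t (cube L)) atTop (𝓝 ((1 / (L : ℝ)) ^ 3 * gset n β t (cube L))) := by
    refine Tendsto.mul_const _ (Tendsto.pow ?_ 3)
    have h3 := (tendsto_nat_floor_mul_div_atTop (R := ℝ) (a := 1 / (L : ℝ))
      (by positivity)).comp tendsto_natCast_atTop_atTop
    have h4 : Tendsto (fun N : ℕ => 2 * N + 1) atTop atTop := by
      refine tendsto_atTop_mono (fun n => ?_) tendsto_id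
      simp only [id]; omega
    refine (h3.comp h4).congr fun N => ?_
    simp only [Function.comp]
    congr 2
    rw [one_div, inv_mul_eq_div, Nat.floor_div_eq_div]
  have h5 : Tendsto (fun N : ℕ => gset n β t (box N) / ((box N).card : ℝ)) atTop
      (𝓝 (Real.log ((n : ℝ) + 1) - a)) := by
    refine (tendsto_const_nhds.sub ha).congr fun N => ?_
    have hpos : (0 : ℝ) < (box N).card := by exact_mod_cast (box_nonempty N).card_pos
    unfold gset
    field_simp
  have h6 := le_of_tendsto_of_tendsto' h2 h5 h1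
  unfold gset at h6
  rw [cube_eq, card_cube] at h6
  rw [cube_eq]
  push_cast at h6
  have h7 : (1 / (L : ℝ)) ^ 3 * (Real.log ((n : ℝ) + 1) * (L : ℝ) ^ 3 -
      Real.log (Zt n (P361.cube L) β t)) = Real.log ((n : ℝ) + 1) -
      Real.log (Zt n (P361.cube L) β t) / (L : ℝ) ^ 3 := by
    field_simp
  linarith

end SetFunction

section Pressure

variable {n : ℕ}

theorem nn_count_eq (Λ : Finset Site) (x : Site) :
    (∑ y ∈ Λ, if IsNN x y then (1 : ℝ) else 0) =
      ((Finset.univ.filter fun p : Fin 3 × Bool => x + H.dir p ∈ Λ).card : ℝ) := by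
  rw [← Finset.sum_filter, Finset.sum_const, nsmul_eq_mul, mul_one]
  congr 1
  symm
  refine Finset.card_bij (fun p _ => x + H.dir p) ?_ ?_ ?_
  · intro p hp
    rw [Finset.mem_filter] at hp ⊢
    exact ⟨hp.2, (H.isNN_iff _ _).2 ⟨p, rfl⟩⟩
  · intro p _ q _ h
    exact H.dir_injective (by simpa using h)
  · intro y hy
    rw [Finset.mem_filter] at hy
    obtain ⟨p, rfl⟩ := (H.isNN_iff _ _).1 hy.2
    exact ⟨p, by rw [Finset.mem_filter]; exact ⟨Finset.mem_univ _, hy.1⟩, rfl⟩

theorem edgeCount_le_six (Λ : Finset Site) : edgeCount Λ ≤ 6 * Λ.card := by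
  rw [edgeCount_eq]
  calc ∑ x ∈ Λ, ∑ y ∈ Λ, (if IsNN x y then (1 : ℝ) else 0) ≤ ∑ _x ∈ Λ, (6 : ℝ) := by
        refine Finset.sum_le_sum fun x _ => ?_
        rw [nn_count_eq]
        have : (Finset.univ.filter fun p : Fin 3 × Bool => x + H.dir p ∈ Λ).card ≤ 6 :=
          (Finset.card_filter_le _ _).trans (by simp)
        exact_mod_cast this
    _ = 6 * Λ.card := by
        rw [Finset.sum_const, nsmul_eq_mul]; ring

theorem dir_abs_le : ∀ (p : Fin 3 × Bool) (i : Fin 3), |H.dir p i| ≤ 1 := by decide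

theorem edgeCount_box_ge (N : ℕ) : 6 * ((2 * (N : ℝ) + 1) ^ 3) ≤ edgeCount (box (N + 1)) := by
  rw [edgeCount_eq]
  have hsub : box N ⊆ box (N + 1) := by
    intro x hx
    rw [H.mem_box] at hx ⊢
    intro i
    have := hx i
    push_cast
    constructor <;> linarith
  calc 6 * ((2 * (N : ℝ) + 1) ^ 3) = ∑ _x ∈ box N, (6 : ℝ) := by
        rw [Finset.sum_const, nsmul_eq_mul, card_box]; push_cast; ring
    _ ≤ ∑ x ∈ box N, ∑ y ∈ box (N + 1), (if IsNN x y then (1 : ℝ) else 0) := by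
        refine Finset.sum_le_sum fun x hx => ?_
        rw [nn_count_eq, Finset.filter_true_of_mem]
        · simp
        · intro p _
          rw [H.mem_box] at hx ⊢
          intro i
          have h1 := hx i
          have h2 : |H.dir p i| ≤ 1 := dir_abs_le p i
          have h3 := abs_le.1 h2
          simp only [Pi.add_apply]
          push_cast
          constructor <;> linarith
    _ ≤ ∑ x ∈ box (N + 1), ∑ y ∈ box (N + 1), (if IsNN x y then (1 : ℝ) else 0) := by
        refine Finset.sum_le_sum_of_subset_of_nonneg hsub fun _ _ _ => ?_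
        exact Finset.sum_nonneg fun _ _ => by split_ifs <;> norm_num

theorem edge_density : Tendsto (fun N : ℕ => edgeCount (box N) / ((box N).card : ℝ)) atTop
    (𝓝 6) := by
  rw [← tendsto_add_atTop_iff_nat 1]
  have h1 : Tendsto (fun N : ℕ => 6 * ((2 * (N : ℝ) + 1) / (2 * ((N : ℝ) + 1) + 1)) ^ 3) atTop
      (𝓝 (6 * 1 ^ 3)) := by
    refine Tendsto.const_mul _ (Tendsto.pow ?_ 3)
    have h2 : Tendsto (fun N : ℕ => 1 - 2 / (2 * ((N : ℝ) + 1) + 1)) atTop (𝓝 (1 - 0)) := by
      refine tendsto_const_nhds.sub (Tendsto.div_atTop tendsto_const_nhds ?_)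
      refine tendsto_atTop_mono (f := fun N : ℕ => (N : ℝ)) (fun N => ?_)
        tendsto_natCast_atTop_atTop
      have : (0 : ℝ) ≤ N := Nat.cast_nonneg N
      linarith
    rw [sub_zero] at h2
    refine h2.congr fun N => ?_
    have : (0 : ℝ) ≤ N := Nat.cast_nonneg N
    field_simp
    ring
  rw [one_pow, mul_one] at h1
  refine tendsto_of_tendsto_of_tendsto_of_le_of_le h1 tendsto_const_nhds (fun N => ?_)
    (fun N => ?_)
  · have h3 := edgeCount_box_ge N
    simp only
    rw [card_box, le_div_iff₀ (by positivity), div_pow]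
    push_cast
    refine le_trans (le_of_eq ?_) h3
    have : (0 : ℝ) ≤ N := Nat.cast_nonneg N
    field_simp
  · have h3 := edgeCount_le_six (box (N + 1))
    have hpos : (0 : ℝ) < (box (N + 1)).card := by exact_mod_cast (box_nonempty (N + 1)).card_pos
    simp only
    rw [div_le_iff₀ hpos]
    exact h3

/-- The reduced pressure `β (p_β(h) - 3S² - S h)`. -/
noncomputable def gRed (n : ℕ) (β h : ℝ) : ℝ :=
  β * (pressure n β h - 3 * ((n : ℝ) / 2) ^ 2 - (n : ℝ) / 2 * h)

theorem finPressure_Zt (Λ : Finset Site) (β h : ℝ) :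
    finPressure n Λ β h = (β * Λ.card)⁻¹ * (Real.log (Zt n Λ β (β * h)) +
      (β / 2) * ((n : ℝ) / 2) ^ 2 * edgeCount Λ + β * h * ((n : ℝ) / 2) * Λ.card) := by
  rw [finPressure_eq n Λ β h (-((n : ℝ) / 2) ^ 2) (-(β * h * ((n : ℝ) / 2))), log_Zt_eq]
  have e : (((-(β * h * ((n : ℝ) / 2)) : ℝ) : ℂ) •
      (1 : Matrix (Fin (n + 1)) (Fin (n + 1)) ℂ) + ((β * h : ℝ) : ℂ) • spin n 2) =
      fld n (β * h) := by
    unfold fld
    push_cast
    module
  rw [e]
  ring

/-- `β (p - 3S² - S h)` is the limit of `|Λ|⁻¹ log Zt`. -/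
theorem gRed_tendsto {β : ℝ} (hβ : 0 < β) (h : ℝ) :
    Tendsto (fun N : ℕ => Real.log (Zt n (box N) β (β * h)) / ((box N).card : ℝ)) atTop
      (𝓝 (gRed n β h)) := by
  have h1 := ((pressure_tendsto n hβ h).const_mul β)
  have h2 := (edge_density.const_mul (β / 2 * ((n : ℝ) / 2) ^ 2))
  have h3 := (h1.sub h2).sub_const (β * ((n : ℝ) / 2) * h)
  have e : β * pressure n β h - β / 2 * ((n : ℝ) / 2) ^ 2 * 6 - β * ((n : ℝ) / 2) * h =
      gRed n β h := by
    unfold gRed; ring
  rw [e] at h3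
  refine h3.congr fun N => ?_
  have hpos : (0 : ℝ) < (box N).card := by exact_mod_cast (box_nonempty N).card_pos
  rw [finPressure_Zt]
  field_simp
  ring

/-- (D1) -/
theorem gRed_le {β h : ℝ} (hβ : 0 < β) (hh : 0 ≤ h) {L : ℕ} (hL : 0 < L) :
    gRed n β h ≤ Real.log (Zt n (cube L) β (β * h)) / (L : ℝ) ^ 3 :=
  log_Zt_box_le hβ.le (by positivity) L hL (gRed_tendsto hβ h)

theorem gRed_nonneg {β : ℝ} (hβ : 0 < β) (h : ℝ) : 0 ≤ gRed n β h := by
  refine ge_of_tendsto' (gRed_tendsto (n := n) hβ h) fun N => ?_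
  exact div_nonneg (log_Zt_nonneg _) (by positivity)

end Pressure

end Vale.Agent.P361.B
end

section

/-!
Part B, step D7: sharp lower bound on the reduced pressure, uniformly in the field.
-/

namespace Vale.Agent.P361.B

open MeasureTheory Filter Topology

/-- Gaussian tail. -/
theorem gauss_tail {A : ℝ} (hA : 0 < A) :
    ∫ u in Set.Ioi A, Real.exp (-(1 / 2) * u ^ 2) ≤ Real.exp (-(1 / 2) * A ^ 2) / A := by
  have hi1 : IntegrableOn (fun u : ℝ => Real.exp (-(1 / 2) * u ^ 2)) (Set.Ioi A) :=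
    (integrable_exp_neg_mul_sq (by norm_num)).integrableOn
  have hi2 : IntegrableOn (fun u : ℝ => u * Real.exp (-(1 / 2) * u ^ 2)) (Set.Ioi A) :=
    (integrable_mul_exp_neg_mul_sq (by norm_num)).integrableOn
  have h1 : ∫ u in Set.Ioi A, u * Real.exp (-(1 / 2) * u ^ 2) = Real.exp (-(1 / 2) * A ^ 2) := by
    have hd : ∀ x ∈ Set.Ici A, HasDerivAt (fun u : ℝ => -Real.exp (-(1 / 2) * u ^ 2))
        (x * Real.exp (-(1 / 2) * x ^ 2)) x := by
      intro x _
      have h := (((hasDerivAt_pow 2 x).const_mul (-(1 / 2 : ℝ))).exp).fun_neg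
      refine h.congr_deriv ?_
      push_cast
      ring
    have ht : Tendsto (fun u : ℝ => -Real.exp (-(1 / 2) * u ^ 2)) atTop (𝓝 (-0)) := by
      refine Tendsto.neg (Real.tendsto_exp_atBot.comp ?_)
      refine Tendsto.const_mul_atTop_of_neg (by norm_num) (tendsto_pow_atTop (by norm_num))
    rw [integral_Ioi_of_hasDerivAt_of_tendsto' hd hi2 ht]
    ring
  have h2 : ∫ u in Set.Ioi A, Real.exp (-(1 / 2) * u ^ 2) ≤
      ∫ u in Set.Ioi A, A⁻¹ * (u * Real.exp (-(1 / 2) * u ^ 2)) := by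
    refine setIntegral_mono_on hi1 (hi2.const_mul _) measurableSet_Ioi fun u hu => ?_
    rw [← mul_assoc]
    refine le_mul_of_one_le_left (Real.exp_pos _).le ?_
    rw [inv_mul_eq_div, one_le_div hA]
    exact (Set.mem_Ioi.1 hu).le
  rw [integral_const_mul, h1] at h2
  rw [div_eq_inv_mul (Real.exp _) A]
  exact h2

/-- Quantitative lower bound for the Bessel factor. -/
theorem bJ_lower {x : ℝ} (hx : 0 < x) :
    (Real.sqrt (2 * Real.pi))⁻¹ * (1 - 1 / x) ≤ Real.sqrt x * H.bJ x := by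
  have hpi := Real.pi_pos
  have hs : 0 < Real.sqrt x := Real.sqrt_pos.2 hx
  refine le_trans ?_ (H.bJ_gauss_lower hx)
  set A := Real.pi * Real.sqrt x with hA
  have hA0 : 0 < A := by positivity
  have hint : IntegrableOn (fun u : ℝ => Real.exp (-(1 / 2) * u ^ 2)) (Set.Ioi 0) :=
    (integrable_exp_neg_mul_sq (by norm_num)).integrableOn
  have h1 : ∫ u in (0 : ℝ)..A, Real.exp (-(1 / 2) * u ^ 2) =
      Real.sqrt (Real.pi / (1 / 2)) / 2 - ∫ u in Set.Ioi A, Real.exp (-(1 / 2) * u ^ 2) := by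
    rw [← integral_gaussian_Ioi]
    rw [intervalIntegral.integral_of_le hA0.le, eq_sub_iff_add_eq,
      ← setIntegral_union Set.Ioc_disjoint_Ioi_same measurableSet_Ioi
        (hint.mono_set Set.Ioc_subset_Ioi_self)
        (hint.mono_set (Set.Ioi_subset_Ioi hA0.le)), Set.Ioc_union_Ioi_eq_Ioi hA0.le]
  rw [h1]
  have h2 := gauss_tail hA0
  have e : Real.pi⁻¹ * (Real.sqrt (Real.pi / (1 / 2)) / 2) = (Real.sqrt (2 * Real.pi))⁻¹ := by
    have h4 : Real.sqrt (2 * Real.pi) ^ 2 = 2 * Real.pi := Real.sq_sqrt (by positivity)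
    have h5 : 0 < Real.sqrt (2 * Real.pi) := Real.sqrt_pos.2 (by positivity)
    rw [show Real.pi / (1 / 2) = 2 * Real.pi by ring]
    generalize Real.sqrt (2 * Real.pi) = s at h4 h5
    have h6 : Real.pi = s ^ 2 / 2 := by linarith
    rw [h6]
    field_simp
  rw [mul_sub (Real.pi⁻¹), e, mul_sub, mul_one]
  have h3 : Real.pi⁻¹ * ∫ u in Set.Ioi A, Real.exp (-(1 / 2) * u ^ 2) ≤
      (Real.sqrt (2 * Real.pi))⁻¹ * (1 / x) := by
    refine (mul_le_mul_of_nonneg_left h2 (by positivity)).trans ?_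
    have h6 : Real.exp (-(1 / 2) * A ^ 2) ≤ 1 / (1 + 4 * x) := by
      have h7 : (1 / 2) * A ^ 2 = Real.pi ^ 2 * x / 2 := by
        rw [hA, mul_pow, Real.sq_sqrt hx.le]; ring
      have h8 : 9 ≤ Real.pi ^ 2 := by
        calc (9 : ℝ) = 3 ^ 2 := by norm_num
          _ ≤ _ := pow_le_pow_left₀ (by norm_num) Real.pi_gt_three.le 2
      have h9 : 1 + 4 * x ≤ Real.exp ((1 / 2) * A ^ 2) := by
        have := Real.add_one_le_exp ((1 / 2) * A ^ 2)
        rw [h7] at this ⊢
        have h8x := mul_le_mul_of_nonneg_right h8 hx.le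
        linarith only [h8x, this, hx]
      rw [show -(1 / 2 : ℝ) * A ^ 2 = -((1 / 2) * A ^ 2) by ring, Real.exp_neg, ← one_div]
      exact one_div_le_one_div_of_le (by positivity) h9
    have h10 : Real.pi⁻¹ * (Real.exp (-(1 / 2) * A ^ 2) / A) ≤
        Real.pi⁻¹ * ((1 / (1 + 4 * x)) / A) :=
      mul_le_mul_of_nonneg_left (div_le_div_of_nonneg_right h6 hA0.le) (by positivity)
    refine h10.trans ?_
    have hsq : Real.sqrt (2 * Real.pi) ≤ 3 := by
      rw [show (3 : ℝ) = Real.sqrt 9 by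
        rw [show (9 : ℝ) = 3 ^ 2 by norm_num, Real.sqrt_sq (by norm_num)]]
      exact Real.sqrt_le_sqrt (by linarith only [Real.pi_lt_four])
    have hsq0 : 0 < Real.sqrt (2 * Real.pi) := Real.sqrt_pos.2 (by positivity)
    have h11 : (3 : ℝ)⁻¹ * (1 / x) ≤ (Real.sqrt (2 * Real.pi))⁻¹ * (1 / x) :=
      mul_le_mul_of_nonneg_right (inv_anti₀ hsq0 hsq) (by positivity)
    refine le_trans ?_ h11
    have h12 : Real.pi⁻¹ * ((1 / (1 + 4 * x)) / A) = 1 / (Real.pi ^ 2 * (1 + 4 * x) *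
        Real.sqrt x) := by
      rw [hA]; field_simp
    rw [h12]
    have h13 : (3 : ℝ)⁻¹ * (1 / x) = 1 / (3 * x) := by field_simp
    rw [h13]
    refine one_div_le_one_div_of_le (by positivity) ?_
    have hx2 : Real.sqrt x ^ 2 = x := Real.sq_sqrt hx.le
    have h8 : 9 ≤ Real.pi ^ 2 := by
      calc (9 : ℝ) = 3 ^ 2 := by norm_num
        _ ≤ _ := pow_le_pow_left₀ (by norm_num) Real.pi_gt_three.le 2
    have h14 : 3 * x ≤ 9 * ((1 + 4 * x) * Real.sqrt x) := by
      have h15 : 3 * Real.sqrt x ≤ 9 * (1 + 4 * x) := by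
        have h := sq_nonneg (Real.sqrt x - 1)
        have e15 : (Real.sqrt x - 1) ^ 2 = Real.sqrt x ^ 2 - 2 * Real.sqrt x + 1 := by ring
        rw [e15, hx2] at h
        linarith only [h, hx]
      calc 3 * x = 3 * Real.sqrt x * Real.sqrt x := by rw [mul_assoc, Real.mul_self_sqrt hx.le]
        _ ≤ 9 * (1 + 4 * x) * Real.sqrt x :=
          mul_le_mul_of_nonneg_right h15 (Real.sqrt_nonneg x)
        _ = _ := by ring
    have h16 : 9 * ((1 + 4 * x) * Real.sqrt x) ≤ Real.pi ^ 2 * ((1 + 4 * x) * Real.sqrt x) :=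
      mul_le_mul_of_nonneg_right h8 (by positivity)
    calc 3 * x ≤ 9 * ((1 + 4 * x) * Real.sqrt x) := h14
      _ ≤ Real.pi ^ 2 * ((1 + 4 * x) * Real.sqrt x) := h16
      _ = _ := by ring
  linarith

/-- Partial sums of `(4πS)^{-3/2} Li_{3/2}(e^{-t})`. -/
noncomputable def fR (S : ℝ) (R : ℕ) (t : ℝ) : ℝ :=
  (Real.sqrt (4 * Real.pi * S) ^ 3)⁻¹ *
    ∑ r ∈ Finset.range R, Real.exp (-(((r : ℝ) + 1) * t)) / Real.sqrt ((r : ℝ) + 1) ^ 3

/-- Partial sums of `(4πS)^{-3/2} Li_{5/2}(e^{-t})`. -/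
noncomputable def FR (S : ℝ) (R : ℕ) (t : ℝ) : ℝ :=
  (Real.sqrt (4 * Real.pi * S) ^ 3)⁻¹ *
    ∑ r ∈ Finset.range R, Real.exp (-(((r : ℝ) + 1) * t)) /
      (((r : ℝ) + 1) * Real.sqrt ((r : ℝ) + 1) ^ 3)

theorem fR_nonneg (S : ℝ) (R : ℕ) (t : ℝ) : 0 ≤ fR S R t := by
  unfold fR
  refine mul_nonneg (by positivity) (Finset.sum_nonneg fun r _ => ?_)
  positivity

/-- The limiting coefficient at zero field. -/
noncomputable def aS (S : ℝ) : ℝ :=
  (Real.sqrt (4 * Real.pi * S) ^ 3)⁻¹ * (riemannZeta (3 / 2)).re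

theorem fR_le (S : ℝ) (R : ℕ) {t : ℝ} (ht : 0 ≤ t) : fR S R t ≤ aS S := by
  unfold fR aS
  refine mul_le_mul_of_nonneg_left ?_ (by positivity)
  refine le_trans ?_ (sum_le_hasSum (Finset.range R) (fun r _ => by positivity) H.zeta_hasSum)
  refine Finset.sum_le_sum fun r _ => ?_
  refine div_le_div_of_nonneg_right ?_ (by positivity)
  rw [Real.exp_le_one_iff]
  have : 0 ≤ ((r : ℝ) + 1) * t := by positivity
  linarith

theorem aS_nonneg (S : ℝ) : 0 ≤ aS S := (fR_nonneg S 0 0).trans (fR_le S 0 le_rfl)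

theorem hasDerivAt_FR (S : ℝ) (R : ℕ) (t : ℝ) : HasDerivAt (FR S R) (-fR S R t) t := by
  have h1 : ∀ r ∈ Finset.range R, HasDerivAt (fun t : ℝ => Real.exp (-(((r : ℝ) + 1) * t)) /
      (((r : ℝ) + 1) * Real.sqrt ((r : ℝ) + 1) ^ 3))
      (-(Real.exp (-(((r : ℝ) + 1) * t)) / Real.sqrt ((r : ℝ) + 1) ^ 3)) t := by
    intro r _
    have h2 : HasDerivAt (fun t : ℝ => -(((r : ℝ) + 1) * t)) (-((r : ℝ) + 1)) t := by
      have := ((hasDerivAt_id' t).const_mul ((r : ℝ) + 1)).fun_neg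
      refine this.congr_deriv ?_
      ring
    have h3 := h2.exp.div_const (((r : ℝ) + 1) * Real.sqrt ((r : ℝ) + 1) ^ 3)
    refine h3.congr_deriv ?_
    have h4 : 0 < Real.sqrt ((r : ℝ) + 1) := Real.sqrt_pos.2 (by positivity)
    field_simp
  have h5 := (HasDerivAt.fun_sum h1).const_mul ((Real.sqrt (4 * Real.pi * S) ^ 3)⁻¹)
  refine h5.congr_deriv ?_
  rw [fR, Finset.sum_neg_distrib, mul_neg]

theorem FR_tendsto_zero (S : ℝ) (R : ℕ) : Tendsto (FR S R) atTop (𝓝 0) := by
  unfold FR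
  have h1 : Tendsto (fun t : ℝ => ∑ r ∈ Finset.range R, Real.exp (-(((r : ℝ) + 1) * t)) /
      (((r : ℝ) + 1) * Real.sqrt ((r : ℝ) + 1) ^ 3)) atTop (𝓝 (∑ _r ∈ Finset.range R, 0)) := by
    refine tendsto_finsetSum _ fun r _ => ?_
    have h2 : Tendsto (fun t : ℝ => Real.exp (-(((r : ℝ) + 1) * t))) atTop (𝓝 0) := by
      refine Real.tendsto_exp_neg_atTop_nhds_zero.comp ?_
      exact Tendsto.const_mul_atTop (by positivity) tendsto_id
    simpa using h2.div_const (((r : ℝ) + 1) * Real.sqrt ((r : ℝ) + 1) ^ 3)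
  simpa using h1.const_mul ((Real.sqrt (4 * Real.pi * S) ^ 3)⁻¹)

/-- The Bernoulli type inequality used for the self-consistent bound. -/
theorem bernoulli_aux {u : ℝ} (hu : 0 ≤ u) : 1 - 5 / 2 * (1 - u ^ 2) ≤ u ^ 5 := by
  have h : 2 * u ^ 5 - 5 * u ^ 2 + 3 = (1 - u) ^ 2 * (2 * u ^ 3 + 4 * u ^ 2 + 6 * u + 3) := by ring
  have h2 : 0 ≤ (1 - u) ^ 2 * (2 * u ^ 3 + 4 * u ^ 2 + 6 * u + 3) := by positivity
  nlinarith

/-- One term of the series bound. -/
theorem bJ_term {S β m : ℝ} (hS : 0 < S) (hβ : 0 < β) (hm : 0 < m) (hmS : m ≤ S)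
    (hy : 1 ≤ 2 * S * β) (r : ℕ) :
    (1 - 1 / (2 * S * β)) ^ 3 * (Real.sqrt (m / S) ^ 3 * ((Real.sqrt (4 * Real.pi * S) ^ 3)⁻¹ *
      ((Real.sqrt β ^ 3)⁻¹ * (Real.sqrt ((r : ℝ) + 1) ^ 3)⁻¹))) ≤
      (H.bJ (((r : ℝ) + 1) * (β * (2 * S ^ 2)) / m)) ^ 3 := by
  have hpi := Real.pi_pos
  set x := ((r : ℝ) + 1) * (β * (2 * S ^ 2)) / m with hx
  have hx0 : 0 < x := by positivity
  have hxy : 2 * S * β ≤ x := by
    rw [hx, le_div_iff₀ hm]
    have h1 : 2 * S * β * m ≤ 2 * S * β * S := mul_le_mul_of_nonneg_left hmS (by positivity)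
    have h2 : 2 * S * β * S ≤ ((r : ℝ) + 1) * (β * (2 * S ^ 2)) := by
      have : (1 : ℝ) ≤ (r : ℝ) + 1 := by linarith [Nat.cast_nonneg (α := ℝ) r]
      calc 2 * S * β * S = 1 * (β * (2 * S ^ 2)) := by ring
        _ ≤ _ := mul_le_mul_of_nonneg_right this (by positivity)
    linarith
  have hb := bJ_lower hx0
  have hsx : 0 < Real.sqrt x := Real.sqrt_pos.2 hx0
  have h3 : (Real.sqrt (2 * Real.pi))⁻¹ * (1 - 1 / (2 * S * β)) ≤ Real.sqrt x * H.bJ x := by
    refine le_trans ?_ hb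
    refine mul_le_mul_of_nonneg_left ?_ (by positivity)
    have : 1 / x ≤ 1 / (2 * S * β) := one_div_le_one_div_of_le (by positivity) hxy
    linarith
  have h4 : (Real.sqrt x)⁻¹ * ((Real.sqrt (2 * Real.pi))⁻¹ * (1 - 1 / (2 * S * β))) ≤ H.bJ x := by
    rw [inv_mul_le_iff₀ hsx]; exact h3
  have h5 : 0 ≤ 1 - 1 / (2 * S * β) := by
    rw [sub_nonneg, div_le_one (by positivity)]; exact hy
  have h6 := pow_le_pow_left₀ (by positivity) h4 3
  refine le_trans (le_of_eq ?_) h6
  have h7 : Real.sqrt x * Real.sqrt (2 * Real.pi) * Real.sqrt (m / S) =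
      Real.sqrt (4 * Real.pi * S) * (Real.sqrt β * Real.sqrt ((r : ℝ) + 1)) := by
    rw [← Real.sqrt_mul hx0.le, ← Real.sqrt_mul (by positivity), ← Real.sqrt_mul (by positivity),
      ← Real.sqrt_mul (by positivity)]
    congr 1
    rw [hx]
    field_simp
    ring
  have hr0 : 0 < Real.sqrt ((r : ℝ) + 1) := Real.sqrt_pos.2 (by positivity)
  have hb0 : 0 < Real.sqrt β := Real.sqrt_pos.2 hβ
  have h40 : 0 < Real.sqrt (4 * Real.pi * S) := Real.sqrt_pos.2 (by positivity)
  have h20 : 0 < Real.sqrt (2 * Real.pi) := Real.sqrt_pos.2 (by positivity)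
  have h8 : (Real.sqrt x)⁻¹ * (Real.sqrt (2 * Real.pi))⁻¹ =
      Real.sqrt (m / S) * ((Real.sqrt (4 * Real.pi * S))⁻¹ * ((Real.sqrt β)⁻¹ *
        (Real.sqrt ((r : ℝ) + 1))⁻¹)) := by
    generalize Real.sqrt (4 * Real.pi * S) = z1 at h7 h40 ⊢
    generalize Real.sqrt (2 * Real.pi) = z2 at h7 h20 ⊢
    generalize Real.sqrt (m / S) = z3 at h7 ⊢
    generalize Real.sqrt x = z4 at h7 hsx ⊢
    generalize Real.sqrt β = z5 at h7 hb0 ⊢
    generalize Real.sqrt ((r : ℝ) + 1) = z6 at h7 hr0 ⊢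
    field_simp
    linarith
  rw [← mul_assoc ((Real.sqrt x)⁻¹), h8]
  ring

theorem magAt_le {n : ℕ} (hn : 1 ≤ n) {β h : ℝ} (hβ : 0 < β) (hh : 0 ≤ h) :
    H.magAt n β h ≤ (n : ℝ) / 2 := by
  have hS : 0 < (n : ℝ) / 2 := by
    have : (1 : ℝ) ≤ n := by exact_mod_cast hn
    linarith
  rcases le_or_gt (H.magAt n β h) 0 with h0 | h0
  · linarith
  · have h1 := H.magAt_series n 0 hβ hh h0
    simp only [Finset.range_zero, Finset.sum_empty, mul_zero] at h1
    have h2 := (mul_nonneg_iff_of_pos_left hS).1 h1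
    linarith

/-- Uniform lower bound for the magnetization deficit. -/
theorem mag_lower {n : ℕ} (hn : 1 ≤ n) : ∃ K : ℝ, 1 ≤ K ∧ ∀ β : ℝ, K ≤ β → ∀ h : ℝ, 0 ≤ h →
    ∀ R : ℕ, (1 - K / β) * fR ((n : ℝ) / 2) R (β * h) ≤
      Real.sqrt β ^ 3 * ((n : ℝ) / 2 - H.magAt n β h) := by
  set S : ℝ := (n : ℝ) / 2 with hSdef
  have hS : 0 < S := by
    have : (1 : ℝ) ≤ n := by exact_mod_cast hn
    rw [hSdef]; linarith
  have hA := aS_nonneg S
  refine ⟨1 + 1 / (2 * S) + aS S / S + (3 + 5 * aS S) / (2 * S), ?_, ?_⟩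
  · have h1 : 0 ≤ 1 / (2 * S) := by positivity
    have h2 : 0 ≤ aS S / S := by positivity
    have h3 : 0 ≤ (3 + 5 * aS S) / (2 * S) := by positivity
    linarith
  intro β hβK h hh R
  set K := 1 + 1 / (2 * S) + aS S / S + (3 + 5 * aS S) / (2 * S) with hK
  have k1 : 0 ≤ 1 / (2 * S) := by positivity
  have k2 : 0 ≤ aS S / S := by positivity
  have k3 : 0 ≤ (3 + 5 * aS S) / (2 * S) := by positivity
  have hβ1 : 1 ≤ β := by linarith
  have hβ : 0 < β := by linarith
  have hy : 1 ≤ 2 * S * β := by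
    have : 1 / (2 * S) ≤ β := by linarith
    rw [div_le_iff₀ (by positivity)] at this
    linarith
  have hAβ : aS S ≤ S * β := by
    have : aS S / S ≤ β := by linarith
    rw [div_le_iff₀ hS] at this
    linarith
  have hsβ : 1 ≤ Real.sqrt β := by rw [Real.one_le_sqrt]; exact hβ1
  have hs2 : Real.sqrt β ^ 2 = β := Real.sq_sqrt hβ.le
  have hs3 : β ≤ Real.sqrt β ^ 3 := by
    calc β = Real.sqrt β ^ 2 * 1 := by rw [hs2, mul_one]
      _ ≤ Real.sqrt β ^ 2 * Real.sqrt β := mul_le_mul_of_nonneg_left hsβ (by positivity)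
      _ = _ := by ring
  have ht : 0 ≤ β * h := by positivity
  set f := fR S R (β * h) with hf
  have hf0 : 0 ≤ f := fR_nonneg _ _ _
  have hfA : f ≤ aS S := fR_le _ _ ht
  set m := H.magAt n β h with hm
  have hmS : m ≤ S := magAt_le hn hβ hh
  have hM0 : 0 ≤ Real.sqrt β ^ 3 * (S - m) := mul_nonneg (by positivity) (by linarith)
  rcases le_or_gt m 0 with hneg | hpos
  · have h1 : (1 - K / β) * f ≤ f := by
      have hKβ : 0 ≤ K / β := by positivity
      have hKf := mul_nonneg hKβ hf0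
      linarith only [hKf]
    calc (1 - K / β) * f ≤ aS S := h1.trans hfA
      _ ≤ S * β := hAβ
      _ ≤ Real.sqrt β ^ 3 * S := by
        rw [mul_comm S β]; exact mul_le_mul_of_nonneg_right hs3 hS.le
      _ ≤ Real.sqrt β ^ 3 * (S - m) := mul_le_mul_of_nonneg_left (by linarith) (by positivity)
  · have hser := H.magAt_series n R hβ hh hpos
    rw [← hm, ← hSdef] at hser
    set c := (1 - 1 / (2 * S * β)) ^ 3 with hc
    have hc1 : 0 ≤ 1 - 1 / (2 * S * β) := by
      rw [sub_nonneg, div_le_one (by positivity)]; exact hy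
    have hc2 : 1 - 1 / (2 * S * β) ≤ 1 := by
      have : 0 ≤ 1 / (2 * S * β) := by positivity
      linarith
    have hc0 : 0 ≤ c := by positivity
    have hcle : c ≤ 1 := pow_le_one₀ hc1 hc2
    have hcge : 1 - 3 * (1 / (2 * S * β)) ≤ c := by
      rw [hc]
      generalize 1 / (2 * S * β) = w at hc1 hc2
      have hw1 := mul_nonneg (sq_nonneg w) hc1
      have hw2 := sq_nonneg w
      have e : (1 - w) ^ 3 = 1 - 3 * w + (w ^ 2 * (1 - w) + 2 * w ^ 2) := by ring
      rw [e]
      linarith only [hw1, hw2]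
    set u := Real.sqrt (m / S) with hu
    have hu0 : 0 ≤ u := Real.sqrt_nonneg _
    have hu2 : u ^ 2 = m / S := Real.sq_sqrt (by positivity)
    -- lower bound of the series
    have hlow : c * (u ^ 3 * (Real.sqrt β ^ 3)⁻¹) * f ≤
        ∑ r ∈ Finset.range R, Real.exp (-(((r : ℝ) + 1) * (β * h))) *
          (H.bJ (((r : ℝ) + 1) * (β * (2 * S ^ 2)) / m)) ^ 3 := by
      rw [hf, fR, Finset.mul_sum, Finset.mul_sum]
      refine Finset.sum_le_sum fun r _ => ?_
      have h1 := bJ_term hS hβ hpos hmS hy r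
      have h2 := mul_le_mul_of_nonneg_left h1 (Real.exp_pos (-(((r : ℝ) + 1) * (β * h)))).le
      refine le_trans (le_of_eq ?_) h2
      rw [← hc, ← hu]
      ring
    have h1 : m * (c * (u ^ 3 * (Real.sqrt β ^ 3)⁻¹) * f) ≤ S * (S - m) :=
      (mul_le_mul_of_nonneg_left hlow hpos.le).trans hser
    -- self-consistency
    set M := Real.sqrt β ^ 3 * (S - m) with hM
    have hsb : 0 < Real.sqrt β ^ 3 := by positivity
    have h2 : u ^ 5 * (c * f) ≤ M := by
      have h3 := mul_le_mul_of_nonneg_left h1 (a := Real.sqrt β ^ 3 / S) (by positivity)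
      have e1 : Real.sqrt β ^ 3 / S * (m * (c * (u ^ 3 * (Real.sqrt β ^ 3)⁻¹) * f)) =
          u ^ 5 * (c * f) := by
        have : u ^ 5 = m / S * u ^ 3 := by rw [← hu2]; ring
        rw [this]
        field_simp
      have e2 : Real.sqrt β ^ 3 / S * (S * (S - m)) = M := by
        rw [hM]; field_simp
      rw [e1, e2] at h3
      exact h3
    have h3 := bernoulli_aux hu0
    have hcf : 0 ≤ c * f := mul_nonneg hc0 hf0
    have h4 : 1 - u ^ 2 = M / (S * Real.sqrt β ^ 3) := by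
      rw [hu2, hM]; field_simp
    rw [h4] at h3
    have h5 : (1 - 5 / 2 * (M / (S * Real.sqrt β ^ 3))) * (c * f) ≤ M :=
      (mul_le_mul_of_nonneg_right h3 hcf).trans h2
    set δ := 5 / (2 * S) / Real.sqrt β ^ 3 * (c * f) with hδ
    have hδ0 : 0 ≤ δ := by positivity
    have h6 : c * f ≤ M * (1 + δ) := by
      have e : (1 - 5 / 2 * (M / (S * Real.sqrt β ^ 3))) * (c * f) = c * f - M * δ := by
        rw [hδ]; field_simp
      rw [e] at h5
      linarith only [h5]
    have h7 : c * f * (1 - δ) ≤ M := by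
      rcases le_or_gt δ 1 with hd | hd
      · calc c * f * (1 - δ) ≤ M * (1 + δ) * (1 - δ) :=
              mul_le_mul_of_nonneg_right h6 (by linarith only [hd])
          _ = M - M * δ ^ 2 := by ring
          _ ≤ M := sub_le_self _ (mul_nonneg hM0 (sq_nonneg δ))
      · exact (mul_nonpos_of_nonneg_of_nonpos hcf (by linarith only [hd])).trans hM0
    refine le_trans ?_ h7
    have hδle : δ ≤ 5 * aS S / (2 * S) / β := by
      rw [hδ]
      have h8 : c * f ≤ aS S := by
        calc c * f ≤ 1 * f := mul_le_mul_of_nonneg_right hcle hf0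
          _ = f := one_mul _
          _ ≤ aS S := hfA
      calc 5 / (2 * S) / Real.sqrt β ^ 3 * (c * f) ≤ 5 / (2 * S) / β * aS S := by
            refine mul_le_mul ?_ h8 hcf (by positivity)
            exact div_le_div_of_nonneg_left (by positivity) hβ hs3
        _ = _ := by ring
    have h9 : 1 - K / β ≤ c * (1 - δ) := by
      rcases le_or_gt (1 - K / β) 0 with hk | hk
      · rcases le_or_gt δ 1 with hd | hd
        · exact hk.trans (mul_nonneg hc0 (by linarith only [hd]))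
        · -- δ > 1 forces K / β > 1
          have h10 : (5 * aS S / (2 * S)) / β ≤ K / β := by
            refine div_le_div_of_nonneg_right ?_ hβ.le
            have t1 : (3 + 5 * aS S) / (2 * S) = 3 / (2 * S) + 5 * aS S / (2 * S) := by ring
            have t2 : 0 ≤ 3 / (2 * S) := by positivity
            linarith only [t1, t2, k1, k2, hK]
          have h11 : 0 ≤ (1 - c) * (δ - 1) :=
            mul_nonneg (by linarith only [hcle]) (by linarith only [hd])
          have h12 : c * (1 - δ) = 1 - δ + (1 - c) * (δ - 1) := by ring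
          linarith only [h10, h11, h12, hδle]
      · have h10 : c * (1 - δ) ≥ 1 - 3 * (1 / (2 * S * β)) - δ := by
          have h13 : 0 ≤ (1 - c) * δ := mul_nonneg (by linarith only [hcle]) hδ0
          have h12 : c * (1 - δ) = c - δ + (1 - c) * δ := by ring
          linarith only [h13, h12, hcge]
        have h11 : 3 * (1 / (2 * S * β)) + 5 * aS S / (2 * S) / β ≤ K / β := by
          have : 3 * (1 / (2 * S * β)) + 5 * aS S / (2 * S) / β =
              ((3 + 5 * aS S) / (2 * S)) / β := by field_simp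
          rw [this]
          exact div_le_div_of_nonneg_right (by linarith only [k1, k2, hK]) hβ.le
        linarith only [h10, h11, hδle]
    calc (1 - K / β) * f ≤ c * (1 - δ) * f := mul_le_mul_of_nonneg_right h9 hf0
      _ = c * f * (1 - δ) := by ring

theorem gRed_hasDeriv (n : ℕ) {β : ℝ} (hβ : 0 < β) (h : ℝ) :
    HasDerivWithinAt (gRed n β) (β * (H.magAt n β h - (n : ℝ) / 2)) (Set.Ici h) h := by
  have h1 : HasDerivWithinAt (pressure n β) (H.magAt n β h) (Set.Ici h) h :=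
    hasDerivWithinAt_Ioi_iff_Ici.1 (pressure_hasRightDeriv n hβ h)
  have h2 : HasDerivWithinAt (fun x : ℝ => (n : ℝ) / 2 * x) ((n : ℝ) / 2) (Set.Ici h) h := by
    simpa using (hasDerivWithinAt_id h (Set.Ici h)).const_mul ((n : ℝ) / 2)
  have h3 := ((h1.sub_const (3 * ((n : ℝ) / 2) ^ 2)).sub h2).const_mul β
  exact h3

theorem gRed_continuous (n : ℕ) {β : ℝ} (hβ : 0 < β) : Continuous (gRed n β) := by
  have h1 : Continuous (pressure n β) := by
    have := (pressure_convex n hβ).continuousOn isOpen_univ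
    exact continuousOn_univ.1 this
  unfold gRed
  fun_prop

/-- (D7) Sharp lower bound for the reduced pressure, uniformly in the field. -/
theorem gRed_lower {n : ℕ} (hn : 1 ≤ n) : ∃ K : ℝ, 1 ≤ K ∧ ∀ β : ℝ, K ≤ β → ∀ h : ℝ, 0 ≤ h →
    ∀ R : ℕ, (1 - K / β) * FR ((n : ℝ) / 2) R (β * h) ≤ Real.sqrt β ^ 3 * gRed n β h := by
  obtain ⟨K, hK1, hK⟩ := mag_lower hn
  refine ⟨K, hK1, fun β hβK a ha R => ?_⟩
  have hβ : 0 < β := by linarith
  have hsb : 0 < Real.sqrt β ^ 3 := by positivity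
  set c := (1 - K / β) / Real.sqrt β ^ 3 with hc
  -- comparison on `[a, b]`
  have key : ∀ b : ℝ, a ≤ b → c * FR ((n : ℝ) / 2) R (β * a) ≤
      gRed n β a + c * FR ((n : ℝ) / 2) R (β * b) := by
    intro b hab
    have hd : ∀ x : ℝ, HasDerivAt (fun x => gRed n β a + (c * FR ((n : ℝ) / 2) R (β * x) -
        c * FR ((n : ℝ) / 2) R (β * a))) (-(c * β * fR ((n : ℝ) / 2) R (β * x))) x := by
      intro x
      have h1 := hasDerivAt_FR ((n : ℝ) / 2) R (β * x)
      have h2 : HasDerivAt (fun x : ℝ => β * x) β x := by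
        simpa using (hasDerivAt_id x).const_mul β
      have h3 := (h1.comp x h2).const_mul c
      have h4 := (h3.sub_const (c * FR ((n : ℝ) / 2) R (β * a))).const_add (gRed n β a)
      refine h4.congr_deriv ?_
      ring
    have h := image_le_of_deriv_right_le_deriv_boundary (f := gRed n β)
      (f' := fun x => β * (H.magAt n β x - (n : ℝ) / 2)) (a := a) (b := b)
      (gRed_continuous n hβ).continuousOn (fun x _ => gRed_hasDeriv n hβ x)
      (B := fun x => gRed n β a + (c * FR ((n : ℝ) / 2) R (β * x) -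
        c * FR ((n : ℝ) / 2) R (β * a)))
      (B' := fun x => -(c * β * fR ((n : ℝ) / 2) R (β * x))) (by simp)
      (fun x _ => (hd x).continuousAt.continuousWithinAt) (fun x _ => (hd x).hasDerivWithinAt)
      (by
        intro x hx
        have hx0 : 0 ≤ x := ha.trans hx.1
        have h5 := hK β hβK x hx0 R
        have h6 : c * β * fR ((n : ℝ) / 2) R (β * x) ≤ β * ((n : ℝ) / 2 - H.magAt n β x) := by
          have h7 : c * fR ((n : ℝ) / 2) R (β * x) ≤ (n : ℝ) / 2 - H.magAt n β x := by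
            rw [hc, div_mul_eq_mul_div, div_le_iff₀ hsb]
            linarith
          have := mul_le_mul_of_nonneg_left h7 hβ.le
          linarith
        linarith) (x := b) ⟨hab, le_rfl⟩
    have h0 := gRed_nonneg (n := n) hβ b
    linarith
  have hlim : Tendsto (fun b : ℝ => gRed n β a + c * FR ((n : ℝ) / 2) R (β * b)) atTop
      (𝓝 (gRed n β a + c * 0)) := by
    refine tendsto_const_nhds.add (Tendsto.const_mul _ ((FR_tendsto_zero _ R).comp ?_))
    exact Tendsto.const_mul_atTop hβ tendsto_id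
  have h1 : c * FR ((n : ℝ) / 2) R (β * a) ≤ gRed n β a + c * 0 := by
    refine ge_of_tendsto hlim ?_
    filter_upwards [eventually_ge_atTop a] with b hb
    exact key b hb
  rw [mul_zero, add_zero, hc, div_mul_eq_mul_div, div_le_iff₀ hsb] at h1
  linarith

/-- Upper bound of the deficit by difference quotients of the reduced pressure. -/
theorem mag_le_slope {n : ℕ} {β : ℝ} (hβ : 0 < β) {h₁ h₀ : ℝ} (hh : h₁ < h₀) :
    (n : ℝ) / 2 - H.magAt n β h₀ ≤ (gRed n β h₁ - gRed n β h₀) / (β * (h₀ - h₁)) := by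
  have hc := pressure_convex n hβ
  have h1 := hc.slope_le_leftDeriv_of_mem_interior (x := h₁) (y := h₀) (Set.mem_univ _)
    (by simp) hh
  have h2 := hc.leftDeriv_le_rightDeriv_of_mem_interior (x := h₀) (by simp)
  have h3 : (pressure n β h₀ - pressure n β h₁) / (h₀ - h₁) ≤ H.magAt n β h₀ := by
    rw [← slope_def_field]
    exact h1.trans h2
  have hpos : 0 < h₀ - h₁ := by linarith
  rw [div_le_iff₀ hpos] at h3
  rw [le_div_iff₀ (by positivity)]
  unfold gRed
  have h3β := mul_le_mul_of_nonneg_left h3 hβ.le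
  linarith only [h3β]

end Vale.Agent.P361.B
end

section

/-!
Part B, step D8: from bounds on the reduced pressure to the uniform Bloch law in small fields.
-/

namespace Vale.Agent.P361.B

open MeasureTheory Filter Topology

/-- `(4πS)^{-3/2} Li_{3/2}(e^{-t})`. -/
noncomputable def fS (S t : ℝ) : ℝ :=
  (Real.sqrt (4 * Real.pi * S) ^ 3)⁻¹ *
    ∑' r : ℕ, Real.exp (-(((r : ℝ) + 1) * t)) / Real.sqrt ((r : ℝ) + 1) ^ 3

/-- `(4πS)^{-3/2} Li_{5/2}(e^{-t})`. -/
noncomputable def FS (S t : ℝ) : ℝ :=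
  (Real.sqrt (4 * Real.pi * S) ^ 3)⁻¹ *
    ∑' r : ℕ, Real.exp (-(((r : ℝ) + 1) * t)) / (((r : ℝ) + 1) * Real.sqrt ((r : ℝ) + 1) ^ 3)

theorem zsum : Summable (fun r : ℕ => 1 / Real.sqrt ((r : ℝ) + 1) ^ 3) := H.zeta_hasSum.summable

theorem exp_le_one {t : ℝ} (ht : 0 ≤ t) (r : ℕ) : Real.exp (-(((r : ℝ) + 1) * t)) ≤ 1 := by
  rw [Real.exp_le_one_iff]
  have : 0 ≤ ((r : ℝ) + 1) * t := by positivity
  linarith

theorem summable_f {t : ℝ} (ht : 0 ≤ t) :
    Summable (fun r : ℕ => Real.exp (-(((r : ℝ) + 1) * t)) / Real.sqrt ((r : ℝ) + 1) ^ 3) := by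
  refine Summable.of_nonneg_of_le (fun r => by positivity) (fun r => ?_) zsum
  exact div_le_div_of_nonneg_right (exp_le_one ht r) (by positivity)

theorem summable_F {t : ℝ} (ht : 0 ≤ t) :
    Summable (fun r : ℕ => Real.exp (-(((r : ℝ) + 1) * t)) /
      (((r : ℝ) + 1) * Real.sqrt ((r : ℝ) + 1) ^ 3)) := by
  refine Summable.of_nonneg_of_le (fun r => by positivity) (fun r => ?_) (summable_f ht)
  refine div_le_div_of_nonneg_left (Real.exp_pos _).le (by positivity) ?_
  exact le_mul_of_one_le_left (by positivity) (by linarith [Nat.cast_nonneg (α := ℝ) r])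

theorem fR_tendsto (S : ℝ) {t : ℝ} (ht : 0 ≤ t) :
    Tendsto (fun R => fR S R t) atTop (𝓝 (fS S t)) :=
  (summable_f ht).hasSum.tendsto_sum_nat.const_mul _

theorem FR_tendsto (S : ℝ) {t : ℝ} (ht : 0 ≤ t) :
    Tendsto (fun R => FR S R t) atTop (𝓝 (FS S t)) :=
  (summable_F ht).hasSum.tendsto_sum_nat.const_mul _

theorem fS_nonneg (S t : ℝ) : 0 ≤ fS S t :=
  mul_nonneg (by positivity) (tsum_nonneg fun r => by positivity)

theorem FS_nonneg (S t : ℝ) : 0 ≤ FS S t :=
  mul_nonneg (by positivity) (tsum_nonneg fun r => by positivity)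

theorem fS_zero (S : ℝ) : fS S 0 = aS S := by
  unfold fS aS
  rw [← H.zeta_hasSum.tsum_eq]
  simp

theorem fS_le (S : ℝ) {t : ℝ} (ht : 0 ≤ t) : fS S t ≤ aS S :=
  le_of_tendsto' (fR_tendsto S ht) fun R => fR_le S R ht

/-- Convexity estimate for `f`. -/
theorem fS_sub_le (S : ℝ) {t δ : ℝ} (ht : 0 ≤ t) (hδ : 0 ≤ δ) :
    fS S t - fS S (t + δ) ≤ fS S 0 - fS S δ := by
  unfold fS
  rw [← mul_sub, ← mul_sub, ← (summable_f ht).tsum_sub (summable_f (add_nonneg ht hδ)),
    ← (summable_f le_rfl).tsum_sub (summable_f hδ)]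
  refine mul_le_mul_of_nonneg_left ?_ (by positivity)
  refine Summable.tsum_le_tsum (fun r => ?_) ((summable_f ht).sub (summable_f (add_nonneg ht hδ)))
    ((summable_f le_rfl).sub (summable_f hδ))
  rw [← sub_div, ← sub_div]
  refine div_le_div_of_nonneg_right ?_ (by positivity)
  have h1 : Real.exp (-(((r : ℝ) + 1) * (t + δ))) =
      Real.exp (-(((r : ℝ) + 1) * t)) * Real.exp (-(((r : ℝ) + 1) * δ)) := by
    rw [← Real.exp_add]; congr 1; ring
  have h2 : Real.exp (-(((r : ℝ) + 1) * 0)) = 1 := by simp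
  rw [h1, h2]
  have h3 := exp_le_one ht r
  have h4 := exp_le_one hδ r
  nlinarith

/-- `F(t₁) - F(t₁ + δ) ≤ δ f(t₁)`. -/
theorem FS_sub_le (S : ℝ) {t δ : ℝ} (ht : 0 ≤ t) (hδ : 0 ≤ δ) :
    FS S t - FS S (t + δ) ≤ δ * fS S t := by
  unfold FS fS
  rw [← mul_sub, ← (summable_F ht).tsum_sub (summable_F (add_nonneg ht hδ)),
    mul_left_comm δ]
  refine mul_le_mul_of_nonneg_left ?_ (by positivity)
  rw [← tsum_mul_left]
  refine Summable.tsum_le_tsum (fun r => ?_) ((summable_F ht).sub (summable_F (add_nonneg ht hδ)))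
    ((summable_f ht).mul_left δ)
  rw [← sub_div]
  have h1 : Real.exp (-(((r : ℝ) + 1) * (t + δ))) =
      Real.exp (-(((r : ℝ) + 1) * t)) * Real.exp (-(((r : ℝ) + 1) * δ)) := by
    rw [← Real.exp_add]; congr 1; ring
  have h2 : 1 - ((r : ℝ) + 1) * δ ≤ Real.exp (-(((r : ℝ) + 1) * δ)) := by
    have := Real.add_one_le_exp (-(((r : ℝ) + 1) * δ))
    linarith
  rw [h1, div_le_iff₀ (by positivity)]
  have h3 : δ * (Real.exp (-(((r : ℝ) + 1) * t)) / Real.sqrt ((r : ℝ) + 1) ^ 3) *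
      (((r : ℝ) + 1) * Real.sqrt ((r : ℝ) + 1) ^ 3) =
      Real.exp (-(((r : ℝ) + 1) * t)) * (((r : ℝ) + 1) * δ) := by
    have : 0 < Real.sqrt ((r : ℝ) + 1) := Real.sqrt_pos.2 (by positivity)
    field_simp
  rw [h3]
  have := Real.exp_pos (-(((r : ℝ) + 1) * t))
  nlinarith

theorem FS_le (S : ℝ) {t : ℝ} (ht : 0 ≤ t) : FS S t ≤ aS S := by
  refine le_trans ?_ (fS_le S ht)
  unfold FS fS
  refine mul_le_mul_of_nonneg_left ?_ (by positivity)
  refine Summable.tsum_le_tsum (fun r => ?_) (summable_F ht) (summable_f ht)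
  refine div_le_div_of_nonneg_left (Real.exp_pos _).le (by positivity) ?_
  exact le_mul_of_one_le_left (by positivity) (by linarith [Nat.cast_nonneg (α := ℝ) r])

/-- Continuity of `f` at zero from the right. -/
theorem fS_tendsto_zero (S : ℝ) : Tendsto (fS S) (𝓝[≥] 0) (𝓝 (fS S 0)) := by
  unfold fS
  refine Tendsto.const_mul _ ?_
  refine tendsto_tsum_of_dominated_convergence zsum (fun r => ?_) ?_
  · refine Tendsto.div_const ?_ _
    have : Continuous fun t : ℝ => Real.exp (-(((r : ℝ) + 1) * t)) := by fun_prop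
    exact (this.tendsto 0).mono_left nhdsWithin_le_nhds
  · filter_upwards [self_mem_nhdsWithin] with t ht r
    rw [Real.norm_of_nonneg (by positivity)]
    exact div_le_div_of_nonneg_right (exp_le_one ht r) (by positivity)

/-- (D8) Uniform two-sided law from an upper bound on the reduced pressure. -/
theorem deficit_uniform {n : ℕ} (hn : 1 ≤ n) {κ κ' : ℝ} (hκ : 0 < κ) (hκκ : κ < κ') (hκ1 : κ' ≤ 1)
    (hU : ∃ C β₀ : ℝ, ∀ β : ℝ, β₀ ≤ β → ∀ t : ℝ, β ^ (-κ') ≤ t →
      Real.sqrt β ^ 3 * gRed n β (t / β) ≤ FS ((n : ℝ) / 2) t + C * β ^ (-κ')) :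
    ∀ ε : ℝ, 0 < ε → ∀ᶠ β : ℝ in atTop, ∀ t : ℝ, β ^ (-κ) ≤ t →
      |Real.sqrt β ^ 3 * ((n : ℝ) / 2 - H.magAt n β (t / β)) - fS ((n : ℝ) / 2) t| ≤ ε := by
  intro ε hε
  obtain ⟨C, β₀, hU⟩ := hU
  obtain ⟨K, hK1, hK⟩ := mag_lower hn
  obtain ⟨K', hK1', hK'⟩ := gRed_lower hn
  set S : ℝ := (n : ℝ) / 2 with hS
  have hA := aS_nonneg S
  -- smallness conditions
  have l1 : Tendsto (fun β : ℝ => K / β * aS S) atTop (𝓝 0) := by
    simpa using ((tendsto_const_nhds (x := K)).div_atTop tendsto_id).mul_const (aS S)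
  have l2 : Tendsto (fun β : ℝ => fS S 0 - fS S (β ^ (-κ) / 2)) atTop (𝓝 0) := by
    have h1 : Tendsto (fun β : ℝ => β ^ (-κ) / 2) atTop (𝓝[≥] 0) := by
      refine tendsto_nhdsWithin_iff.2 ⟨?_, ?_⟩
      · simpa using (tendsto_rpow_neg_atTop hκ).div_const 2
      · filter_upwards [eventually_gt_atTop 0] with β hβ
        exact Set.mem_Ici.2 (by positivity)
    have h2 := ((fS_tendsto_zero S).comp h1).const_sub (fS S 0)
    simpa using h2
  have l3 : Tendsto (fun β : ℝ => 2 * (C * β ^ (κ - κ') + K' * aS S * β ^ (κ - 1))) atTop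
      (𝓝 0) := by
    have h1 : Tendsto (fun β : ℝ => β ^ (κ - κ')) atTop (𝓝 0) := by
      have := tendsto_rpow_neg_atTop (y := κ' - κ) (by linarith)
      simpa using this
    have h2 : Tendsto (fun β : ℝ => β ^ (κ - 1)) atTop (𝓝 0) := by
      have := tendsto_rpow_neg_atTop (y := 1 - κ) (by linarith)
      simpa using this
    simpa using ((h1.const_mul C).add (h2.const_mul (K' * aS S))).const_mul 2
  have l4 : Tendsto (fun β : ℝ => β ^ (κ' - κ)) atTop atTop :=
    tendsto_rpow_atTop (by linarith)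
  filter_upwards [l1.eventually (ge_mem_nhds hε), l2.eventually (ge_mem_nhds (half_pos hε)),
    l3.eventually (ge_mem_nhds (half_pos hε)), l4.eventually_ge_atTop 2,
    eventually_ge_atTop β₀, eventually_ge_atTop K, eventually_ge_atTop K',
    eventually_gt_atTop 0] with β e1 e2 e3 e4 hβ0 hβK hβK' hβ t ht
  have hsb : 0 < Real.sqrt β ^ 3 := by positivity
  have hκpos : 0 < β ^ (-κ) := by positivity
  have ht0 : 0 ≤ t := hκpos.le.trans ht
  -- lower bound
  have low : (1 - K / β) * fS S t ≤ Real.sqrt β ^ 3 * (S - H.magAt n β (t / β)) := by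
    refine le_of_tendsto' ((fR_tendsto S ht0).const_mul (1 - K / β)) fun R => ?_
    have h := hK β hβK (t / β) (by positivity) R
    rwa [mul_div_cancel₀ t hβ.ne'] at h
  have low2 : (1 - K' / β) * FS S t ≤ Real.sqrt β ^ 3 * gRed n β (t / β) := by
    refine le_of_tendsto' ((FR_tendsto S ht0).const_mul (1 - K' / β)) fun R => ?_
    have h := hK' β hβK' (t / β) (by positivity) R
    rwa [mul_div_cancel₀ t hβ.ne'] at h
  -- upper bound
  set δ : ℝ := β ^ (-κ) / 2 with hδ
  have hδ0 : 0 < δ := by positivity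
  have ht1 : β ^ (-κ') ≤ t - δ := by
    have h1 : β ^ (-κ') * 2 ≤ β ^ (-κ) := by
      calc β ^ (-κ') * 2 ≤ β ^ (-κ') * β ^ (κ' - κ) :=
            mul_le_mul_of_nonneg_left e4 (by positivity)
        _ = β ^ (-κ) := by rw [← Real.rpow_add hβ]; congr 1; ring
    rw [hδ]
    linarith
  have ht10 : 0 ≤ t - δ := le_trans (by positivity) ht1
  have up := hU β hβ0 (t - δ) ht1
  have sl := mag_le_slope (n := n) hβ (h₁ := (t - δ) / β) (h₀ := t / β)
    (div_lt_div_of_pos_right (by linarith) hβ)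
  have e5 : β * (t / β - (t - δ) / β) = δ := by field_simp; ring
  rw [e5, le_div_iff₀ hδ0, ← hS] at sl
  have f1 := FS_sub_le S ht10 hδ0.le
  have f2 := fS_sub_le S ht10 hδ0.le
  rw [sub_add_cancel] at f1 f2
  have f3 := FS_le S ht0
  have f4 := FS_nonneg S t
  have hi : Real.sqrt β ^ 3 * (S - H.magAt n β (t / β)) ≤ fS S t + ε := by
    have g1 : Real.sqrt β ^ 3 * (S - H.magAt n β (t / β)) * δ ≤
        δ * fS S (t - δ) + (C * β ^ (-κ') + K' / β * aS S) := by
      have g2 := mul_le_mul_of_nonneg_left sl hsb.le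
      have g3 : K' / β * FS S t ≤ K' / β * aS S := mul_le_mul_of_nonneg_left f3 (by positivity)
      have g6 : Real.sqrt β ^ 3 * (S - H.magAt n β (t / β)) * δ =
          Real.sqrt β ^ 3 * ((S - H.magAt n β (t / β)) * δ) := by ring
      rw [g6]
      rw [mul_sub (Real.sqrt β ^ 3) (gRed n β _)] at g2
      linarith
    have g4 : Real.sqrt β ^ 3 * (S - H.magAt n β (t / β)) ≤
        fS S (t - δ) + (C * β ^ (-κ') + K' / β * aS S) / δ := by
      rw [← sub_le_iff_le_add', le_div_iff₀ hδ0]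
      linarith
    have g5 : (C * β ^ (-κ') + K' / β * aS S) / δ =
        2 * (C * β ^ (κ - κ') + K' * aS S * β ^ (κ - 1)) := by
      have h1 : β ^ (κ - κ') = β ^ (-κ') / β ^ (-κ) := by
        rw [← Real.rpow_sub hβ]; congr 1; ring
      have h2 : β ^ (κ - 1) = β⁻¹ / β ^ (-κ) := by
        rw [← Real.rpow_neg_one, ← Real.rpow_sub hβ]; congr 1; ring
      rw [h1, h2, hδ]
      field_simp
    rw [g5] at g4
    linarith
  have hlow : fS S t - ε ≤ Real.sqrt β ^ 3 * (S - H.magAt n β (t / β)) := by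
    have g1 : K / β * fS S t ≤ K / β * aS S :=
      mul_le_mul_of_nonneg_left (fS_le S ht0) (by positivity)
    linarith
  rw [abs_le]
  constructor <;> linarith

end Vale.Agent.P361.B
end

section

/-!
Part B, step D2: crude bound on the partition function of a cube.
-/

namespace Vale.Agent.P361.B

open Matrix Finset Filter Topology
open scoped ComplexOrder Kronecker

set_option linter.unusedSectionVars false

section Ladder

variable {n : ℕ} {Λ : Finset Site}

/-- Total lowering operator. -/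
noncomputable def jM (n : ℕ) (Λ : Finset Site) : Matrix (Λ → Fin (n + 1)) (Λ → Fin (n + 1)) ℂ :=
  ∑ x : Λ, H.oM n x

/-- Total raising operator. -/
noncomputable def jP (n : ℕ) (Λ : Finset Site) : Matrix (Λ → Fin (n + 1)) (Λ → Fin (n + 1)) ℂ :=
  ∑ x : Λ, H.oP n x

/-- Total number of lowered spins of a configuration. -/
def cntS (σ : Λ → Fin (n + 1)) : ℕ := ∑ x, (σ x : ℕ)

theorem siteOp_diagonal (x : Λ) (f : Fin (n + 1) → ℂ) :
    siteOp x (diagonal f) = diagonal (fun σ : Λ → Fin (n + 1) => f (σ x)) := by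
  ext σ τ
  refine (H.siteOp_apply x (diagonal f) σ τ).trans ?_
  by_cases h : σ = τ
  · subst h; simp
  · rw [Matrix.diagonal_apply_ne _ h]
    obtain ⟨y, hy⟩ := Function.ne_iff.1 h
    by_cases hyx : y = x
    · subst hyx
      rw [Matrix.diagonal_apply_ne f hy, zero_mul]
    · have h0 : ∏ y ∈ Finset.univ.erase x,
          (1 : Matrix (Fin (n + 1)) (Fin (n + 1)) ℂ) (σ y) (τ y) = 0 :=
        Finset.prod_eq_zero (i := y) (by simp [hyx]) (Matrix.one_apply_ne hy)
      rw [h0, mul_zero]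

/-- Local number operator. -/
noncomputable def eta (n : ℕ) {Λ : Finset Site} (x : Λ) :
    Matrix (Λ → Fin (n + 1)) (Λ → Fin (n + 1)) ℂ :=
  diagonal (fun σ : Λ → Fin (n + 1) => ((σ x : ℕ) : ℂ))

theorem eta_eq (x : Λ) : eta n x = ((n : ℂ) / 2) • (1 : Matrix _ _ ℂ) - H.oZ n x := by
  have h : ((n : ℂ) / 2) • (1 : Matrix (Λ → Fin (n + 1)) (Λ → Fin (n + 1)) ℂ) - H.oZ n x =
      siteOp x (((n : ℂ) / 2) • (1 : Matrix (Fin (n + 1)) (Fin (n + 1)) ℂ) - spinZ n) := by
    rw [H.siteOp_sub, H.siteOp_smul, H.siteOp_one]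
  rw [h, eta]
  have h2 : ((n : ℂ) / 2) • (1 : Matrix (Fin (n + 1)) (Fin (n + 1)) ℂ) - spinZ n =
      diagonal (fun j : Fin (n + 1) => ((j : ℕ) : ℂ)) := by
    rw [spinZ, ← Matrix.diagonal_one, ← Matrix.diagonal_smul, Matrix.diagonal_sub]
    congr 1
    ext j
    simp
  rw [h2, siteOp_diagonal]

theorem numOp_eq_sum : numOp n Λ = ∑ x : Λ, eta n x := by
  unfold numOp
  exact Finset.sum_congr rfl fun x _ => (eta_eq x).symm

theorem numOp_eq_diagonal : numOp n Λ = diagonal (fun σ : Λ → Fin (n + 1) => ((cntS σ : ℕ) : ℂ)) := by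
  rw [numOp_eq_sum]
  ext σ τ
  rw [Matrix.sum_apply]
  by_cases h : σ = τ
  · subst h
    simp [eta, cntS]
  · simp [eta, h]

theorem jM_eq_mode : jM n Λ = H.modeOp n (fun _ : Λ => (1 : ℂ)) := by
  simp [jM, H.modeOp]

theorem jM_conj : (jM n Λ)ᴴ = jP n Λ := by
  rw [jM, Matrix.conjTranspose_sum]
  exact Finset.sum_congr rfl fun x _ => H.oM_conj x

theorem mag_eq_num : magnetization n Λ = ((n : ℂ) / 2 * (Λ.card : ℂ)) •
    (1 : Matrix (Λ → Fin (n + 1)) (Λ → Fin (n + 1)) ℂ) - numOp n Λ := by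
  rw [H.magnetization_eq, numOp, Finset.sum_sub_distrib, Finset.sum_const, Finset.card_univ,
    Fintype.card_coe]
  rw [← Nat.cast_smul_eq_nsmul ℂ, smul_smul, mul_comm ((n : ℂ) / 2)]
  abel

theorem num_jM : numOp n Λ * jM n Λ = jM n Λ * numOp n Λ + jM n Λ := by
  have h := H.comm_mag_mode (n := n) (Λ := Λ) (fun _ => 1)
  rw [← jM_eq_mode, mag_eq_num] at h
  simp only [sub_mul, mul_sub, smul_mul_assoc, mul_smul_comm, Matrix.one_mul, Matrix.mul_one] at h
  rw [sub_eq_iff_eq_add] at h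
  have h2 : numOp n Λ * jM n Λ = ((n : ℂ) / 2 * (Λ.card : ℂ)) • jM n Λ -
      (((n : ℂ) / 2 * (Λ.card : ℂ)) • jM n Λ - numOp n Λ * jM n Λ) := by abel
  rw [h2, h]
  abel

theorem jP_jM : jP n Λ * jM n Λ = jM n Λ * jP n Λ + (((n * Λ.card : ℕ) : ℂ) •
    (1 : Matrix (Λ → Fin (n + 1)) (Λ → Fin (n + 1)) ℂ) - (2 : ℂ) • numOp n Λ) := by
  have h := H.comm_mode_mode (n := n) (Λ := Λ) (fun _ => 1)
  rw [← jM_eq_mode, jM_conj] at h
  rw [sub_eq_iff_eq_add] at h
  rw [h]
  have h2 : ∑ x : Λ, ((2 * Complex.normSq 1 : ℝ) : ℂ) • H.oZ n x =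
      (2 : ℂ) • magnetization n Λ := by
    rw [H.magnetization_eq, Finset.smul_sum]
    simp
  rw [h2, mag_eq_num]
  push_cast
  module

/-- `∑_{x ≠ y} (S² - S_x·S_y)`. -/
noncomputable def casX (n : ℕ) (Λ : Finset Site) :
    Matrix (Λ → Fin (n + 1)) (Λ → Fin (n + 1)) ℂ :=
  ∑ x : Λ, ∑ y : Λ, if x = y then 0 else
    ((((n : ℂ) / 2) ^ 2) • (1 : Matrix _ _ ℂ) - H.dotOp n x y)

theorem lower_raise_eta (x : Λ) : H.oM n x * H.oP n x =
    ((n : ℂ) + 1) • eta n x - eta n x * eta n x := by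
  rw [H.siteOp_mul, H.lower_raise, siteOp_diagonal, eta, Matrix.diagonal_mul_diagonal,
    ← Matrix.diagonal_smul, Matrix.diagonal_sub]
  congr 1
  ext σ
  simp
  ring

theorem pair_eta {x y : Λ} :
    ((((n : ℂ) / 2) ^ 2) • (1 : Matrix (Λ → Fin (n + 1)) (Λ → Fin (n + 1)) ℂ) - H.dotOp n x y) =
      ((n : ℂ) / 2) • (eta n x + eta n y) - eta n x * eta n y -
        (1 / 2 : ℂ) • (H.oP n x * H.oM n y + H.oM n x * H.oP n y) := by
  have hz : ∀ z : Λ, H.oZ n z = ((n : ℂ) / 2) • (1 : Matrix _ _ ℂ) - eta n z := by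
    intro z; rw [eta_eq]; abel
  rw [H.dotOp_eq, hz x, hz y]
  simp only [sub_mul, mul_sub, smul_mul_assoc, mul_smul_comm, Matrix.one_mul, Matrix.mul_one]
  module

theorem casX_eq : casX n Λ = numOp n Λ * ((((n * Λ.card : ℕ) : ℂ) + 1) • (1 : Matrix _ _ ℂ)
    - numOp n Λ) - jM n Λ * jP n Λ := by
  have e0 : casX n Λ = ∑ x : Λ, ∑ y : Λ, if x = y then 0 else
      (((n : ℂ) / 2) • (eta n x + eta n y) - eta n x * eta n y -
        (1 / 2 : ℂ) • (H.oM n y * H.oP n x + H.oM n x * H.oP n y)) := by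
    unfold casX
    refine Finset.sum_congr rfl fun x _ => Finset.sum_congr rfl fun y _ => ?_
    split_ifs with h
    · rfl
    · rw [pair_eta, H.siteOp_comm h (spinLower n)ᴴ (spinLower n)]
  have e1 : ∀ x y : Λ, (if x = y then 0 else
      (((n : ℂ) / 2) • (eta n x + eta n y) - eta n x * eta n y -
        (1 / 2 : ℂ) • (H.oM n y * H.oP n x + H.oM n x * H.oP n y))) =
      (((n : ℂ) / 2) • (eta n x + eta n y) - eta n x * eta n y -
        (1 / 2 : ℂ) • (H.oM n y * H.oP n x + H.oM n x * H.oP n y)) -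
      (if x = y then ((n : ℂ) • eta n x - eta n x * eta n x - H.oM n x * H.oP n x) else 0) := by
    intro x y
    split_ifs with h
    · subst h
      module
    · rw [sub_zero]
  rw [e0, Finset.sum_congr rfl fun x _ => Finset.sum_congr rfl fun y _ => e1 x y]
  simp only [Finset.sum_sub_distrib, Finset.sum_ite_eq, Finset.mem_univ, if_true,
    lower_raise_eta, smul_add, Finset.sum_add_distrib, Finset.sum_const, Finset.card_univ,
    Fintype.card_coe, ← Finset.smul_sum, ← numOp_eq_sum]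
  have e2 : ∑ x : Λ, ∑ y : Λ, eta n x * eta n y = numOp n Λ * numOp n Λ := by
    rw [numOp_eq_sum, Finset.sum_mul_sum]
  have e3 : ∑ x : Λ, ∑ y : Λ, H.oM n x * H.oP n y = jM n Λ * jP n Λ := by
    rw [jM, jP, Finset.sum_mul_sum]
  have e4 : ∑ x : Λ, ∑ y : Λ, H.oM n y * H.oP n x = jM n Λ * jP n Λ := by
    rw [Finset.sum_comm, e3]
  rw [e2, e3, e4]
  simp only [← Nat.cast_smul_eq_nsmul ℂ]
  rw [Matrix.mul_sub, Matrix.mul_smul, Matrix.mul_one]
  push_cast
  module

theorem casX_eq' : casX n Λ = (numOp n Λ + 1) * (((n * Λ.card : ℕ) : ℂ) • (1 : Matrix _ _ ℂ)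
    - numOp n Λ) - jP n Λ * jM n Λ := by
  rw [jP_jM, casX_eq]
  simp only [Matrix.mul_sub, Matrix.add_mul, Matrix.mul_smul, Matrix.mul_one, Matrix.one_mul]
  module

theorem casX_comm_jM : casX n Λ * jM n Λ = jM n Λ * casX n Λ := by
  have h1 := num_jM (n := n) (Λ := Λ)
  have h2 : casX n Λ * jM n Λ = numOp n Λ * ((((n * Λ.card : ℕ) : ℂ) + 1) • (1 : Matrix _ _ ℂ)
    - numOp n Λ) * jM n Λ - jM n Λ * jP n Λ * jM n Λ := by
    rw [casX_eq, Matrix.sub_mul]
  have h3 : jM n Λ * casX n Λ = jM n Λ * ((numOp n Λ + 1) * (((n * Λ.card : ℕ) : ℂ) •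
      (1 : Matrix _ _ ℂ) - numOp n Λ)) - jM n Λ * jP n Λ * jM n Λ := by
    rw [casX_eq', Matrix.mul_sub, Matrix.mul_assoc]
  rw [h2, h3]
  congr 1
  have h4 : ((((n * Λ.card : ℕ) : ℂ) + 1) • (1 : Matrix _ _ ℂ) - numOp n Λ) * jM n Λ =
      jM n Λ * (((n * Λ.card : ℕ) : ℂ) • (1 : Matrix _ _ ℂ) - numOp n Λ) := by
    rw [Matrix.sub_mul, h1]
    simp only [Matrix.mul_sub, Matrix.smul_mul, Matrix.mul_smul, Matrix.mul_one, Matrix.one_mul]
    module
  rw [Matrix.mul_assoc, h4, ← Matrix.mul_assoc, h1]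
  simp only [Matrix.mul_sub, Matrix.add_mul, Matrix.mul_add, Matrix.mul_smul, Matrix.mul_one,
    Matrix.one_mul, Matrix.mul_assoc]

end Ladder

section Sectors

variable {n : ℕ} {Λ : Finset Site}

/-- Projection on the sector with `j` lowered spins. -/
noncomputable def pj (n : ℕ) (Λ : Finset Site) (j : ℕ) :
    Matrix (Λ → Fin (n + 1)) (Λ → Fin (n + 1)) ℂ :=
  diagonal (fun σ : Λ → Fin (n + 1) => if cntS σ = j then 1 else 0)

theorem pj_num (j : ℕ) : pj n Λ j * numOp n Λ = (j : ℂ) • pj n Λ j := by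
  rw [pj, numOp_eq_diagonal, Matrix.diagonal_mul_diagonal, ← Matrix.diagonal_smul]
  congr 1
  ext σ
  simp only [Pi.smul_apply, smul_eq_mul]
  split_ifs with h
  · rw [h]; ring
  · simp

theorem jM_apply_ne {σ τ : Λ → Fin (n + 1)} (h : jM n Λ σ τ ≠ 0) : cntS σ = cntS τ + 1 := by
  have h1 := num_jM (n := n) (Λ := Λ)
  rw [numOp_eq_diagonal] at h1
  have h2 := congrFun (congrFun h1 σ) τ
  rw [Matrix.diagonal_mul, Matrix.add_apply, Matrix.mul_diagonal] at h2
  have h3 : (((cntS σ : ℕ) : ℂ) - ((cntS τ : ℕ) : ℂ) - 1) * jM n Λ σ τ = 0 := by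
    linear_combination h2
  rcases mul_eq_zero.1 h3 with h4 | h4
  · have h5 : ((cntS σ : ℕ) : ℂ) = ((cntS τ + 1 : ℕ) : ℂ) := by
      push_cast; linear_combination h4
    exact_mod_cast h5
  · exact absurd h4 h

theorem pj_jM (j : ℕ) : pj n Λ (j + 1) * jM n Λ = jM n Λ * pj n Λ j := by
  ext σ τ
  rw [pj, pj, Matrix.diagonal_mul, Matrix.mul_diagonal]
  by_cases h : jM n Λ σ τ = 0
  · rw [h]; simp
  · have h1 := jM_apply_ne h
    by_cases h2 : cntS τ = j
    · rw [if_pos (by omega), if_pos h2]; ring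
    · rw [if_neg (by omega), if_neg h2]; ring

theorem p0_jM : pj n Λ 0 * jM n Λ = 0 := by
  ext σ τ
  rw [pj, Matrix.diagonal_mul, Matrix.zero_apply]
  by_cases h : jM n Λ σ τ = 0
  · rw [h]; simp
  · have h1 := jM_apply_ne h
    rw [if_neg (by omega)]; ring

theorem pj_casX_succ (j : ℕ) : pj n Λ (j + 1) * casX n Λ =
    (((j : ℂ) + 1) * ((n * Λ.card : ℕ) - (j : ℂ))) • pj n Λ (j + 1) -
      jM n Λ * pj n Λ j * jP n Λ := by
  rw [casX_eq, Matrix.mul_sub, ← Matrix.mul_assoc, pj_num, Matrix.smul_mul, Matrix.mul_sub,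
    Matrix.mul_smul, Matrix.mul_one, pj_num, ← Matrix.mul_assoc, pj_jM]
  push_cast
  module

theorem pj_casX (j : ℕ) : pj n Λ j * casX n Λ =
    (((j : ℂ) + 1) * ((n * Λ.card : ℕ) - (j : ℂ))) • pj n Λ j -
      pj n Λ j * (jP n Λ * jM n Λ) := by
  rw [casX_eq', Matrix.mul_sub, ← Matrix.mul_assoc (pj n Λ j) (numOp n Λ + 1), Matrix.mul_add,
    pj_num, Matrix.mul_one, Matrix.add_mul, Matrix.smul_mul, Matrix.mul_sub,
    Matrix.mul_smul, Matrix.mul_one, pj_num]
  push_cast
  module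

theorem p0_casX : pj n Λ 0 * casX n Λ = 0 := by
  rw [casX_eq, Matrix.mul_sub, ← Matrix.mul_assoc, pj_num, ← Matrix.mul_assoc, p0_jM]
  simp

theorem casX_pow_comm (k : ℕ) : casX n Λ ^ k * jM n Λ = jM n Λ * casX n Λ ^ k := by
  induction k with
  | zero => simp
  | succ k ih => rw [pow_succ, Matrix.mul_assoc, casX_comm_jM, ← Matrix.mul_assoc, ih,
      Matrix.mul_assoc]

theorem trace_move {m : Type*} [Fintype m] [DecidableEq m] (A P B Y : Matrix m m ℂ)
    (h : Y * A = A * Y) : trace (A * P * B * Y) = trace (P * (B * A) * Y) := by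
  calc trace (A * P * B * Y) = trace (A * (P * B * Y)) := by simp only [Matrix.mul_assoc]
    _ = trace (P * B * Y * A) := Matrix.trace_mul_comm _ _
    _ = trace (P * B * (Y * A)) := by simp only [Matrix.mul_assoc]
    _ = trace (P * B * (A * Y)) := by rw [h]
    _ = trace (P * (B * A) * Y) := by simp only [Matrix.mul_assoc]

theorem trace_step {m : Type*} [Fintype m] [DecidableEq m] (P X R : Matrix m m ℂ) (c : ℂ)
    (h : P * X = c • P - R) (k : ℕ) :
    trace (P * X ^ (k + 1)) = c * trace (P * X ^ k) - trace (R * X ^ k) := by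
  rw [pow_succ', ← Matrix.mul_assoc, h, Matrix.sub_mul, Matrix.trace_sub,
      Matrix.smul_mul, Matrix.trace_smul, smul_eq_mul]

/-- Trace recursion. -/
theorem trace_pj_pow_succ (j k : ℕ) :
    trace (pj n Λ (j + 1) * casX n Λ ^ (k + 1)) - trace (pj n Λ j * casX n Λ ^ (k + 1)) =
      (((j : ℂ) + 1) * ((n * Λ.card : ℕ) - (j : ℂ))) *
      (trace (pj n Λ (j + 1) * casX n Λ ^ k) - trace (pj n Λ j * casX n Λ ^ k)) := by
  have h1 := trace_step _ _ _ _ (pj_casX_succ (n := n) (Λ := Λ) j) k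
  have h2 := trace_step _ _ _ _ (pj_casX (n := n) (Λ := Λ) j) k
  rw [trace_move _ _ _ _ (casX_pow_comm k)] at h1
  rw [h1, h2]
  ring

theorem trace_pj_pow (j k : ℕ) :
    trace (pj n Λ (j + 1) * casX n Λ ^ k) - trace (pj n Λ j * casX n Λ ^ k) =
      (((j : ℂ) + 1) * ((n * Λ.card : ℕ) - (j : ℂ))) ^ k *
      (trace (pj n Λ (j + 1)) - trace (pj n Λ j)) := by
  induction k with
  | zero => simp
  | succ k ih => rw [trace_pj_pow_succ, ih, pow_succ]; ring

theorem hasSum_trace_exp (P X : Matrix (Λ → Fin (n + 1)) (Λ → Fin (n + 1)) ℂ) (a : ℂ) :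
    HasSum (fun k : ℕ => ((k.factorial : ℂ)⁻¹) * (a ^ k * trace (P * X ^ k)))
      (trace (P * NormedSpace.exp (a • X))) := by
  have hs : HasSum (fun k : ℕ => ((k.factorial : ℂ)⁻¹) • (a • X) ^ k)
      (NormedSpace.exp (a • X)) := by
    open scoped Matrix.Norms.Operator in
    exact NormedSpace.exp_series_hasSum_exp' (𝕂 := ℂ) (a • X)
  have hcont : Continuous fun M : Matrix (Λ → Fin (n + 1)) (Λ → Fin (n + 1)) ℂ =>
      trace (P * M) := (continuous_const.matrix_mul continuous_id).matrix_trace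
  have h := hs.map (AddMonoidHom.mk' (fun M : Matrix (Λ → Fin (n + 1)) (Λ → Fin (n + 1)) ℂ =>
    trace (P * M)) (fun A B => by rw [Matrix.mul_add, Matrix.trace_add])) hcont
  have e : ((AddMonoidHom.mk' (fun M : Matrix (Λ → Fin (n + 1)) (Λ → Fin (n + 1)) ℂ =>
      trace (P * M)) (fun A B => by rw [Matrix.mul_add, Matrix.trace_add])) ∘
      fun k : ℕ => ((k.factorial : ℂ)⁻¹) • (a • X) ^ k) =
      fun k : ℕ => ((k.factorial : ℂ)⁻¹) * (a ^ k * trace (P * X ^ k)) := by
    ext1 k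
    simp only [Function.comp, AddMonoidHom.mk'_apply, smul_pow]
    rw [Matrix.mul_smul, Matrix.mul_smul, Matrix.trace_smul, Matrix.trace_smul, smul_eq_mul,
      smul_eq_mul]
  rw [e] at h
  exact h

theorem hasSum_congr_fun {f g : ℕ → ℂ} {a : ℂ} (h : HasSum f a) (hfg : ∀ k, f k = g k) :
    HasSum g a := by
  rwa [show g = f from funext fun k => (hfg k).symm]

theorem trace_pj_exp (j : ℕ) (a : ℂ) :
    trace (pj n Λ (j + 1) * NormedSpace.exp (a • casX n Λ)) -
      trace (pj n Λ j * NormedSpace.exp (a • casX n Λ)) =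
      Complex.exp (a * (((j : ℂ) + 1) * ((n * Λ.card : ℕ) - (j : ℂ)))) *
      (trace (pj n Λ (j + 1)) - trace (pj n Λ j)) := by
  have h1 := (hasSum_trace_exp (pj n Λ (j + 1)) (casX n Λ) a).sub
    (hasSum_trace_exp (pj n Λ j) (casX n Λ) a)
  have h2 : HasSum (fun k : ℕ => ((k.factorial : ℂ)⁻¹) *
      ((a * (((j : ℂ) + 1) * ((n * Λ.card : ℕ) - (j : ℂ)))) ^ k))
      (Complex.exp (a * (((j : ℂ) + 1) * ((n * Λ.card : ℕ) - (j : ℂ))))) := by
    rw [Complex.exp_eq_exp_ℂ]
    have := NormedSpace.exp_series_hasSum_exp' (𝕂 := ℂ)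
      (a * (((j : ℂ) + 1) * ((n * Λ.card : ℕ) - (j : ℂ))))
    simpa only [smul_eq_mul] using this
  have h3 := h2.mul_right (trace (pj n Λ (j + 1)) - trace (pj n Λ j))
  refine h1.unique ?_
  refine hasSum_congr_fun h3 ?_
  intro k
  have h4 := trace_pj_pow (n := n) (Λ := Λ) j k
  rw [mul_pow]
  linear_combination (-((k.factorial : ℂ)⁻¹ * a ^ k)) * h4

theorem trace_p0_exp (a : ℂ) :
    trace (pj n Λ 0 * NormedSpace.exp (a • casX n Λ)) = trace (pj n Λ 0) := by
  have h1 := hasSum_trace_exp (pj n Λ 0) (casX n Λ) a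
  have h2 : HasSum (fun k : ℕ => ((k.factorial : ℂ)⁻¹) * (a ^ k *
      trace (pj n Λ 0 * casX n Λ ^ k))) (trace (pj n Λ 0)) := by
    have h3 := hasSum_single (f := fun k : ℕ => ((k.factorial : ℂ)⁻¹) * (a ^ k *
      trace (pj n Λ 0 * casX n Λ ^ k))) 0 (fun k hk => by
        obtain ⟨k', rfl⟩ := Nat.exists_eq_succ_of_ne_zero hk
        simp only [Nat.succ_eq_add_one]
        rw [pow_succ' (casX n Λ), ← Matrix.mul_assoc, p0_casX]
        simp)
    simpa using h3
  exact h1.unique h2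

/-- Dimension of the sector. -/
def dimS (n : ℕ) (Λ : Finset Site) (j : ℕ) : ℕ :=
  (Finset.univ.filter fun σ : Λ → Fin (n + 1) => cntS σ = j).card

theorem trace_pj (j : ℕ) : trace (pj n Λ j) = (dimS n Λ j : ℂ) := by
  rw [pj, Matrix.trace_diagonal, dimS, Finset.card_filter]
  push_cast
  rfl

/-- Eigenvalue `c_j = j (2S|Λ| + 1 - j)`. -/
noncomputable def cj (n : ℕ) (Λ : Finset Site) (j : ℕ) : ℝ :=
  (j : ℝ) * ((n : ℝ) * Λ.card + 1 - j)

theorem trace_pj_exp_le (j : ℕ) (s : ℝ) :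
    (trace (pj n Λ j * NormedSpace.exp (((-s : ℝ) : ℂ) • casX n Λ))).re ≤
      ∑ i ∈ Finset.range (j + 1), Real.exp (-s * cj n Λ i) * dimS n Λ i := by
  induction j with
  | zero =>
    rw [trace_p0_exp, trace_pj]
    simp [cj]
  | succ j ih =>
    rw [Finset.sum_range_succ]
    have h := congrArg Complex.re (trace_pj_exp (n := n) (Λ := Λ) j ((-s : ℝ) : ℂ))
    rw [Complex.sub_re] at h
    have e1 : Complex.exp (((-s : ℝ) : ℂ) * (((j : ℂ) + 1) * ((n * Λ.card : ℕ) - (j : ℂ)))) =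
        ((Real.exp (-s * cj n Λ (j + 1)) : ℝ) : ℂ) := by
      rw [Complex.ofReal_exp]
      congr 1
      unfold cj
      push_cast
      ring
    rw [e1, trace_pj, trace_pj] at h
    have e2 : (((Real.exp (-s * cj n Λ (j + 1)) : ℝ) : ℂ) *
        ((dimS n Λ (j + 1) : ℂ) - (dimS n Λ j : ℂ))).re =
        Real.exp (-s * cj n Λ (j + 1)) * ((dimS n Λ (j + 1) : ℝ) - (dimS n Λ j : ℝ)) := by
      rw [Complex.re_ofReal_mul]
      simp
    rw [e2] at h
    have h3 : 0 ≤ Real.exp (-s * cj n Λ (j + 1)) * (dimS n Λ j : ℝ) := by positivity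
    linarith

theorem cntS_le (σ : Λ → Fin (n + 1)) : cntS σ ≤ n * Λ.card := by
  unfold cntS
  calc ∑ x, (σ x : ℕ) ≤ ∑ _x : Λ, n := Finset.sum_le_sum fun x _ => Nat.lt_succ_iff.1 (σ x).2
    _ = n * Λ.card := by simp [mul_comm]

theorem sum_pj : ∑ j ∈ Finset.range (n * Λ.card + 1), pj n Λ j = 1 := by
  ext σ τ
  rw [Matrix.sum_apply]
  by_cases h : σ = τ
  · subst h
    simp only [pj, Matrix.diagonal_apply_eq, Matrix.one_apply_eq]
    rw [Finset.sum_ite_eq, if_pos]
    rw [Finset.mem_range]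
    have := cntS_le σ
    omega
  · simp [pj, h]

theorem sum_dim_eq (f : ℕ → ℝ) {K : ℕ} (hK : n * Λ.card ≤ K) :
    ∑ i ∈ Finset.range (K + 1), f i * dimS n Λ i =
      ∑ σ : Λ → Fin (n + 1), f (cntS σ) := by
  have h1 : ∀ i, f i * dimS n Λ i = ∑ σ : Λ → Fin (n + 1), if cntS σ = i then f i else 0 := by
    intro i
    rw [dimS, ← Finset.sum_filter, Finset.sum_const, nsmul_eq_mul, mul_comm]
  simp only [h1]
  rw [Finset.sum_comm]
  refine Finset.sum_congr rfl fun σ _ => ?_
  rw [Finset.sum_ite_eq, if_pos]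
  rw [Finset.mem_range]
  have := cntS_le σ
  omega

theorem trace_exp_casX_le (s : ℝ) :
    (trace (NormedSpace.exp (((-s : ℝ) : ℂ) • casX n Λ))).re ≤
      ((n : ℝ) * Λ.card + 1) * ∑ σ : Λ → Fin (n + 1), Real.exp (-s * cj n Λ (cntS σ)) := by
  have h1 : (trace (NormedSpace.exp (((-s : ℝ) : ℂ) • casX n Λ))).re =
      ∑ j ∈ Finset.range (n * Λ.card + 1),
        (trace (pj n Λ j * NormedSpace.exp (((-s : ℝ) : ℂ) • casX n Λ))).re := by
    rw [← Complex.re_sum, ← Matrix.trace_sum, ← Finset.sum_mul, sum_pj, Matrix.one_mul]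
  rw [h1]
  calc ∑ j ∈ Finset.range (n * Λ.card + 1),
        (trace (pj n Λ j * NormedSpace.exp (((-s : ℝ) : ℂ) • casX n Λ))).re ≤
      ∑ _j ∈ Finset.range (n * Λ.card + 1),
        ∑ σ : Λ → Fin (n + 1), Real.exp (-s * cj n Λ (cntS σ)) := by
        refine Finset.sum_le_sum fun j hj => (trace_pj_exp_le j s).trans ?_
        rw [← sum_dim_eq (fun i => Real.exp (-s * cj n Λ i)) le_rfl]
        refine Finset.sum_le_sum_of_subset_of_nonneg ?_ fun i _ _ => by positivity
        intro i hi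
        rw [Finset.mem_range] at hi hj ⊢
        omega
    _ = _ := by
        rw [Finset.sum_const, Finset.card_range, nsmul_eq_mul]
        push_cast
        rfl

/-- Bound of the configuration sum by a product. -/
theorem sum_exp_cj_le {s : ℝ} (hs : 0 ≤ s) {z : ℝ}
    (hz : z = Real.exp (-s * ((n : ℝ) * Λ.card / 2))) :
    ∑ σ : Λ → Fin (n + 1), Real.exp (-s * cj n Λ (cntS σ)) ≤
      2 * (∑ j ∈ Finset.range (n + 1), z ^ j) ^ Λ.card := by
  have hz0 : 0 < z := by rw [hz]; exact Real.exp_pos _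
  have hprod : ∑ σ : Λ → Fin (n + 1), z ^ (cntS σ) = (∑ j ∈ Finset.range (n + 1), z ^ j) ^ Λ.card := by
    have h1 : ∀ σ : Λ → Fin (n + 1), z ^ (cntS σ) = ∏ x, z ^ ((σ x : Fin (n + 1)) : ℕ) := by
      intro σ
      rw [cntS, Finset.prod_pow_eq_pow_sum]
    simp only [h1]
    rw [Finset.sum_range (fun j => z ^ j)]
    have h2 := Finset.prod_univ_sum (fun _ : Λ => (Finset.univ : Finset (Fin (n + 1))))
      (fun (_ : Λ) (j : Fin (n + 1)) => z ^ (j : ℕ))
    rw [Fintype.piFinset_univ, Finset.prod_const, Finset.card_univ, Fintype.card_coe] at h2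
    exact h2.symm
  have hrev : ∑ σ : Λ → Fin (n + 1), z ^ (n * Λ.card - cntS σ) =
      ∑ σ : Λ → Fin (n + 1), z ^ (cntS σ) := by
    rw [← Equiv.sum_comp (Equiv.arrowCongr (Equiv.refl Λ) (Fin.revPerm (n := n + 1)))
      (fun σ => z ^ (cntS σ))]
    refine Finset.sum_congr rfl fun σ _ => ?_
    congr 1
    have h3 : cntS (Equiv.arrowCongr (Equiv.refl Λ) (Fin.revPerm (n := n + 1)) σ) + cntS σ =
        n * Λ.card := by
      unfold cntS
      rw [← Finset.sum_add_distrib]
      have : ∀ x : Λ, ((Equiv.arrowCongr (Equiv.refl Λ) (Fin.revPerm (n := n + 1)) σ x :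
          Fin (n + 1)) : ℕ) + (σ x : ℕ) = n := by
        intro x
        have h4 : Equiv.arrowCongr (Equiv.refl Λ) (Fin.revPerm (n := n + 1)) σ x =
          Fin.rev (σ x) := rfl
        rw [h4, Fin.val_rev]
        have := (σ x).2
        omega
      simp only [this]
      simp [mul_comm]
    omega
  calc ∑ σ : Λ → Fin (n + 1), Real.exp (-s * cj n Λ (cntS σ)) ≤
      ∑ σ : Λ → Fin (n + 1), (z ^ (cntS σ) + z ^ (n * Λ.card - cntS σ)) := by
        refine Finset.sum_le_sum fun σ _ => ?_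
        have hk := cntS_le σ
        generalize cntS σ = k at hk
        have hkR : (k : ℝ) ≤ (n : ℝ) * Λ.card := by exact_mod_cast hk
        have hk0 : (0 : ℝ) ≤ k := Nat.cast_nonneg k
        rcases le_total (2 * (k : ℝ)) ((n : ℝ) * Λ.card) with h | h
        · refine le_trans ?_ (le_add_of_nonneg_right (by positivity))
          rw [hz, ← Real.exp_nat_mul, Real.exp_le_exp]
          unfold cj
          have h5 : (k : ℝ) * ((n : ℝ) * Λ.card / 2) ≤ (k : ℝ) * ((n : ℝ) * Λ.card + 1 - k) :=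
            mul_le_mul_of_nonneg_left (by linarith) hk0
          nlinarith
        · refine le_trans ?_ (le_add_of_nonneg_left (by positivity))
          rw [hz, ← Real.exp_nat_mul, Real.exp_le_exp]
          unfold cj
          rw [Nat.cast_sub hk]
          push_cast
          have h5 : ((n : ℝ) * Λ.card - k) * ((n : ℝ) * Λ.card / 2) ≤
              (k : ℝ) * ((n : ℝ) * Λ.card + 1 - k) := by
            have h6 : ((n : ℝ) * Λ.card - k) * ((n : ℝ) * Λ.card / 2) ≤
                ((n : ℝ) * Λ.card - k) * k :=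
              mul_le_mul_of_nonneg_left (by linarith) (by linarith)
            nlinarith
          nlinarith
    _ = _ := by
        rw [Finset.sum_add_distrib, hrev, hprod]
        ring

end Sectors

end Vale.Agent.P361.B
end

section

/-!
Path comparison in the cube: for a pseudo-metric on the sites of the cube, the sum of squared
distances over all pairs is at most `3 L⁵` times the sum over edges.
-/

namespace Vale.Agent.P361.B

open Finset

/-- The site with coordinates `a, b, c`. -/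
def st (a b c : ℕ) : Site := ![(a : ℤ), (b : ℤ), (c : ℤ)]

theorem mem_cube' {L : ℕ} {x : Site} : x ∈ cube L ↔ ∀ i, 0 ≤ x i ∧ x i < L := by
  simp [cube, Fintype.mem_piFinset]

theorem st_mem {L a b c : ℕ} : st a b c ∈ cube L ↔ a < L ∧ b < L ∧ c < L := by
  rw [mem_cube']
  constructor
  · intro h
    have h0 := h 0
    have h1 := h 1
    have h2 := h 2
    simp only [st, Matrix.cons_val_zero, Matrix.cons_val_one, Matrix.cons_val] at h0 h1 h2
    omega
  · rintro ⟨h0, h1, h2⟩ i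
    fin_cases i <;> simp [st] <;> omega

theorem sum_cube (L : ℕ) (f : Site → ℝ) : ∑ x ∈ cube L, f x =
    ∑ a ∈ range L, ∑ b ∈ range L, ∑ c ∈ range L, f (st a b c) := by
  have h1 : ∑ a ∈ range L, ∑ b ∈ range L, ∑ c ∈ range L, f (st a b c) =
      ∑ p ∈ range L ×ˢ range L ×ˢ range L, f (st p.1 p.2.1 p.2.2) := by
    rw [Finset.sum_product]
    refine Finset.sum_congr rfl fun a _ => ?_
    rw [Finset.sum_product]
  rw [h1]
  refine Finset.sum_bij' (fun x _ => ((x 0).toNat, (x 1).toNat, (x 2).toNat))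
    (fun p _ => st p.1 p.2.1 p.2.2) ?_ ?_ ?_ ?_ ?_
  · intro x hx
    rw [mem_cube'] at hx
    have h0 := hx 0
    have h1 := hx 1
    have h2 := hx 2
    simp only [Finset.mem_product, Finset.mem_range]
    omega
  · intro p hp
    simp only [Finset.mem_product, Finset.mem_range] at hp
    rw [st_mem]
    exact hp
  · intro x hx
    rw [mem_cube'] at hx
    have h0 := hx 0
    have h1 := hx 1
    have h2 := hx 2
    ext i
    fin_cases i <;> simp [st] <;> omega
  · intro p hp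
    simp [st]
  · intro x hx
    rw [mem_cube'] at hx
    have h0 := hx 0
    have h1 := hx 1
    have h2 := hx 2
    congr 1
    ext i
    fin_cases i <;> simp [st] <;> omega

theorem line_bound {L : ℕ} {ρ : ℕ → ℕ → ℝ} (h0 : ∀ a, a < L → ρ a a = 0)
    (hs : ∀ a b, a < L → b < L → ρ a b = ρ b a) (hn : ∀ a b, 0 ≤ ρ a b)
    (ht : ∀ a b c, a < L → b < L → c < L → ρ a c ≤ ρ a b + ρ b c)
    {a b : ℕ} (ha : a < L) (hb : b < L) :
    ρ a b ^ 2 ≤ L * ∑ k ∈ range (L - 1), ρ k (k + 1) ^ 2 := by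
  have key : ∀ m a : ℕ, a + m < L → ρ a (a + m) ≤ ∑ k ∈ range (a + m), ρ k (k + 1) := by
    intro m
    induction m with
    | zero =>
      intro a ha
      rw [add_zero, h0 a (by omega)]
      exact Finset.sum_nonneg fun _ _ => hn _ _
    | succ m ih =>
      intro a ha
      have h1 := ht a (a + m) (a + (m + 1)) (by omega) (by omega) ha
      have h2 := ih a (by omega)
      rw [← add_assoc, Finset.sum_range_succ]
      rw [← add_assoc] at h1
      linarith
  have key2 : ∀ a b : ℕ, a ≤ b → b < L → ρ a b ≤ ∑ k ∈ range (L - 1), ρ k (k + 1) := by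
    intro a b hab hb
    obtain ⟨m, rfl⟩ := Nat.exists_eq_add_of_le hab
    refine (key m a hb).trans ?_
    refine Finset.sum_le_sum_of_subset_of_nonneg ?_ fun _ _ _ => hn _ _
    intro k hk
    rw [Finset.mem_range] at hk ⊢
    omega
  have key3 : ρ a b ≤ ∑ k ∈ range (L - 1), ρ k (k + 1) := by
    rcases le_total a b with h | h
    · exact key2 a b h hb
    · rw [hs a b ha hb]
      exact key2 b a h ha
  have h1 : ρ a b ^ 2 ≤ (∑ k ∈ range (L - 1), ρ k (k + 1)) ^ 2 :=
    pow_le_pow_left₀ (hn _ _) key3 2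
  have h2 := sq_sum_le_card_mul_sum_sq (s := range (L - 1)) (f := fun k => ρ k (k + 1))
  rw [Finset.card_range] at h2
  refine h1.trans (h2.trans ?_)
  refine mul_le_mul_of_nonneg_right ?_ (Finset.sum_nonneg fun _ _ => sq_nonneg _)
  exact_mod_cast Nat.sub_le L 1

theorem nn_sum_split (L : ℕ) (F : Site → Site → ℝ) (hF : ∀ x y, F x y = F y x) :
    ∑ x ∈ cube L, ∑ y ∈ cube L, (if IsNN x y then F x y else 0) =
      2 * ∑ j : Fin 3, ∑ x ∈ cube L,
        (if x + H.dir (j, true) ∈ cube L then F x (x + H.dir (j, true)) else 0) := by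
  have h1 : ∀ x y : Site, (if IsNN x y then F x y else 0) =
      ∑ p : Fin 3 × Bool, if y = x + H.dir p then F x y else 0 := by
    intro x y
    by_cases h : IsNN x y
    · obtain ⟨p, hp⟩ := (H.isNN_iff x y).1 h
      rw [if_pos h, Finset.sum_eq_single p]
      · rw [if_pos hp]
      · intro q _ hq
        rw [if_neg]
        intro h2
        exact hq (H.dir_injective (by rw [hp] at h2; simpa using h2.symm))
      · simp
    · rw [if_neg h]
      symm
      refine Finset.sum_eq_zero fun p _ => ?_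
      rw [if_neg]
      intro h2
      exact h ((H.isNN_iff x y).2 ⟨p, h2⟩)
  have h2 : ∀ p : Fin 3 × Bool, ∑ x ∈ cube L, ∑ y ∈ cube L,
      (if y = x + H.dir p then F x y else 0) = ∑ x ∈ cube L,
        (if x + H.dir p ∈ cube L then F x (x + H.dir p) else 0) := by
    intro p
    refine Finset.sum_congr rfl fun x _ => ?_
    rw [Finset.sum_ite_eq']
  have hneg : ∀ j : Fin 3, H.dir (j, false) = -H.dir (j, true) := by
    intro j
    simp [H.dir, ← Pi.single_neg]
  have h3 : ∀ j : Fin 3, ∑ x ∈ cube L, ∑ y ∈ cube L,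
      (if y = x + H.dir (j, false) then F x y else 0) = ∑ x ∈ cube L, ∑ y ∈ cube L,
      (if y = x + H.dir (j, true) then F x y else 0) := by
    intro j
    rw [Finset.sum_comm]
    refine Finset.sum_congr rfl fun x _ => Finset.sum_congr rfl fun y _ => ?_
    rw [hneg, hF x y]
    have : x = y + -H.dir (j, true) ↔ y = x + H.dir (j, true) := by
      constructor
      · intro h; rw [h]; simp
      · intro h; rw [h]; simp
    simp only [this]
  calc ∑ x ∈ cube L, ∑ y ∈ cube L, (if IsNN x y then F x y else 0)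
      = ∑ p : Fin 3 × Bool, ∑ x ∈ cube L, ∑ y ∈ cube L,
        (if y = x + H.dir p then F x y else 0) := by
        simp only [h1]
        rw [Finset.sum_comm]
        rw [← Finset.sum_comm]
        have : ∀ x ∈ cube L, ∑ y ∈ cube L, ∑ p : Fin 3 × Bool,
            (if y = x + H.dir p then F x y else 0) = ∑ p : Fin 3 × Bool, ∑ y ∈ cube L,
            (if y = x + H.dir p then F x y else 0) := fun x _ => Finset.sum_comm
        rw [Finset.sum_congr rfl this, Finset.sum_comm]
    _ = ∑ j : Fin 3, (∑ x ∈ cube L, ∑ y ∈ cube L,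
        (if y = x + H.dir (j, true) then F x y else 0) + ∑ x ∈ cube L, ∑ y ∈ cube L,
        (if y = x + H.dir (j, false) then F x y else 0)) := by
        rw [Fintype.sum_prod_type]
        refine Finset.sum_congr rfl fun j _ => ?_
        rw [Fintype.sum_bool]
    _ = _ := by
        simp only [h3, h2]
        rw [Finset.mul_sum]
        refine Finset.sum_congr rfl fun j _ => ?_
        ring

theorem sum_shift1 (L : ℕ) (g : ℕ → ℝ) :
    ∑ a ∈ range L, (if a + 1 < L then g a else 0) = ∑ a ∈ range (L - 1), g a := by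
  rw [← Finset.sum_filter]
  refine Finset.sum_congr ?_ fun _ _ => rfl
  ext a
  simp only [Finset.mem_filter, Finset.mem_range]
  omega

theorem st_add0 (a b c : ℕ) : st a b c + H.dir (0, true) = st (a + 1) b c := by
  ext i
  fin_cases i <;> simp [st, H.dir]

theorem st_add1 (a b c : ℕ) : st a b c + H.dir (1, true) = st a (b + 1) c := by
  ext i
  fin_cases i <;> simp [st, H.dir]

theorem st_add2 (a b c : ℕ) : st a b c + H.dir (2, true) = st a b (c + 1) := by
  ext i
  fin_cases i <;> simp [st, H.dir]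

theorem dir_sum (L : ℕ) (F : Site → Site → ℝ) : ∑ j : Fin 3, ∑ x ∈ cube L,
    (if x + H.dir (j, true) ∈ cube L then F x (x + H.dir (j, true)) else 0) =
    (∑ b ∈ range L, ∑ c ∈ range L, ∑ k ∈ range (L - 1), F (st k b c) (st (k + 1) b c)) +
    (∑ a ∈ range L, ∑ c ∈ range L, ∑ k ∈ range (L - 1), F (st a k c) (st a (k + 1) c)) +
    (∑ a ∈ range L, ∑ b ∈ range L, ∑ k ∈ range (L - 1), F (st a b k) (st a b (k + 1))) := by
  rw [Fin.sum_univ_three]
  simp only [sum_cube, st_add0, st_add1, st_add2, st_mem]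
  congr 1
  · congr 1
    · rw [Finset.sum_comm]
      refine Finset.sum_congr rfl fun b hb => ?_
      rw [Finset.sum_comm]
      refine Finset.sum_congr rfl fun c hc => ?_
      rw [Finset.mem_range] at hb hc
      simp only [hb, hc, and_true]
      exact sum_shift1 L _
    · refine Finset.sum_congr rfl fun a ha => ?_
      rw [Finset.sum_comm]
      refine Finset.sum_congr rfl fun c hc => ?_
      rw [Finset.mem_range] at ha hc
      simp only [ha, hc, and_true, true_and]
      exact sum_shift1 L _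
  · refine Finset.sum_congr rfl fun a ha => ?_
    refine Finset.sum_congr rfl fun b hb => ?_
    rw [Finset.mem_range] at ha hb
    simp only [ha, hb, true_and]
    exact sum_shift1 L _

/-- The path comparison. -/
theorem path_sum (L : ℕ) {D : Site → Site → ℝ} (h0 : ∀ x, D x x = 0)
    (hs : ∀ x y, D x y = D y x) (hn : ∀ x y, 0 ≤ D x y)
    (ht : ∀ x y z, x ∈ cube L → y ∈ cube L → z ∈ cube L → D x z ≤ D x y + D y z) :
    ∑ x ∈ cube L, ∑ y ∈ cube L, D x y ^ 2 ≤
      3 / 2 * (L : ℝ) ^ 5 * ∑ x ∈ cube L, ∑ y ∈ cube L, (if IsNN x y then D x y ^ 2 else 0) := by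
  rw [nn_sum_split L (fun x y => D x y ^ 2) (fun x y => by rw [hs x y]),
    dir_sum L (fun x y => D x y ^ 2)]
  set E0 : ℕ → ℕ → ℝ := fun b c => ∑ k ∈ range (L - 1), D (st k b c) (st (k + 1) b c) ^ 2 with hE0
  set E1 : ℕ → ℕ → ℝ := fun a c => ∑ k ∈ range (L - 1), D (st a k c) (st a (k + 1) c) ^ 2 with hE1
  set E2 : ℕ → ℕ → ℝ := fun a b => ∑ k ∈ range (L - 1), D (st a b k) (st a b (k + 1)) ^ 2 with hE2
  have key : ∀ a b c a' b' c' : ℕ, a < L → b < L → c < L → a' < L → b' < L → c' < L →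
      D (st a b c) (st a' b' c') ^ 2 ≤
        3 * ((L : ℝ) * E0 b c + (L : ℝ) * E1 a' c + (L : ℝ) * E2 a' b') := by
    intro a b c a' b' c' ha hb hc ha' hb' hc'
    have m1 := (st_mem (L := L)).2 ⟨ha, hb, hc⟩
    have m2 := (st_mem (L := L)).2 ⟨ha', hb, hc⟩
    have m3 := (st_mem (L := L)).2 ⟨ha', hb', hc⟩
    have m4 := (st_mem (L := L)).2 ⟨ha', hb', hc'⟩
    have t1 := ht _ _ _ m1 m2 m4
    have t2 := ht _ _ _ m2 m3 m4
    have l1 : D (st a b c) (st a' b c) ^ 2 ≤ (L : ℝ) * E0 b c :=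
      line_bound (L := L) (ρ := fun u v => D (st u b c) (st v b c)) (fun u _ => h0 _)
        (fun u v _ _ => hs _ _) (fun u v => hn _ _)
        (fun u v w hu hv hw => ht _ _ _ ((st_mem (L := L)).2 ⟨hu, hb, hc⟩)
          ((st_mem (L := L)).2 ⟨hv, hb, hc⟩) ((st_mem (L := L)).2 ⟨hw, hb, hc⟩)) ha ha'
    have l2 : D (st a' b c) (st a' b' c) ^ 2 ≤ (L : ℝ) * E1 a' c :=
      line_bound (L := L) (ρ := fun u v => D (st a' u c) (st a' v c)) (fun u _ => h0 _)
        (fun u v _ _ => hs _ _) (fun u v => hn _ _)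
        (fun u v w hu hv hw => ht _ _ _ ((st_mem (L := L)).2 ⟨ha', hu, hc⟩)
          ((st_mem (L := L)).2 ⟨ha', hv, hc⟩) ((st_mem (L := L)).2 ⟨ha', hw, hc⟩)) hb hb'
    have l3 : D (st a' b' c) (st a' b' c') ^ 2 ≤ (L : ℝ) * E2 a' b' :=
      line_bound (L := L) (ρ := fun u v => D (st a' b' u) (st a' b' v)) (fun u _ => h0 _)
        (fun u v _ _ => hs _ _) (fun u v => hn _ _)
        (fun u v w hu hv hw => ht _ _ _ ((st_mem (L := L)).2 ⟨ha', hb', hu⟩)
          ((st_mem (L := L)).2 ⟨ha', hb', hv⟩) ((st_mem (L := L)).2 ⟨ha', hb', hw⟩)) hc hc'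
    have n1 := hn (st a b c) (st a' b c)
    have n2 := hn (st a' b c) (st a' b' c)
    have n3 := hn (st a' b' c) (st a' b' c')
    have n4 := hn (st a b c) (st a' b' c')
    have s1 : D (st a b c) (st a' b' c') ^ 2 ≤
        (D (st a b c) (st a' b c) + D (st a' b c) (st a' b' c) +
          D (st a' b' c) (st a' b' c')) ^ 2 := pow_le_pow_left₀ n4 (by linarith) 2
    nlinarith [sq_nonneg (D (st a b c) (st a' b c) - D (st a' b c) (st a' b' c)),
      sq_nonneg (D (st a' b c) (st a' b' c) - D (st a' b' c) (st a' b' c')),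
      sq_nonneg (D (st a b c) (st a' b c) - D (st a' b' c) (st a' b' c'))]
  simp only [sum_cube]
  calc ∑ a ∈ range L, ∑ b ∈ range L, ∑ c ∈ range L, ∑ a' ∈ range L, ∑ b' ∈ range L,
        ∑ c' ∈ range L, D (st a b c) (st a' b' c') ^ 2 ≤
      ∑ a ∈ range L, ∑ b ∈ range L, ∑ c ∈ range L, ∑ a' ∈ range L, ∑ b' ∈ range L,
        ∑ c' ∈ range L, 3 * ((L : ℝ) * E0 b c + (L : ℝ) * E1 a' c + (L : ℝ) * E2 a' b') := by
        refine Finset.sum_le_sum fun a ha => Finset.sum_le_sum fun b hb =>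
          Finset.sum_le_sum fun c hc => Finset.sum_le_sum fun a' ha' =>
          Finset.sum_le_sum fun b' hb' => Finset.sum_le_sum fun c' hc' => ?_
        rw [Finset.mem_range] at ha hb hc ha' hb' hc'
        exact key a b c a' b' c' ha hb hc ha' hb' hc'
    _ = _ := by
        simp only [← Finset.mul_sum, Finset.sum_add_distrib, Finset.sum_const,
          Finset.card_range, nsmul_eq_mul]
        rw [Finset.sum_comm (s := range L) (t := range L) (f := fun c a' => E1 a' c)]
        ring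

end Vale.Agent.P361.B
end

section

/-!
Part B, step D2: `∑_{x≠y} (S² - S_x·S_y) ≤ 3 L⁵ H̃` on the cube, and the crude bound on the
partition function.
-/

namespace Vale.Agent.P361.B

open Matrix Finset Filter Topology
open scoped ComplexOrder Kronecker

set_option linter.unusedSectionVars false

section Norm

variable {ι : Type*} [Fintype ι] [DecidableEq ι]

/-- Euclidean norm of a vector. -/
noncomputable def nrm (v : ι → ℂ) : ℝ := ‖(WithLp.toLp 2 v : EuclideanSpace ℂ ι)‖

theorem nrm_nonneg (v : ι → ℂ) : 0 ≤ nrm v := norm_nonneg _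

theorem nrm_add_le (u v : ι → ℂ) : nrm (u + v) ≤ nrm u + nrm v := by
  unfold nrm
  rw [WithLp.toLp_add]
  exact norm_add_le _ _

theorem nrm_neg (v : ι → ℂ) : nrm (-v) = nrm v := by
  unfold nrm
  rw [WithLp.toLp_neg, norm_neg]

theorem nrm_sq (v : ι → ℂ) : nrm v ^ 2 = ∑ i, ‖v i‖ ^ 2 := by
  unfold nrm
  rw [EuclideanSpace.norm_eq, Real.sq_sqrt (Finset.sum_nonneg fun _ _ => by positivity)]

theorem star_dot (M : Matrix ι ι ℂ) (ψ : ι → ℂ) :
    star ψ ⬝ᵥ ((Mᴴ * M) *ᵥ ψ) = ((nrm (M *ᵥ ψ) ^ 2 : ℝ) : ℂ) := by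
  rw [← Matrix.mulVec_mulVec, Matrix.dotProduct_mulVec, Matrix.vecMul_conjTranspose, star_star,
    nrm_sq, dotProduct]
  push_cast
  refine Finset.sum_congr rfl fun i _ => ?_
  rw [Pi.star_apply, RCLike.star_def, Complex.conj_mul']

theorem minkowski_aux {p₁ p₂ q₁ q₂ P Q : ℝ} (hP : 0 ≤ P) (hQ : 0 ≤ Q) (h1 : p₁ ^ 2 + p₂ ^ 2 = P ^ 2)
    (h2 : q₁ ^ 2 + q₂ ^ 2 = Q ^ 2) : (p₁ + q₁) ^ 2 + (p₂ + q₂) ^ 2 ≤ (P + Q) ^ 2 := by
  have h3 : p₁ * q₁ + p₂ * q₂ ≤ P * Q := by
    refine abs_le_of_sq_le_sq' ?_ (by positivity) |>.2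
    have : (P * Q) ^ 2 = (p₁ ^ 2 + p₂ ^ 2) * (q₁ ^ 2 + q₂ ^ 2) := by rw [mul_pow, h1, h2]
    rw [this]
    nlinarith [sq_nonneg (p₁ * q₂ - p₂ * q₁)]
  nlinarith

end Norm

section Metric

variable {n : ℕ} {Λ : Finset Site}

/-- `T_{xy} = a_x b_y - b_x a_y`. -/
noncomputable def tOp (n : ℕ) {Λ : Finset Site} (x y : Λ) :
    Matrix (Λ → Fin (n + 1)) (Λ → Fin (n + 1)) ℂ :=
  H.oA n x * H.oB n y - H.oB n x * H.oA n y

theorem tOp_sq {x y : Λ} (hxy : x ≠ y) : (((n : ℂ) / 2) ^ 2) •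
    (1 : Matrix (Λ → Fin (n + 1)) (Λ → Fin (n + 1)) ℂ) - H.dotOp n x y =
      (1 / 2 : ℂ) • ((tOp n x y)ᴴ * tOp n x y) := by
  unfold tOp
  rw [H.dot_sos hxy]
  module

theorem tOp_symm {x y : Λ} (hxy : x ≠ y) : tOp n y x = -tOp n x y := by
  unfold tOp
  rw [H.siteOp_comm hxy.symm, H.siteOp_comm hxy.symm]
  abel

theorem pluecker_a {x y z : Λ} (hxy : x ≠ y) (hyz : y ≠ z) (hxz : x ≠ z) :
    H.oA n y * tOp n x z = H.oA n x * tOp n y z + H.oA n z * tOp n x y := by
  unfold tOp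
  have c1 : H.oA n y * (H.oA n x * H.oB n z) = H.oA n x * (H.oA n y * H.oB n z) := by
    rw [← mul_assoc, H.siteOp_comm hxy.symm, mul_assoc]
  have c2 : H.oA n y * (H.oB n x * H.oA n z) = H.oA n z * (H.oB n x * H.oA n y) := by
    rw [H.siteOp_comm hxz (H.schwB n) (H.schwA n), ← mul_assoc,
      H.siteOp_comm hyz (H.schwA n) (H.schwA n), mul_assoc,
      H.siteOp_comm hxy.symm (H.schwA n) (H.schwB n)]
  have c3 : H.oA n x * (H.oB n y * H.oA n z) = H.oA n z * (H.oA n x * H.oB n y) := by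
    rw [H.siteOp_comm hyz (H.schwB n) (H.schwA n), ← mul_assoc,
      H.siteOp_comm hxz (H.schwA n) (H.schwA n), mul_assoc]
  rw [mul_sub, mul_sub, mul_sub, c1, c2, c3]
  abel

theorem pluecker_b {x y z : Λ} (hxy : x ≠ y) (hyz : y ≠ z) (hxz : x ≠ z) :
    H.oB n y * tOp n x z = H.oB n x * tOp n y z + H.oB n z * tOp n x y := by
  unfold tOp
  have c1 : H.oB n y * (H.oA n x * H.oB n z) = H.oB n z * (H.oA n x * H.oB n y) := by
    rw [H.siteOp_comm hxz (H.schwA n) (H.schwB n), ← mul_assoc,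
      H.siteOp_comm hyz (H.schwB n) (H.schwB n), mul_assoc,
      H.siteOp_comm hxy.symm (H.schwB n) (H.schwA n)]
  have c2 : H.oB n y * (H.oB n x * H.oA n z) = H.oB n x * (H.oB n y * H.oA n z) := by
    rw [← mul_assoc, H.siteOp_comm hxy.symm, mul_assoc]
  have c3 : H.oB n x * (H.oA n y * H.oB n z) = H.oB n z * (H.oB n x * H.oA n y) := by
    rw [H.siteOp_comm hyz (H.schwA n) (H.schwB n), ← mul_assoc,
      H.siteOp_comm hxz (H.schwB n) (H.schwB n), mul_assoc]
  rw [mul_sub, mul_sub, mul_sub, c1, c2, c3]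
  abel

theorem ab_norm (y : Λ) (v : (Λ → Fin (n + 1)) → ℂ) :
    nrm (H.oA n y *ᵥ v) ^ 2 + nrm (H.oB n y *ᵥ v) ^ 2 = n * nrm v ^ 2 := by
  have h1 := star_dot (H.oA n y) v
  have h2 := star_dot (H.oB n y) v
  have h3 := star_dot (1 : Matrix (Λ → Fin (n + 1)) (Λ → Fin (n + 1)) ℂ) v
  have h4 : (H.oA n y)ᴴ * H.oA n y + (H.oB n y)ᴴ * H.oB n y =
      (n : ℂ) • (1 : Matrix (Λ → Fin (n + 1)) (Λ → Fin (n + 1)) ℂ) := by
    rw [siteOp_conjTranspose, H.siteOp_mul, H.schwA_schwA, siteOp_conjTranspose, H.siteOp_mul,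
      H.schwB_schwB, H.siteOp_add, H.siteOp_sub, H.siteOp_smul, H.siteOp_one]
    module
  rw [Matrix.conjTranspose_one, Matrix.one_mul, Matrix.one_mulVec] at h3
  have h5 : (((nrm (H.oA n y *ᵥ v) ^ 2 + nrm (H.oB n y *ᵥ v) ^ 2 : ℝ)) : ℂ) =
      ((n * nrm v ^ 2 : ℝ) : ℂ) := by
    rw [Complex.ofReal_add, ← h1, ← h2, ← dotProduct_add, ← Matrix.add_mulVec, h4,
      Matrix.smul_mulVec, dotProduct_smul, Matrix.one_mulVec, h3]
    push_cast
    rfl
  exact_mod_cast h5

theorem t_triangle (hn : 0 < n) {x y z : Λ} (hxy : x ≠ y) (hyz : y ≠ z) (hxz : x ≠ z)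
    (ψ : (Λ → Fin (n + 1)) → ℂ) :
    nrm (tOp n x z *ᵥ ψ) ≤ nrm (tOp n x y *ᵥ ψ) + nrm (tOp n y z *ᵥ ψ) := by
  have hnR : (0 : ℝ) < n := by exact_mod_cast hn
  have h1 := ab_norm y (tOp n x z *ᵥ ψ)
  have h2 := ab_norm x (tOp n y z *ᵥ ψ)
  have h3 := ab_norm z (tOp n x y *ᵥ ψ)
  have e1 : H.oA n y *ᵥ (tOp n x z *ᵥ ψ) =
      H.oA n x *ᵥ (tOp n y z *ᵥ ψ) + H.oA n z *ᵥ (tOp n x y *ᵥ ψ) := by
    simp only [Matrix.mulVec_mulVec]
    rw [← Matrix.add_mulVec, pluecker_a hxy hyz hxz]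
  have e2 : H.oB n y *ᵥ (tOp n x z *ᵥ ψ) =
      H.oB n x *ᵥ (tOp n y z *ᵥ ψ) + H.oB n z *ᵥ (tOp n x y *ᵥ ψ) := by
    simp only [Matrix.mulVec_mulVec]
    rw [← Matrix.add_mulVec, pluecker_b hxy hyz hxz]
  rw [e1, e2] at h1
  have i1 := nrm_add_le (H.oA n x *ᵥ (tOp n y z *ᵥ ψ)) (H.oA n z *ᵥ (tOp n x y *ᵥ ψ))
  have i2 := nrm_add_le (H.oB n x *ᵥ (tOp n y z *ᵥ ψ)) (H.oB n z *ᵥ (tOp n x y *ᵥ ψ))
  set P := Real.sqrt n * nrm (tOp n y z *ᵥ ψ) with hP
  set Q := Real.sqrt n * nrm (tOp n x y *ᵥ ψ) with hQ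
  have hs : Real.sqrt n ^ 2 = n := Real.sq_sqrt hnR.le
  have hP2 : P ^ 2 = n * nrm (tOp n y z *ᵥ ψ) ^ 2 := by rw [hP, mul_pow, hs]
  have hQ2 : Q ^ 2 = n * nrm (tOp n x y *ᵥ ψ) ^ 2 := by rw [hQ, mul_pow, hs]
  have hspos : 0 < Real.sqrt n := Real.sqrt_pos.2 hnR
  have m := minkowski_aux (P := P) (Q := Q)
    (mul_nonneg hspos.le (nrm_nonneg _)) (mul_nonneg hspos.le (nrm_nonneg _))
    (by rw [h2, hP2]) (by rw [h3, hQ2])
  have m2 : (n : ℝ) * nrm (tOp n x z *ᵥ ψ) ^ 2 ≤ (P + Q) ^ 2 := by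
    rw [← h1]
    refine le_trans (add_le_add (pow_le_pow_left₀ (nrm_nonneg _) i1 2)
      (pow_le_pow_left₀ (nrm_nonneg _) i2 2)) m
  have m3 : (Real.sqrt n * nrm (tOp n x z *ᵥ ψ)) ^ 2 ≤ (P + Q) ^ 2 := by
    rw [mul_pow, hs]; exact m2
  have m4 := abs_le_of_sq_le_sq' m3 (add_nonneg (mul_nonneg hspos.le (nrm_nonneg _))
    (mul_nonneg hspos.le (nrm_nonneg _)))
  have m5 : Real.sqrt n * nrm (tOp n x z *ᵥ ψ) ≤
      Real.sqrt n * (nrm (tOp n x y *ᵥ ψ) + nrm (tOp n y z *ᵥ ψ)) := by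
    calc _ ≤ P + Q := m4.2
      _ = _ := by rw [hP, hQ]; ring
  exact le_of_mul_le_mul_left m5 hspos

open Classical in
/-- The pseudo-metric attached to a vector. -/
noncomputable def dst (n : ℕ) (Λ : Finset Site) (ψ : (Λ → Fin (n + 1)) → ℂ) (x y : Site) : ℝ :=
  if h : x ∈ Λ ∧ y ∈ Λ ∧ x ≠ y then nrm (tOp n ⟨x, h.1⟩ ⟨y, h.2.1⟩ *ᵥ ψ) else 0

theorem dst_coe (ψ : (Λ → Fin (n + 1)) → ℂ) {x y : Λ} (hxy : x ≠ y) :
    dst n Λ ψ x.1 y.1 = nrm (tOp n x y *ᵥ ψ) := by
  unfold dst
  rw [dif_pos ⟨x.2, y.2, fun h => hxy (Subtype.ext h)⟩]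

theorem dst_self (ψ : (Λ → Fin (n + 1)) → ℂ) (x : Site) : dst n Λ ψ x x = 0 := by
  unfold dst
  rw [dif_neg]
  intro h
  exact h.2.2 rfl

theorem dst_nonneg (ψ : (Λ → Fin (n + 1)) → ℂ) (x y : Site) : 0 ≤ dst n Λ ψ x y := by
  unfold dst
  split_ifs
  · exact nrm_nonneg _
  · exact le_rfl

theorem dst_symm (ψ : (Λ → Fin (n + 1)) → ℂ) (x y : Site) : dst n Λ ψ x y = dst n Λ ψ y x := by
  by_cases h : x ∈ Λ ∧ y ∈ Λ ∧ x ≠ y
  · have h1 := dst_coe (n := n) ψ (x := ⟨x, h.1⟩) (y := ⟨y, h.2.1⟩)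
      (fun h3 => h.2.2 (congrArg Subtype.val h3))
    have h2 := dst_coe (n := n) ψ (x := ⟨y, h.2.1⟩) (y := ⟨x, h.1⟩)
      (fun h3 => h.2.2 (congrArg Subtype.val h3).symm)
    simp only at h1 h2
    rw [h1, h2, tOp_symm (x := ⟨y, h.2.1⟩) (y := ⟨x, h.1⟩)
      (fun h3 => h.2.2 (congrArg Subtype.val h3).symm), Matrix.neg_mulVec, nrm_neg]
  · unfold dst
    rw [dif_neg h, dif_neg]
    rintro ⟨h1, h2, h3⟩
    exact h ⟨h2, h1, h3.symm⟩

theorem dst_triangle (hn : 0 < n) (ψ : (Λ → Fin (n + 1)) → ℂ) {x y z : Site} (hx : x ∈ Λ)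
    (hy : y ∈ Λ) (hz : z ∈ Λ) : dst n Λ ψ x z ≤ dst n Λ ψ x y + dst n Λ ψ y z := by
  by_cases hxz : x = z
  · subst hxz
    rw [dst_self]
    exact add_nonneg (dst_nonneg _ _ _) (dst_nonneg _ _ _)
  by_cases hxy : x = y
  · subst hxy
    rw [dst_self, zero_add]
  by_cases hyz : y = z
  · subst hyz
    rw [dst_self, add_zero]
  have e : ∀ {u v : Site} (hu : u ∈ Λ) (hv : v ∈ Λ), u ≠ v →
      (⟨u, hu⟩ : Λ) ≠ ⟨v, hv⟩ := fun hu hv h h2 => h (congrArg Subtype.val h2)
  have h := t_triangle hn (e hx hy hxy) (e hy hz hyz) (e hx hz hxz) ψ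
  have h1 := dst_coe (n := n) ψ (e hx hy hxy)
  have h2 := dst_coe (n := n) ψ (e hy hz hyz)
  have h3 := dst_coe (n := n) ψ (e hx hz hxz)
  simp only at h1 h2 h3
  rw [h1, h2, h3]
  exact h

end Metric

section Compare

variable {n : ℕ} {Λ : Finset Site}

theorem pair_quad {x y : Λ} (hxy : x ≠ y) (ψ : (Λ → Fin (n + 1)) → ℂ) :
    star ψ ⬝ᵥ (((((n : ℂ) / 2) ^ 2) •
      (1 : Matrix (Λ → Fin (n + 1)) (Λ → Fin (n + 1)) ℂ) - H.dotOp n x y) *ᵥ ψ) =
      ((1 / 2 * dst n Λ ψ x.1 y.1 ^ 2 : ℝ) : ℂ) := by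
  rw [tOp_sq hxy, Matrix.smul_mulVec, dotProduct_smul, star_dot, dst_coe ψ hxy]
  push_cast
  rfl

theorem casX_quad (ψ : (Λ → Fin (n + 1)) → ℂ) :
    star ψ ⬝ᵥ (casX n Λ *ᵥ ψ) =
      ((1 / 2 * ∑ x ∈ Λ, ∑ y ∈ Λ, dst n Λ ψ x y ^ 2 : ℝ) : ℂ) := by
  unfold casX
  rw [Matrix.sum_mulVec, dotProduct_sum]
  have h1 : ∀ x y : Λ, star ψ ⬝ᵥ ((if x = y then 0 else
      ((((n : ℂ) / 2) ^ 2) • (1 : Matrix (Λ → Fin (n + 1)) (Λ → Fin (n + 1)) ℂ) -
        H.dotOp n x y)) *ᵥ ψ) = ((1 / 2 * dst n Λ ψ x.1 y.1 ^ 2 : ℝ) : ℂ) := by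
    intro x y
    split_ifs with h
    · subst h
      rw [dst_self, Matrix.zero_mulVec, dotProduct_zero]
      simp
    · exact pair_quad h ψ
  have h2 : ∀ x : Λ, star ψ ⬝ᵥ ((∑ y : Λ, if x = y then 0 else
      ((((n : ℂ) / 2) ^ 2) • (1 : Matrix (Λ → Fin (n + 1)) (Λ → Fin (n + 1)) ℂ) -
        H.dotOp n x y)) *ᵥ ψ) = ((1 / 2 * ∑ y ∈ Λ, dst n Λ ψ x.1 y ^ 2 : ℝ) : ℂ) := by
    intro x
    rw [Matrix.sum_mulVec, dotProduct_sum, Finset.sum_congr rfl fun y _ => h1 x y,
      ← Complex.ofReal_sum, ← Finset.mul_sum,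
      Finset.sum_coe_sort Λ (fun y => dst n Λ ψ x.1 y ^ 2)]
  rw [Finset.sum_congr rfl fun x _ => h2 x, ← Complex.ofReal_sum, ← Finset.mul_sum,
    Finset.sum_coe_sort Λ (fun x => ∑ y ∈ Λ, dst n Λ ψ x y ^ 2)]

theorem hT_quad (ψ : (Λ → Fin (n + 1)) → ℂ) :
    star ψ ⬝ᵥ (hT n Λ *ᵥ ψ) =
      ((1 / 4 * ∑ x ∈ Λ, ∑ y ∈ Λ, (if IsNN x y then dst n Λ ψ x y ^ 2 else 0) : ℝ) : ℂ) := by
  unfold hT
  rw [Matrix.smul_mulVec, dotProduct_smul, Matrix.sum_mulVec, dotProduct_sum]
  have h1 : ∀ x y : Λ, star ψ ⬝ᵥ ((if IsNN x.1 y.1 then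
      ((((n : ℂ) / 2) ^ 2) • (1 : Matrix (Λ → Fin (n + 1)) (Λ → Fin (n + 1)) ℂ) -
        H.dotOp n x y) else 0) *ᵥ ψ) =
      ((1 / 2 * (if IsNN x.1 y.1 then dst n Λ ψ x.1 y.1 ^ 2 else 0) : ℝ) : ℂ) := by
    intro x y
    split_ifs with h
    · exact pair_quad (by rintro rfl; exact isNN_irrefl _ h) ψ
    · rw [Matrix.zero_mulVec, dotProduct_zero]
      simp
  have h2 : ∀ x : Λ, star ψ ⬝ᵥ ((∑ y : Λ, if IsNN x.1 y.1 then
      ((((n : ℂ) / 2) ^ 2) • (1 : Matrix (Λ → Fin (n + 1)) (Λ → Fin (n + 1)) ℂ) -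
        H.dotOp n x y) else 0) *ᵥ ψ) =
      ((1 / 2 * ∑ y ∈ Λ, (if IsNN x.1 y then dst n Λ ψ x.1 y ^ 2 else 0) : ℝ) : ℂ) := by
    intro x
    rw [Matrix.sum_mulVec, dotProduct_sum, Finset.sum_congr rfl fun y _ => h1 x y,
      ← Complex.ofReal_sum, ← Finset.mul_sum,
      Finset.sum_coe_sort Λ (fun y => if IsNN x.1 y then dst n Λ ψ x.1 y ^ 2 else 0)]
  rw [Finset.sum_congr rfl fun x _ => h2 x, ← Complex.ofReal_sum, ← Finset.mul_sum,
    Finset.sum_coe_sort Λ (fun x => ∑ y ∈ Λ, if IsNN x y then dst n Λ ψ x y ^ 2 else 0)]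
  rw [smul_eq_mul]
  push_cast
  ring

theorem casX_isHermitian : (casX n Λ).IsHermitian := by
  rw [Matrix.IsHermitian, casX, Matrix.conjTranspose_sum]
  refine Finset.sum_congr rfl fun x _ => ?_
  rw [Matrix.conjTranspose_sum]
  refine Finset.sum_congr rfl fun y _ => ?_
  split_ifs with h
  · simp
  · rw [tOp_sq h, Matrix.conjTranspose_smul, Matrix.conjTranspose_mul,
      Matrix.conjTranspose_conjTranspose]
    simp

/-- `∑_{x≠y} (S² - S_x·S_y) ≤ 3 L⁵ H̃` on the cube. -/
theorem casX_le_hT (hn : 0 < n) (L : ℕ) :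
    (((3 * (L : ℝ) ^ 5 : ℝ) : ℂ) • hT n (cube L) - casX n (cube L)).PosSemidef := by
  rw [Matrix.posSemidef_iff_dotProduct_mulVec]
  refine ⟨?_, fun ψ => ?_⟩
  · rw [Matrix.IsHermitian, Matrix.conjTranspose_sub, Matrix.conjTranspose_smul,
      hT_isHermitian, casX_isHermitian]
    simp
  · rw [Matrix.sub_mulVec, dotProduct_sub, Matrix.smul_mulVec, dotProduct_smul, hT_quad,
      casX_quad, smul_eq_mul, ← Complex.ofReal_mul, ← Complex.ofReal_sub, Complex.zero_le_real]
    have h := path_sum L (D := dst n (cube L) ψ) (dst_self ψ) (dst_symm ψ) (dst_nonneg ψ)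
      (fun x y z hx hy hz => dst_triangle hn ψ hx hy hz)
    nlinarith

/-- (D2), comparison with a product over sites. -/
theorem Zt_le_prod (hn : 0 < n) {L : ℕ} (hL : 0 < L) {β : ℝ} (hβ : 0 ≤ β) :
    Zt n (cube L) β 0 ≤ 2 * ((n : ℝ) * (L : ℝ) ^ 3 + 1) *
      (∑ j ∈ Finset.range (n + 1), Real.exp (-(n * β / (6 * (L : ℝ) ^ 2))) ^ j) ^ (L ^ 3) := by
  have hLR : (0 : ℝ) < L := by exact_mod_cast hL
  set s : ℝ := β / (3 * (L : ℝ) ^ 5) with hs
  have hs0 : 0 ≤ s := by positivity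
  have hcard : ((cube L).card : ℝ) = (L : ℝ) ^ 3 := by
    rw [cube_eq, card_cube]; push_cast; rfl
  have h1 : Zt n (cube L) β 0 ≤ (trace (NormedSpace.exp (((-s : ℝ) : ℂ) • casX n (cube L)))).re := by
    refine trace_exp_mono (expo_isHermitian' (n := n) (Λ := cube L) β 0) ?_ ?_
    · rw [Matrix.IsHermitian, Matrix.conjTranspose_smul, casX_isHermitian]
      simp
    · have e : ((-s : ℝ) : ℂ) • casX n (cube L) -
          -((β : ℂ) • hT n (cube L) + ((0 : ℝ) : ℂ) • numOp n (cube L)) =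
          (s : ℂ) • (((3 * (L : ℝ) ^ 5 : ℝ) : ℂ) • hT n (cube L) - casX n (cube L)) := by
        have e2 : (β : ℂ) = (s : ℂ) * ((3 * (L : ℝ) ^ 5 : ℝ) : ℂ) := by
          rw [← Complex.ofReal_mul]
          congr 1
          rw [hs]
          field_simp
        rw [e2]
        push_cast
        module
      rw [e]
      exact (casX_le_hT hn L).smul (by simpa using hs0)
  have h2 := trace_exp_casX_le (n := n) (Λ := cube L) s
  have h3 := sum_exp_cj_le (n := n) (Λ := cube L) hs0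
    (z := Real.exp (-s * ((n : ℝ) * (cube L).card / 2))) rfl
  rw [hcard] at h2 h3
  have h4 : Real.exp (-s * ((n : ℝ) * (L : ℝ) ^ 3 / 2)) =
      Real.exp (-(n * β / (6 * (L : ℝ) ^ 2))) := by
    congr 1
    rw [hs]
    field_simp
    ring
  have h5 : (cube L).card = L ^ 3 := by rw [cube_eq, card_cube]
  rw [h4, h5] at h3
  refine h1.trans (h2.trans ?_)
  calc ((n : ℝ) * (L : ℝ) ^ 3 + 1) * ∑ σ : cube L → Fin (n + 1),
        Real.exp (-s * cj n (cube L) (cntS σ)) ≤ ((n : ℝ) * (L : ℝ) ^ 3 + 1) *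
        (2 * (∑ j ∈ Finset.range (n + 1), Real.exp (-(n * β / (6 * (L : ℝ) ^ 2))) ^ j) ^ (L ^ 3)) :=
        mul_le_mul_of_nonneg_left h3 (by positivity)
    _ = _ := by ring

/-- (D2) -/
theorem Zt_le_crude (hn : 0 < n) {L : ℕ} (hL : 0 < L) {β : ℝ} (hβ : 0 < β) :
    Zt n (cube L) β 0 ≤ 2 * ((n : ℝ) * (L : ℝ) ^ 3 + 1) *
      ((1 - Real.exp (-(n * β / (6 * (L : ℝ) ^ 2))))⁻¹) ^ (L ^ 3) := by
  have hLR : (0 : ℝ) < L := by exact_mod_cast hL
  have hnR : (0 : ℝ) < n := by exact_mod_cast hn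
  refine (Zt_le_prod hn hL hβ.le).trans ?_
  set z := Real.exp (-(n * β / (6 * (L : ℝ) ^ 2))) with hz
  have hz0 : 0 < z := Real.exp_pos _
  have hz1 : z < 1 := by
    rw [hz, Real.exp_lt_one_iff]
    have : 0 < n * β / (6 * (L : ℝ) ^ 2) := by positivity
    linarith
  have h1 : ∑ j ∈ Finset.range (n + 1), z ^ j ≤ (1 - z)⁻¹ := by
    rw [← tsum_geometric_of_lt_one hz0.le hz1]
    exact (summable_geometric_of_lt_one hz0.le hz1).sum_le_tsum _ (fun _ _ => by positivity)
  have h2 : (∑ j ∈ Finset.range (n + 1), z ^ j) ^ (L ^ 3) ≤ ((1 - z)⁻¹) ^ (L ^ 3) :=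
    pow_le_pow_left₀ (Finset.sum_nonneg fun _ _ => by positivity) h1 _
  exact mul_le_mul_of_nonneg_left h2 (by positivity)

/-- (D2), logarithmic form. -/
theorem log_Zt_le_crude (hn : 0 < n) {L : ℕ} (hL : 0 < L) {β : ℝ} (hβ : 0 < β)
    (hz : Real.exp (-(n * β / (6 * (L : ℝ) ^ 2))) ≤ 1 / 2) :
    Real.log (Zt n (cube L) β 0) ≤ Real.log (2 * ((n : ℝ) * (L : ℝ) ^ 3 + 1)) +
      2 * (L : ℝ) ^ 3 * Real.exp (-(n * β / (6 * (L : ℝ) ^ 2))) := by
  have h := Real.log_le_log (Zt_pos β 0) (Zt_le_crude hn hL hβ)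
  have hLR : (0 : ℝ) < L := by exact_mod_cast hL
  have hnR : (0 : ℝ) < n := by exact_mod_cast hn
  set z := Real.exp (-(n * β / (6 * (L : ℝ) ^ 2))) with hzdef
  have hz0 : 0 < z := Real.exp_pos _
  have h1 : (0 : ℝ) < 1 - z := by linarith
  rw [Real.log_mul (by positivity) (by positivity), Real.log_pow] at h
  have h2 : Real.log (1 - z)⁻¹ ≤ (1 - z)⁻¹ - 1 := Real.log_le_sub_one_of_pos (by positivity)
  have h3 : (1 - z)⁻¹ - 1 ≤ 2 * z := by
    have : (1 - z)⁻¹ - 1 = z / (1 - z) := by field_simp; ring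
    rw [this, div_le_iff₀ h1]
    nlinarith
  have h4 : ((L ^ 3 : ℕ) : ℝ) * Real.log (1 - z)⁻¹ ≤ ((L ^ 3 : ℕ) : ℝ) * (2 * z) :=
    mul_le_mul_of_nonneg_left (h2.trans h3) (by positivity)
  have h5 : ((L ^ 3 : ℕ) : ℝ) * (2 * z) = 2 * (L : ℝ) ^ 3 * z := by push_cast; ring
  linarith

end Compare

end Vale.Agent.P361.B
end

section

/-!
# P361 LRO, block (6): test functions

`test_le` uses the test function `1` on `E'` and `min (2 a, 1)` elsewhere; `LBn_of_trunc` clips a
potential to `[0, 1]`; `LBn_of_RBn` passes from resistance to conductance.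
-/

namespace Vale.Agent.P361.LRO.Ind

open Finset Vale.Agent.P361.LRO _root_.P361.LRO

noncomputable section

theorem test_minsq (s t : ℝ) : (min (2 * s) 1 - min (2 * t) 1) ^ 2 ≤ 4 * (s - t) ^ 2 := by
  rw [show 4 * (s - t) ^ 2 = (2 * s - 2 * t) ^ 2 by ring, sq_le_sq]
  exact (abs_min_sub_min_le_max (2 * s) 1 (2 * t) 1).trans (by simp)

theorem test_clipsq (s t : ℝ) :
    (max 0 (min s 1) - max 0 (min t 1)) ^ 2 ≤ (s - t) ^ 2 := by
  rw [sq_le_sq]
  refine (abs_max_sub_max_le_max 0 (min s 1) 0 (min t 1)).trans ?_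
  simp only [sub_self, abs_zero]
  refine max_le (abs_nonneg _) ?_
  exact (abs_min_sub_min_le_max s 1 t 1).trans (by simp)

/-- Test function `1` on `E'`, `min (2 a, 1)` elsewhere. -/
theorem test_le {X : Type} [Fintype X] [DecidableEq X] {c : X → X → ℝ} (hs : ∀ u v, c u v = c v u)
    (hc : ∀ u v, 0 ≤ c u v) {E E' G : Finset X} {A : ℝ} (hA : LBn c E' G A)
    (hd : Disjoint E' G) {a : X → ℝ} (h0 : ∀ x, 0 ≤ a x)
    (hE : ∀ x ∈ E, a x = 1) (hG : ∀ x ∈ G, a x = 0) :
    A ≤ 4 * netK c a + ∑ z ∈ (E' \ E).filter (fun z => a z < 1 / 2), ∑ v, c z v := by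
  set B : Finset X := (E' \ E).filter (fun z => a z < 1 / 2) with hB
  set b : X → ℝ := fun x => if x ∈ E' then 1 else min (2 * a x) 1 with hb
  have h1 : A ≤ netK c b := by
    refine hA b (fun x hx => by simp [hb, hx]) (fun x hx => ?_)
    have hx' : x ∉ E' := fun h => (Finset.disjoint_left.mp hd) h hx
    simp [hb, hx', hG x hx]
  have hb01 : ∀ x, 0 ≤ b x ∧ b x ≤ 1 := by
    intro x
    by_cases hx : x ∈ E'
    · simp [hb, hx]
    · simp only [hb, hx, if_false]
      exact ⟨le_min (by linarith [h0 x]) zero_le_one, min_le_right _ _⟩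
  have hbm : ∀ x, x ∉ B → b x = min (2 * a x) 1 := by
    intro x hx
    by_cases hx' : x ∈ E'
    · by_cases hxE : x ∈ E
      · simp only [hb, hx', if_true, hE x hxE]
        norm_num
      · have : ¬ a x < 1 / 2 := fun h => hx (by simp [hB, hx', hxE] ; linarith)
        simp only [hb, hx', if_true]
        rw [min_eq_right]
        push Not at this
        linarith
    · simp [hb, hx']
  have hpt : ∀ x y, (b x - b y) ^ 2 ≤ 4 * (a x - a y) ^ 2 + (if x ∈ B then 1 else 0)
      + (if y ∈ B then 1 else 0) := by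
    intro x y
    have hle1 : (b x - b y) ^ 2 ≤ 1 := by
      have hx := hb01 x
      have hy := hb01 y
      nlinarith [hx.1, hx.2, hy.1, hy.2]
    have hsq : 0 ≤ 4 * (a x - a y) ^ 2 := by positivity
    by_cases hx : x ∈ B
    · rw [if_pos hx]
      have : (0 : ℝ) ≤ if y ∈ B then 1 else 0 := by split_ifs <;> norm_num
      linarith
    · by_cases hy : y ∈ B
      · rw [if_neg hx, if_pos hy]
        linarith
      · rw [if_neg hx, if_neg hy, hbm x hx, hbm y hy]
        linarith [test_minsq (a x) (a y)]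
  have hfirst : ∑ x, ∑ y, c x y * (if x ∈ B then (1 : ℝ) else 0) = ∑ z ∈ B, ∑ v, c z v := by
    rw [← Finset.sum_filter_add_sum_filter_not univ (fun x => x ∈ B)]
    have h2 : ∑ x ∈ univ.filter (fun x => x ∉ B), ∑ y, c x y * (if x ∈ B then (1 : ℝ) else 0) = 0 := by
      refine Finset.sum_eq_zero fun x hx => Finset.sum_eq_zero fun y _ => ?_
      rw [if_neg (Finset.mem_filter.mp hx).2, mul_zero]
    rw [h2, add_zero]
    have h3 : univ.filter (fun x => x ∈ B) = B := by ext x; simp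
    rw [h3]
    refine Finset.sum_congr rfl fun x hx => Finset.sum_congr rfl fun y _ => ?_
    rw [if_pos hx, mul_one]
  have hsecond : ∑ x, ∑ y, c x y * (if y ∈ B then (1 : ℝ) else 0) = ∑ z ∈ B, ∑ v, c z v := by
    rw [Finset.sum_comm, ← hfirst]
    exact Finset.sum_congr rfl fun y _ => Finset.sum_congr rfl fun x _ => by rw [hs x y]
  have hsum : ∑ x, ∑ y, c x y * (b x - b y) ^ 2 ≤
      4 * ∑ x, ∑ y, c x y * (a x - a y) ^ 2 + ∑ x, ∑ y, c x y * (if x ∈ B then (1 : ℝ) else 0)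
        + ∑ x, ∑ y, c x y * (if y ∈ B then (1 : ℝ) else 0) := by
    rw [Finset.mul_sum, ← Finset.sum_add_distrib, ← Finset.sum_add_distrib]
    refine Finset.sum_le_sum fun x _ => ?_
    rw [Finset.mul_sum, ← Finset.sum_add_distrib, ← Finset.sum_add_distrib]
    refine Finset.sum_le_sum fun y _ => ?_
    calc c x y * (b x - b y) ^ 2 ≤ c x y * (4 * (a x - a y) ^ 2 + (if x ∈ B then 1 else 0)
      + (if y ∈ B then 1 else 0)) := mul_le_mul_of_nonneg_left (hpt x y) (hc x y)
      _ = _ := by ring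
  rw [hfirst, hsecond] at hsum
  unfold netK at h1 ⊢
  linarith

/-- Reduction to `0 ≤ a ≤ 1`. -/
theorem LBn_of_trunc {X : Type} [Fintype X] [DecidableEq X] {c : X → X → ℝ}
    (hc : ∀ u v, 0 ≤ c u v) {E G : Finset X} {A : ℝ}
    (h : ∀ a : X → ℝ, (∀ x, 0 ≤ a x ∧ a x ≤ 1) → (∀ x ∈ E, a x = 1) → (∀ x ∈ G, a x = 0) →
      A ≤ netK c a) : LBn c E G A := by
  intro a hE hG
  have h1 : A ≤ netK c (fun x => max 0 (min (a x) 1)) := by
    refine h _ (fun x => ⟨le_max_left _ _, max_le zero_le_one (min_le_right _ _)⟩)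
      (fun x hx => ?_) (fun x hx => ?_)
    · simp [hE x hx]
    · simp [hG x hx]
  refine h1.trans ?_
  unfold netK
  refine mul_le_mul_of_nonneg_left ?_ (by norm_num)
  refine Finset.sum_le_sum fun x _ => Finset.sum_le_sum fun y _ => ?_
  exact mul_le_mul_of_nonneg_left (test_clipsq _ _) (hc x y)

/-- From resistance to conductance. -/
theorem LBn_of_RBn {X : Type} [Fintype X] [DecidableEq X] {c : X → X → ℝ} {E G : Finset X}
    {q : X → ℝ} {R : ℝ} (hR : 0 < R) (hq : ∀ x, x ∉ G → q x = 0) (h : RBn c E q R) :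
    LBn c E G (1 / R) := by
  intro a hE hG
  have h1 := h a hE
  have h2 : ∑ x, q x * a x = 0 := by
    refine Finset.sum_eq_zero fun x _ => ?_
    by_cases hx : x ∈ G
    · rw [hG x hx, mul_zero]
    · rw [hq x hx, zero_mul]
  rw [h2] at h1
  rw [div_le_iff₀ hR]
  linarith

end

end Vale.Agent.P361.LRO.Ind
end

section

/-!
# P361 LRO, block (6), E2: deviation from the window averages (helper155)
-/

namespace Vale.Agent.P361.LRO.Ind

open Finset Vale.Agent.P361.LRO _root_.P361.LRO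

namespace E155

lemma pt_inj {n : ℕ} [NeZero n] (o : Tor n) {a b c a' b' c' : ℕ} (ha : a < n) (hb : b < n)
    (hc : c < n) (ha' : a' < n) (hb' : b' < n) (hc' : c' < n)
    (h : pt n o a b c = pt n o a' b' c') : a = a' ∧ b = b' ∧ c = c' := by
  have h1 := add_left_cancel h
  have key : ∀ {p q : ℕ}, p < n → q < n → ((p : ZMod n) = (q : ZMod n)) → p = q := by
    intro p q hp hq hpq
    have h2 := (ZMod.natCast_eq_natCast_iff' p q n).1 hpq
    rwa [Nat.mod_eq_of_lt hp, Nat.mod_eq_of_lt hq] at h2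
  refine ⟨key ha ha' ?_, key hb hb' ?_, key hc hc' ?_⟩
  · have := congrFun h1 0
    simpa using this
  · have := congrFun h1 1
    simpa using this
  · have := congrFun h1 2
    simpa using this

lemma lay_val {N W m w j : ℕ} (hN : N = m * W) (hw : w < m) (hj : j < W) :
    ((lay N W w j : Fin (N + 1)) : ℕ) = 1 + w * W + j := by
  have h : w * W + j < N := by
    rw [hN]
    calc w * W + j < w * W + W := by omega
      _ = (w + 1) * W := by ring
      _ ≤ m * W := Nat.mul_le_mul_right W (by omega)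
  unfold lay
  rw [dif_pos (by omega)]

/-- restriction to an injective family of nodes -/
lemma sum_inj_le {ι X : Type} [Fintype X] [DecidableEq X] (s : Finset ι) (f : ι → X)
    (hf : ∀ i ∈ s, ∀ j ∈ s, f i = f j → i = j) (g : X → ℝ) (hg : ∀ x, 0 ≤ g x) :
    ∑ i ∈ s, g (f i) ≤ ∑ x, g x := by
  classical
  rw [← Finset.sum_image (g := f) hf]
  exact Finset.sum_le_sum_of_subset_of_nonneg (Finset.subset_univ _) fun x _ _ => hg x

end E155

open E155

end Vale.Agent.P361.LRO.Ind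
end

section

/-!
# P361, block GEO, part 5: the two chaining lemmas in three dimensions

* `vol3`: if the mean of `f` over one `3`-adic subcube of side `3 ^ m` is at most `1 / 16` and the
  Dirichlet energy `E` of `f` on the cube of side `3 ^ M` is at most `3 ^ m / 57600`, then `f` is at
  least `1 / 4` on at most `1024 * E * (1 + 9 * (57600 * E) ^ 2)` points.
* `mean3_sub`: the means over two `3`-adic subcubes of side `3 ^ m` differ by at most
  `30 * √(E / 3 ^ m)`.
-/

namespace Vale.Agent.P361.LRO.Geo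

open Finset Function

/-- Dirichlet energy on the cube `{0, .., n - 1} ^ 3` -/
noncomputable def E3 (n : ℕ) (f : ℕ → ℕ → ℕ → ℝ) : ℝ :=
  ∑ x ∈ range n, ∑ y ∈ range n, ∑ z ∈ range n,
    ((if x + 1 < n then (f (x + 1) y z - f x y z) ^ 2 else 0) +
      (if y + 1 < n then (f x (y + 1) z - f x y z) ^ 2 else 0) +
      (if z + 1 < n then (f x y (z + 1) - f x y z) ^ 2 else 0))

/-- mean over the `3`-adic cube of side `3 ^ m` with corner `3 ^ m * (a, b, c)` -/
noncomputable def mean3 (m : ℕ) (f : ℕ → ℕ → ℕ → ℝ) (a b c : ℕ) : ℝ :=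
  (∑ x ∈ range (3 ^ m), ∑ y ∈ range (3 ^ m), ∑ z ∈ range (3 ^ m),
    f (3 ^ m * a + x) (3 ^ m * b + y) (3 ^ m * c + z)) / 27 ^ m

/-- `f` as a function on space-time points -/
def lift3 (f : ℕ → ℕ → ℕ → ℝ) : Pt → ℝ := fun p => f (p 0) (p 1) (p 2)

lemma sum_box (N : Fin 4 → ℕ) (G : Pt → ℝ) :
    ∑ p ∈ box N, G p = ∑ a ∈ range (N 0), ∑ b ∈ range (N 1), ∑ c ∈ range (N 2),
      ∑ d ∈ range (N 3), G ![a, b, c, d] := by
  have h1 : ∑ p ∈ box N, G p = ∑ q ∈ range (N 0) ×ˢ range (N 1) ×ˢ range (N 2) ×ˢ range (N 3),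
      G ![q.1, q.2.1, q.2.2.1, q.2.2.2] := by
    refine Finset.sum_bij' (fun p _ => (p 0, p 1, p 2, p 3))
      (fun q _ => ![q.1, q.2.1, q.2.2.1, q.2.2.2]) ?_ ?_ ?_ ?_ ?_
    · intro p hp
      rw [mem_box] at hp
      simp only [Finset.mem_product, Finset.mem_range]
      exact ⟨hp 0, hp 1, hp 2, hp 3⟩
    · intro q hq
      simp only [Finset.mem_product, Finset.mem_range] at hq
      rw [mem_box]
      intro i
      fin_cases i
      · exact hq.1
      · exact hq.2.1
      · exact hq.2.2.1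
      · exact hq.2.2.2
    · intro p _
      funext i
      fin_cases i <;> rfl
    · intro q _
      rfl
    · intro p _
      congr 1
      funext i
      fin_cases i <;> rfl
  rw [h1, Finset.sum_product]
  refine Finset.sum_congr rfl fun a _ => ?_
  rw [Finset.sum_product]
  refine Finset.sum_congr rfl fun b _ => ?_
  rw [Finset.sum_product]

lemma En_lift3 (n : ℕ) (f : ℕ → ℕ → ℕ → ℝ) : En ![n, n, n, 1] (lift3 f) = E3 n f := by
  unfold En en
  rw [Fin.sum_univ_four, ← Finset.sum_add_distrib, ← Finset.sum_add_distrib,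
    ← Finset.sum_add_distrib, sum_box]
  unfold E3
  refine Finset.sum_congr rfl fun a _ => Finset.sum_congr rfl fun b _ =>
    Finset.sum_congr rfl fun c _ => ?_
  have hr : range ((![n, n, n, 1] : Fin 4 → ℕ) 3) = {0} := rfl
  rw [hr, Finset.sum_singleton]
  simp [lift3, update]

lemma A_mean3 (m : ℕ) (f : ℕ → ℕ → ℕ → ℝ) (x : Pt) (a b c : ℕ)
    (ha : x 0 / 3 ^ m = a) (hb : x 1 / 3 ^ m = b) (hc : x 2 / 3 ^ m = c) :
    A ![3 ^ m, 3 ^ m, 3 ^ m, 1] (lift3 f) x = mean3 m f a b c := by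
  rw [A_eq]
  unfold mean3
  have e0 : (![3 ^ m, 3 ^ m, 3 ^ m, 1] : Fin 4 → ℕ) 0 = 3 ^ m := rfl
  have e1 : (![3 ^ m, 3 ^ m, 3 ^ m, 1] : Fin 4 → ℕ) 1 = 3 ^ m := rfl
  have e2 : (![3 ^ m, 3 ^ m, 3 ^ m, 1] : Fin 4 → ℕ) 2 = 3 ^ m := rfl
  have e3 : (![3 ^ m, 3 ^ m, 3 ^ m, 1] : Fin 4 → ℕ) 3 = 1 := rfl
  rw [e0, e1, e2, e3, ha, hb, hc]
  have h27 : ((27 : ℝ) ^ m) = (3 ^ m) ^ 3 := by
    rw [← pow_mul, mul_comm, pow_mul]; norm_num
  rw [h27]
  push_cast
  congr 1
  · refine Finset.sum_congr rfl fun i _ => Finset.sum_congr rfl fun j _ =>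
      Finset.sum_congr rfl fun k _ => ?_
    rw [Finset.range_one, Finset.sum_singleton]
    rfl
  · ring

lemma E3_nonneg (n : ℕ) (f : ℕ → ℕ → ℕ → ℝ) : 0 ≤ E3 n f := by
  rw [← En_lift3]
  exact En_nonneg _ _

lemma cube_dvd (M k : ℕ) (hk : k ≤ M) :
    ∀ i : Fin 4, i ≠ 3 → 3 ^ k ∣ (![3 ^ M, 3 ^ M, 3 ^ M, 1] : Fin 4 → ℕ) i := by
  intro i hi
  fin_cases i
  · exact pow_dvd_pow 3 hk
  · exact pow_dvd_pow 3 hk
  · exact pow_dvd_pow 3 hk
  · exact absurd rfl hi

/-- chaining in three dimensions: from a subcube to the whole cube -/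
lemma mean3_sub_top (M m : ℕ) (hm : m ≤ M) (f : ℕ → ℕ → ℕ → ℝ) (a b c : ℕ)
    (ha : 3 ^ m * a < 3 ^ M) (hb : 3 ^ m * b < 3 ^ M) (hc : 3 ^ m * c < 3 ^ M) :
    |mean3 M f 0 0 0 - mean3 m f a b c| ≤ 15 * √(E3 (3 ^ M) f / 3 ^ m) := by
  set x : Pt := ![3 ^ m * a, 3 ^ m * b, 3 ^ m * c, 0] with hx
  have h3 : 0 < 3 ^ m := by positivity
  have hxb : x ∈ box ![3 ^ M, 3 ^ M, 3 ^ M, 1] := by
    rw [mem_box]
    intro i
    fin_cases i
    · exact ha
    · exact hb
    · exact hc
    · exact one_pos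
  have h1 := chain3 ![3 ^ M, 3 ^ M, 3 ^ M, 1] (lift3 f) m M 1 hm one_pos
    (cube_dvd M M le_rfl) (one_dvd _) hxb
  rw [A_mean3 m f x a b c (Nat.mul_div_cancel_left a h3) (Nat.mul_div_cancel_left b h3)
    (Nat.mul_div_cancel_left c h3),
    A_mean3 M f x 0 0 0 (Nat.div_eq_of_lt ha) (Nat.div_eq_of_lt hb) (Nat.div_eq_of_lt hc),
    En_lift3] at h1
  simpa using h1

/-- there is a good scale -/
lemma exists_scale (M : ℕ) (t : ℝ) :
    ∃ k ≤ M, (t ≤ 3 ^ k ∨ k = M) ∧ (k = 0 ∨ (3 : ℝ) ^ k ≤ 3 * t) := by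
  classical
  have hex : ∃ k, t ≤ 3 ^ k ∨ k = M := ⟨M, Or.inr rfl⟩
  refine ⟨Nat.find hex, Nat.find_min' hex (Or.inr rfl), Nat.find_spec hex, ?_⟩
  rcases Nat.eq_zero_or_pos (Nat.find hex) with h | h
  · exact Or.inl h
  · right
    have h1 := Nat.find_min hex (m := Nat.find hex - 1) (by omega)
    rw [not_or, not_le] at h1
    have h2 : (3 : ℝ) ^ Nat.find hex = 3 * 3 ^ (Nat.find hex - 1) := by
      conv_lhs => rw [show Nat.find hex = (Nat.find hex - 1) + 1 by omega]
      rw [pow_succ]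
      ring
    rw [h2]
    linarith [h1.1]

/-- the volume lemma, relative to the mean over the whole cube -/
theorem vol3_mean (M : ℕ) (f : ℕ → ℕ → ℕ → ℝ) :
    (((range (3 ^ M) ×ˢ range (3 ^ M) ×ˢ range (3 ^ M)).filter
        fun p => mean3 M f 0 0 0 + 1 / 8 ≤ f p.1 p.2.1 p.2.2).card : ℝ) ≤
      1024 * E3 (3 ^ M) f * (1 + 9 * (57600 * E3 (3 ^ M) f) ^ 2) := by
  set E := E3 (3 ^ M) f with hE
  have hE0 : 0 ≤ E := E3_nonneg _ _
  set v := mean3 M f 0 0 0 with hv
  obtain ⟨k, hkM, hk1, hk2⟩ := exists_scale M (57600 * E)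
  have hN : ∀ j, (![3 ^ k, 3 ^ k, 3 ^ k, 1] : Fin 4 → ℕ) j ∣
      (![3 ^ M, 3 ^ M, 3 ^ M, 1] : Fin 4 → ℕ) j := by
    intro j
    fin_cases j
    · exact pow_dvd_pow 3 hkM
    · exact pow_dvd_pow 3 hkM
    · exact pow_dvd_pow 3 hkM
    · exact one_dvd _
  have h3k : 0 < 3 ^ k := by positivity
  have hs : ∀ j, (![3 ^ k, 3 ^ k, 3 ^ k, 1] : Fin 4 → ℕ) j ≤ 3 ^ k := by
    intro j
    fin_cases j
    · exact le_rfl
    · exact le_rfl
    · exact le_rfl
    · exact h3k
  have hpos : ∀ j, 0 < (![3 ^ k, 3 ^ k, 3 ^ k, 1] : Fin 4 → ℕ) j := by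
    intro j
    fin_cases j
    · exact h3k
    · exact h3k
    · exact h3k
    · exact one_pos
  have hdist : ∀ x ∈ box ![3 ^ M, 3 ^ M, 3 ^ M, 1],
      |A ![3 ^ k, 3 ^ k, 3 ^ k, 1] (lift3 f) x - v| ≤ 1 / 16 := by
    intro x hx
    have h0 := (mem_box.1 hx) 0
    have h1 := (mem_box.1 hx) 1
    have h2 := (mem_box.1 hx) 2
    have hvx : A ![3 ^ M, 3 ^ M, 3 ^ M, 1] (lift3 f) x = v :=
      A_mean3 M f x 0 0 0 (Nat.div_eq_of_lt h0) (Nat.div_eq_of_lt h1) (Nat.div_eq_of_lt h2)
    rcases hk1 with hk1 | hk1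
    · have hc := chain3 ![3 ^ M, 3 ^ M, 3 ^ M, 1] (lift3 f) k M 1 hkM one_pos
        (cube_dvd M M le_rfl) (one_dvd _) hx
      rw [hvx, En_lift3, ← hE, abs_sub_comm] at hc
      refine hc.trans ?_
      have h4 : √(E / (3 ^ k * ((1 : ℕ) : ℝ))) ≤ 1 / 240 := by
        rw [Real.sqrt_le_left (by norm_num)]
        rw [div_le_iff₀ (by positivity)]
        push_cast
        linarith
      linarith
    · rw [hk1, hvx]
      norm_num
  have hcount := count_block ![3 ^ M, 3 ^ M, 3 ^ M, 1] ![3 ^ k, 3 ^ k, 3 ^ k, 1] (3 ^ k)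
    hpos hN hs (lift3 f) v hdist
  rw [En_lift3, ← hE] at hcount
  have hcard : ((range (3 ^ M) ×ˢ range (3 ^ M) ×ˢ range (3 ^ M)).filter
        fun p => v + 1 / 8 ≤ f p.1 p.2.1 p.2.2).card ≤
      ((box ![3 ^ M, 3 ^ M, 3 ^ M, 1]).filter fun x => v + 1 / 8 ≤ lift3 f x).card := by
    refine Finset.card_le_card_of_injOn (fun p => ![p.1, p.2.1, p.2.2, 0]) ?_ ?_
    · intro p hp
      rw [Finset.mem_coe, Finset.mem_filter] at hp ⊢
      simp only [Finset.mem_product, Finset.mem_range] at hp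
      refine ⟨?_, hp.2⟩
      rw [mem_box]
      intro i
      fin_cases i
      · exact hp.1.1
      · exact hp.1.2.1
      · exact hp.1.2.2
      · exact one_pos
    · intro p _ q _ hpq
      have e0 := congrFun hpq 0
      have e1 := congrFun hpq 1
      have e2 := congrFun hpq 2
      exact Prod.ext e0 (Prod.ext e1 e2)
  have hcard' : (((range (3 ^ M) ×ˢ range (3 ^ M) ×ˢ range (3 ^ M)).filter
        fun p => v + 1 / 8 ≤ f p.1 p.2.1 p.2.2).card : ℝ) ≤
      (((box ![3 ^ M, 3 ^ M, 3 ^ M, 1]).filter fun x => v + 1 / 8 ≤ lift3 f x).card : ℝ) := by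
    exact_mod_cast hcard
  refine hcard'.trans (hcount.trans ?_)
  have hsq : (((3 ^ k : ℕ) : ℝ)) ^ 2 ≤ 1 + 9 * (57600 * E) ^ 2 := by
    push_cast
    rcases hk2 with hk2 | hk2
    · rw [hk2]
      have : 0 ≤ (57600 * E) ^ 2 := sq_nonneg _
      norm_num
      positivity
    · have h5 : (0 : ℝ) < 3 ^ k := by positivity
      have h6 : ((3 : ℝ) ^ k) ^ 2 ≤ (3 * (57600 * E)) ^ 2 := pow_le_pow_left₀ h5.le hk2 2
      nlinarith
  calc 1024 * (((3 ^ k : ℕ) : ℝ)) ^ 2 * E = 1024 * E * (((3 ^ k : ℕ) : ℝ)) ^ 2 := by ring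
    _ ≤ 1024 * E * (1 + 9 * (57600 * E) ^ 2) :=
      mul_le_mul_of_nonneg_left hsq (by positivity)

/-- the volume lemma -/
theorem vol3 (M m : ℕ) (hm : m ≤ M) (f : ℕ → ℕ → ℕ → ℝ) (a b c : ℕ)
    (ha : 3 ^ m * a < 3 ^ M) (hb : 3 ^ m * b < 3 ^ M) (hc : 3 ^ m * c < 3 ^ M)
    (hmean : mean3 m f a b c ≤ 1 / 16) (hE : 57600 * E3 (3 ^ M) f ≤ 3 ^ m) :
    (((range (3 ^ M) ×ˢ range (3 ^ M) ×ˢ range (3 ^ M)).filter
        fun p => 1 / 4 ≤ f p.1 p.2.1 p.2.2).card : ℝ) ≤
      1024 * E3 (3 ^ M) f * (1 + 9 * (57600 * E3 (3 ^ M) f) ^ 2) := by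
  have h1 := mean3_sub_top M m hm f a b c ha hb hc
  have h2 : √(E3 (3 ^ M) f / 3 ^ m) ≤ 1 / 240 := by
    rw [Real.sqrt_le_left (by norm_num), div_le_iff₀ (by positivity)]
    linarith
  have h3 : mean3 M f 0 0 0 ≤ 1 / 8 := by
    have := (abs_le.1 h1).2
    linarith
  refine le_trans ?_ (vol3_mean M f)
  have h4 : ((range (3 ^ M) ×ˢ range (3 ^ M) ×ˢ range (3 ^ M)).filter
        fun p => 1 / 4 ≤ f p.1 p.2.1 p.2.2) ⊆
      ((range (3 ^ M) ×ˢ range (3 ^ M) ×ˢ range (3 ^ M)).filter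
        fun p => mean3 M f 0 0 0 + 1 / 8 ≤ f p.1 p.2.1 p.2.2) := by
    intro p hp
    rw [Finset.mem_filter] at hp ⊢
    exact ⟨hp.1, by linarith [hp.2]⟩
  exact_mod_cast Finset.card_le_card h4

/-- Cauchy-Schwarz for the mean -/
lemma mean3_sq_le (m : ℕ) (f : ℕ → ℕ → ℕ → ℝ) (a b c : ℕ) :
    (mean3 m f a b c) ^ 2 ≤ mean3 m (fun x y z => f x y z ^ 2) a b c := by
  unfold mean3
  have h27 : (0 : ℝ) < 27 ^ m := by positivity
  have h3 : ((27 : ℝ) ^ m) = (3 ^ m) * (3 ^ m) * (3 ^ m) := by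
    rw [show (27 : ℝ) = 3 * 3 * 3 by norm_num, mul_pow, mul_pow]
  have hcs : (∑ x ∈ range (3 ^ m), ∑ y ∈ range (3 ^ m), ∑ z ∈ range (3 ^ m),
      f (3 ^ m * a + x) (3 ^ m * b + y) (3 ^ m * c + z)) ^ 2 ≤
      27 ^ m * ∑ x ∈ range (3 ^ m), ∑ y ∈ range (3 ^ m), ∑ z ∈ range (3 ^ m),
      f (3 ^ m * a + x) (3 ^ m * b + y) (3 ^ m * c + z) ^ 2 := by
    have h4 := sq_sum_le_card_mul_sum_sq
      (s := range (3 ^ m) ×ˢ range (3 ^ m) ×ˢ range (3 ^ m))
      (f := fun p => f (3 ^ m * a + p.1) (3 ^ m * b + p.2.1) (3 ^ m * c + p.2.2))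
    rw [Finset.sum_product, Finset.sum_product] at h4
    simp only [Finset.sum_product] at h4
    rw [Finset.card_product, Finset.card_product, Finset.card_range] at h4
    push_cast at h4
    rw [h3, mul_assoc (3 ^ m : ℝ)]
    exact h4
  rw [div_pow, div_le_div_iff₀ (by positivity) h27]
  nlinarith

end Vale.Agent.P361.LRO.Geo
end

section

/-!
# P361 LRO, block (6): time means and the volume lemma on window averages

`U x y z w` = window averages, `ub` = mean over the `T` windows.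
-/

namespace Vale.Agent.P361.LRO.Ind

open Finset Vale.Agent.P361.LRO Vale.Agent.P361.LRO.Geo

/-- time mean over `T` windows -/
noncomputable def ub (T : ℕ) (U : ℕ → ℕ → ℕ → ℕ → ℝ) (x y z : ℕ) : ℝ :=
  (1 / T : ℝ) * ∑ w ∈ range T, U x y z w

lemma sum_if_lt (S : ℕ) (g : ℕ → ℝ) :
    ∑ x ∈ range S, (if x + 1 < S then g x else 0) = ∑ x ∈ range (S - 1), g x := by
  rcases S with _ | S
  · simp
  · rw [Finset.sum_range_succ]
    simp only [Nat.add_lt_add_iff_right, lt_self_iff_false, if_false, add_zero,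
      Nat.add_sub_cancel]
    refine Finset.sum_congr rfl fun x hx => ?_
    rw [Finset.mem_range] at hx
    rw [if_pos hx]

lemma E3_eq (S : ℕ) (f : ℕ → ℕ → ℕ → ℝ) :
    E3 S f =
      (∑ x ∈ range (S - 1), ∑ y ∈ range S, ∑ z ∈ range S, (f (x + 1) y z - f x y z) ^ 2) +
      (∑ x ∈ range S, ∑ y ∈ range (S - 1), ∑ z ∈ range S, (f x (y + 1) z - f x y z) ^ 2) +
      (∑ x ∈ range S, ∑ y ∈ range S, ∑ z ∈ range (S - 1), (f x y (z + 1) - f x y z) ^ 2) := by
  unfold E3
  simp only [Finset.sum_add_distrib]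
  congr 1
  · congr 1
    · rw [← sum_if_lt S fun x => ∑ y ∈ range S, ∑ z ∈ range S, (f (x + 1) y z - f x y z) ^ 2]
      refine Finset.sum_congr rfl fun x _ => ?_
      by_cases h : x + 1 < S
      · simp only [if_pos h]
      · simp only [if_neg h, Finset.sum_const_zero]
    · refine Finset.sum_congr rfl fun x _ => ?_
      rw [← sum_if_lt S fun y => ∑ z ∈ range S, (f x (y + 1) z - f x y z) ^ 2]
      refine Finset.sum_congr rfl fun y _ => ?_
      by_cases h : y + 1 < S
      · simp only [if_pos h]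
      · simp only [if_neg h, Finset.sum_const_zero]
  · refine Finset.sum_congr rfl fun x _ => Finset.sum_congr rfl fun y _ => ?_
    rw [← sum_if_lt S fun z => (f x y (z + 1) - f x y z) ^ 2]

lemma avg_sq (T : ℕ) (g : ℕ → ℝ) :
    ((1 / T : ℝ) * ∑ w ∈ range T, g w) ^ 2 ≤ (1 / T : ℝ) * ∑ w ∈ range T, g w ^ 2 := by
  rcases Nat.eq_zero_or_pos T with h | h
  · subst h; simp
  · have hT : (0 : ℝ) < T := by exact_mod_cast h
    have h1 := sq_sum_le_card_mul_sum_sq (s := range T) (f := g)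
    rw [Finset.card_range] at h1
    rw [mul_pow, one_div, inv_pow, ← one_div, ← one_div, div_mul_eq_mul_div, one_mul,
      div_mul_eq_mul_div, one_mul, div_le_div_iff₀ (by positivity) hT]
    nlinarith

lemma ub_sub_sq (T : ℕ) (U : ℕ → ℕ → ℕ → ℕ → ℝ) (x y z x' y' z' : ℕ) :
    (ub T U x y z - ub T U x' y' z') ^ 2 ≤
      (1 / T : ℝ) * ∑ w ∈ range T, (U x y z w - U x' y' z' w) ^ 2 := by
  unfold ub
  rw [← mul_sub, ← Finset.sum_sub_distrib]
  exact avg_sq T _

/-- (T1) -/
theorem E3_ub_le (S T : ℕ) (U : ℕ → ℕ → ℕ → ℕ → ℝ) : E3 S (ub T U) ≤ Esp S T U / T := by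
  rw [E3_eq, div_eq_mul_one_div, mul_comm]
  unfold Esp
  rw [mul_add, mul_add]
  simp only [Finset.mul_sum (a := (1 / T : ℝ))]
  refine add_le_add (add_le_add ?_ ?_) ?_
  · refine Finset.sum_le_sum fun x _ => Finset.sum_le_sum fun y _ => Finset.sum_le_sum fun z _ => ?_
    rw [← Finset.mul_sum]
    exact ub_sub_sq T U _ _ _ _ _ _
  · refine Finset.sum_le_sum fun x _ => Finset.sum_le_sum fun y _ => Finset.sum_le_sum fun z _ => ?_
    rw [← Finset.mul_sum]
    exact ub_sub_sq T U _ _ _ _ _ _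
  · refine Finset.sum_le_sum fun x _ => Finset.sum_le_sum fun y _ => Finset.sum_le_sum fun z _ => ?_
    rw [← Finset.mul_sum]
    exact ub_sub_sq T U _ _ _ _ _ _

lemma pav_full (T : ℕ) (g : ℕ → ℝ) {a : ℕ} (ha : a < T) :
    pav T g a = (1 / T : ℝ) * ∑ w ∈ range T, g w := by
  unfold pav
  rw [Nat.div_eq_of_lt ha]
  simp only [mul_zero, zero_add]
  ring

lemma len_eq (T : ℕ) (g : ℕ → ℝ) : len T g = ∑ w ∈ range (T - 1), (g (w + 1) - g w) ^ 2 := by
  unfold len
  exact sum_if_lt T fun w => (g (w + 1) - g w) ^ 2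

lemma time_poincare (T : ℕ) (g : ℕ → ℝ) :
    ∑ w ∈ range T, (g w - (1 / T : ℝ) * ∑ v ∈ range T, g v) ^ 2 ≤
      (T : ℝ) ^ 2 * ∑ w ∈ range (T - 1), (g (w + 1) - g w) ^ 2 := by
  rcases Nat.eq_zero_or_pos T with h | h
  · subst h; simp
  · have h1 := pav_sub_sum h 1 g
    rw [mul_one, len_eq] at h1
    refine le_trans (le_of_eq ?_) h1
    refine Finset.sum_congr rfl fun w hw => ?_
    rw [Finset.mem_range] at hw
    rw [pav_full T g hw, ← neg_sq, neg_sub]

lemma time_poincare_zero {T : ℕ} (hT : 0 < T) (g : ℕ → ℝ) :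
    (g 0 - (1 / T : ℝ) * ∑ v ∈ range T, g v) ^ 2 ≤
      (T : ℝ) * ∑ w ∈ range (T - 1), (g (w + 1) - g w) ^ 2 := by
  have h1 := pav_sub_pt hT g 0
  rw [pav_full T g hT, Nat.zero_div, mul_zero] at h1
  simp only [zero_add] at h1
  rw [sum_if_lt T fun w => (g (w + 1) - g w) ^ 2] at h1
  rw [← neg_sq, neg_sub]
  exact h1

/-- (T2) -/
theorem sum_sub_ub_sq (S T : ℕ) (U : ℕ → ℕ → ℕ → ℕ → ℝ) :
    ∑ x ∈ range S, ∑ y ∈ range S, ∑ z ∈ range S, ∑ w ∈ range T,
      (U x y z w - ub T U x y z) ^ 2 ≤ (T : ℝ) ^ 2 * Eti S T U := by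
  unfold Eti
  simp only [Finset.mul_sum (a := (T : ℝ) ^ 2)]
  refine Finset.sum_le_sum fun x _ => Finset.sum_le_sum fun y _ => Finset.sum_le_sum fun z _ => ?_
  rw [← Finset.mul_sum]
  exact time_poincare T (U x y z)

/-- (T3) -/
theorem sum_zero_sub_ub_sq (S : ℕ) {T : ℕ} (hT : 0 < T) (U : ℕ → ℕ → ℕ → ℕ → ℝ) :
    ∑ x ∈ range S, ∑ y ∈ range S, ∑ z ∈ range S,
      (U x y z 0 - ub T U x y z) ^ 2 ≤ (T : ℝ) * Eti S T U := by
  unfold Eti
  simp only [Finset.mul_sum (a := (T : ℝ))]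
  refine Finset.sum_le_sum fun x _ => Finset.sum_le_sum fun y _ => Finset.sum_le_sum fun z _ => ?_
  rw [← Finset.mul_sum]
  exact time_poincare_zero hT (U x y z)

lemma Esp_nonneg (S T : ℕ) (U : ℕ → ℕ → ℕ → ℕ → ℝ) : 0 ≤ Esp S T U := by
  unfold Esp
  positivity

lemma Eti_nonneg (S T : ℕ) (U : ℕ → ℕ → ℕ → ℕ → ℝ) : 0 ≤ Eti S T U := by
  unfold Eti
  positivity

lemma Eti_mono {S S' : ℕ} (h : S ≤ S') (T : ℕ) (U : ℕ → ℕ → ℕ → ℕ → ℝ) :
    Eti S T U ≤ Eti S' T U := by
  unfold Eti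
  have hs : range S ⊆ range S' := Finset.range_mono h
  refine (Finset.sum_le_sum_of_subset_of_nonneg hs fun _ _ _ => by positivity).trans ?_
  refine Finset.sum_le_sum fun x _ => ?_
  refine (Finset.sum_le_sum_of_subset_of_nonneg hs fun _ _ _ => by positivity).trans ?_
  refine Finset.sum_le_sum fun y _ => ?_
  exact Finset.sum_le_sum_of_subset_of_nonneg hs fun _ _ _ => by positivity

lemma E3_one_sub (S : ℕ) (f : ℕ → ℕ → ℕ → ℝ) :
    E3 S (fun x y z => 1 - f x y z) = E3 S f := by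
  unfold E3
  refine Finset.sum_congr rfl fun x _ => Finset.sum_congr rfl fun y _ =>
    Finset.sum_congr rfl fun z _ => ?_
  have e : ∀ a b : ℝ, (1 - a - (1 - b)) ^ 2 = (a - b) ^ 2 := fun a b => by ring
  rw [e, e, e]

lemma sum_ite_card (S : ℕ) (p : ℕ → ℕ → ℕ → Prop) [∀ x y z, Decidable (p x y z)] :
    ∑ x ∈ range S, ∑ y ∈ range S, ∑ z ∈ range S, (if p x y z then (1 : ℝ) else 0) =
      (((range S ×ˢ range S ×ˢ range S).filter fun q => p q.1 q.2.1 q.2.2).card : ℝ) := by
  rw [Finset.card_filter]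
  push_cast
  rw [Finset.sum_product]
  refine Finset.sum_congr rfl fun x _ => ?_
  rw [Finset.sum_product]

/-- (T4) the volume lemma on window averages -/
theorem cnt_le (M m : ℕ) (hm : m ≤ M) {T : ℕ} (hT : 0 < T) (U : ℕ → ℕ → ℕ → ℕ → ℝ)
    (a b c : ℕ) (ha : 3 ^ m * a < 3 ^ M) (hb : 3 ^ m * b < 3 ^ M) (hc : 3 ^ m * c < 3 ^ M)
    (hmean : mean3 m (fun x y z => 1 - ub T U x y z) a b c ≤ 1 / 16)
    (hE : 57600 * (Esp (3 ^ M) T U / T) ≤ 3 ^ m) :
    cnt (3 ^ M) T (5 / 8) U ≤
      1024 * Esp (3 ^ M) T U * (1 + 9 * (57600 * (Esp (3 ^ M) T U / T)) ^ 2) +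
        64 * ((T : ℝ) ^ 2 * Eti (3 ^ M) T U) := by
  have hT' : (0 : ℝ) < T := by exact_mod_cast hT
  set e := Esp (3 ^ M) T U / T with he
  have he0 : 0 ≤ e := div_nonneg (Esp_nonneg _ _ _) hT'.le
  have hE3 : E3 (3 ^ M) (fun x y z => 1 - ub T U x y z) ≤ e := by
    rw [E3_one_sub]
    exact E3_ub_le _ _ _
  have hE30 : 0 ≤ E3 (3 ^ M) (fun x y z => 1 - ub T U x y z) := E3_nonneg _ _
  have hvol := vol3 M m hm (fun x y z => 1 - ub T U x y z) a b c ha hb hc hmean
    ((mul_le_mul_of_nonneg_left hE3 (by norm_num)).trans hE)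
  set F := E3 (3 ^ M) (fun x y z => 1 - ub T U x y z) with hF
  have hvol' : (((range (3 ^ M) ×ˢ range (3 ^ M) ×ˢ range (3 ^ M)).filter
        fun p => 1 / 4 ≤ 1 - ub T U p.1 p.2.1 p.2.2).card : ℝ) ≤
      1024 * e * (1 + 9 * (57600 * e) ^ 2) := by
    refine hvol.trans ?_
    gcongr
  have hpt : ∀ x y z w : ℕ, (if U x y z w < 5 / 8 then (1 : ℝ) else 0) ≤
      (if 1 / 4 ≤ 1 - ub T U x y z then (1 : ℝ) else 0) + 64 * (U x y z w - ub T U x y z) ^ 2 := by
    intro x y z w
    by_cases h1 : U x y z w < 5 / 8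
    · rw [if_pos h1]
      by_cases h2 : 1 / 4 ≤ 1 - ub T U x y z
      · rw [if_pos h2]
        nlinarith [sq_nonneg (U x y z w - ub T U x y z)]
      · rw [if_neg h2]
        have h3 : 1 / 8 ≤ ub T U x y z - U x y z w := by linarith
        nlinarith
    · rw [if_neg h1]
      have : 0 ≤ (if 1 / 4 ≤ 1 - ub T U x y z then (1 : ℝ) else 0) := by split_ifs <;> norm_num
      positivity
  unfold cnt
  calc ∑ x ∈ range (3 ^ M), ∑ y ∈ range (3 ^ M), ∑ z ∈ range (3 ^ M), ∑ w ∈ range T,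
        (if U x y z w < 5 / 8 then (1 : ℝ) else 0)
      ≤ ∑ x ∈ range (3 ^ M), ∑ y ∈ range (3 ^ M), ∑ z ∈ range (3 ^ M), ∑ w ∈ range T,
        ((if 1 / 4 ≤ 1 - ub T U x y z then (1 : ℝ) else 0)
          + 64 * (U x y z w - ub T U x y z) ^ 2) :=
        Finset.sum_le_sum fun x _ => Finset.sum_le_sum fun y _ => Finset.sum_le_sum fun z _ =>
          Finset.sum_le_sum fun w _ => hpt x y z w
    _ = (T : ℝ) * (∑ x ∈ range (3 ^ M), ∑ y ∈ range (3 ^ M), ∑ z ∈ range (3 ^ M),
          (if 1 / 4 ≤ 1 - ub T U x y z then (1 : ℝ) else 0)) +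
        64 * ∑ x ∈ range (3 ^ M), ∑ y ∈ range (3 ^ M), ∑ z ∈ range (3 ^ M), ∑ w ∈ range T,
          (U x y z w - ub T U x y z) ^ 2 := by
        simp only [Finset.sum_add_distrib, Finset.sum_const, Finset.card_range, nsmul_eq_mul,
          Finset.mul_sum]
    _ ≤ (T : ℝ) * (1024 * e * (1 + 9 * (57600 * e) ^ 2)) +
        64 * ((T : ℝ) ^ 2 * Eti (3 ^ M) T U) := by
        refine add_le_add (mul_le_mul_of_nonneg_left ?_ hT'.le)
          (mul_le_mul_of_nonneg_left (sum_sub_ub_sq _ _ _) (by norm_num))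
        rw [sum_ite_card (3 ^ M) fun x y z => 1 / 4 ≤ 1 - ub T U x y z]
        exact hvol'
    _ = 1024 * Esp (3 ^ M) T U * (1 + 9 * (57600 * e) ^ 2) +
        64 * ((T : ℝ) ^ 2 * Eti (3 ^ M) T U) := by
        have : (T : ℝ) * e = Esp (3 ^ M) T U := by
          rw [he]; field_simp
        rw [← this]; ring

/-- the mean of `1 - ub` over a cube is small if the time mean is close to `U` in window `0` and
`U` is close to `1` there -/
lemma mean3_one_sub_ub (m : ℕ) {T : ℕ} (hT : 0 < T) (U : ℕ → ℕ → ℕ → ℕ → ℝ)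
    (h0 : ∑ x ∈ range (3 ^ m), ∑ y ∈ range (3 ^ m), ∑ z ∈ range (3 ^ m),
      (1 - U x y z 0) ^ 2 ≤ 27 ^ m / 1024)
    (h1 : (T : ℝ) * Eti (3 ^ m) T U ≤ 27 ^ m / 1024) :
    mean3 m (fun x y z => 1 - ub T U x y z) 0 0 0 ≤ 1 / 16 := by
  have h27 : (0 : ℝ) < 27 ^ m := by positivity
  have h2 := mean3_sq_le m (fun x y z => 1 - ub T U x y z) 0 0 0
  have h3 : mean3 m (fun x y z => (1 - ub T U x y z) ^ 2) 0 0 0 ≤ 1 / 256 := by
    unfold mean3
    simp only [mul_zero, zero_add]
    rw [div_le_iff₀ h27]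
    have h4 := sum_zero_sub_ub_sq (3 ^ m) hT U
    calc ∑ x ∈ range (3 ^ m), ∑ y ∈ range (3 ^ m), ∑ z ∈ range (3 ^ m),
          (1 - ub T U x y z) ^ 2
        ≤ ∑ x ∈ range (3 ^ m), ∑ y ∈ range (3 ^ m), ∑ z ∈ range (3 ^ m),
          (2 * (1 - U x y z 0) ^ 2 + 2 * (U x y z 0 - ub T U x y z) ^ 2) := by
          refine Finset.sum_le_sum fun x _ => Finset.sum_le_sum fun y _ =>
            Finset.sum_le_sum fun z _ => ?_
          nlinarith [sq_nonneg ((1 - U x y z 0) - (U x y z 0 - ub T U x y z))]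
      _ = 2 * (∑ x ∈ range (3 ^ m), ∑ y ∈ range (3 ^ m), ∑ z ∈ range (3 ^ m),
            (1 - U x y z 0) ^ 2) +
          2 * ∑ x ∈ range (3 ^ m), ∑ y ∈ range (3 ^ m), ∑ z ∈ range (3 ^ m),
            (U x y z 0 - ub T U x y z) ^ 2 := by
          simp only [Finset.sum_add_distrib, Finset.mul_sum]
      _ ≤ 1 / 256 * 27 ^ m := by linarith
  have h5 : (mean3 m (fun x y z => 1 - ub T U x y z) 0 0 0) ^ 2 ≤ (1 / 16) ^ 2 := by
    refine h2.trans (h3.trans (by norm_num))
  exact le_trans (le_abs_self _) (abs_le_of_sq_le_sq h5 (by norm_num))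

end Vale.Agent.P361.LRO.Ind
end

section

/-!
# P361 LRO, block (6), package C2 (helper494): `chain3`, `start3`

Wrappers of the volume lemma of `TimeMean.lean` (helper358) in the form of PLAN.txt.
-/

namespace Vale.Agent.P361.LRO.Ind

open Finset Vale.Agent.P361.LRO Vale.Agent.P361.LRO.Geo

private lemma mean3_ub_le (r T : ℕ) (U : ℕ → ℕ → ℕ → ℕ → ℝ)
    (h : (∑ x ∈ range (3 ^ r), ∑ y ∈ range (3 ^ r), ∑ z ∈ range (3 ^ r),
      (1 - (1 / (T : ℝ)) * ∑ w ∈ range T, U x y z w) ≤ 27 ^ r / 16)) :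
    mean3 r (fun x y z => 1 - ub T U x y z) 0 0 0 ≤ 1 / 16 := by
  have h27 : (0 : ℝ) < 27 ^ r := by positivity
  unfold mean3 ub
  simp only [mul_zero, zero_add]
  rw [div_le_iff₀ h27]
  linarith

/-- time average + Poincaré in time: `U < 5/8` forces `|U - Ubar| > 1/8` or `1 - Ubar ≥ 1/4`. -/
theorem chain3 : ∃ C : ℝ, 0 < C ∧ ∀ (r s T : ℕ), 0 < T → r ≤ s → ∀ U : ℕ → ℕ → ℕ → ℕ → ℝ,
    (∑ x ∈ range (3 ^ r), ∑ y ∈ range (3 ^ r), ∑ z ∈ range (3 ^ r),
      (1 - (1 / (T : ℝ)) * ∑ w ∈ range T, U x y z w) ≤ 27 ^ r / 16) →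
    C * E4 (3 ^ s) T U ≤ T * 3 ^ r →
    cnt (3 ^ s) T (5 / 8) U ≤
      C * (T ^ 2 * E4 (3 ^ s) T U + (E4 (3 ^ s) T U) ^ 3 / T ^ 2) := by
  refine ⟨40000000000000, by norm_num, fun r s T hT hrs U hmean hE => ?_⟩
  have hT' : (0 : ℝ) < T := by exact_mod_cast hT
  have hT1 : (1 : ℝ) ≤ T := by exact_mod_cast hT
  have h3 : 3 ^ r * 0 < 3 ^ s := by rw [mul_zero]; positivity
  have hsp := Esp_nonneg (3 ^ s) T U
  have hti := Eti_nonneg (3 ^ s) T U
  have hE4 : E4 (3 ^ s) T U = Esp (3 ^ s) T U + Eti (3 ^ s) T U := rfl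
  set A := Esp (3 ^ s) T U with hA
  set B := Eti (3 ^ s) T U with hB
  rw [hE4] at hE ⊢
  have hcond : 57600 * (A / T) ≤ 3 ^ r := by
    rw [← mul_div_assoc, div_le_iff₀ hT']
    nlinarith
  have hmain := cnt_le s r hrs hT U 0 0 0 h3 h3 h3 (mean3_ub_le r T U hmean) hcond
  rw [← hA, ← hB] at hmain
  refine hmain.trans ?_
  have hT2 : (1 : ℝ) ≤ T ^ 2 := one_le_pow₀ hT1
  have e1 : 1024 * A * (1 + 9 * (57600 * (A / T)) ^ 2) + 64 * ((T : ℝ) ^ 2 * B) =
      1024 * A + 64 * ((T : ℝ) ^ 2 * B) + 30576476160000 * (A ^ 3 / T ^ 2) := by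
    field_simp
    ring
  rw [e1]
  have h4 : A ^ 3 / T ^ 2 ≤ (A + B) ^ 3 / T ^ 2 := by gcongr; linarith
  have h5 : A ≤ T ^ 2 * A := le_mul_of_one_le_left hsp hT2
  have h6 : 0 ≤ (A + B) ^ 3 / (T : ℝ) ^ 2 := by positivity
  have h7 : 0 ≤ (T : ℝ) ^ 2 * B := by positivity
  have h8 : 0 ≤ (T : ℝ) ^ 2 * A := by positivity
  have h9 : (T : ℝ) ^ 2 * (A + B) = T ^ 2 * A + T ^ 2 * B := by ring
  rw [h9]
  linarith

/-- start from the time window `0` (used with `3 ^ r = w`). -/
theorem start3 : ∃ C : ℝ, 0 < C ∧ ∀ (r s T : ℕ), 0 < T → r ≤ s → ∀ U : ℕ → ℕ → ℕ → ℕ → ℝ,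
    C * (∑ x ∈ range (3 ^ r), ∑ y ∈ range (3 ^ r), ∑ z ∈ range (3 ^ r), (1 - U x y z 0) ^ 2)
      ≤ 27 ^ r →
    C * T * E4 (3 ^ s) T U ≤ 27 ^ r →
    (∑ x ∈ range (3 ^ r), ∑ y ∈ range (3 ^ r), ∑ z ∈ range (3 ^ r),
      (1 - (1 / (T : ℝ)) * ∑ w ∈ range T, U x y z w) ≤ 27 ^ r / 16) := by
  refine ⟨1024, by norm_num, fun r s T hT hrs U h0 hE => ?_⟩
  have h27 : (0 : ℝ) < 27 ^ r := by positivity
  have hsp := Esp_nonneg (3 ^ s) T U
  have hS : 3 ^ r ≤ 3 ^ s := Nat.pow_le_pow_right (by norm_num) hrs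
  have hti : Eti (3 ^ r) T U ≤ E4 (3 ^ s) T U :=
    (Eti_mono hS T U).trans (by unfold E4; linarith)
  have h1 : (T : ℝ) * Eti (3 ^ r) T U ≤ 27 ^ r / 1024 := by
    have : (T : ℝ) * Eti (3 ^ r) T U ≤ T * E4 (3 ^ s) T U :=
      mul_le_mul_of_nonneg_left hti (Nat.cast_nonneg _)
    linarith
  have h := mean3_one_sub_ub r hT U (by linarith) h1
  unfold mean3 ub at h
  simp only [mul_zero, zero_add] at h
  rw [div_le_iff₀ h27] at h
  linarith

end Vale.Agent.P361.LRO.Ind
end

section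

/-!
# P361 LRO stage 3, E2: deviation from the cell averages (whole circle)
-/

namespace Vale.Agent.P361.LRO.Ind3

open Finset Vale.Agent.P361.LRO _root_.P361.LRO Vale.Agent.P361.LRO.Ind

namespace E760

/-- Poincaré inequality for four groups on the path `2 - 0 - 3 - 1`. -/
theorem group_var {ι : Type} (P : Finset ι) (hP : 0 < P.card) (g : ℕ → ι → ℝ) :
    ∑ i ∈ range 4, ∑ u ∈ P, (g i u - (1 / (4 * (P.card : ℝ))) * ∑ j ∈ range 4, ∑ v ∈ P, g j v) ^ 2
      ≤ (8 / (P.card : ℝ)) * ((∑ u ∈ P, ∑ v ∈ P, (g 0 u - g 2 v) ^ 2)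
        + (∑ u ∈ P, ∑ v ∈ P, (g 0 u - g 3 v) ^ 2) + ∑ u ∈ P, ∑ v ∈ P, (g 1 u - g 3 v) ^ 2) := by
  set Q : ℝ := (P.card : ℝ) with hQ
  have hQ0 : 0 < Q := by rw [hQ]; exact_mod_cast hP
  set s : ℕ → ℝ := fun i => ∑ u ∈ P, g i u with hs
  set q : ℕ → ℝ := fun i => ∑ u ∈ P, g i u ^ 2 with hq
  have hE : ∀ i j, ∑ u ∈ P, ∑ v ∈ P, (g i u - g j v) ^ 2 = Q * q i + Q * q j - 2 * (s i * s j) := by
    intro i j
    have h1 : ∀ u ∈ P, ∑ v ∈ P, (g i u - g j v) ^ 2 = Q * g i u ^ 2 - 2 * g i u * s j + q j := by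
      intro u _
      have h2 : ∀ v ∈ P, (g i u - g j v) ^ 2 = g i u ^ 2 - 2 * g i u * g j v + g j v ^ 2 :=
        fun v _ => by ring
      rw [sum_congr rfl h2, sum_add_distrib, sum_sub_distrib, sum_const, nsmul_eq_mul, ← mul_sum]
    rw [sum_congr rfl h1, sum_add_distrib, sum_sub_distrib, ← mul_sum, sum_const, nsmul_eq_mul]
    have h3 : ∑ u ∈ P, 2 * g i u * s j = 2 * (s i * s j) := by
      rw [← sum_mul, ← mul_sum]; ring
    rw [h3]
    ring
  have hcs : ∀ i, s i ^ 2 ≤ Q * q i := by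
    intro i
    have := sq_sum_le_card_mul_sum_sq (s := P) (f := g i)
    simpa [hs, hq, hQ] using this
  set U : ℝ := (1 / (4 * Q)) * ∑ j ∈ range 4, s j with hU
  have hL : ∀ i, ∑ u ∈ P, (g i u - U) ^ 2 = q i - 2 * U * s i + Q * U ^ 2 := by
    intro i
    have h2 : ∀ u ∈ P, (g i u - U) ^ 2 = g i u ^ 2 - 2 * U * g i u + U ^ 2 := fun u _ => by ring
    rw [sum_congr rfl h2, sum_add_distrib, sum_sub_distrib, sum_const, nsmul_eq_mul, ← mul_sum]
  rw [sum_congr rfl fun i _ => hL i, hE, hE, hE]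
  have hUs : 4 * Q * U = s 0 + s 1 + s 2 + s 3 := by
    rw [hU]
    simp only [sum_range_succ, sum_range_zero, zero_add]
    field_simp
  simp only [sum_range_succ, sum_range_zero, zero_add]
  rw [div_mul_eq_mul_div, le_div_iff₀ hQ0]
  have c0 := hcs 0
  have c1 := hcs 1
  have c2 := hcs 2
  have c3 := hcs 3
  have e1 : (q 0 - 2 * U * s 0 + Q * U ^ 2 + (q 1 - 2 * U * s 1 + Q * U ^ 2)
      + (q 2 - 2 * U * s 2 + Q * U ^ 2) + (q 3 - 2 * U * s 3 + Q * U ^ 2)) * Q
      = Q * q 0 + Q * q 1 + Q * q 2 + Q * q 3 - (s 0 + s 1 + s 2 + s 3) ^ 2 / 4 := by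
    rw [← hUs]; 
    have : (4 * Q * U) ^ 2 / 4 = 2 * Q * U * (4 * Q * U) - 4 * Q ^ 2 * U ^ 2 := by ring
    rw [this, hUs]
    ring
  rw [e1]
  linarith [sq_nonneg (s 0 - s 2), sq_nonneg (s 0 - s 3), sq_nonneg (s 1 - s 3),
    sq_nonneg (s 0 - s 2 + (s 0 - s 3)), sq_nonneg (s 0 - s 3 + (s 1 - s 3)),
    sq_nonneg (s 0 - s 2 - (s 1 - s 3))]

theorem quarter (W m : ℕ) (F : ℕ → ℝ) :
    ∑ t ∈ range (m * W), F t = ∑ i ∈ range m, ∑ t ∈ range W, F (i * W + t) := by
  induction m with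
  | zero => simp
  | succ m ih => rw [add_mul, one_mul, sum_range_add, ih, sum_range_succ]

theorem pt_mem {n : ℕ} [NeZero n] (o : Tor n) {w x y z : ℕ} (hx : x < w) (hy : y < w) (hz : z < w) :
    pt n o x y z ∈ cube n o w := by
  unfold cube pt
  refine Finset.mem_image.2 ⟨![⟨x, hx⟩, ⟨y, hy⟩, ⟨z, hz⟩], Finset.mem_univ _, ?_⟩
  congr 1
  funext i
  fin_cases i <;> simp

theorem pt_pt {n : ℕ} (o : Tor n) (x y z x' y' z' : ℕ) :
    pt n o (x + x') (y + y') (z + z') = pt n (pt n o x y z) x' y' z' := by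
  unfold pt
  funext i
  fin_cases i <;> simp [add_assoc] <;> rfl

theorem sum3 (A : ℕ) (f : ℕ × ℕ × ℕ → ℝ) : ∑ q ∈ range A ×ˢ range A ×ˢ range A, f q
    = ∑ x ∈ range A, ∑ y ∈ range A, ∑ z ∈ range A, f (x, y, z) := by
  rw [Finset.sum_product]
  refine sum_congr rfl fun x _ => ?_
  rw [Finset.sum_product]

end E760

open E760 E155

/-- deviation from the cell averages. -/
theorem dev_le3 {n N W e : ℕ} [NeZero n] {K c1 : ℝ} {b : Finset (Tor n)} {h : Tor n → ℝ}
    {c : Nd n N → Nd n N → ℝ} (hW : 0 < W) (hN : N = 4 * W) (hc1 : 0 < c1)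
    (hc : Local3 n N W e K c1 b h c) (o : Tor n) (S : ℕ) (hS : 3 ^ e * S < n)
    (h1 : ∀ x ∈ cube n o (3 ^ e * S), h x = 1) (a : Nd n N → ℝ) :
    c1 / N * DevC n N e o a S ≤ 1000 * netK c a := by
  classical
  obtain ⟨M, hM⟩ : ∃ M : ℕ, M = 3 ^ e := ⟨_, rfl⟩
  have hM0 : 0 < M := by rw [hM]; positivity
  have h27 : ((M : ℝ) * (M : ℝ) * (M : ℝ)) = 27 ^ e := by
    rw [hM]
    push_cast
    rw [← mul_pow, ← mul_pow]
    norm_num
  have hWr : (0 : ℝ) < W := by exact_mod_cast hW
  have hNr : (N : ℝ) = 4 * W := by rw [hN]; push_cast; ring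
  have hNpos : (0 : ℝ) < N := by rw [hNr]; positivity
  have hp27 : (0 : ℝ) < 27 ^ e := by positivity
  -- index sets
  obtain ⟨CS, hCS⟩ : ∃ CS : Finset (ℕ × ℕ × ℕ), CS = range S ×ˢ range S ×ˢ range S := ⟨_, rfl⟩
  obtain ⟨P3, hP3⟩ : ∃ P3 : Finset (ℕ × ℕ × ℕ), P3 = range M ×ˢ range M ×ˢ range M := ⟨_, rfl⟩
  obtain ⟨P, hP⟩ : ∃ P : Finset ((ℕ × ℕ × ℕ) × ℕ), P = P3 ×ˢ range W := ⟨_, rfl⟩
  have hPcard : (P.card : ℝ) = 27 ^ e * W := by
    rw [hP, hP3]
    simp only [card_product, card_range]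
    push_cast
    rw [← h27]
    ring
  have hPpos : 0 < P.card := by
    have : (0 : ℝ) < P.card := by rw [hPcard]; positivity
    exact_mod_cast this
  -- sites and nodes
  obtain ⟨site, hsite⟩ : ∃ site : (ℕ × ℕ × ℕ) → (ℕ × ℕ × ℕ) → Tor n, site = fun q p =>
    pt n o (M * q.1 + p.1) (M * q.2.1 + p.2.1) (M * q.2.2 + p.2.2) := ⟨_, rfl⟩
  obtain ⟨nd, hnd⟩ : ∃ nd : (ℕ × ℕ × ℕ) → ℕ → ((ℕ × ℕ × ℕ) × ℕ) → Nd n N, nd = fun q i u =>
    (lay N N 0 (i * W + u.2), site q u.1) := ⟨_, rfl⟩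
  have hCSmem : ∀ q ∈ CS, q.1 < S ∧ q.2.1 < S ∧ q.2.2 < S := by
    intro q hq
    rw [hCS] at hq
    simpa [Finset.mem_product] using hq
  have hP3mem : ∀ p ∈ P3, p.1 < M ∧ p.2.1 < M ∧ p.2.2 < M := by
    intro p hp
    rw [hP3] at hp
    simpa [Finset.mem_product] using hp
  have hPmem : ∀ u ∈ P, u.1 ∈ P3 ∧ u.2 < W := by
    intro u hu
    rw [hP] at hu
    obtain ⟨h2, h3⟩ := Finset.mem_product.1 hu
    exact ⟨h2, Finset.mem_range.1 h3⟩
  have hlt : ∀ {x p : ℕ}, x < S → p < M → M * x + p < M * S := by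
    intro x p hx hp
    calc M * x + p < M * x + M := by omega
      _ = M * (x + 1) := by ring
      _ ≤ M * S := Nat.mul_le_mul_left M (by omega)
  have hMS : M * S < n := by rw [hM]; exact hS
  have hhsite : ∀ q ∈ CS, ∀ p ∈ P3, h (site q p) = 1 := by
    intro q hq p hp
    obtain ⟨q1, q2, q3⟩ := hCSmem q hq
    obtain ⟨p1, p2, p3⟩ := hP3mem p hp
    refine h1 _ ?_
    rw [hsite, ← hM]
    exact pt_mem o (hlt q1 p1) (hlt q2 p2) (hlt q3 p3)
  have hsite2 : ∀ q ∈ CS, ∀ p ∈ P3,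
      site q p ∈ cube n (pt n o (M * q.1) (M * q.2.1) (M * q.2.2)) (2 * 3 ^ e) := by
    intro q hq p hp
    obtain ⟨p1, p2, p3⟩ := hP3mem p hp
    rw [hsite, ← hM]
    simp only
    rw [Vale.Agent.P361.LRO.Ind3.E760.pt_pt]
    exact pt_mem _ (by omega) (by omega) (by omega)
  have hlay : ∀ {i t : ℕ}, i < 4 → t < W → ((lay N N 0 (i * W + t) : Fin (N + 1)) : ℕ) = 1 + (i * W + t) := by
    intro i t hi ht
    have h2 : i * W + t < N := by
      rw [hN]
      calc i * W + t < i * W + W := by omega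
        _ = (i + 1) * W := by ring
        _ ≤ 4 * W := Nat.mul_le_mul_right W (by omega)
    have := lay_val (N := N) (W := N) (m := 1) (w := 0) (j := i * W + t) (by omega) (by omega) h2
    rw [this]; ring
  have hndinj : ∀ i < 4, ∀ x ∈ CS ×ˢ P, ∀ y ∈ CS ×ˢ P, nd x.1 i x.2 = nd y.1 i y.2 → x = y := by
    rintro i hi ⟨q, u⟩ hx ⟨q', u'⟩ hy he
    obtain ⟨hq, hu⟩ := Finset.mem_product.1 hx
    obtain ⟨hq', hu'⟩ := Finset.mem_product.1 hy
    simp only at hq hu hq' hu' he
    obtain ⟨q1, q2, q3⟩ := hCSmem q hq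
    obtain ⟨q1', q2', q3'⟩ := hCSmem q' hq'
    obtain ⟨hup, hut⟩ := hPmem u hu
    obtain ⟨hup', hut'⟩ := hPmem u' hu'
    obtain ⟨p1, p2, p3⟩ := hP3mem u.1 hup
    obtain ⟨p1', p2', p3'⟩ := hP3mem u'.1 hup'
    rw [hnd, hsite] at he
    simp only at he
    obtain ⟨e1, e2⟩ := Prod.ext_iff.1 he
    simp only at e1 e2
    obtain ⟨f1, f2, f3⟩ := Vale.Agent.P361.LRO.Ind.E155.pt_inj o (lt_trans (hlt q1 p1) hMS) (lt_trans (hlt q2 p2) hMS)
      (lt_trans (hlt q3 p3) hMS) (lt_trans (hlt q1' p1') hMS) (lt_trans (hlt q2' p2') hMS)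
      (lt_trans (hlt q3' p3') hMS) e2
    have e3 := congrArg (fun k : Fin (N + 1) => (k : ℕ)) e1
    simp only [hlay hi hut, hlay hi hut'] at e3
    have hdm : ∀ {x p x' p' : ℕ}, p < M → p' < M → M * x + p = M * x' + p' → x = x' ∧ p = p' := by
      intro x p x' p' hp hp' hh
      have e4 : (M * x + p) / M = x := by rw [Nat.mul_add_div hM0, Nat.div_eq_of_lt hp, add_zero]
      have e5 : (M * x' + p') / M = x' := by rw [Nat.mul_add_div hM0, Nat.div_eq_of_lt hp', add_zero]
      have e6 : x = x' := by rw [← e4, ← e5, hh]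
      refine ⟨e6, ?_⟩
      subst e6
      omega
    obtain ⟨g1, g1'⟩ := hdm p1 p1' f1
    obtain ⟨g2, g2'⟩ := hdm p2 p2' f2
    obtain ⟨g3, g3'⟩ := hdm p3 p3' f3
    have g4 : u.2 = u'.2 := by omega
    obtain ⟨x, y, z⟩ := q
    obtain ⟨x', y', z'⟩ := q'
    obtain ⟨⟨i1, i2, i3⟩, t⟩ := u
    obtain ⟨⟨i1', i2', i3'⟩, t'⟩ := u'
    simp only at g1 g1' g2 g2' g3 g3' g4
    subst g1 g1' g2 g2' g3 g3' g4
    rfl
  obtain ⟨F, hFdef⟩ : ∃ F : Nd n N → Nd n N → ℝ, F = fun x y => c x y * (a x - a y) ^ 2 := ⟨_, rfl⟩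
  have hF0 : ∀ x y, 0 ≤ F x y := by
    intro x y; rw [hFdef]; exact mul_nonneg (hc.nonneg x y) (sq_nonneg _)
  have htot : ∀ i < 4, ∀ j < 4, ∑ q ∈ CS, ∑ u ∈ P, ∑ v ∈ P, F (nd q i u) (nd q j v)
      ≤ 2 * netK c a := by
    intro i hi j hj
    have s1 : ∑ q ∈ CS, ∑ u ∈ P, ∑ v ∈ P, F (nd q i u) (nd q j v)
        ≤ ∑ q ∈ CS, ∑ u ∈ P, ∑ y, F (nd q i u) y := by
      refine sum_le_sum fun q hq => sum_le_sum fun u _ => ?_
      refine sum_inj_le P (fun v => nd q j v) ?_ (fun y => F (nd q i u) y) (fun y => hF0 _ y)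
      intro v hv v' hv' he
      have := hndinj j hj (q, v) (Finset.mem_product.2 ⟨hq, hv⟩) (q, v')
        (Finset.mem_product.2 ⟨hq, hv'⟩) he
      exact (Prod.ext_iff.1 this).2
    refine s1.trans ?_
    rw [← Finset.sum_product (f := fun x : (ℕ × ℕ × ℕ) × ((ℕ × ℕ × ℕ) × ℕ) =>
      ∑ y, F (nd x.1 i x.2) y)]
    refine (sum_inj_le (CS ×ˢ P) (fun x => nd x.1 i x.2) (hndinj i hi) (fun x => ∑ y, F x y)
      (fun x => sum_nonneg fun y _ => hF0 x y)).trans (le_of_eq ?_)
    unfold netK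
    rw [hFdef]
    ring
  -- lower bound of the conductances
  have hlow : ∀ q ∈ CS, ∀ i j, i + 2 ≤ j → j < 4 →
      ∑ u ∈ P, ∑ v ∈ P, (a (nd q i u) - a (nd q j v)) ^ 2
      ≤ ((N : ℝ) ^ 2 * 27 ^ e / c1) * ∑ u ∈ P, ∑ v ∈ P, F (nd q i u) (nd q j v) := by
    intro q hq i j hij hj
    rw [mul_sum]
    refine sum_le_sum fun u hu => ?_
    rw [mul_sum]
    refine sum_le_sum fun v hv => ?_
    obtain ⟨hup, hut⟩ := hPmem u hu
    obtain ⟨hvp, hvt⟩ := hPmem v hv
    have hl1 := hlay (i := i) (t := u.2) (by omega) hut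
    have hl2 := hlay (i := j) (t := v.2) hj hvt
    have hcc := hc.long (lay N N 0 (i * W + u.2)) (lay N N 0 (j * W + v.2))
      (pt n o (M * q.1) (M * q.2.1) (M * q.2.2)) (site q u.1) (site q v.1)
      (by
        intro h0
        rw [h0] at hl1
        simp only [Fin.val_zero] at hl1
        omega)
      (by
        rw [hl1, hl2]
        have : (i + 2) * W ≤ j * W := Nat.mul_le_mul_right W hij
        have e2 : (i + 2) * W = i * W + 2 * W := by ring
        omega)
      (hsite2 q hq u.1 hup) (hsite2 q hq v.1 hvp) (hhsite q hq u.1 hup) (hhsite q hq v.1 hvp)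
    have hFe : F (nd q i u) (nd q j v)
        = c (lay N N 0 (i * W + u.2), site q u.1) (lay N N 0 (j * W + v.2), site q v.1)
          * (a (nd q i u) - a (nd q j v)) ^ 2 := by
      rw [hFdef, hnd]
    rw [hFe]
    have hpos : (0 : ℝ) < (N : ℝ) ^ 2 * 27 ^ e := by positivity
    have h5 : 1 ≤ ((N : ℝ) ^ 2 * 27 ^ e / c1) *
        c (lay N N 0 (i * W + u.2), site q u.1) (lay N N 0 (j * W + v.2), site q v.1) := by
      have h6 := mul_le_mul_of_nonneg_left hcc (by positivity : 0 ≤ (N : ℝ) ^ 2 * 27 ^ e / c1)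
      have h7 : (N : ℝ) ^ 2 * 27 ^ e / c1 * (c1 / ((N : ℝ) ^ 2 * 27 ^ e)) = 1 := by
        field_simp
      linarith
    have h8 := mul_le_mul_of_nonneg_right h5 (sq_nonneg (a (nd q i u) - a (nd q j v)))
    rw [one_mul] at h8
    linarith
  -- one cell
  have hcell : ∀ q ∈ CS, ∑ p ∈ P3, ∑ t ∈ range N,
      (a (lay N N 0 t, site q p) - (1 / ((N : ℝ) * 27 ^ e)) * ∑ p ∈ P3, ∑ t ∈ range N,
        a (lay N N 0 t, site q p)) ^ 2 ≤
      (8 / (P.card : ℝ)) * ((N : ℝ) ^ 2 * 27 ^ e / c1) *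
        ((∑ u ∈ P, ∑ v ∈ P, F (nd q 0 u) (nd q 2 v))
        + (∑ u ∈ P, ∑ v ∈ P, F (nd q 0 u) (nd q 3 v))
        + ∑ u ∈ P, ∑ v ∈ P, F (nd q 1 u) (nd q 3 v)) := by
    intro q hq
    have hre : ∀ G : ℝ → ℝ, ∑ p ∈ P3, ∑ t ∈ range N, G (a (lay N N 0 t, site q p))
        = ∑ i ∈ range 4, ∑ u ∈ P, G (a (nd q i u)) := by
      intro G
      have r1 : ∀ i ∈ range 4, ∑ u ∈ P, G (a (nd q i u))
          = ∑ p ∈ P3, ∑ t ∈ range W, G (a (lay N N 0 (i * W + t), site q p)) := by
        intro i _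
        rw [hP, hnd, Finset.sum_product]
      refine Eq.trans ?_ (sum_congr rfl r1).symm
      refine Eq.trans ?_ Finset.sum_comm
      refine sum_congr rfl fun p _ => ?_
      have r2 := quarter W 4 (fun t => G (a (lay N N 0 t, site q p)))
      rw [← hN] at r2
      exact r2
    have hU : (1 / ((N : ℝ) * 27 ^ e)) * ∑ p ∈ P3, ∑ t ∈ range N, a (lay N N 0 t, site q p)
        = (1 / (4 * (P.card : ℝ))) * ∑ j ∈ range 4, ∑ v ∈ P, a (nd q j v) := by
      rw [hre (fun x => x), hPcard, hNr]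
      congr 1
      congr 1
      ring
    rw [hU, hre (fun x => (x - (1 / (4 * (P.card : ℝ))) * ∑ j ∈ range 4, ∑ v ∈ P, a (nd q j v)) ^ 2)]
    refine (group_var P hPpos (fun i u => a (nd q i u))).trans ?_
    rw [mul_assoc]
    refine mul_le_mul_of_nonneg_left ?_ (div_nonneg (by norm_num) (Nat.cast_nonneg _))
    have l1 := hlow q hq 0 2 (by omega) (by omega)
    have l2 := hlow q hq 0 3 (by omega) (by omega)
    have l3 := hlow q hq 1 3 (by omega) (by omega)
    rw [mul_add, mul_add]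
    linarith
  -- sum over the cells
  have hDev : DevC n N e o a S = ∑ q ∈ CS, ∑ p ∈ P3, ∑ t ∈ range N,
      (a (lay N N 0 t, site q p) - (1 / ((N : ℝ) * 27 ^ e)) * ∑ p ∈ P3, ∑ t ∈ range N,
        a (lay N N 0 t, site q p)) ^ 2 := by
    rw [hCS, hP3, sum3]
    unfold DevC UC
    refine sum_congr rfl fun x _ => sum_congr rfl fun y _ => sum_congr rfl fun z _ => ?_
    rw [sum3, sum3, hsite, hM]
  have hsum : DevC n N e o a S ≤ (8 / (P.card : ℝ)) * ((N : ℝ) ^ 2 * 27 ^ e / c1) *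
      (2 * netK c a + 2 * netK c a + 2 * netK c a) := by
    rw [hDev]
    refine (sum_le_sum hcell).trans ?_
    rw [← mul_sum, sum_add_distrib, sum_add_distrib]
    refine mul_le_mul_of_nonneg_left ?_ (mul_nonneg (div_nonneg (by norm_num)
      (Nat.cast_nonneg _)) (div_nonneg (mul_nonneg (sq_nonneg _) hp27.le) hc1.le))
    have t1 := htot 0 (by omega) 2 (by omega)
    have t2 := htot 0 (by omega) 3 (by omega)
    have t3 := htot 1 (by omega) 3 (by omega)
    linarith
  have hK0 : 0 ≤ netK c a := by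
    have := htot 0 (by omega) 2 (by omega)
    have h9 : 0 ≤ ∑ q ∈ CS, ∑ u ∈ P, ∑ v ∈ P, F (nd q 0 u) (nd q 2 v) :=
      sum_nonneg fun _ _ => sum_nonneg fun _ _ => sum_nonneg fun _ _ => hF0 _ _
    linarith
  have hfin : c1 / N * DevC n N e o a S ≤ c1 / N * ((8 / (P.card : ℝ)) * ((N : ℝ) ^ 2 * 27 ^ e / c1) *
      (2 * netK c a + 2 * netK c a + 2 * netK c a)) :=
    mul_le_mul_of_nonneg_left hsum (by positivity)
  refine hfin.trans ?_
  have e9 : c1 / N * ((8 / (P.card : ℝ)) * ((N : ℝ) ^ 2 * 27 ^ e / c1) *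
      (2 * netK c a + 2 * netK c a + 2 * netK c a)) = 192 * netK c a := by
    rw [hPcard, hNr]
    field_simp
    ring
  rw [e9]
  linarith

end Vale.Agent.P361.LRO.Ind3
end

section

/-!
# P361 LRO, block (6): the last step (6c), before lowering (helper535)
-/

namespace Vale.Agent.P361.LRO.Ind

open Finset Vale.Agent.P361.LRO _root_.P361.LRO

lemma sl_E4_nonneg (S T : ℕ) (U : ℕ → ℕ → ℕ → ℕ → ℝ) : 0 ≤ E4 S T U := by
  unfold E4 Esp Eti
  have h : ∀ (s : Finset ℕ) (f : ℕ → ℝ), (∀ i, 0 ≤ f i) → 0 ≤ ∑ i ∈ s, f i := fun s f hf =>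
    Finset.sum_nonneg fun i _ => hf i
  have h4 : ∀ (s1 s2 s3 s4 : Finset ℕ) (f : ℕ → ℕ → ℕ → ℕ → ℝ), (∀ x y z w, 0 ≤ f x y z w) →
      0 ≤ ∑ x ∈ s1, ∑ y ∈ s2, ∑ z ∈ s3, ∑ w ∈ s4, f x y z w := fun s1 s2 s3 s4 f hf =>
    h _ _ fun x => h _ _ fun y => h _ _ fun z => h _ _ fun w => hf x y z w
  refine add_nonneg (add_nonneg (add_nonneg ?_ ?_) ?_) ?_ <;>
    exact h4 _ _ _ _ _ fun _ _ _ _ => sq_nonneg _

lemma sl_cube_mono {n : ℕ} (o : Tor n) {r s : ℕ} (hrs : r ≤ s) : cube n o r ⊆ cube n o s := by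
  intro x hx
  rw [cube, Finset.mem_image] at hx ⊢
  obtain ⟨y, -, rfl⟩ := hx
  exact ⟨fun i => ⟨(y i : ℕ), lt_of_lt_of_le (y i).2 hrs⟩, Finset.mem_univ _, rfl⟩

end Vale.Agent.P361.LRO.Ind
end

section

/-!
A Bogoliubov-type inequality for Gibbs states (in unnormalized form).
-/

namespace Vale.Agent.P361

open Matrix Finset
open scoped ComplexOrder

variable {ι : Type*} [Fintype ι] [DecidableEq ι]

end Vale.Agent.P361
end

section

/-!
Real matrices inside complex matrices: exponential, trace, Peierls–Bogoliubov and positivity for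
real symmetric matrices.
-/

namespace Vale.Agent.P361.LRO

open Matrix Filter Topology Finset
open scoped ComplexOrder

section CMat

variable {ι : Type*}

/-- Complexification of a real matrix. -/
def cM (A : Matrix ι ι ℝ) : Matrix ι ι ℂ := A.map (fun r : ℝ => (r : ℂ))

theorem cM_apply (A : Matrix ι ι ℝ) (σ τ : ι) : cM A σ τ = (A σ τ : ℂ) := rfl

theorem cM_zero : cM (0 : Matrix ι ι ℝ) = 0 := by
  ext i j; simp [cM_apply]

theorem cM_add (A B : Matrix ι ι ℝ) : cM (A + B) = cM A + cM B := by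
  ext i j; simp [cM_apply]

theorem cM_sub (A B : Matrix ι ι ℝ) : cM (A - B) = cM A - cM B := by
  ext i j; simp [cM_apply]

theorem cM_smul (c : ℝ) (A : Matrix ι ι ℝ) : cM (c • A) = (c : ℂ) • cM A := by
  ext i j; simp [cM_apply]

theorem cM_sum {κ : Type*} (s : Finset κ) (A : κ → Matrix ι ι ℝ) :
    cM (∑ k ∈ s, A k) = ∑ k ∈ s, cM (A k) := by
  ext i j; simp [cM_apply, Matrix.sum_apply]

theorem cM_conjTranspose (A : Matrix ι ι ℝ) : (cM A)ᴴ = cM Aᵀ := by
  ext i j; simp [cM_apply, Matrix.conjTranspose_apply]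

theorem cM_isHermitian {A : Matrix ι ι ℝ} (hA : A.IsSymm) : (cM A).IsHermitian := by
  rw [Matrix.IsHermitian, cM_conjTranspose, hA]

theorem cM_injective : Function.Injective (cM (ι := ι)) := by
  intro A B h
  ext i j
  have := congrFun (congrFun h i) j
  rw [cM_apply, cM_apply] at this
  exact_mod_cast this

variable [Fintype ι]

theorem cM_mul (A B : Matrix ι ι ℝ) : cM (A * B) = cM A * cM B := by
  ext i j; simp [cM_apply, Matrix.mul_apply]

theorem trace_cM (A : Matrix ι ι ℝ) : trace (cM A) = (trace A : ℝ) := by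
  simp [Matrix.trace, cM_apply]

theorem trace_cM_re (A : Matrix ι ι ℝ) : (trace (cM A)).re = trace A := by
  rw [trace_cM, Complex.ofReal_re]

variable [DecidableEq ι]

omit [Fintype ι] in
theorem cM_one : cM (1 : Matrix ι ι ℝ) = 1 := by
  ext i j
  by_cases h : i = j
  · subst h; simp [cM_apply]
  · simp [cM_apply, h]

open scoped Matrix.Norms.Operator in
theorem exp_cM (A : Matrix ι ι ℝ) : NormedSpace.exp (cM A) = cM (NormedSpace.exp A) := by
  have hc : Continuous (Complex.ofRealHom.mapMatrix : Matrix ι ι ℝ →+* Matrix ι ι ℂ) := by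
    refine continuous_matrix fun i j => ?_
    exact Complex.continuous_ofReal.comp (continuous_id.matrix_elem i j)
  exact (NormedSpace.map_exp (Complex.ofRealHom.mapMatrix : Matrix ι ι ℝ →+* Matrix ι ι ℂ)
    hc A).symm

theorem cM_posSemidef {A : Matrix ι ι ℝ} (hA : A.PosSemidef) : (cM A).PosSemidef := by
  obtain ⟨B, rfl⟩ : ∃ B : Matrix ι ι ℝ, A = Bᴴ * B := by
    open scoped MatrixOrder in
    obtain ⟨b, hb⟩ := CStarAlgebra.nonneg_iff_eq_star_mul_self.mp hA.nonneg
    exact ⟨b, hb⟩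
  have h1 : cM (Bᴴ * B) = (cM B)ᴴ * cM B := by
    rw [cM_mul, cM_conjTranspose]; rfl
  rw [h1]
  exact Matrix.posSemidef_conjTranspose_mul_self _

theorem trace_exp_pos_real [Nonempty ι] {X : Matrix ι ι ℝ} (hX : X.IsSymm) :
    0 < trace (NormedSpace.exp X) := by
  have h := trace_exp_pos (cM_isHermitian hX)
  rwa [exp_cM, trace_cM_re] at h

theorem trace_exp_mul_nonneg_real {X Y : Matrix ι ι ℝ} (hX : X.IsSymm) (hY : Y.PosSemidef) :
    0 ≤ trace (NormedSpace.exp X * Y) := by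
  have h := trace_exp_mul_nonneg (cM_isHermitian hX) (cM_posSemidef hY)
  rwa [exp_cM, ← cM_mul, trace_cM_re] at h

/-- Peierls–Bogoliubov for real symmetric matrices. -/
theorem peierls_bogoliubov_real [Nonempty ι] {X Y : Matrix ι ι ℝ} (hX : X.IsSymm)
    (hY : Y.IsSymm) :
    Real.log (trace (NormedSpace.exp X)) +
      trace (NormedSpace.exp X * Y) / trace (NormedSpace.exp X) ≤
      Real.log (trace (NormedSpace.exp (X + Y))) := by
  have h := Vale.Agent.P361.peierls_bogoliubov (cM_isHermitian hX) (cM_isHermitian hY)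
  rwa [← cM_add, exp_cM, exp_cM, ← cM_mul, trace_cM_re, trace_cM_re, trace_cM_re] at h

theorem trace_exp_mono_real [Nonempty ι] {X Y : Matrix ι ι ℝ} (hX : X.IsSymm) (hY : Y.IsSymm)
    (hXY : (Y - X).PosSemidef) :
    trace (NormedSpace.exp X) ≤ trace (NormedSpace.exp Y) := by
  have h := trace_exp_mono (cM_isHermitian hX) (cM_isHermitian hY)
    (by rw [← cM_sub]; exact cM_posSemidef hXY)
  rwa [exp_cM, exp_cM, trace_cM_re, trace_cM_re] at h

end CMat

end Vale.Agent.P361.LRO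
end

section

/-!
Block (9): symmetry and positivity of the matrices of `LRO/Defs.lean`, translation covariance of
`rho` on the torus, and the base case `ρ ≤ log 2 / β` in the uniform field `1`.
-/

namespace Vale.Agent.P361.LRO.Bs

open Matrix Finset
open scoped ComplexOrder

section Gen

variable {V : Type} [Fintype V] [DecidableEq V]

theorem swapM_isSymm (x y : V) : (swapM x y).IsSymm := by
  ext σ τ
  rw [Matrix.transpose_apply, swapM, Matrix.of_apply, Matrix.of_apply]
  have h : (τ = σ ∘ Equiv.swap x y) ↔ (σ = τ ∘ Equiv.swap x y) := by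
    constructor
    · rintro rfl; funext z; simp
    · rintro rfl; funext z; simp
  simp only [h]

theorem swapM_sq (x y : V) : swapM x y * swapM x y = 1 := by
  ext σ τ
  rw [Matrix.mul_apply]
  simp only [swapM, Matrix.of_apply]
  rw [Finset.sum_eq_single (σ ∘ Equiv.swap x y)]
  · have h1 : σ = (σ ∘ Equiv.swap x y) ∘ Equiv.swap x y := by funext z; simp
    rw [if_pos h1, one_mul, Matrix.one_apply]
    have h2 : (σ ∘ Equiv.swap x y = τ ∘ Equiv.swap x y) ↔ σ = τ := by
      constructor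
      · intro h
        funext z
        have := congrFun h (Equiv.swap x y z)
        simpa using this
      · rintro rfl; rfl
    simp only [h2]
  · intro ρ _ hρ
    rw [if_neg, zero_mul]
    rintro rfl
    exact hρ (by funext z; simp)
  · intro h; exact absurd (Finset.mem_univ _) h

theorem hM_isSymm (x y : V) : (hM x y).IsSymm := by
  unfold hM
  rw [Matrix.IsSymm, Matrix.transpose_smul, Matrix.transpose_sub, Matrix.transpose_one,
    swapM_isSymm x y]

theorem hM_sq (x y : V) : hM x y * hM x y = hM x y := by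
  unfold hM
  rw [Matrix.smul_mul, Matrix.mul_smul, Matrix.sub_mul, Matrix.mul_sub, Matrix.mul_sub,
    swapM_sq, Matrix.mul_one, Matrix.one_mul, Matrix.mul_one]
  module

theorem hM_posSemidef (x y : V) : (hM x y).PosSemidef := by
  have h1 : hM x y = (hM x y)ᴴ * hM x y := by
    rw [Matrix.conjTranspose_eq_transpose_of_trivial, hM_isSymm x y, hM_sq]
  rw [h1]
  exact Matrix.posSemidef_conjTranspose_mul_self _

theorem szM_isSymm (x : V) : (szM x).IsSymm := Matrix.isSymm_diagonal _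

theorem down_posSemidef (x : V) : ((1 / 2 : ℝ) • (1 - szM x)).PosSemidef := by
  have h1 : (1 / 2 : ℝ) • (1 - szM x) =
      Matrix.diagonal (fun σ : V → Fin 2 => if σ x = 0 then (0 : ℝ) else 1) := by
    ext σ τ
    by_cases h : σ = τ
    · subst h
      simp only [szM, Matrix.smul_apply, Matrix.sub_apply, Matrix.one_apply_eq,
        Matrix.diagonal_apply_eq, smul_eq_mul]
      split_ifs <;> norm_num
    · simp [szM, h]
  rw [h1]
  exact Matrix.PosSemidef.diagonal fun σ => by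
    simp only [Pi.zero_apply]
    split_ifs <;> norm_num

theorem list_sum_isSymm (L : List (V × V)) : ((L.map fun e => hM e.1 e.2).sum).IsSymm := by
  induction L with
  | nil => simp [Matrix.IsSymm]
  | cons a L ih =>
    rw [List.map_cons, List.sum_cons, Matrix.IsSymm, Matrix.transpose_add, hM_isSymm, ih]

theorem sum_szM_isSymm (c : V → ℝ) : (∑ x, c x • szM x).IsSymm := by
  rw [Matrix.IsSymm, Matrix.transpose_sum]
  exact Finset.sum_congr rfl fun x _ => by rw [Matrix.transpose_smul, szM_isSymm x]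

theorem ham_isSymm (L : List (V × V)) (h : V → ℝ) : (ham L h).IsSymm := by
  unfold ham
  rw [Matrix.IsSymm, Matrix.transpose_sub, list_sum_isSymm L, sum_szM_isSymm]

theorem smul_ham_isSymm (L : List (V × V)) (β : ℝ) (h : V → ℝ) : (-β • ham L h).IsSymm := by
  rw [Matrix.IsSymm, Matrix.transpose_smul, ham_isSymm L h]

theorem trace_ham_pos (L : List (V × V)) (β : ℝ) (h : V → ℝ) :
    0 < trace (NormedSpace.exp (-β • ham L h)) := trace_exp_pos_real (smul_ham_isSymm L β h)

theorem gib_add (L : List (V × V)) (β : ℝ) (h : V → ℝ) (A B : Matrix (V → Fin 2) (V → Fin 2) ℝ) :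
    gib L β h (A + B) = gib L β h A + gib L β h B := by
  unfold gib
  rw [Matrix.mul_add, Matrix.trace_add, add_div]

theorem gib_smul (L : List (V × V)) (β : ℝ) (h : V → ℝ) (c : ℝ)
    (A : Matrix (V → Fin 2) (V → Fin 2) ℝ) : gib L β h (c • A) = c * gib L β h A := by
  unfold gib
  rw [Matrix.mul_smul, Matrix.trace_smul, smul_eq_mul, mul_div_assoc]

theorem gib_sub (L : List (V × V)) (β : ℝ) (h : V → ℝ) (A B : Matrix (V → Fin 2) (V → Fin 2) ℝ) :
    gib L β h (A - B) = gib L β h A - gib L β h B := by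
  unfold gib
  rw [Matrix.mul_sub, Matrix.trace_sub, sub_div]

theorem gib_sum (L : List (V × V)) (β : ℝ) (h : V → ℝ) {κ : Type*} (s : Finset κ)
    (A : κ → Matrix (V → Fin 2) (V → Fin 2) ℝ) :
    gib L β h (∑ k ∈ s, A k) = ∑ k ∈ s, gib L β h (A k) := by
  unfold gib
  rw [Matrix.mul_sum, Matrix.trace_sum, Finset.sum_div]

theorem gib_nonneg (L : List (V × V)) (β : ℝ) (h : V → ℝ)
    {A : Matrix (V → Fin 2) (V → Fin 2) ℝ} (hA : A.PosSemidef) : 0 ≤ gib L β h A :=
  div_nonneg (trace_exp_mul_nonneg_real (smul_ham_isSymm L β h) hA) (trace_ham_pos L β h).le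

theorem rho_nonneg (L : List (V × V)) (β : ℝ) (h : V → ℝ) (x : V) : 0 ≤ rho L β h x :=
  gib_nonneg L β h (down_posSemidef x)

/-! ### Relabelling -/

theorem subm_sub {ι κ : Type*} (e : ι ≃ κ) (A B : Matrix κ κ ℝ) :
    (A - B).submatrix e e = A.submatrix e e - B.submatrix e e := rfl

theorem subm_add {ι κ : Type*} (e : ι ≃ κ) (A B : Matrix κ κ ℝ) :
    (A + B).submatrix e e = A.submatrix e e + B.submatrix e e := rfl

theorem subm_smul {ι κ : Type*} (e : ι ≃ κ) (c : ℝ) (A : Matrix κ κ ℝ) :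
    (c • A).submatrix e e = c • A.submatrix e e := rfl

theorem subm_sum {ι κ ω : Type*} (e : ι ≃ κ) (s : Finset ω) (A : ω → Matrix κ κ ℝ) :
    (∑ k ∈ s, A k).submatrix e e = ∑ k ∈ s, (A k).submatrix e e := by
  ext i j
  simp [Matrix.sum_apply]

theorem exp_submatrix_real {ι κ : Type*} [Fintype ι] [DecidableEq ι] [Fintype κ] [DecidableEq κ]
    (e : ι ≃ κ) (Y : Matrix κ κ ℝ) :
    NormedSpace.exp (Y.submatrix e e) = (NormedSpace.exp Y).submatrix e e := by
  apply cM_injective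
  rw [← exp_cM]
  have h1 : cM (Y.submatrix e e) = (cM Y).submatrix e e := rfl
  have h2 : cM ((NormedSpace.exp Y).submatrix e e) = (cM (NormedSpace.exp Y)).submatrix e e := rfl
  rw [h1, h2, exp_submatrix_equiv, exp_cM]

theorem trace_submatrix_real {ι κ : Type*} [Fintype ι] [Fintype κ]
    (e : ι ≃ κ) (Y : Matrix κ κ ℝ) : trace (Y.submatrix e e) = trace Y := by
  simp only [Matrix.trace, Matrix.diag_apply, Matrix.submatrix_apply]
  exact Equiv.sum_comp e (fun i => Y i i)

/-- The relabelling of configurations `σ ↦ σ ∘ g⁻¹`. -/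
def relab (g : V ≃ V) : (V → Fin 2) ≃ (V → Fin 2) := Equiv.arrowCongr g (Equiv.refl _)

omit [Fintype V] [DecidableEq V] in
theorem relab_apply (g : V ≃ V) (σ : V → Fin 2) (x : V) : relab g σ (g x) = σ x := by
  simp [relab, Equiv.arrowCongr]

theorem szM_relab (g : V ≃ V) (x : V) :
    (szM (g x)).submatrix (relab g) (relab g) = szM x := by
  ext σ τ
  rw [Matrix.submatrix_apply, szM, szM]
  by_cases h : σ = τ
  · subst h
    rw [Matrix.diagonal_apply_eq, Matrix.diagonal_apply_eq, relab_apply]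
  · rw [Matrix.diagonal_apply_ne _ h, Matrix.diagonal_apply_ne]
    exact fun h2 => h ((relab g).injective h2)

theorem swapM_relab (g : V ≃ V) (x y : V) :
    (swapM (g x) (g y)).submatrix (relab g) (relab g) = swapM x y := by
  ext σ τ
  rw [Matrix.submatrix_apply, swapM, swapM, Matrix.of_apply, Matrix.of_apply]
  have hsw : ∀ z, Equiv.swap (g x) (g y) (g z) = g (Equiv.swap x y z) := by
    intro z
    rw [Equiv.swap_apply_def, Equiv.swap_apply_def]
    simp only [EmbeddingLike.apply_eq_iff_eq]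
    split_ifs <;> rfl
  have h : (relab g σ = relab g τ ∘ Equiv.swap (g x) (g y)) ↔ (σ = τ ∘ Equiv.swap x y) := by
    constructor
    · intro h
      funext z
      have := congrFun h (g z)
      rw [relab_apply, Function.comp_apply, hsw, relab_apply] at this
      exact this
    · intro h
      funext z
      obtain ⟨w, rfl⟩ := g.surjective z
      rw [relab_apply, Function.comp_apply, hsw, relab_apply, h]
      rfl
  simp only [h]

theorem hM_relab (g : V ≃ V) (x y : V) :
    (hM (g x) (g y)).submatrix (relab g) (relab g) = hM x y := by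
  unfold hM
  rw [subm_smul, subm_sub, Matrix.submatrix_one_equiv, swapM_relab]

end Gen

section Torus

variable {n : ℕ} [NeZero n]

theorem edges_map_sum {M : Type*} [AddCommMonoid M] (f : Tor n → Tor n → M) :
    ((edges n).map fun e => f e.1 e.2).sum =
      ∑ z : Tor n × Fin 3, f z.1 (z.1 + Pi.single z.2 1) := by
  unfold edges
  rw [List.map_map, ← Finset.sum_map_toList]
  rfl

theorem edges_translate {M : Type*} [AddCommMonoid M] (f : Tor n → Tor n → M) (v : Tor n) :
    ((edges n).map fun e => f e.1 e.2).sum =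
      ((edges n).map fun e => f (e.1 + v) (e.2 + v)).sum := by
  rw [edges_map_sum, edges_map_sum (fun a b => f (a + v) (b + v))]
  rw [← Equiv.sum_comp (Equiv.prodCongr (Equiv.addRight v) (Equiv.refl (Fin 3)))]
  refine Finset.sum_congr rfl fun z _ => ?_
  change f (z.1 + v) ((z.1 + v) + Pi.single z.2 1) = f (z.1 + v) ((z.1 + Pi.single z.2 1) + v)
  rw [add_right_comm]

end Torus

end Vale.Agent.P361.LRO.Bs
end

section

/-! # P361, stage 3: zero field from a small positive field (helper348)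

`Tr e^{-β H} ≤ 2 (n |Λ| + 1) Tr e^{-β' H - t N}`, `t = (β - β') n / (6 L²)`, on the cube of side `L`. -/

namespace Vale.Agent.P361.B

open Matrix Finset Filter Topology
open scoped ComplexOrder Kronecker

set_option linter.unusedSectionVars false

noncomputable section

namespace Su2

variable {n : ℕ} {Λ : Finset Site}

theorem dot_jM {x y : Λ} (hxy : x ≠ y) : Commute (H.dotOp n x y) (jM n Λ) := by
  have h := H.comm_dot_mode (n := n) hxy (fun _ => (1 : ℂ))
  rw [← jM_eq_mode, sub_self, zero_smul] at h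
  exact sub_eq_zero.1 h

theorem hT_jM : Commute (hT n Λ) (jM n Λ) := by
  unfold hT
  refine Commute.smul_left ?_ _
  refine Commute.sum_left _ _ _ fun x _ => Commute.sum_left _ _ _ fun y _ => ?_
  split_ifs with h
  · have hxy : x ≠ y := by
      rintro rfl
      exact isNN_irrefl _ h
    exact ((Commute.one_left _).smul_left _).sub_left (dot_jM hxy)
  · exact Commute.zero_left _

theorem hT_jP : Commute (hT n Λ) (jP n Λ) := by
  have h := congrArg Matrix.conjTranspose (hT_jM (n := n) (Λ := Λ)).eq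
  rw [Matrix.conjTranspose_mul, Matrix.conjTranspose_mul, jM_conj, hT_isHermitian.eq] at h
  exact h.symm

theorem hT_num : Commute (hT n Λ) (numOp n Λ) := by
  have h := jP_jM (n := n) (Λ := Λ)
  have e : numOp n Λ = (1 / 2 : ℂ) • (jM n Λ * jP n Λ + (((n * Λ.card : ℕ) : ℂ) •
      (1 : Matrix (Λ → Fin (n + 1)) (Λ → Fin (n + 1)) ℂ)) - jP n Λ * jM n Λ) := by
    rw [h]
    module
  rw [e]
  exact (((hT_jM.mul_right hT_jP).add_right ((Commute.one_right _).smul_right _)).sub_right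
    (hT_jP.mul_right hT_jM)).smul_right _

theorem hT_casX : Commute (hT n Λ) (casX n Λ) := by
  rw [casX_eq]
  exact (hT_num.mul_right (((Commute.one_right _).smul_right _).sub_right hT_num)).sub_right
    (hT_jM.mul_right hT_jP)

section Rec

variable {A : Matrix (Λ → Fin (n + 1)) (Λ → Fin (n + 1)) ℂ}

theorem rec_pow_succ (hA : A * jM n Λ = jM n Λ * A) (j k : ℕ) :
    trace (A * pj n Λ (j + 1) * casX n Λ ^ (k + 1)) - trace (A * pj n Λ j * casX n Λ ^ (k + 1)) =
      (((j : ℂ) + 1) * ((n * Λ.card : ℕ) - (j : ℂ))) *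
      (trace (A * pj n Λ (j + 1) * casX n Λ ^ k) - trace (A * pj n Λ j * casX n Λ ^ k)) := by
  have g1 : A * pj n Λ (j + 1) * casX n Λ =
      (((j : ℂ) + 1) * ((n * Λ.card : ℕ) - (j : ℂ))) • (A * pj n Λ (j + 1)) -
        jM n Λ * (A * pj n Λ j) * jP n Λ := by
    rw [Matrix.mul_assoc, pj_casX_succ, Matrix.mul_sub, Matrix.mul_smul]
    congr 1
    rw [← Matrix.mul_assoc, ← Matrix.mul_assoc, hA, Matrix.mul_assoc (jM n Λ) A]
  have g2 : A * pj n Λ j * casX n Λ =
      (((j : ℂ) + 1) * ((n * Λ.card : ℕ) - (j : ℂ))) • (A * pj n Λ j) -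
        A * pj n Λ j * (jP n Λ * jM n Λ) := by
    rw [Matrix.mul_assoc, pj_casX, Matrix.mul_sub, Matrix.mul_smul, ← Matrix.mul_assoc A]
  have h1 := trace_step _ _ _ _ g1 k
  have h2 := trace_step _ _ _ _ g2 k
  rw [trace_move _ _ _ _ (casX_pow_comm k)] at h1
  rw [h1, h2]
  ring

theorem rec_pow (hA : A * jM n Λ = jM n Λ * A) (j k : ℕ) :
    trace (A * pj n Λ (j + 1) * casX n Λ ^ k) - trace (A * pj n Λ j * casX n Λ ^ k) =
      (((j : ℂ) + 1) * ((n * Λ.card : ℕ) - (j : ℂ))) ^ k *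
      (trace (A * pj n Λ (j + 1)) - trace (A * pj n Λ j)) := by
  induction k with
  | zero => simp
  | succ k ih => rw [rec_pow_succ hA, ih, pow_succ]; ring

theorem rec_exp (hA : A * jM n Λ = jM n Λ * A) (j : ℕ) (a : ℂ) :
    trace (A * pj n Λ (j + 1) * NormedSpace.exp (a • casX n Λ)) -
      trace (A * pj n Λ j * NormedSpace.exp (a • casX n Λ)) =
      Complex.exp (a * (((j : ℂ) + 1) * ((n * Λ.card : ℕ) - (j : ℂ)))) *
      (trace (A * pj n Λ (j + 1)) - trace (A * pj n Λ j)) := by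
  have h1 := (hasSum_trace_exp (A * pj n Λ (j + 1)) (casX n Λ) a).sub
    (hasSum_trace_exp (A * pj n Λ j) (casX n Λ) a)
  have h2 : HasSum (fun k : ℕ => ((k.factorial : ℂ)⁻¹) *
      ((a * (((j : ℂ) + 1) * ((n * Λ.card : ℕ) - (j : ℂ)))) ^ k))
      (Complex.exp (a * (((j : ℂ) + 1) * ((n * Λ.card : ℕ) - (j : ℂ))))) := by
    rw [Complex.exp_eq_exp_ℂ]
    have := NormedSpace.exp_series_hasSum_exp' (𝕂 := ℂ)
      (a * (((j : ℂ) + 1) * ((n * Λ.card : ℕ) - (j : ℂ))))
    simpa only [smul_eq_mul] using this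
  have h3 := h2.mul_right (trace (A * pj n Λ (j + 1)) - trace (A * pj n Λ j))
  refine h1.unique ?_
  refine hasSum_congr_fun h3 ?_
  intro k
  have h4 := rec_pow hA j k
  rw [mul_pow]
  linear_combination (-((k.factorial : ℂ)⁻¹ * a ^ k)) * h4

theorem rec_zero (a : ℂ) :
    trace (A * pj n Λ 0 * NormedSpace.exp (a • casX n Λ)) = trace (A * pj n Λ 0) := by
  have h1 := hasSum_trace_exp (A * pj n Λ 0) (casX n Λ) a
  have h2 : HasSum (fun k : ℕ => ((k.factorial : ℂ)⁻¹) * (a ^ k *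
      trace (A * pj n Λ 0 * casX n Λ ^ k))) (trace (A * pj n Λ 0)) := by
    have h3 := hasSum_single (f := fun k : ℕ => ((k.factorial : ℂ)⁻¹) * (a ^ k *
      trace (A * pj n Λ 0 * casX n Λ ^ k))) 0 (fun k hk => by
        obtain ⟨k', rfl⟩ := Nat.exists_eq_succ_of_ne_zero hk
        simp only [Nat.succ_eq_add_one]
        rw [pow_succ' (casX n Λ), ← Matrix.mul_assoc, Matrix.mul_assoc A, p0_casX]
        simp)
    simpa using h3
  exact h1.unique h2

theorem rec_le (hA : A * jM n Λ = jM n Λ * A) (hpos : ∀ i, 0 ≤ (trace (A * pj n Λ i)).re) (j : ℕ)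
    (s : ℝ) : (trace (A * pj n Λ j * NormedSpace.exp (((-s : ℝ) : ℂ) • casX n Λ))).re ≤
      ∑ i ∈ Finset.range (j + 1), Real.exp (-s * cj n Λ i) * (trace (A * pj n Λ i)).re := by
  induction j with
  | zero =>
    rw [rec_zero]
    simp [cj]
  | succ j ih =>
    rw [Finset.sum_range_succ]
    have h := congrArg Complex.re (rec_exp hA j ((-s : ℝ) : ℂ))
    rw [Complex.sub_re] at h
    have e1 : Complex.exp (((-s : ℝ) : ℂ) * (((j : ℂ) + 1) * ((n * Λ.card : ℕ) - (j : ℂ)))) =
        ((Real.exp (-s * cj n Λ (j + 1)) : ℝ) : ℂ) := by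
      rw [Complex.ofReal_exp]
      congr 1
      unfold cj
      push_cast
      ring
    rw [e1, Complex.re_ofReal_mul, Complex.sub_re] at h
    have h3 : 0 ≤ Real.exp (-s * cj n Λ (j + 1)) * (trace (A * pj n Λ j)).re :=
      mul_nonneg (Real.exp_pos _).le (hpos j)
    linarith

end Rec

/-! ### Spin flip -/

/-- the spin flip on configurations -/
def rv (n : ℕ) (Λ : Finset Site) : (Λ → Fin (n + 1)) ≃ (Λ → Fin (n + 1)) :=
  Equiv.piCongrRight fun _ => Fin.revPerm

theorem rv_apply (σ : Λ → Fin (n + 1)) (x : Λ) : rv n Λ σ x = Fin.rev (σ x) := rfl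

theorem siteOp_rv (x : Λ) (M : Matrix (Fin (n + 1)) (Fin (n + 1)) ℂ) :
    (siteOp x M).submatrix (rv n Λ) (rv n Λ) = siteOp x (M.submatrix Fin.rev Fin.rev) := by
  ext σ τ
  rw [Matrix.submatrix_apply]
  refine (H.siteOp_apply x M _ _).trans ((H.siteOp_apply x (M.submatrix Fin.rev Fin.rev) σ τ).symm ▸ ?_)
  simp only [rv_apply, Matrix.submatrix_apply]
  congr 1
  refine Finset.prod_congr rfl fun y _ => ?_
  rw [Matrix.one_apply, Matrix.one_apply, rv_apply, rv_apply]
  exact if_congr Fin.rev_inj rfl rfl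

theorem spinZ_rev : (spinZ n).submatrix Fin.rev Fin.rev = -spinZ n := by
  ext i j
  rw [Matrix.submatrix_apply, Matrix.neg_apply, spinZ, Matrix.diagonal_apply, Matrix.diagonal_apply]
  by_cases h : i = j
  · subst h
    rw [if_pos rfl, if_pos rfl, Fin.val_rev]
    have : (i : ℕ) ≤ n := Nat.lt_succ_iff.1 i.2
    have e : ((n + 1 - ((i : ℕ) + 1) : ℕ) : ℂ) = (n : ℂ) - (i : ℕ) := by
      rw [Nat.add_sub_add_right, Nat.cast_sub this]
    rw [e]
    ring
  · rw [if_neg (fun h' => h (Fin.rev_inj.1 h')), if_neg h, neg_zero]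

theorem spinLower_rev : (spinLower n).submatrix Fin.rev Fin.rev = (spinLower n)ᴴ := by
  ext i j
  rw [Matrix.submatrix_apply, Matrix.conjTranspose_apply, spinLower, Matrix.of_apply, Matrix.of_apply,
    Fin.val_rev, Fin.val_rev]
  have hi : (i : ℕ) ≤ n := Nat.lt_succ_iff.1 i.2
  have hj : (j : ℕ) ≤ n := Nat.lt_succ_iff.1 j.2
  by_cases h : (j : ℕ) = (i : ℕ) + 1
  · rw [if_pos (by omega), if_pos h]
    simp only [RCLike.star_def, Complex.conj_ofReal]
    congr 2
    have e : ((n + 1 - ((i : ℕ) + 1) : ℕ) : ℝ) = (n : ℝ) - (i : ℕ) := by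
      rw [Nat.add_sub_add_right, Nat.cast_sub hi]
    rw [e, h]
    push_cast
    ring
  · rw [if_neg (by omega), if_neg h]
    simp

theorem spinLower_rev' : ((spinLower n)ᴴ).submatrix Fin.rev Fin.rev = spinLower n := by
  rw [← spinLower_rev, Matrix.submatrix_submatrix]
  ext i j
  simp

theorem dot_rv (x y : Λ) : (H.dotOp n x y).submatrix (rv n Λ) (rv n Λ) = H.dotOp n x y := by
  rw [H.dotOp_eq]
  simp only [Matrix.submatrix_add, Matrix.submatrix_smul, Pi.add_apply, Pi.smul_apply,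
    ← Matrix.submatrix_mul_equiv _ _ (rv n Λ) (rv n Λ) (rv n Λ), siteOp_rv, spinZ_rev, spinLower_rev,
    spinLower_rev']
  have e : ∀ z : Λ, siteOp z (-spinZ n) = -H.oZ n z := by
    intro z
    have := H.siteOp_smul z (-1 : ℂ) (spinZ n)
    rw [neg_one_smul, neg_one_smul] at this
    exact this
  rw [e, e, neg_mul_neg, add_comm (H.oM n x * H.oP n y)]

theorem hT_rv : (hT n Λ).submatrix (rv n Λ) (rv n Λ) = hT n Λ := by
  ext σ τ
  have hd : ∀ x y : Λ, H.dotOp n x y (rv n Λ σ) (rv n Λ τ) = H.dotOp n x y σ τ := by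
    intro x y
    exact congrFun (congrFun (dot_rv x y) σ) τ
  have h1 : (1 : Matrix (Λ → Fin (n + 1)) (Λ → Fin (n + 1)) ℂ) (rv n Λ σ) (rv n Λ τ) =
      (1 : Matrix (Λ → Fin (n + 1)) (Λ → Fin (n + 1)) ℂ) σ τ := by
    simp only [Matrix.one_apply, (rv n Λ).injective.eq_iff]
  rw [Matrix.submatrix_apply]
  unfold hT
  simp only [Matrix.smul_apply, Matrix.sum_apply]
  congr 1
  refine Finset.sum_congr rfl fun x _ => Finset.sum_congr rfl fun y _ => ?_
  split_ifs
  · simp only [Matrix.sub_apply, Matrix.smul_apply, hd, h1]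
  · rfl

theorem cntS_rv (σ : Λ → Fin (n + 1)) : cntS (rv n Λ σ) + cntS σ = n * Λ.card := by
  unfold cntS
  rw [← Finset.sum_add_distrib]
  have : ∀ x : Λ, ((rv n Λ σ x : Fin (n + 1)) : ℕ) + (σ x : ℕ) = n := by
    intro x
    rw [rv_apply, Fin.val_rev]
    have := Nat.lt_succ_iff.1 (σ x).2
    omega
  simp only [this, Finset.sum_const, Finset.card_univ, Fintype.card_coe, smul_eq_mul]
  ring

theorem tr_flip (b : ℂ) {i : ℕ} (hi : i ≤ n * Λ.card) :
    trace (NormedSpace.exp (b • hT n Λ) * pj n Λ i) =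
      trace (NormedSpace.exp (b • hT n Λ) * pj n Λ (n * Λ.card - i)) := by
  have hexp : (NormedSpace.exp (b • hT n Λ)).submatrix (rv n Λ) (rv n Λ) =
      NormedSpace.exp (b • hT n Λ) := by
    rw [← exp_submatrix_equiv]
    congr 1
    rw [Matrix.submatrix_smul, Pi.smul_apply, Pi.smul_apply, hT_rv]
  have key : ∀ j, trace (NormedSpace.exp (b • hT n Λ) * pj n Λ j) =
      ∑ σ, if cntS σ = j then NormedSpace.exp (b • hT n Λ) σ σ else 0 := by
    intro j
    rw [pj, Matrix.trace]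
    refine Finset.sum_congr rfl fun σ _ => ?_
    rw [Matrix.diag_apply, Matrix.mul_diagonal]
    split_ifs <;> simp
  rw [key, key, ← (rv n Λ).sum_comp]
  refine Finset.sum_congr rfl fun σ _ => ?_
  have h1 := congrFun (congrFun hexp σ) σ
  rw [Matrix.submatrix_apply] at h1
  rw [h1]
  have h2 := cntS_rv σ
  have h3 : (cntS (rv n Λ σ) = i) ↔ (cntS σ = n * Λ.card - i) := by omega
  simp only [h3]

theorem exp_num (t : ℝ) : NormedSpace.exp (((-t : ℝ) : ℂ) • numOp n Λ) =
    ∑ i ∈ Finset.range (n * Λ.card + 1), ((Real.exp (-t * i) : ℝ) : ℂ) • pj n Λ i := by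
  have e1 : ((-t : ℝ) : ℂ) • numOp n Λ =
      diagonal fun σ : Λ → Fin (n + 1) => ((-t : ℝ) : ℂ) * ((cntS σ : ℕ) : ℂ) := by
    rw [numOp_eq_diagonal, ← Matrix.diagonal_smul]
    rfl
  rw [e1, Matrix.exp_diagonal]
  ext σ τ
  rw [Matrix.sum_apply]
  by_cases h : σ = τ
  · subst h
    rw [Matrix.diagonal_apply_eq]
    simp only [Matrix.smul_apply, pj, Matrix.diagonal_apply_eq, smul_eq_mul, mul_ite, mul_one, mul_zero]
    rw [Finset.sum_ite_eq, if_pos (by
      rw [Finset.mem_range]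
      have := cntS_le σ
      omega)]
    rw [Pi.exp_def]
    simp only
    rw [← Complex.exp_eq_exp_ℂ, Complex.ofReal_exp]
    push_cast
    rfl
  · rw [Matrix.diagonal_apply_ne _ h]
    symm
    refine Finset.sum_eq_zero fun i _ => ?_
    rw [Matrix.smul_apply, pj, Matrix.diagonal_apply_ne _ h, smul_zero]

theorem Zt_eq_sum (b t : ℝ) : Zt n Λ b t = ∑ i ∈ Finset.range (n * Λ.card + 1),
    Real.exp (-t * i) * (trace (NormedSpace.exp (((-b : ℝ) : ℂ) • hT n Λ) * pj n Λ i)).re := by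
  have hc : Commute (((-b : ℝ) : ℂ) • hT n Λ) (((-t : ℝ) : ℂ) • numOp n Λ) :=
    (hT_num.smul_left _).smul_right _
  have e1 : -((b : ℂ) • hT n Λ + (t : ℂ) • numOp n Λ) =
      ((-b : ℝ) : ℂ) • hT n Λ + ((-t : ℝ) : ℂ) • numOp n Λ := by
    push_cast
    module
  unfold Zt
  rw [e1, Matrix.exp_add_of_commute _ _ hc, exp_num, Matrix.mul_sum, Matrix.trace_sum, Complex.re_sum]
  refine Finset.sum_congr rfl fun i _ => ?_
  rw [Matrix.mul_smul, Matrix.trace_smul, smul_eq_mul, Complex.re_ofReal_mul]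

theorem exp_cj_le {s : ℝ} (hs : 0 ≤ s) {i : ℕ} (hi : i ≤ n * Λ.card) :
    Real.exp (-s * cj n Λ i) ≤ Real.exp (-(s * (n * Λ.card / 2)) * i) +
      Real.exp (-(s * (n * Λ.card / 2)) * ((n * Λ.card - i : ℕ) : ℝ)) := by
  have hi' : (i : ℝ) ≤ (n : ℝ) * Λ.card := by exact_mod_cast hi
  have hi0 : (0 : ℝ) ≤ i := Nat.cast_nonneg i
  rw [Nat.cast_sub hi]
  push_cast
  unfold cj
  rcases le_total (i : ℝ) ((n : ℝ) * Λ.card / 2) with h | h
  · refine le_trans (Real.exp_le_exp.2 ?_) (le_add_of_nonneg_right (Real.exp_pos _).le)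
    have : (n : ℝ) * Λ.card / 2 * i ≤ i * ((n : ℝ) * Λ.card + 1 - i) := by nlinarith
    have := mul_le_mul_of_nonneg_left this hs
    linarith
  · refine le_trans (Real.exp_le_exp.2 ?_) (le_add_of_nonneg_left (Real.exp_pos _).le)
    have h2 : (n : ℝ) * Λ.card / 2 * ((n : ℝ) * Λ.card - i) ≤ i * ((n : ℝ) * Λ.card + 1 - i) := by
      nlinarith
    have := mul_le_mul_of_nonneg_left h2 hs
    linarith

end Su2

open Su2 in
theorem su2_sum {n : ℕ} {Λ : Finset Site} {A : Matrix (Λ → Fin (n + 1)) (Λ → Fin (n + 1)) ℂ}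
    (hAj : A * jM n Λ = jM n Λ * A) (hpos : ∀ i, 0 ≤ (trace (A * pj n Λ i)).re) (s : ℝ) :
    (trace (A * NormedSpace.exp (((-s : ℝ) : ℂ) • casX n Λ))).re ≤
      ((n : ℝ) * Λ.card + 1) * ∑ i ∈ Finset.range (n * Λ.card + 1),
        Real.exp (-s * cj n Λ i) * (trace (A * pj n Λ i)).re := by
  have h2 : (trace (A * NormedSpace.exp (((-s : ℝ) : ℂ) • casX n Λ))).re =
      ∑ j ∈ Finset.range (n * Λ.card + 1),
        (trace (A * pj n Λ j * NormedSpace.exp (((-s : ℝ) : ℂ) • casX n Λ))).re := by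
    rw [← Complex.re_sum, ← Matrix.trace_sum, ← Finset.sum_mul, ← Finset.mul_sum, sum_pj,
      Matrix.mul_one]
  rw [h2]
  calc _ ≤ ∑ _j ∈ Finset.range (n * Λ.card + 1), ∑ i ∈ Finset.range (n * Λ.card + 1),
        Real.exp (-s * cj n Λ i) * (trace (A * pj n Λ i)).re := by
        refine Finset.sum_le_sum fun j hj => (rec_le hAj hpos j s).trans ?_
        refine Finset.sum_le_sum_of_subset_of_nonneg ?_ fun i _ _ =>
          mul_nonneg (Real.exp_pos _).le (hpos i)
        intro i hi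
        rw [Finset.mem_range] at hi hj ⊢
        omega
    _ = _ := by
        rw [Finset.sum_const, Finset.card_range, nsmul_eq_mul]
        push_cast
        rfl

open Su2 in
theorem su2_flip {n : ℕ} {Λ : Finset Site} (b' t : ℝ) : ∑ i ∈ Finset.range (n * Λ.card + 1),
      Real.exp (-t * ((n * Λ.card - i : ℕ) : ℝ)) *
        (trace (NormedSpace.exp (((-b' : ℝ) : ℂ) • hT n Λ) * pj n Λ i)).re = Zt n Λ b' t := by
  rw [Zt_eq_sum, ← Finset.sum_range_reflect]
  refine Finset.sum_congr rfl fun i hi => ?_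
  rw [Finset.mem_range] at hi
  have hi2 : i ≤ n * Λ.card := by omega
  have e1 : n * Λ.card + 1 - 1 - i = n * Λ.card - i := by omega
  rw [e1]
  have e2 : n * Λ.card - (n * Λ.card - i) = i := by omega
  rw [e2, tr_flip (((-b' : ℝ) : ℂ)) (i := i) hi2]

open Su2 in
theorem su2_T {n : ℕ} {Λ : Finset Site} {s : ℝ} (hs0 : 0 ≤ s) (b' : ℝ)
    (hpos : ∀ i, 0 ≤ (trace (NormedSpace.exp (((-b' : ℝ) : ℂ) • hT n Λ) * pj n Λ i)).re) :
    ∑ i ∈ Finset.range (n * Λ.card + 1), Real.exp (-s * cj n Λ i) *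
      (trace (NormedSpace.exp (((-b' : ℝ) : ℂ) • hT n Λ) * pj n Λ i)).re ≤
      2 * Zt n Λ b' (s * (n * Λ.card / 2)) := by
  have hflip := su2_flip (n := n) (Λ := Λ) b' (s * (n * Λ.card / 2))
  have hZ := Zt_eq_sum (n := n) (Λ := Λ) b' (s * (n * Λ.card / 2))
  calc _ ≤ ∑ i ∈ Finset.range (n * Λ.card + 1),
      (Real.exp (-(s * (n * Λ.card / 2)) * i) *
        (trace (NormedSpace.exp (((-b' : ℝ) : ℂ) • hT n Λ) * pj n Λ i)).re +
        Real.exp (-(s * (n * Λ.card / 2)) * ((n * Λ.card - i : ℕ) : ℝ)) *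
        (trace (NormedSpace.exp (((-b' : ℝ) : ℂ) • hT n Λ) * pj n Λ i)).re) := by
        refine Finset.sum_le_sum fun i hi => ?_
        rw [Finset.mem_range] at hi
        rw [← add_mul]
        exact mul_le_mul_of_nonneg_right (exp_cj_le hs0 (by omega)) (hpos i)
    _ = _ := by
        rw [Finset.sum_add_distrib, hflip, ← hZ]
        ring

open Su2 in
theorem su2_mono {n : ℕ} (hn : 0 < n) {L : ℕ} (hL : 0 < L) {b b' : ℝ} (hbb : b' ≤ b) {s : ℝ}
    (hs : s = (b - b') / (3 * (L : ℝ) ^ 5)) :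
    Zt n (cube L) b 0 ≤ (trace (NormedSpace.exp (((-b' : ℝ) : ℂ) • hT n (cube L)) *
      NormedSpace.exp (((-s : ℝ) : ℂ) • casX n (cube L)))).re := by
  have hLR : (0 : ℝ) < L := by exact_mod_cast hL
  have hs0 : 0 ≤ s := by rw [hs]; exact div_nonneg (by linarith) (by positivity)
  have hXh : (((-b' : ℝ) : ℂ) • hT n (cube L)).IsHermitian := by
    rw [Matrix.IsHermitian, Matrix.conjTranspose_smul, hT_isHermitian]
    simp
  have hch : (((-s : ℝ) : ℂ) • casX n (cube L)).IsHermitian := by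
    rw [Matrix.IsHermitian, Matrix.conjTranspose_smul, casX_isHermitian]
    simp
  have hc : Commute (((-b' : ℝ) : ℂ) • hT n (cube L)) (((-s : ℝ) : ℂ) • casX n (cube L)) :=
    (hT_casX.smul_left _).smul_right _
  rw [← Matrix.exp_add_of_commute _ _ hc]
  refine trace_exp_mono (expo_isHermitian' (n := n) (Λ := cube L) b 0) (hXh.add hch) ?_
  have e : ((-b' : ℝ) : ℂ) • hT n (cube L) + ((-s : ℝ) : ℂ) • casX n (cube L) -
      -((b : ℂ) • hT n (cube L) + ((0 : ℝ) : ℂ) • numOp n (cube L)) =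
      (s : ℂ) • (((3 * (L : ℝ) ^ 5 : ℝ) : ℂ) • hT n (cube L) - casX n (cube L)) := by
    have e2 : ((b - b' : ℝ) : ℂ) = (s : ℂ) * ((3 * (L : ℝ) ^ 5 : ℝ) : ℂ) := by
      rw [← Complex.ofReal_mul]
      congr 1
      rw [hs]
      field_simp
    rw [smul_sub, smul_smul, ← e2]
    push_cast
    module
  rw [e]
  exact (casX_le_hT hn L).smul (by simpa using hs0)

open Su2 in
/-- **Zero field from a small positive field.** -/
theorem Zt_su2 {n : ℕ} (hn : 0 < n) {L : ℕ} (hL : 0 < L) {b b' : ℝ} (hbb : b' ≤ b) :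
    Zt n (cube L) b 0 ≤ 2 * ((n : ℝ) * (L : ℝ) ^ 3 + 1) *
      Zt n (cube L) b' ((b - b') * n / (6 * (L : ℝ) ^ 2)) := by
  have hLR : (0 : ℝ) < L := by exact_mod_cast hL
  obtain ⟨s, hs⟩ : ∃ s : ℝ, s = (b - b') / (3 * (L : ℝ) ^ 5) := ⟨_, rfl⟩
  have hs0 : 0 ≤ s := by rw [hs]; exact div_nonneg (by linarith) (by positivity)
  have hcard : ((cube L).card : ℝ) = (L : ℝ) ^ 3 := by
    rw [cube_eq, card_cube]; push_cast; rfl
  have hXh : (((-b' : ℝ) : ℂ) • hT n (cube L)).IsHermitian := by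
    rw [Matrix.IsHermitian, Matrix.conjTranspose_smul, hT_isHermitian]
    simp
  have hAj : NormedSpace.exp (((-b' : ℝ) : ℂ) • hT n (cube L)) * jM n (cube L) =
      jM n (cube L) * NormedSpace.exp (((-b' : ℝ) : ℂ) • hT n (cube L)) := by
    open scoped Matrix.Norms.Operator in
    exact ((hT_jM.smul_left _).exp_left).eq
  have hpj : ∀ i, (pj n (cube L) i).PosSemidef := fun i => by
    unfold pj
    refine Matrix.PosSemidef.diagonal fun σ => ?_
    simp only [Pi.zero_apply]
    split_ifs <;> simp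
  have hpos : ∀ i, 0 ≤ (trace (NormedSpace.exp (((-b' : ℝ) : ℂ) • hT n (cube L)) *
      pj n (cube L) i)).re := fun i => trace_exp_mul_nonneg hXh (hpj i)
  have h1 := su2_mono hn hL hbb hs
  have h2 := su2_sum hAj hpos s
  have h3 := su2_T hs0 b' hpos
  have ht2 : s * (n * (cube L).card / 2) = (b - b') * n / (6 * (L : ℝ) ^ 2) := by
    rw [hcard, hs]
    field_simp
    ring
  rw [ht2] at h3
  rw [hcard] at h2
  have h4 := mul_le_mul_of_nonneg_left h3 (by positivity : 0 ≤ (n : ℝ) * (L : ℝ) ^ 3 + 1)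
  linarith

end

end Vale.Agent.P361.B
end

section

/-! # P361 LRO, stage 3: local comparison with the free region `Q` (helper348)

`⟨W⟩ ≤ log tr_Q e^{B + W} - log tr_Q e^{B} + G` for observables `W` of a region `Q`, `B` = exponent of
the free region `Q` (fields included, any fields), `G` = `β` times the number of boundary bonds. -/

namespace Vale.Agent.P361.LRO.Energy

open Matrix Finset
open scoped ComplexOrder Kronecker

set_option linter.unusedSectionVars false

noncomputable section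

variable {V : Type} [Fintype V] [DecidableEq V] {Q : Finset V}

/-- configurations inside `Q`, all up outside -/
def inQ (Q : Finset V) (q : ({x // ¬ x ∉ Q}) → Fin 2) : Cfg V := splitQ Q (0, q)

theorem inQ_in (q : ({x // ¬ x ∉ Q}) → Fin 2) {x : V} (hx : ¬ x ∉ Q) : inQ Q q x = q ⟨x, hx⟩ :=
  splitQ_in (0, q) hx

theorem inQ_injective : Function.Injective (inQ Q) := by
  intro s t h
  have := (splitQ Q).injective h
  exact (Prod.mk.inj this).2

/-- an operator which acts on `Q` only -/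
def OnQ (Q : Finset V) (A : Matrix (Cfg V) (Cfg V) ℂ) : Prop :=
  ∀ s t q q', A (splitQ Q (s, q)) (splitQ Q (t, q')) = if s = t then A (inQ Q q) (inQ Q q') else 0

theorem onQ_add {A B : Matrix (Cfg V) (Cfg V) ℂ} (hA : OnQ Q A) (hB : OnQ Q B) : OnQ Q (A + B) := by
  intro s t q q'
  simp only [Matrix.add_apply, hA s t q q', hB s t q q']
  split_ifs <;> simp

theorem onQ_smul (c : ℂ) {A : Matrix (Cfg V) (Cfg V) ℂ} (hA : OnQ Q A) : OnQ Q (c • A) := by
  intro s t q q'
  simp only [Matrix.smul_apply, hA s t q q']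
  split_ifs <;> simp

theorem onQ_sub {A B : Matrix (Cfg V) (Cfg V) ℂ} (hA : OnQ Q A) (hB : OnQ Q B) : OnQ Q (A - B) := by
  intro s t q q'
  simp only [Matrix.sub_apply, hA s t q q', hB s t q q']
  split_ifs <;> simp

theorem onQ_sum {κ : Type*} (s : Finset κ) {A : κ → Matrix (Cfg V) (Cfg V) ℂ} (hA : ∀ k ∈ s, OnQ Q (A k)) :
    OnQ Q (∑ k ∈ s, A k) := by
  classical
  induction s using Finset.induction_on with
  | empty =>
    intro s t q q'
    simp
  | insert a s ha ih =>
    rw [Finset.sum_insert ha]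
    exact onQ_add (hA a (Finset.mem_insert_self _ _)) (ih fun k hk => hA k (Finset.mem_insert_of_mem hk))

theorem splitQ_eq_iff' (s t : ({x // x ∉ Q}) → Fin 2) (q q' : ({x // ¬ x ∉ Q}) → Fin 2) :
    splitQ Q (s, q) = splitQ Q (t, q') ↔ s = t ∧ inQ Q q = inQ Q q' := by
  rw [(splitQ Q).injective.eq_iff, inQ_injective.eq_iff, Prod.mk.injEq]

theorem onQ_one : OnQ Q (1 : Matrix (Cfg V) (Cfg V) ℂ) := by
  intro s t q q'
  simp only [Matrix.one_apply, splitQ_eq_iff']
  split_ifs <;> simp_all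

theorem onQ_szM {x : V} (hx : x ∈ Q) : OnQ Q (szM x) := by
  have hx' : ¬ x ∉ Q := not_not.2 hx
  intro s t q q'
  simp only [szM, Matrix.diagonal_apply, splitQ_eq_iff', inQ_in _ hx', splitQ_in _ hx']
  by_cases h1 : s = t
  · simp [h1]
  · simp [h1]

theorem swap_comp_split' {x y : V} (hx : ¬ x ∉ Q) (hy : ¬ y ∉ Q) (s : ({x // x ∉ Q}) → Fin 2)
    (q : ({x // ¬ x ∉ Q}) → Fin 2) : splitQ Q (s, q) ∘ Equiv.swap x y =
      splitQ Q (s, q ∘ Equiv.swap ⟨x, hx⟩ ⟨y, hy⟩) := by
  funext z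
  by_cases hz : z ∉ Q
  · have h1 : z ≠ x := by rintro rfl; exact hx hz
    have h2 : z ≠ y := by rintro rfl; exact hy hz
    rw [splitQ_out _ hz, Function.comp_apply, Equiv.swap_apply_of_ne_of_ne h1 h2, splitQ_out _ hz]
  · rw [splitQ_in _ hz, Function.comp_apply]
    have h1 : Equiv.swap x y z = ((Equiv.swap (⟨x, hx⟩ : {x // ¬ x ∉ Q}) ⟨y, hy⟩ ⟨z, hz⟩ : {x // ¬ x ∉ Q}) : V) := by
      rw [Equiv.swap_apply_def, Equiv.swap_apply_def]
      simp only [Subtype.mk.injEq]
      split_ifs <;> rfl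
    have h2 : ¬ Equiv.swap x y z ∉ Q := by
      rw [h1]
      exact (Equiv.swap (⟨x, hx⟩ : {x // ¬ x ∉ Q}) ⟨y, hy⟩ ⟨z, hz⟩).property
    rw [splitQ_in _ h2]
    simp only [Function.comp_apply]
    congr 1
    exact Subtype.ext h1

theorem onQ_swapM {x y : V} (hx : x ∈ Q) (hy : y ∈ Q) : OnQ Q (swapM x y) := by
  have hx' : ¬ x ∉ Q := not_not.2 hx
  have hy' : ¬ y ∉ Q := not_not.2 hy
  intro s t q q'
  have h0 : inQ Q q ∘ Equiv.swap x y = inQ Q (q ∘ Equiv.swap ⟨x, hx'⟩ ⟨y, hy'⟩) :=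
    swap_comp_split' hx' hy' 0 q
  simp only [swapM, Matrix.of_apply, h0, swap_comp_split' hx' hy', splitQ_eq_iff']
  by_cases h1 : s = t
  · simp [h1]
  · simp [h1]

theorem onQ_hM {x y : V} (hx : x ∈ Q) (hy : y ∈ Q) : OnQ Q (hM x y) :=
  onQ_smul _ (onQ_sub onQ_one (onQ_swapM hx hy))

/-- the operator of the region `Q` -/
def resQ (Q : Finset V) (B : Matrix (Cfg V) (Cfg V) ℂ) :
    Matrix (({x // ¬ x ∉ Q}) → Fin 2) (({x // ¬ x ∉ Q}) → Fin 2) ℂ := B.submatrix (inQ Q) (inQ Q)

theorem resQ_isHermitian {B : Matrix (Cfg V) (Cfg V) ℂ} (hB : B.IsHermitian) :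
    (resQ Q B).IsHermitian := hB.submatrix _

/-- `tr exp (A + B)` factorises -/
theorem tr_exp_off_on {A B : Matrix (Cfg V) (Cfg V) ℂ} (hA : OffQ Q A) (hAh : A.IsHermitian)
    (hB : OnQ Q B) (hBh : B.IsHermitian) :
    (trace (NormedSpace.exp (A + B))).re =
      (trace (NormedSpace.exp (A.submatrix (extQ Q) (extQ Q)))).re *
        (trace (NormedSpace.exp (resQ Q B))).re := by
  have h1 : (A + B).submatrix (splitQ Q) (splitQ Q) =
      (A.submatrix (extQ Q) (extQ Q)) ⊗ₖ (1 : Matrix (({x // ¬ x ∉ Q}) → Fin 2) (({x // ¬ x ∉ Q}) → Fin 2) ℂ) +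
      (1 : Matrix (({x // x ∉ Q}) → Fin 2) (({x // x ∉ Q}) → Fin 2) ℂ) ⊗ₖ resQ Q B := by
    ext ⟨s, q⟩ ⟨t, q'⟩
    rw [Matrix.submatrix_apply, Matrix.add_apply, hA s t q q', hB s t q q', Matrix.add_apply,
      Matrix.kroneckerMap_apply, Matrix.kroneckerMap_apply, Matrix.one_apply, Matrix.one_apply,
      Matrix.submatrix_apply, resQ, Matrix.submatrix_apply]
    split_ifs <;> simp
  rw [← trace_exp_submatrix (splitQ Q), h1,
    Vale.Agent.P361.B.trace_exp_kron (hAh.submatrix (extQ Q)) (resQ_isHermitian hBh)]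
  rw [Complex.ofReal_re, trace_exp_re (hAh.submatrix (extQ Q)), trace_exp_re (resQ_isHermitian hBh),
    Fintype.sum_prod_type, Finset.sum_mul_sum]
  simp only [Real.exp_add]

/-- **Local comparison.** -/
theorem local_cmp {A B W Y : Matrix (Cfg V) (Cfg V) ℂ} (hA : OffQ Q A) (hAh : A.IsHermitian)
    (hB : OnQ Q B) (hBh : B.IsHermitian) (hW : OnQ Q W) (hWh : W.IsHermitian)
    (hY : Y.PosSemidef) {G : ℝ} (hG : (((G : ℂ) • (1 : Matrix (Cfg V) (Cfg V) ℂ)) - Y).PosSemidef) :
    ex (A + B - Y) W ≤ Real.log (trace (NormedSpace.exp (resQ Q (B + W)))).re -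
      Real.log (trace (NormedSpace.exp (resQ Q B))).re + G := by
  have hYh : Y.IsHermitian := hY.1
  have hXh : (A + B - Y).IsHermitian := (hAh.add hBh).sub hYh
  have hPB := peierls_bogoliubov hXh hWh
  have hup : (trace (NormedSpace.exp (A + B - Y + W))).re ≤
      (trace (NormedSpace.exp (A.submatrix (extQ Q) (extQ Q)))).re *
        (trace (NormedSpace.exp (resQ Q (B + W)))).re := by
    rw [← tr_exp_off_on hA hAh (onQ_add hB hW) (hBh.add hWh)]
    refine trace_exp_mono (hXh.add hWh) (hAh.add (hBh.add hWh)) ?_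
    have e : A + (B + W) - (A + B - Y + W) = Y := by abel
    rw [e]
    exact hY
  have hlow : Real.exp (-G) * ((trace (NormedSpace.exp (A.submatrix (extQ Q) (extQ Q)))).re *
        (trace (NormedSpace.exp (resQ Q B))).re) ≤ (trace (NormedSpace.exp (A + B - Y))).re := by
    rw [← tr_exp_off_on hA hAh hB hBh, ← trace_exp_add_smul_one]
    refine trace_exp_mono ((hAh.add hBh).add (smul_real_isHermitian Matrix.isHermitian_one _)) hXh ?_
    have e : A + B - Y - (A + B + ((-G : ℝ) : ℂ) • (1 : Matrix (Cfg V) (Cfg V) ℂ)) =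
        (G : ℂ) • (1 : Matrix (Cfg V) (Cfg V) ℂ) - Y := by
      push_cast
      module
    rw [e]
    exact hG
  have p1 := trace_exp_pos (hAh.submatrix (extQ Q))
  have p2 := trace_exp_pos (resQ_isHermitian (Q := Q) hBh)
  have p3 := trace_exp_pos (resQ_isHermitian (Q := Q) (hBh.add hWh))
  have l1 := Real.log_le_log (trace_exp_pos (hXh.add hWh)) hup
  have l2 := Real.log_le_log (by positivity) hlow
  rw [Real.log_mul p1.ne' p3.ne'] at l1
  rw [Real.log_mul (Real.exp_pos _).ne' (by positivity), Real.log_exp,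
    Real.log_mul p1.ne' p2.ne'] at l2
  unfold ex
  linarith

end

end Vale.Agent.P361.LRO.Energy
end

section

/-! # P361 LRO, stage 3 (7'): energy bound with half of the coupling (helper348)

`(1/2) β ∑_{e ⊆ Q} c_e ⟨h_e⟩ ≤ log tr_Q e^{-(β/2) H_Q} + β |∂Q|` for fields `≥ 0` on `Q`. -/

namespace Vale.Agent.P361.LRO.Energy

open Matrix Finset
open scoped ComplexOrder Kronecker

set_option linter.unusedSectionVars false

noncomputable section

variable {V : Type} [Fintype V] [DecidableEq V] {ι : Type*} [Fintype ι] [DecidableEq ι]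

/-- the exponent outside `Q` -/
def offX (Q : Finset V) (β : ℝ) (h : V → ℝ) (a b : ι → V) (c : ι → ℝ) : Matrix (Cfg V) (Cfg V) ℂ :=
  ∑ x with x ∉ Q, ((β * h x : ℝ) : ℂ) • szM x -
    ∑ e with ¬ (a e ∈ Q ∨ b e ∈ Q), ((β * c e : ℝ) : ℂ) • hM (a e) (b e)

/-- the fields in `Q` -/
def fldX (Q : Finset V) (β : ℝ) (h : V → ℝ) : Matrix (Cfg V) (Cfg V) ℂ :=
  ∑ x ∈ Q, ((β * h x : ℝ) : ℂ) • szM x

/-- `β` times the Hamiltonian of the bonds inside `Q` -/
def inX (Q : Finset V) (β : ℝ) (a b : ι → V) (c : ι → ℝ) : Matrix (Cfg V) (Cfg V) ℂ :=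
  ∑ e with (a e ∈ Q ∧ b e ∈ Q), ((β * c e : ℝ) : ℂ) • hM (a e) (b e)

/-- the boundary bonds -/
def bdX (Q : Finset V) (β : ℝ) (a b : ι → V) (c : ι → ℝ) : Matrix (Cfg V) (Cfg V) ℂ :=
  ∑ e with ((a e ∈ Q ∨ b e ∈ Q) ∧ ¬ (a e ∈ Q ∧ b e ∈ Q)), ((β * c e : ℝ) : ℂ) • hM (a e) (b e)

variable (Q : Finset V) (β : ℝ) (h : V → ℝ) (a b : ι → V) (c : ι → ℝ)

theorem gibX_split : gibX β h a b c = offX Q β h a b c + (fldX Q β h - inX Q β a b c) - bdX Q β a b c := by
  classical
  rw [gibX, offX, fldX, inX, bdX]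
  rw [← Finset.sum_filter_add_sum_filter_not Finset.univ (fun x => x ∉ Q)
      (fun x => ((β * h x : ℝ) : ℂ) • (szM x : Matrix (Cfg V) (Cfg V) ℂ)),
      ← Finset.sum_filter_add_sum_filter_not Finset.univ (fun e => a e ∈ Q ∨ b e ∈ Q)
      (fun e => ((β * c e : ℝ) : ℂ) • (hM (a e) (b e) : Matrix (Cfg V) (Cfg V) ℂ)),
      ← Finset.sum_filter_add_sum_filter_not (Finset.univ.filter fun e => a e ∈ Q ∨ b e ∈ Q)
      (fun e => a e ∈ Q ∧ b e ∈ Q)
      (fun e => ((β * c e : ℝ) : ℂ) • (hM (a e) (b e) : Matrix (Cfg V) (Cfg V) ℂ))]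
  have h3 : (Finset.univ.filter fun x => ¬ x ∉ Q) = Q := by
    ext x; simp
  have h4 : ((Finset.univ.filter fun e => a e ∈ Q ∨ b e ∈ Q).filter fun e => a e ∈ Q ∧ b e ∈ Q) =
      Finset.univ.filter fun e => a e ∈ Q ∧ b e ∈ Q := by
    ext e
    simp only [Finset.mem_filter, Finset.mem_univ, true_and]
    tauto
  have h5 : ((Finset.univ.filter fun e => a e ∈ Q ∨ b e ∈ Q).filter fun e => ¬ (a e ∈ Q ∧ b e ∈ Q)) =
      Finset.univ.filter fun e => (a e ∈ Q ∨ b e ∈ Q) ∧ ¬ (a e ∈ Q ∧ b e ∈ Q) := by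
    rw [Finset.filter_filter]
  rw [h3, h4, h5]
  abel

theorem offX_offQ : OffQ Q (offX Q β h a b c) := by
  refine offQ_sub (offQ_sum _ fun x hx => offQ_smul _ (offQ_szM (Finset.mem_filter.1 hx).2))
    (offQ_sum _ fun e he => offQ_smul _ ?_)
  have h2 := (Finset.mem_filter.1 he).2
  rw [not_or] at h2
  exact offQ_hM h2.1 h2.2

theorem offX_isHermitian : (offX Q β h a b c).IsHermitian :=
  (sum_isHermitian _ fun _ _ => smul_real_isHermitian (szM_isHermitian _) _).sub
    (sum_isHermitian _ fun _ _ => smul_real_isHermitian (hM_isHermitian _ _) _)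

theorem fldX_onQ : OnQ Q (fldX Q β h) := onQ_sum _ fun _ hx => onQ_smul _ (onQ_szM hx)

theorem fldX_isHermitian : (fldX Q β h).IsHermitian :=
  sum_isHermitian _ fun _ _ => smul_real_isHermitian (szM_isHermitian _) _

theorem inX_onQ : OnQ Q (inX Q β a b c) :=
  onQ_sum _ fun _ he => onQ_smul _ (onQ_hM (Finset.mem_filter.1 he).2.1 (Finset.mem_filter.1 he).2.2)

theorem inX_isHermitian : (inX Q β a b c).IsHermitian :=
  sum_isHermitian _ fun _ _ => smul_real_isHermitian (hM_isHermitian _ _) _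

variable {β c}

theorem bdX_posSemidef (hβ : 0 ≤ β) (hc : ∀ e, 0 ≤ c e) : (bdX Q β a b c).PosSemidef :=
  Matrix.posSemidef_sum _ fun e _ => smul_real_posSemidef (hM_posSemidef _ _) (mul_nonneg hβ (hc e))

theorem bdX_le (hβ : 0 ≤ β) (hc : ∀ e, 0 ≤ c e) :
    ((((β * ∑ e with ((a e ∈ Q ∨ b e ∈ Q) ∧ ¬ (a e ∈ Q ∧ b e ∈ Q)), c e : ℝ) : ℂ) •
      (1 : Matrix (Cfg V) (Cfg V) ℂ)) - bdX Q β a b c).PosSemidef := by
  have e1 : ((((β * ∑ e with ((a e ∈ Q ∨ b e ∈ Q) ∧ ¬ (a e ∈ Q ∧ b e ∈ Q)), c e : ℝ) : ℂ) •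
      (1 : Matrix (Cfg V) (Cfg V) ℂ)) - bdX Q β a b c) =
      ∑ e with ((a e ∈ Q ∨ b e ∈ Q) ∧ ¬ (a e ∈ Q ∧ b e ∈ Q)), ((β * c e : ℝ) : ℂ) •
        ((1 : Matrix (Cfg V) (Cfg V) ℂ) - hM (a e) (b e)) := by
    simp only [smul_sub, Finset.sum_sub_distrib, bdX]
    rw [← Finset.sum_smul, Finset.mul_sum]
    push_cast
    rfl
  rw [e1]
  exact Matrix.posSemidef_sum _ fun e _ => smul_real_posSemidef (one_sub_hM_posSemidef _ _)
    (mul_nonneg hβ (hc e))

/-- **Local comparison** for the Gibbs state: observables of `Q` against the free region `Q`. -/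
theorem gib_local_cmp (hβ : 0 ≤ β) (hc : ∀ e, 0 ≤ c e) {W : Matrix (Cfg V) (Cfg V) ℂ} (hW : OnQ Q W)
    (hWh : W.IsHermitian) :
    ex (gibX β h a b c) W ≤
      Real.log (trace (NormedSpace.exp (resQ Q (fldX Q β h - inX Q β a b c + W)))).re -
      Real.log (trace (NormedSpace.exp (resQ Q (fldX Q β h - inX Q β a b c)))).re +
      β * ∑ e with ((a e ∈ Q ∨ b e ∈ Q) ∧ ¬ (a e ∈ Q ∧ b e ∈ Q)), c e := by
  rw [gibX_split Q β h a b c]
  exact local_cmp (offX_offQ Q β h a b c) (offX_isHermitian Q β h a b c)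
    (onQ_sub (fldX_onQ Q β h) (inX_onQ Q β a b c))
    ((fldX_isHermitian Q β h).sub (inX_isHermitian Q β a b c)) hW hWh
    (bdX_posSemidef Q a b hβ hc) (bdX_le Q a b hβ hc)

theorem inQ_zero : inQ Q 0 = (0 : Cfg V) := by
  funext x
  by_cases hx : x ∉ Q
  · rw [inQ, splitQ_out _ hx]; rfl
  · rw [inQ, splitQ_in _ hx]; rfl

/-- `tr e^X ≥ e^{X_ii}` -/
theorem exp_diag_le {κ : Type*} [Fintype κ] [DecidableEq κ] {X : Matrix κ κ ℂ} (hX : X.IsHermitian) (i : κ) :
    Real.exp (X i i).re ≤ (trace (NormedSpace.exp X)).re := by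
  have h1 := tr_exp_submatrix_le hX (f := fun _ : Unit => i) (fun _ _ _ => rfl)
  refine le_trans (le_of_eq ?_) h1
  have h2 : X.submatrix (fun _ : Unit => i) (fun _ : Unit => i) =
      (0 : Matrix Unit Unit ℂ) + (((X i i).re : ℝ) : ℂ) • (1 : Matrix Unit Unit ℂ) := by
    ext u v
    simp only [Matrix.submatrix_apply, Matrix.add_apply, Matrix.zero_apply, Matrix.smul_apply,
      Matrix.one_apply_eq, smul_eq_mul, mul_one, zero_add]
    have h3 := congrFun (congrFun hX i) i
    rw [Matrix.conjTranspose_apply] at h3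
    exact (Complex.conj_eq_iff_re.1 h3).symm
  rw [h2, trace_exp_add_smul_one]
  simp

theorem hM_zero_zero (x y : V) : (hM x y : Matrix (Cfg V) (Cfg V) ℂ) 0 0 = 0 := by
  have h0 : (0 : Cfg V) ∘ Equiv.swap x y = 0 := rfl
  simp [hM, swapM, h0]

theorem szM_zero_zero (x : V) : (szM x : Matrix (Cfg V) (Cfg V) ℂ) 0 0 = 1 / 2 := by
  simp [szM]

/-- **Local bound**: `⟨W⟩ ≤ log tr_Q e^{-β H_Q + W} + β |∂Q|` for fields `≥ 0` on `Q` (free region `Q`
without field). -/
theorem gib_local_le (hβ : 0 ≤ β) (hc : ∀ e, 0 ≤ c e) (hh : ∀ x ∈ Q, 0 ≤ h x)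
    {W : Matrix (Cfg V) (Cfg V) ℂ} (hW : OnQ Q W) (hWh : W.IsHermitian) :
    ex (gibX β h a b c) W ≤
      Real.log (trace (NormedSpace.exp (resQ Q (W - inX Q β a b c)))).re +
      β * ∑ e with ((a e ∈ Q ∨ b e ∈ Q) ∧ ¬ (a e ∈ Q ∧ b e ∈ Q)), c e := by
  have hin := inX_isHermitian Q β a b c
  have h1 := gib_local_cmp Q h a b hβ hc hW hWh
  set H : ℝ := ∑ x ∈ Q, β * h x / 2 with hH
  have hD := fldX_isHermitian Q β h
  -- upper bound
  have hup : (trace (NormedSpace.exp (resQ Q (fldX Q β h - inX Q β a b c + W)))).re ≤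
      Real.exp H * (trace (NormedSpace.exp (resQ Q (W - inX Q β a b c)))).re := by
    rw [← trace_exp_add_smul_one]
    refine trace_exp_mono (resQ_isHermitian ((hD.sub hin).add hWh))
      ((resQ_isHermitian (hWh.sub hin)).add
        (smul_real_isHermitian Matrix.isHermitian_one H)) ?_
    have h1r : resQ Q (1 : Matrix (Cfg V) (Cfg V) ℂ) = 1 :=
      Matrix.submatrix_one (inQ Q) inQ_injective
    have e2 : resQ Q (W - inX Q β a b c) +
        (H : ℂ) • (1 : Matrix (({x // ¬ x ∉ Q}) → Fin 2) (({x // ¬ x ∉ Q}) → Fin 2) ℂ) -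
        resQ Q (fldX Q β h - inX Q β a b c + W) =
        resQ Q (∑ x ∈ Q, ((β * h x : ℝ) : ℂ) •
          ((1 / 2 : ℂ) • (1 : Matrix (Cfg V) (Cfg V) ℂ) - szM x)) := by
      rw [← h1r]
      have e3 : (∑ x ∈ Q, ((β * h x : ℝ) : ℂ) •
          ((1 / 2 : ℂ) • (1 : Matrix (Cfg V) (Cfg V) ℂ) - szM x)) =
          (H : ℂ) • (1 : Matrix (Cfg V) (Cfg V) ℂ) - fldX Q β h := by
        simp only [smul_sub, Finset.sum_sub_distrib, smul_smul, ← Finset.sum_smul, fldX]
        rw [hH]
        push_cast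
        have h4 : (∑ x ∈ Q, (β : ℂ) * (h x : ℂ) * (1 / 2)) = ∑ x ∈ Q, (β : ℂ) * (h x : ℂ) / 2 :=
          Finset.sum_congr rfl fun x _ => by ring
        rw [h4]
      rw [e3]
      unfold resQ
      simp only [Matrix.submatrix_smul, Matrix.submatrix_add, Matrix.submatrix_sub, Pi.add_apply,
        Pi.sub_apply, Pi.smul_apply]
      abel
    rw [e2]
    exact (Matrix.posSemidef_sum _ fun x hx =>
      smul_real_posSemidef (half_sub_szM_posSemidef x) (mul_nonneg hβ (hh x hx))).submatrix _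
  -- lower bound
  have hlow : Real.exp H ≤ (trace (NormedSpace.exp (resQ Q (fldX Q β h - inX Q β a b c)))).re := by
    have h2 := exp_diag_le (resQ_isHermitian (Q := Q) (hD.sub hin)) 0
    refine le_trans (le_of_eq ?_) h2
    congr 1
    rw [resQ, Matrix.submatrix_apply, inQ_zero, Matrix.sub_apply, fldX, inX, Matrix.sum_apply,
      Matrix.sum_apply]
    simp only [Matrix.smul_apply, hM_zero_zero, szM_zero_zero, smul_eq_mul, mul_zero,
      Finset.sum_const_zero, sub_zero]
    rw [Complex.re_sum, hH]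
    refine Finset.sum_congr rfl fun x _ => ?_
    rw [Complex.re_ofReal_mul]
    norm_num
    ring
  have p1 := trace_exp_pos (resQ_isHermitian (Q := Q) (hWh.sub hin))
  have p2 := trace_exp_pos (resQ_isHermitian (Q := Q) ((hD.sub hin).add hWh))
  have l1 := Real.log_le_log p2 hup
  rw [Real.log_mul (Real.exp_pos _).ne' p1.ne', Real.log_exp] at l1
  have l2 := Real.log_le_log (Real.exp_pos _) hlow
  rw [Real.log_exp] at l2
  linarith

/-- **(7')** half of the energy. -/
theorem energy_half (hβ : 0 ≤ β) (hc : ∀ e, 0 ≤ c e) (hh : ∀ x ∈ Q, 0 ≤ h x) :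
    (1 / 2) * (β * ∑ e with (a e ∈ Q ∧ b e ∈ Q), c e * ex (gibX β h a b c) (hM (a e) (b e))) ≤
      Real.log (trace (NormedSpace.exp (resQ Q (((-(1 / 2) : ℝ) : ℂ) • inX Q β a b c)))).re +
      β * ∑ e with ((a e ∈ Q ∨ b e ∈ Q) ∧ ¬ (a e ∈ Q ∧ b e ∈ Q)), c e := by
  have hin := inX_isHermitian Q β a b c
  have h1 := gib_local_le Q h a b hβ hc hh (onQ_smul ((1 / 2 : ℝ) : ℂ) (inX_onQ Q β a b c))
    (smul_real_isHermitian hin _)
  rw [ex_smul, inX, ex_sum] at h1
  have e1 : ∑ k with (a k ∈ Q ∧ b k ∈ Q), ex (gibX β h a b c) (((β * c k : ℝ) : ℂ) • hM (a k) (b k)) =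
      β * ∑ e with (a e ∈ Q ∧ b e ∈ Q), c e * ex (gibX β h a b c) (hM (a e) (b e)) := by
    rw [Finset.mul_sum]
    refine Finset.sum_congr rfl fun e _ => ?_
    rw [ex_smul]
    ring
  have e2 : ((1 / 2 : ℝ) : ℂ) • inX Q β a b c - inX Q β a b c =
      ((-(1 / 2) : ℝ) : ℂ) • inX Q β a b c := by
    push_cast
    module
  rw [e1, ← inX, e2] at h1
  exact h1

end

end Vale.Agent.P361.LRO.Energy
end

section

/-! # P361 LRO, stage 3: embedding of the operators of a box (helper348)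

`emb e A` = the operator `A` of the sites `U` acting on the sites `e u` of `V`; normalised log trace
`nlt`, additive over disjoint regions. -/

namespace Vale.Agent.P361.LRO.Loc3

open Matrix Finset Vale.Agent.P361.LRO.Energy
open scoped ComplexOrder Kronecker

set_option linter.unusedSectionVars false

noncomputable section

variable {U V : Type} [Fintype U] [DecidableEq U] [Fintype V] [DecidableEq V]

/-- the operator `A` on the sites `e u` -/
def emb (e : U → V) (A : Matrix (Cfg U) (Cfg U) ℂ) : Matrix (Cfg V) (Cfg V) ℂ :=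
  Matrix.of fun σ τ => if (∀ x, (∀ u, e u ≠ x) → σ x = τ x) then A (σ ∘ e) (τ ∘ e) else 0

/-- `A` does not act on the sites `e u`. -/
def Off (e : U → V) (A : Matrix (Cfg V) (Cfg V) ℂ) : Prop :=
  ∀ σ τ, A σ τ = if σ ∘ e = τ ∘ e then
    A (fun x => if ∃ u, e u = x then 0 else σ x) (fun x => if ∃ u, e u = x then 0 else τ x) else 0

theorem emb_add (e : U → V) (A B : Matrix (Cfg U) (Cfg U) ℂ) : emb e (A + B) = emb e A + emb e B := by
  ext σ τ
  simp only [emb, Matrix.of_apply, Matrix.add_apply]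
  split_ifs <;> simp

theorem emb_smul (e : U → V) (c : ℂ) (A : Matrix (Cfg U) (Cfg U) ℂ) : emb e (c • A) = c • emb e A := by
  ext σ τ
  simp only [emb, Matrix.of_apply, Matrix.smul_apply]
  split_ifs <;> simp

theorem emb_neg (e : U → V) (A : Matrix (Cfg U) (Cfg U) ℂ) : emb e (-A) = -emb e A := by
  ext σ τ
  simp only [emb, Matrix.of_apply, Matrix.neg_apply]
  split_ifs <;> simp

theorem emb_sub (e : U → V) (A B : Matrix (Cfg U) (Cfg U) ℂ) : emb e (A - B) = emb e A - emb e B := by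
  rw [sub_eq_add_neg, emb_add, emb_neg, ← sub_eq_add_neg]

theorem emb_zero (e : U → V) : emb e (0 : Matrix (Cfg U) (Cfg U) ℂ) = 0 := by
  ext σ τ
  simp [emb]

theorem emb_sum {κ : Type*} (e : U → V) (s : Finset κ) (A : κ → Matrix (Cfg U) (Cfg U) ℂ) :
    emb e (∑ k ∈ s, A k) = ∑ k ∈ s, emb e (A k) := by
  classical
  induction s using Finset.induction_on with
  | empty => simp [emb_zero]
  | insert a s ha ih => rw [Finset.sum_insert ha, Finset.sum_insert ha, emb_add, ih]

theorem emb_isHermitian (e : U → V) {A : Matrix (Cfg U) (Cfg U) ℂ} (hA : A.IsHermitian) :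
    (emb e A).IsHermitian := by
  ext σ τ
  simp only [Matrix.conjTranspose_apply, emb, Matrix.of_apply]
  have h1 : (∀ x, (∀ u, e u ≠ x) → τ x = σ x) ↔ (∀ x, (∀ u, e u ≠ x) → σ x = τ x) := by
    constructor <;> intro h x hx <;> exact (h x hx).symm
  simp only [h1]
  split_ifs with h
  · have := congrFun (congrFun hA (σ ∘ e)) (τ ∘ e)
    rwa [Matrix.conjTranspose_apply] at this
  · simp

theorem eq_of_comp {e : U → V} {σ τ : Cfg V} (h1 : ∀ x, (∀ u, e u ≠ x) → σ x = τ x)
    (h2 : σ ∘ e = τ ∘ e) : σ = τ := by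
  funext x
  by_cases h : ∀ u, e u ≠ x
  · exact h1 x h
  · push Not at h
    obtain ⟨u, rfl⟩ := h
    exact congrFun h2 u

theorem emb_one (e : U → V) : emb e (1 : Matrix (Cfg U) (Cfg U) ℂ) = 1 := by
  ext σ τ
  simp only [emb, Matrix.of_apply, Matrix.one_apply]
  by_cases h : σ = τ
  · subst h; simp
  · rw [if_neg h]
    split_ifs with h1 h2
    · exact absurd (eq_of_comp h1 h2) h
    · rfl
    · rfl

theorem comp_swap_emb {e : U → V} (he : Function.Injective e) (σ : Cfg V) (u v : U) :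
    (σ ∘ Equiv.swap (e u) (e v)) ∘ e = (σ ∘ e) ∘ Equiv.swap u v := by
  funext w
  simp only [Function.comp_apply]
  congr 1
  rw [Equiv.swap_apply_def, Equiv.swap_apply_def]
  simp only [he.eq_iff]
  split_ifs <;> rfl

theorem emb_swapM {e : U → V} (he : Function.Injective e) (u v : U) :
    emb e (Vale.Agent.P361.LRO.Energy.swapM u v) = Vale.Agent.P361.LRO.Energy.swapM (e u) (e v) := by
  ext σ τ
  simp only [emb, Matrix.of_apply, Vale.Agent.P361.LRO.Energy.swapM]
  have h1 : (σ ∘ Equiv.swap (e u) (e v) = τ) ↔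
      (∀ x, (∀ u, e u ≠ x) → σ x = τ x) ∧ (σ ∘ e) ∘ Equiv.swap u v = τ ∘ e := by
    constructor
    · rintro rfl
      refine ⟨fun x hx => ?_, (comp_swap_emb he σ u v).symm⟩
      rw [Function.comp_apply, Equiv.swap_apply_of_ne_of_ne (hx u).symm (hx v).symm]
    · rintro ⟨h2, h3⟩
      refine eq_of_comp (e := e) (fun x hx => ?_) (by rw [comp_swap_emb he, h3])
      rw [Function.comp_apply, Equiv.swap_apply_of_ne_of_ne (hx u).symm (hx v).symm]
      exact h2 x hx
  by_cases h2 : (∀ x, (∀ u, e u ≠ x) → σ x = τ x)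
  · rw [if_pos h2]
    have h3 : (σ ∘ Equiv.swap (e u) (e v) = τ) ↔ (σ ∘ e) ∘ Equiv.swap u v = τ ∘ e :=
      h1.trans ⟨fun h => h.2, fun h => ⟨h2, h⟩⟩
    exact if_congr h3.symm rfl rfl
  · rw [if_neg h2, if_neg (fun h => h2 (h1.1 h).1)]

theorem emb_hM {e : U → V} (he : Function.Injective e) (u v : U) :
    emb e (Vale.Agent.P361.LRO.Energy.hM u v) = Vale.Agent.P361.LRO.Energy.hM (e u) (e v) := by
  rw [Vale.Agent.P361.LRO.Energy.hM, Vale.Agent.P361.LRO.Energy.hM, emb_smul, emb_sub, emb_one, emb_swapM he]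

/-! ### Splitting of the configurations -/

/-- configurations on `U` and on the rest -/
def splitE (e : U → V) (he : Function.Injective e) :
    Cfg U × (({x // ∀ u, e u ≠ x}) → Fin 2) ≃ Cfg V where
  toFun p x := if h : ∀ u, e u ≠ x then p.2 ⟨x, h⟩ else
    p.1 (Classical.choose (not_forall_not.1 h))
  invFun σ := (σ ∘ e, fun x => σ x.1)
  left_inv := by
    rintro ⟨q, s⟩
    refine Prod.ext ?_ ?_
    · funext u
      have h : ¬ ∀ w, e w ≠ e u := fun h => h u rfl
      simp only [Function.comp_apply]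
      rw [dif_neg h]
      congr 1
      exact he (Classical.choose_spec (not_forall_not.1 h))
    · funext x
      simp only
      rw [dif_pos x.2]
  right_inv := by
    intro σ
    funext x
    simp only
    by_cases h : ∀ u, e u ≠ x
    · rw [dif_pos h]
    · rw [dif_neg h, Function.comp_apply, Classical.choose_spec (not_forall_not.1 h)]

theorem splitE_comp (e : U → V) (he : Function.Injective e) (q : Cfg U)
    (s : ({x // ∀ u, e u ≠ x}) → Fin 2) : (splitE e he (q, s)) ∘ e = q :=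
  congrArg Prod.fst ((splitE e he).left_inv (q, s))

theorem splitE_out (e : U → V) (he : Function.Injective e) (q : Cfg U)
    (s : ({x // ∀ u, e u ≠ x}) → Fin 2) {x : V} (hx : ∀ u, e u ≠ x) :
    splitE e he (q, s) x = s ⟨x, hx⟩ := by
  have := congrArg Prod.snd ((splitE e he).left_inv (q, s))
  exact congrFun this ⟨x, hx⟩

theorem emb_split (e : U → V) (he : Function.Injective e) (A : Matrix (Cfg U) (Cfg U) ℂ) :
    (emb e A).submatrix (splitE e he) (splitE e he) =
      A ⊗ₖ (1 : Matrix (({x // ∀ u, e u ≠ x}) → Fin 2) (({x // ∀ u, e u ≠ x}) → Fin 2) ℂ) := by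
  ext ⟨q, s⟩ ⟨q', s'⟩
  rw [Matrix.submatrix_apply, emb, Matrix.of_apply, splitE_comp, splitE_comp,
    Matrix.kroneckerMap_apply, Matrix.one_apply]
  have h : (∀ x, (∀ u, e u ≠ x) → splitE e he (q, s) x = splitE e he (q', s') x) ↔ s = s' := by
    constructor
    · intro h
      funext x
      have := h x.1 x.2
      rwa [splitE_out e he q s x.2, splitE_out e he q' s' x.2] at this
    · rintro rfl x hx
      rw [splitE_out e he q s hx, splitE_out e he q' s hx]
  simp only [h]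
  split_ifs <;> simp

theorem off_split (e : U → V) (he : Function.Injective e) {A : Matrix (Cfg V) (Cfg V) ℂ}
    (hA : Off e A) : A.submatrix (splitE e he) (splitE e he) =
      (1 : Matrix (Cfg U) (Cfg U) ℂ) ⊗ₖ
        (A.submatrix (fun s => splitE e he (0, s)) (fun s => splitE e he (0, s))) := by
  ext ⟨q, s⟩ ⟨q', s'⟩
  rw [Matrix.submatrix_apply, hA, splitE_comp, splitE_comp, Matrix.kroneckerMap_apply,
    Matrix.one_apply, Matrix.submatrix_apply]
  have key : ∀ (q : Cfg U) (s : ({x // ∀ u, e u ≠ x}) → Fin 2),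
      (fun x => if ∃ u, e u = x then 0 else splitE e he (q, s) x) = splitE e he (0, s) := by
    intro q s
    funext x
    by_cases h : ∃ u, e u = x
    · rw [if_pos h]
      obtain ⟨u, rfl⟩ := h
      exact (congrFun (splitE_comp e he 0 s) u).symm
    · rw [if_neg h]
      have h' : ∀ u, e u ≠ x := fun u hu => h ⟨u, hu⟩
      rw [splitE_out e he q s h', splitE_out e he 0 s h']
  rw [key, key]
  split_ifs <;> simp

/-- normalised log trace -/
def nlt (X : Matrix (Cfg V) (Cfg V) ℂ) : ℝ :=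
  Real.log (trace (NormedSpace.exp X)).re - Fintype.card V * Real.log 2

theorem card_rest (e : U → V) (he : Function.Injective e) :
    Fintype.card {x // ∀ u, e u ≠ x} + Fintype.card U = Fintype.card V := by
  have h1 : Fintype.card {x // ∀ u, e u ≠ x} + Fintype.card {x // ¬ ∀ u, e u ≠ x} = Fintype.card V := by
    rw [← Fintype.card_sum]
    exact Fintype.card_congr (Equiv.sumCompl _)
  have h2 : Fintype.card {x // ¬ ∀ u, e u ≠ x} = Fintype.card U := by
    refine (Fintype.card_congr (Equiv.ofBijective (fun u : U =>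
      (⟨e u, fun h => h u rfl⟩ : {x // ¬ ∀ u, e u ≠ x})) ⟨?_, ?_⟩)).symm
    · intro u v huv
      exact he (congrArg Subtype.val huv)
    · rintro ⟨x, hx⟩
      obtain ⟨u, hu⟩ := not_forall_not.1 hx
      exact ⟨u, Subtype.ext hu⟩
  rw [h2] at h1
  exact h1

/-- the normalised log trace of an embedded operator -/
theorem nlt_emb (e : U → V) (he : Function.Injective e) {A : Matrix (Cfg U) (Cfg U) ℂ}
    (hA : A.IsHermitian) : nlt (emb e A) = nlt A := by
  have h1 := tr_exp_kron_one (splitE e he) (emb_split e he A)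
  have h2 := trace_exp_pos hA
  unfold nlt
  rw [h1, Fintype.card_fun, Fintype.card_fin]
  push_cast
  rw [Real.log_mul (by positivity) h2.ne', Real.log_pow, ← card_rest e he]
  push_cast
  ring

/-- additivity over disjoint regions -/
theorem nlt_add (e : U → V) (he : Function.Injective e) {A : Matrix (Cfg V) (Cfg V) ℂ}
    (hA : Off e A) (hAh : A.IsHermitian) {B : Matrix (Cfg U) (Cfg U) ℂ} (hB : B.IsHermitian) :
    nlt (A + emb e B) = nlt A + nlt B := by
  have hA' : (A.submatrix (fun s => splitE e he (0, s)) (fun s => splitE e he (0, s))).IsHermitian :=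
    hAh.submatrix _
  set A' := A.submatrix (fun s => splitE e he (0, s)) (fun s => splitE e he (0, s)) with hA'def
  have h1 : (trace (NormedSpace.exp (A + emb e B))).re =
      (trace (NormedSpace.exp B)).re * (trace (NormedSpace.exp A')).re := by
    have e1 : (A + emb e B).submatrix (splitE e he) (splitE e he) =
        B ⊗ₖ (1 : Matrix (({x // ∀ u, e u ≠ x}) → Fin 2) (({x // ∀ u, e u ≠ x}) → Fin 2) ℂ) +
        (1 : Matrix (Cfg U) (Cfg U) ℂ) ⊗ₖ A' := by
      rw [Matrix.submatrix_add, Pi.add_apply, Pi.add_apply, emb_split, off_split e he hA, add_comm]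
    rw [← trace_exp_submatrix (splitE e he), e1,
      Vale.Agent.P361.B.trace_exp_kron hB hA', Complex.ofReal_re, trace_exp_re hB, trace_exp_re hA',
      Fintype.sum_prod_type, Finset.sum_mul_sum]
    simp only [Real.exp_add]
  have h2 : (trace (NormedSpace.exp A)).re =
      (2 : ℝ) ^ Fintype.card U * (trace (NormedSpace.exp A')).re := by
    have e1 : (A + emb e (0 : Matrix (Cfg U) (Cfg U) ℂ)).submatrix (splitE e he) (splitE e he) =
        (0 : Matrix (Cfg U) (Cfg U) ℂ) ⊗ₖ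
          (1 : Matrix (({x // ∀ u, e u ≠ x}) → Fin 2) (({x // ∀ u, e u ≠ x}) → Fin 2) ℂ) +
        (1 : Matrix (Cfg U) (Cfg U) ℂ) ⊗ₖ A' := by
      rw [Matrix.submatrix_add, Pi.add_apply, Pi.add_apply, emb_split, off_split e he hA, add_comm]
    have h0 : (0 : Matrix (Cfg U) (Cfg U) ℂ).IsHermitian := Matrix.isHermitian_zero
    have e2 : A = A + emb e (0 : Matrix (Cfg U) (Cfg U) ℂ) := by rw [emb_zero, add_zero]
    rw [e2, ← trace_exp_submatrix (splitE e he), e1,
      Vale.Agent.P361.B.trace_exp_kron h0 hA', Complex.ofReal_re, trace_exp_re hA',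
      Fintype.sum_prod_type]
    have e3 : ∀ i, h0.eigenvalues i = 0 := by
      intro i
      have := h0.eigenvalues_eq i
      simp at this
      exact this
    simp only [e3, zero_add]
    rw [Finset.sum_const, Finset.card_univ, nsmul_eq_mul, Fintype.card_fun, Fintype.card_fin]
    push_cast
    rfl
  have p1 := trace_exp_pos hB
  have p2 := trace_exp_pos hA'
  unfold nlt
  rw [h1, h2, Real.log_mul p1.ne' p2.ne', Real.log_mul (by positivity) p2.ne', Real.log_pow]
  ring

end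

end Vale.Agent.P361.LRO.Loc3
end

section

/-! # P361 LRO, block (7): from the complex matrices of `Energy` to the common definitions (helper348) -/

namespace Vale.Agent.P361.LRO.Energy

open Matrix Finset
open scoped ComplexOrder

set_option linter.unusedSectionVars false

noncomputable section

variable {ι : Type*} [Fintype ι] [DecidableEq ι]

/-- complexification -/
def cpx (A : Matrix ι ι ℝ) : Matrix ι ι ℂ := A.map Complex.ofReal

theorem cpx_exp (A : Matrix ι ι ℝ) : cpx (NormedSpace.exp A) = NormedSpace.exp (cpx A) := by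
  have hc : Continuous (Complex.ofRealHom.mapMatrix : Matrix ι ι ℝ →+* Matrix ι ι ℂ) :=
    Continuous.matrix_map continuous_id Complex.continuous_ofReal
  open scoped Matrix.Norms.Operator in
  exact NormedSpace.map_exp (Complex.ofRealHom.mapMatrix : Matrix ι ι ℝ →+* Matrix ι ι ℂ) hc A

theorem cpx_mul (A B : Matrix ι ι ℝ) : cpx (A * B) = cpx A * cpx B :=
  Matrix.map_mul (f := Complex.ofRealHom)

theorem cpx_trace (A : Matrix ι ι ℝ) : (trace (cpx A)).re = trace A := by
  simp [cpx, Matrix.trace, Complex.re_sum]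

theorem cpx_add (A B : Matrix ι ι ℝ) : cpx (A + B) = cpx A + cpx B := by
  ext i j; simp [cpx]

theorem cpx_sub (A B : Matrix ι ι ℝ) : cpx (A - B) = cpx A - cpx B := by
  ext i j; simp [cpx]

theorem cpx_smul (c : ℝ) (A : Matrix ι ι ℝ) : cpx (c • A) = (c : ℂ) • cpx A := by
  ext i j; simp [cpx]

theorem cpx_one : cpx (1 : Matrix ι ι ℝ) = 1 := by
  ext i j
  simp only [cpx, Matrix.map_apply, Matrix.one_apply]
  split_ifs <;> simp

theorem cpx_sum {κ : Type*} (s : Finset κ) (A : κ → Matrix ι ι ℝ) :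
    cpx (∑ k ∈ s, A k) = ∑ k ∈ s, cpx (A k) := by
  ext i j; simp [cpx, Matrix.sum_apply]

theorem cpx_ex (X A : Matrix ι ι ℝ) :
    ex (cpx X) (cpx A) = trace (NormedSpace.exp X * A) / trace (NormedSpace.exp X) := by
  unfold ex
  rw [← cpx_exp, ← cpx_mul, cpx_trace, cpx_trace]

variable {V : Type} [Fintype V] [DecidableEq V]

theorem cpx_swapM (x y : V) : cpx (LRO.swapM x y) = swapM x y := by
  ext σ τ
  simp only [cpx, LRO.swapM, swapM, Matrix.map_apply, Matrix.of_apply]
  have h : (σ = τ ∘ Equiv.swap x y) ↔ (σ ∘ Equiv.swap x y = τ) := by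
    constructor
    · rintro rfl; exact comp_swap_swap x y τ
    · rintro rfl; exact (comp_swap_swap x y σ).symm
  simp only [h]
  split_ifs <;> simp

theorem cpx_hM (x y : V) : cpx (LRO.hM x y) = hM x y := by
  rw [LRO.hM, hM, cpx_smul, cpx_sub, cpx_one, cpx_swapM]
  norm_num

theorem cpx_szM (x : V) : cpx (LRO.szM x) = (2 : ℂ) • szM x := by
  ext σ τ
  by_cases h : σ = τ
  · subst h
    simp only [cpx, LRO.szM, szM, Matrix.map_apply, Matrix.diagonal_apply_eq, Matrix.smul_apply, smul_eq_mul]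
    split_ifs <;> simp
  · simp [cpx, LRO.szM, szM, h]

theorem gib_eq (L : List (V × V)) (β : ℝ) (h : V → ℝ) (A : Matrix (V → Fin 2) (V → Fin 2) ℝ) :
    gib L β h A = ex (cpx (-β • ham L h)) (cpx A) := by
  rw [cpx_ex]
  rfl

theorem cpx_ham (L : List (V × V)) (β : ℝ) (h : V → ℝ) : cpx (-β • ham L h) =
    gibX β h (fun i : Fin L.length => (L.get i).1) (fun i => (L.get i).2) (fun _ => 1) := by
  rw [ham, gibX, ← Fin.sum_univ_fun_getElem L (fun e => LRO.hM e.1 e.2), smul_sub, cpx_sub, cpx_smul,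
    cpx_smul, cpx_sum, cpx_sum]
  simp only [cpx_smul, cpx_szM, cpx_hM, Finset.smul_sum, smul_smul]
  rw [sub_eq_add_neg, add_comm, sub_eq_add_neg, ← Finset.sum_neg_distrib, ← Finset.sum_neg_distrib]
  congr 1
  · refine Finset.sum_congr rfl fun x _ => ?_
    rw [← neg_smul]
    congr 1
    push_cast
    ring
  · refine Finset.sum_congr rfl fun x _ => ?_
    rw [← neg_smul]
    congr 1
    push_cast
    ring

theorem gib_hM (L : List (V × V)) (β : ℝ) (h : V → ℝ) (x y : V) : gib L β h (LRO.hM x y) =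
    ex (gibX β h (fun i : Fin L.length => (L.get i).1) (fun i => (L.get i).2) (fun _ => 1)) (hM x y) := by
  rw [gib_eq, cpx_ham, cpx_hM]

/-- **(7a)** for `Defs.gib` -/
theorem energy_list {β : ℝ} (hβ : 0 ≤ β) (L : List (V × V)) {h : V → ℝ} (Q : Finset V) (hh : ∀ x ∈ Q, 0 ≤ h x) :
    β * ∑ i : Fin L.length with ((L.get i).1 ∈ Q ∨ (L.get i).2 ∈ Q), gib L β h (LRO.hM (L.get i).1 (L.get i).2) ≤
      Q.card * Real.log 2 + β * ((Finset.univ.filter fun i : Fin L.length =>
        ((L.get i).1 ∈ Q ∨ (L.get i).2 ∈ Q) ∧ ¬ ((L.get i).1 ∈ Q ∧ (L.get i).2 ∈ Q)).card : ℝ) := by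
  have h1 := energy_le hβ h (fun i : Fin L.length => (L.get i).1) (fun i => (L.get i).2)
    (c := fun _ => 1) (fun _ => zero_le_one) Q hh
  simp only [one_mul, Finset.sum_const, nsmul_eq_mul, mul_one] at h1
  simpa only [gib_hM] using h1

end

end Vale.Agent.P361.LRO.Energy
end

section

/-! # P361 LRO, block (7): energy of a cube of the torus (helper348) -/

namespace Vale.Agent.P361.LRO.Energy

open Matrix Finset

set_option linter.unusedSectionVars false

noncomputable section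

variable {n : ℕ} [NeZero n]

/-- second end of the edge `(x, x + e_i)` -/
def nxt (z : Tor n × Fin 3) : Tor n := z.1 + Pi.single z.2 1

theorem edges_map_sum (F : Tor n × Tor n → ℝ) :
    ((edges n).map F).sum = ∑ z : Tor n × Fin 3, F (z.1, nxt z) := by
  rw [edges, List.map_map, ← Finset.sum_map_toList]
  rfl

/-- bonds touching `Q` -/
def tch (Q : Finset (Tor n)) : Finset (Tor n × Fin 3) := Finset.univ.filter fun z => z.1 ∈ Q ∨ nxt z ∈ Q

/-- boundary bonds of `Q` -/
def bdy (Q : Finset (Tor n)) : Finset (Tor n × Fin 3) :=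
  Finset.univ.filter fun z => (z.1 ∈ Q ∨ nxt z ∈ Q) ∧ ¬ (z.1 ∈ Q ∧ nxt z ∈ Q)

theorem mem_cube {x y : Tor n} {l : ℕ} : y ∈ cube n x l ↔ ∃ a : Fin 3 → Fin l, y = x + fun i => ((a i : ℕ) : ZMod n) := by
  simp only [cube, Finset.mem_image, Finset.mem_univ, true_and]
  exact ⟨fun ⟨a, h⟩ => ⟨a, h.symm⟩, fun ⟨a, h⟩ => ⟨a, h.symm⟩⟩

theorem card_cube_le (x : Tor n) (l : ℕ) : (cube n x l).card ≤ l ^ 3 := by
  refine (Finset.card_image_le).trans ?_
  rw [Finset.card_univ, Fintype.card_fun, Fintype.card_fin, Fintype.card_fin]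

/-- a face: the `i`-th coordinate is fixed -/
def face (n : ℕ) [NeZero n] (x : Tor n) (l : ℕ) (i : Fin 3) (c : Fin l) : Finset (Tor n) :=
  (Finset.univ : Finset ({j : Fin 3 // j ≠ i} → Fin l)).image fun a =>
    x + fun j => (((if h : j ≠ i then a ⟨j, h⟩ else c : Fin l) : ℕ) : ZMod n)

theorem card_face_le (x : Tor n) (l : ℕ) (i : Fin 3) (c : Fin l) : (face n x l i c).card ≤ l ^ 2 := by
  refine (Finset.card_image_le).trans ?_
  rw [Finset.card_univ, Fintype.card_fun, Fintype.card_fin]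
  have : Fintype.card {j : Fin 3 // j ≠ i} = 2 := by
    rw [Fintype.card_subtype_compl, Fintype.card_fin, Fintype.card_unique]
  rw [this]

theorem mem_face {x : Tor n} {l : ℕ} {i : Fin 3} {c : Fin l} {a : Fin 3 → Fin l} (h : a i = c) :
    (x + fun j => ((a j : ℕ) : ZMod n)) ∈ face n x l i c := by
  rw [face, Finset.mem_image]
  refine ⟨fun j => a j.1, Finset.mem_univ _, ?_⟩
  congr 1
  funext j
  by_cases hj : j ≠ i
  · rw [dif_pos hj]
  · rw [dif_neg hj]
    rw [not_not] at hj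
    rw [hj, h]

theorem card_bdy_le (x : Tor n) {l : ℕ} (hl : 0 < l) : (bdy (cube n x l)).card ≤ 6 * l ^ 2 := by
  classical
  have hsub : bdy (cube n x l) ⊆
      (Finset.univ : Finset (Fin 3)).biUnion fun i =>
        ((face n x l i ⟨l - 1, by omega⟩).image fun y => (y, i)) ∪
          ((face n x l i ⟨0, hl⟩).image fun y => (y - Pi.single i 1, i)) := by
    rintro ⟨y, i⟩ hz
    rw [bdy, Finset.mem_filter] at hz
    obtain ⟨-, hor, hnot⟩ := hz
    rw [Finset.mem_biUnion]
    refine ⟨i, Finset.mem_univ _, ?_⟩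
    rw [Finset.mem_union, Finset.mem_image, Finset.mem_image]
    rcases hor with h1 | h1
    · left
      have h2 : nxt (y, i) ∉ cube n x l := fun h => hnot ⟨h1, h⟩
      obtain ⟨a, ha⟩ := mem_cube.1 h1
      have h3 : (a i : ℕ) = l - 1 := by
        by_contra hne
        have hlt : (a i : ℕ) + 1 < l := by have := (a i).2; omega
        refine h2 (mem_cube.2 ⟨Function.update a i ⟨(a i : ℕ) + 1, hlt⟩, ?_⟩)
        simp only [nxt]
        have ha' : y = x + fun i => ((a i : ℕ) : ZMod n) := ha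
        rw [ha', add_assoc]
        congr 1
        funext j
        by_cases hj : j = i
        · subst hj
          simp
        · simp [hj]
      refine ⟨y, ?_, rfl⟩
      have ha' : y = x + fun i => ((a i : ℕ) : ZMod n) := ha
      rw [ha']
      exact mem_face (Fin.ext h3)
    · right
      have h2 : y ∉ cube n x l := fun h => hnot ⟨h, h1⟩
      obtain ⟨a, ha⟩ := mem_cube.1 h1
      have ha' : y + Pi.single i 1 = x + fun i => ((a i : ℕ) : ZMod n) := ha
      have h3 : (a i : ℕ) = 0 := by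
        by_contra hne
        have hlt : (a i : ℕ) - 1 < l := by have := (a i).2; omega
        refine h2 (mem_cube.2 ⟨Function.update a i ⟨(a i : ℕ) - 1, hlt⟩, ?_⟩)
        have h4 : y = (x + fun i => ((a i : ℕ) : ZMod n)) - Pi.single i 1 := by rw [← ha']; abel
        rw [h4, add_sub_assoc]
        congr 1
        funext j
        by_cases hj : j = i
        · subst hj
          simp only [Pi.sub_apply, Pi.single_eq_same, Function.update_self]
          rw [Nat.cast_sub (by omega)]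
          simp
        · simp [hj]
      refine ⟨y + Pi.single i 1, ?_, by simp⟩
      rw [ha']
      exact mem_face (Fin.ext h3)
  refine (Finset.card_le_card hsub).trans ?_
  refine (Finset.card_biUnion_le).trans ?_
  have h1 : ∀ i : Fin 3, (((face n x l i ⟨l - 1, by omega⟩).image fun y => (y, i)) ∪
          ((face n x l i ⟨0, hl⟩).image fun y => (y - Pi.single i 1, i))).card ≤ 2 * l ^ 2 := by
    intro i
    refine (Finset.card_union_le _ _).trans ?_
    have h1 := (Finset.card_image_le (s := face n x l i ⟨l - 1, by omega⟩) (f := fun y => (y, i))).trans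
      (card_face_le x l i _)
    have h2 := (Finset.card_image_le (s := face n x l i ⟨0, hl⟩)
      (f := fun y => (y - (Pi.single i 1 : Tor n), i))).trans (card_face_le x l i _)
    omega
  refine (Finset.sum_le_sum fun i _ => h1 i).trans ?_
  simp
  omega

end

end Vale.Agent.P361.LRO.Energy
end

section

/-!
Heisenberg model on a general finite graph: the exponent `-β (H_J - h M)`, the supporting line
inequality in `h`, and the dependence of the logarithm of the partition function on the graph.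
-/

namespace Vale.Agent.P361.LRO

open Matrix Filter Topology Finset
open scoped ComplexOrder

section General

variable {V : Type} [Fintype V] [DecidableEq V]

/-- The exponent `-β (H_J - h M)`. -/
noncomputable def expoV (n : ℕ) (J : V → V → Prop) [DecidableRel J] (β h : ℝ) : Model.Op n V :=
  -(β : ℂ) • (Model.hamiltonian n J - (h : ℂ) • Model.magnetization n V)

/-- Number of ordered pairs `(x, y)` with `J x y`. -/
noncomputable def pairsV (J : V → V → Prop) [DecidableRel J] : ℝ :=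
  ∑ x : V, ∑ y : V, if J x y then (1 : ℝ) else 0

theorem totOp_eqV (n : ℕ) (J : V → V → Prop) [DecidableRel J] (β h c φ₀ : ℝ) :
    totOp (V := V) (β / 2) c (spin n)
      ((φ₀ : ℂ) • (1 : Matrix (Fin (n + 1)) (Fin (n + 1)) ℂ) + ((β * h : ℝ) : ℂ) • spin n 2) J =
      expoV n J β h + (((β / 2) * c * pairsV J + φ₀ * Fintype.card V : ℝ) : ℂ) •
        (1 : Matrix (V → Fin (n + 1)) (V → Fin (n + 1)) ℂ) := by
  have hH : Model.hamiltonian n J = -((1 / 2 : ℂ) • ∑ x : V, ∑ y : V,
      if J x y then ∑ a : Fin 3, siteOpV x (spin n a) * siteOpV y (spin n a) else 0) := rfl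
  have hM : Model.magnetization n V = ∑ x : V, siteOpV x (spin n 2) := rfl
  unfold totOp expoV pairsV pairOp
  rw [hH, hM]
  simp only [siteOpV_add, siteOpV_smul, siteOpV_one]
  have e1 : (∑ x : V, ∑ y : V, if J x y then
      ((c : ℂ) • (1 : Matrix (V → Fin (n + 1)) (V → Fin (n + 1)) ℂ) +
        ∑ a, siteOpV x (spin n a) * siteOpV y (spin n a)) else 0) =
      ((c * ∑ x : V, ∑ y : V, (if J x y then (1 : ℝ) else 0) : ℝ) : ℂ) •
        (1 : Matrix (V → Fin (n + 1)) (V → Fin (n + 1)) ℂ) +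
      ∑ x : V, ∑ y : V, if J x y then
        ∑ a, siteOpV x (spin n a) * siteOpV y (spin n a) else 0 := by
    push_cast
    rw [Finset.mul_sum, Finset.sum_smul, ← Finset.sum_add_distrib]
    refine Finset.sum_congr rfl fun x _ => ?_
    rw [Finset.mul_sum, Finset.sum_smul, ← Finset.sum_add_distrib]
    refine Finset.sum_congr rfl fun y _ => ?_
    split_ifs <;> simp
  rw [e1, Finset.sum_add_distrib, Finset.sum_const, Finset.card_univ, ← Finset.smul_sum]
  push_cast
  module

theorem fieldF_isHermitian (n : ℕ) (φ₀ r : ℝ) :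
    ((φ₀ : ℂ) • (1 : Matrix (Fin (n + 1)) (Fin (n + 1)) ℂ) +
      ((r : ℝ) : ℂ) • spin n 2).IsHermitian := by
  rw [Matrix.IsHermitian, Matrix.conjTranspose_add, Matrix.conjTranspose_smul,
    Matrix.conjTranspose_smul, spin_isHermitian n 2, Matrix.conjTranspose_one]
  simp only [RCLike.star_def, Complex.conj_ofReal]

theorem expoV_isHermitian (n : ℕ) (J : V → V → Prop) [DecidableRel J] (hJ : ∀ x, ¬ J x x)
    (β h : ℝ) : (expoV n J β h).IsHermitian := by
  have h1 := totOp_eqV n J β h 0 0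
  have h2 := totOp_isHermitian (V := V) (β / 2) 0 (spin_isHermitian n)
    (F := ((0 : ℝ) : ℂ) • (1 : Matrix (Fin (n + 1)) (Fin (n + 1)) ℂ) +
      ((β * h : ℝ) : ℂ) • spin n 2) (fieldF_isHermitian n 0 (β * h)) J hJ
  rw [h1] at h2
  simpa only [mul_zero, zero_mul, add_zero, Complex.ofReal_zero, zero_smul] using h2

theorem logTr_eq (n : ℕ) (J : V → V → Prop) [DecidableRel J] (β h : ℝ) :
    Model.logTr n J β h = Real.log (trace (NormedSpace.exp (expoV n J β h))).re := rfl

/-- Total magnetization `⟨M⟩` of the Gibbs state of `H_J - h M`. -/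
noncomputable def gibbsMagV (n : ℕ) (J : V → V → Prop) [DecidableRel J] (β h : ℝ) : ℝ :=
  (trace (NormedSpace.exp (expoV n J β h) * Model.magnetization n V)).re /
    (trace (NormedSpace.exp (expoV n J β h))).re

theorem magnetizationV_isHermitian (n : ℕ) : (Model.magnetization n V).IsHermitian := by
  have hM : Model.magnetization n V = ∑ x : V, siteOpV x (spin n 2) := rfl
  rw [hM, Matrix.IsHermitian, Matrix.conjTranspose_sum]
  exact Finset.sum_congr rfl fun x _ => siteOpV_isHermitian x (spin_isHermitian n 2)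

theorem expoV_shift (n : ℕ) (J : V → V → Prop) [DecidableRel J] (β h h' : ℝ) :
    expoV n J β h' = expoV n J β h + ((β * (h' - h) : ℝ) : ℂ) • Model.magnetization n V := by
  unfold expoV
  push_cast
  module

/-- Supporting line inequality for the logarithm of the partition function. -/
theorem logTr_support (n : ℕ) (J : V → V → Prop) [DecidableRel J] (hJ : ∀ x, ¬ J x x)
    (β h h' : ℝ) :
    Model.logTr n J β h + β * (h' - h) * gibbsMagV n J β h ≤ Model.logTr n J β h' := by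
  have hY : (((β * (h' - h) : ℝ) : ℂ) • Model.magnetization n V).IsHermitian := by
    rw [Matrix.IsHermitian, Matrix.conjTranspose_smul, magnetizationV_isHermitian n]
    simp
  have h1 := Vale.Agent.P361.peierls_bogoliubov (expoV_isHermitian n J hJ β h) hY
  rw [← expoV_shift] at h1
  rw [logTr_eq, logTr_eq]
  refine le_trans (le_of_eq ?_) h1
  congr 1
  rw [Matrix.mul_smul, Matrix.trace_smul, smul_eq_mul, Complex.re_ofReal_mul]
  unfold gibbsMagV
  ring

theorem logZ_eqV (n : ℕ) (J : V → V → Prop) [DecidableRel J] (hJ : ∀ x, ¬ J x x)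
    (β h c φ₀ : ℝ) :
    logZ (V := V) (β / 2) c (spin n)
      ((φ₀ : ℂ) • (1 : Matrix (Fin (n + 1)) (Fin (n + 1)) ℂ) + ((β * h : ℝ) : ℂ) • spin n 2) J =
      Model.logTr n J β h + ((β / 2) * c * pairsV J + φ₀ * Fintype.card V) := by
  unfold logZ
  rw [totOp_eqV, trace_exp_add_smul_one, Real.log_mul (Real.exp_pos _).ne'
    (trace_exp_pos (expoV_isHermitian n J hJ β h)).ne', Real.log_exp, logTr_eq]
  ring

/-- Invariance under relabelling of the sites. -/
theorem logTr_relabel {W : Type} [Fintype W] [DecidableEq W] (g : V ≃ W) (n : ℕ)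
    (J : W → W → Prop) [DecidableRel J] (hJ : ∀ x, ¬ J x x) (β h : ℝ) :
    Model.logTr n (fun x y : V => J (g x) (g y)) β h = Model.logTr n J β h := by
  have h1 := logZ_eqV n J hJ β h 0 0
  have h2 := logZ_eqV n (fun x y : V => J (g x) (g y)) (fun x => hJ (g x)) β h 0 0
  have h3 := logZ_relabel g (β / 2) 0 (spin n)
    (((0 : ℝ) : ℂ) • (1 : Matrix (Fin (n + 1)) (Fin (n + 1)) ℂ) + ((β * h : ℝ) : ℂ) • spin n 2) J
  rw [h1, h2] at h3
  simpa using h3

/-- Adding pairs to the graph changes the logarithm of the partition function by at most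
`β c / 2` per ordered pair. -/
theorem logTr_mono_pairs (n : ℕ) {c : ℝ}
    (hc : ((c : ℂ) • (1 : Matrix (Fin (n + 1)) (Fin (n + 1)) ℂ) -
      ∑ a, spin n a * spin n a).PosSemidef)
    (J J' : V → V → Prop) [DecidableRel J] [DecidableRel J'] (hJ : ∀ x, ¬ J x x)
    (hJ' : ∀ x, ¬ J' x x) (hJJ : ∀ x y, J x y → J' x y) {β : ℝ} (hβ : 0 ≤ β) (h : ℝ) :
    |Model.logTr n J' β h - Model.logTr n J β h| ≤ (β / 2) * c * (pairsV J' - pairsV J) := by
  have hb : 0 ≤ β / 2 := by positivity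
  set F : Matrix (Fin (n + 1)) (Fin (n + 1)) ℂ :=
    ((0 : ℝ) : ℂ) • (1 : Matrix (Fin (n + 1)) (Fin (n + 1)) ℂ) + ((β * h : ℝ) : ℂ) • spin n 2
    with hF
  have hFh : F.IsHermitian := fieldF_isHermitian n 0 (β * h)
  have h1 := totOp_isHermitian (V := V) (β / 2) c (spin_isHermitian n) hFh J hJ
  have h2 := totOp_isHermitian (V := V) (β / 2) c (spin_isHermitian n) hFh J' hJ'
  have hpos : (totOp (V := V) (β / 2) c (spin n) F J' -
      totOp (V := V) (β / 2) c (spin n) F J).PosSemidef := by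
    have e : totOp (V := V) (β / 2) c (spin n) F J' - totOp (V := V) (β / 2) c (spin n) F J =
        ((β / 2 : ℝ) : ℂ) • ∑ x : V, ∑ y : V,
          if J' x y ∧ ¬ J x y then pairOp c (spin n) x y else 0 := by
      unfold totOp
      rw [add_sub_add_right_eq_sub, ← smul_sub, ← Finset.sum_sub_distrib]
      congr 1
      refine Finset.sum_congr rfl fun x _ => ?_
      rw [← Finset.sum_sub_distrib]
      refine Finset.sum_congr rfl fun y _ => ?_
      by_cases h1 : J x y
      · simp [h1, hJJ x y h1]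
      · by_cases h2 : J' x y <;> simp [h1, h2]
    rw [e]
    refine Matrix.PosSemidef.smul ?_ (by simpa only [Complex.zero_le_real] using hb)
    refine Matrix.posSemidef_sum _ fun x _ => Matrix.posSemidef_sum _ fun y _ => ?_
    split_ifs with h
    · refine pairOp_posSemidef (spin_isHermitian n) hc ?_
      rintro rfl
      exact hJ' _ h.1
    · exact Matrix.PosSemidef.zero
  have hpos2 : ((totOp (V := V) (β / 2) c (spin n) F J +
      ((β * c * (pairsV J' - pairsV J) : ℝ) : ℂ) •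
        (1 : Matrix (V → Fin (n + 1)) (V → Fin (n + 1)) ℂ)) -
      totOp (V := V) (β / 2) c (spin n) F J').PosSemidef := by
    have e : (totOp (V := V) (β / 2) c (spin n) F J +
      ((β * c * (pairsV J' - pairsV J) : ℝ) : ℂ) •
        (1 : Matrix (V → Fin (n + 1)) (V → Fin (n + 1)) ℂ)) -
      totOp (V := V) (β / 2) c (spin n) F J' =
        ((β / 2 : ℝ) : ℂ) • ∑ x : V, ∑ y : V,
          if J' x y ∧ ¬ J x y then (((2 * c : ℝ) : ℂ) •
            (1 : Matrix (V → Fin (n + 1)) (V → Fin (n + 1)) ℂ) - pairOp c (spin n) x y)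
          else 0 := by
      unfold totOp pairsV
      have e2 : ((β * c * ((∑ x : V, ∑ y : V, if J' x y then (1 : ℝ) else 0) -
          ∑ x : V, ∑ y : V, if J x y then (1 : ℝ) else 0) : ℝ) : ℂ) •
          (1 : Matrix (V → Fin (n + 1)) (V → Fin (n + 1)) ℂ) =
          ((β / 2 : ℝ) : ℂ) • ∑ x : V, ∑ y : V,
            if J' x y ∧ ¬ J x y then (((2 * c : ℝ) : ℂ) •
              (1 : Matrix (V → Fin (n + 1)) (V → Fin (n + 1)) ℂ)) else 0 := by
        have e3 : (∑ x : V, ∑ y : V, if J' x y ∧ ¬ J x y then (((2 * c : ℝ) : ℂ) •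
            (1 : Matrix (V → Fin (n + 1)) (V → Fin (n + 1)) ℂ)) else 0) =
            ((∑ x : V, ∑ y : V, if J' x y ∧ ¬ J x y then (1 : ℝ) else 0 : ℝ) : ℂ) •
            (((2 * c : ℝ) : ℂ) • (1 : Matrix (V → Fin (n + 1)) (V → Fin (n + 1)) ℂ)) := by
          push_cast
          rw [Finset.sum_smul]
          refine Finset.sum_congr rfl fun x _ => ?_
          rw [Finset.sum_smul]
          refine Finset.sum_congr rfl fun y _ => ?_
          split_ifs <;> simp
        have e4 : (∑ x : V, ∑ y : V, if J' x y ∧ ¬ J x y then (1 : ℝ) else 0) =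
            (∑ x : V, ∑ y : V, if J' x y then (1 : ℝ) else 0) -
              ∑ x : V, ∑ y : V, if J x y then (1 : ℝ) else 0 := by
          rw [← Finset.sum_sub_distrib]
          refine Finset.sum_congr rfl fun x _ => ?_
          rw [← Finset.sum_sub_distrib]
          refine Finset.sum_congr rfl fun y _ => ?_
          by_cases h1 : J x y
          · simp [h1, hJJ x y h1]
          · by_cases h2 : J' x y <;> simp [h1, h2]
        rw [e3, e4, smul_smul, smul_smul]
        congr 1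
        push_cast
        ring
      rw [e2]
      have e5 : (∑ x : V, ∑ y : V, if J' x y ∧ ¬ J x y then (((2 * c : ℝ) : ℂ) •
            (1 : Matrix (V → Fin (n + 1)) (V → Fin (n + 1)) ℂ) - pairOp c (spin n) x y)
          else 0) = (∑ x : V, ∑ y : V, if J' x y ∧ ¬ J x y then (((2 * c : ℝ) : ℂ) •
              (1 : Matrix (V → Fin (n + 1)) (V → Fin (n + 1)) ℂ)) else 0) -
            ((∑ x : V, ∑ y : V, if J' x y then pairOp c (spin n) x y else 0) -
            ∑ x : V, ∑ y : V, if J x y then pairOp c (spin n) x y else 0) := by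
        rw [← Finset.sum_sub_distrib, ← Finset.sum_sub_distrib]
        refine Finset.sum_congr rfl fun x _ => ?_
        rw [← Finset.sum_sub_distrib, ← Finset.sum_sub_distrib]
        refine Finset.sum_congr rfl fun y _ => ?_
        by_cases h1 : J x y
        · simp [h1, hJJ x y h1]
        · by_cases h2 : J' x y <;> simp [h1, h2]
      rw [e5]
      module
    rw [e]
    refine Matrix.PosSemidef.smul ?_ (by simpa only [Complex.zero_le_real] using hb)
    refine Matrix.posSemidef_sum _ fun x _ => Matrix.posSemidef_sum _ fun y _ => ?_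
    split_ifs with h
    · refine pairOp_upper (spin_isHermitian n) hc ?_
      rintro rfl
      exact hJ' _ h.1
    · exact Matrix.PosSemidef.zero
  have h3 : (((β * c * (pairsV J' - pairsV J) : ℝ) : ℂ) •
        (1 : Matrix (V → Fin (n + 1)) (V → Fin (n + 1)) ℂ)).IsHermitian := by
    rw [Matrix.IsHermitian, Matrix.conjTranspose_smul, Matrix.conjTranspose_one]
    simp only [RCLike.star_def, Complex.conj_ofReal]
  have i1 := Real.log_le_log (trace_exp_pos h1) (trace_exp_mono h1 h2 hpos)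
  have i2 := Real.log_le_log (trace_exp_pos h2) (trace_exp_mono h2 (h1.add h3) hpos2)
  rw [trace_exp_add_smul_one, Real.log_mul (Real.exp_pos _).ne' (trace_exp_pos h1).ne',
    Real.log_exp] at i2
  have l1 := logZ_eqV n J hJ β h c 0
  have l2 := logZ_eqV n J' hJ' β h c 0
  unfold logZ at l1 l2
  rw [← hF] at l1 l2
  rw [l1, l2] at i1 i2
  rw [abs_le]
  constructor <;> nlinarith [i1, i2]

end General

end Vale.Agent.P361.LRO
end

section

/-!
Periodic boundary conditions: the pressure on the torus `(ℤ/(2N+1))³` has the same limit as the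
pressure with free boundary conditions.
-/

namespace Vale.Agent.P361.LRO

open Matrix Filter Topology Finset
open scoped ComplexOrder

/-- Nearest neighbours on the torus of side `L`. -/
def torusAdj (L : ℕ) (x y : Fin 3 → ZMod L) : Prop :=
  ∃ i, (x i = y i + 1 ∨ y i = x i + 1) ∧ ∀ j, j ≠ i → x j = y j

instance (L : ℕ) : DecidableRel (torusAdj L) := fun x y => by
  unfold torusAdj; infer_instance

theorem torusAdj_irrefl {L : ℕ} (hL : 1 < L) (x : Fin 3 → ZMod L) : ¬ torusAdj L x x := by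
  have : Fact (1 < L) := ⟨hL⟩
  rintro ⟨i, h | h, -⟩ <;> simp at h

/-- The torus coordinate map on the box. -/
def boxCast (N : ℕ) (x : Model.box N) : Fin 3 → ZMod (2 * N + 1) :=
  fun i => ((x.1 i : ℤ) : ZMod (2 * N + 1))

theorem mem_boxM {N : ℕ} {x : Fin 3 → ℤ} : x ∈ Model.box N ↔ ∀ i, -(N : ℤ) ≤ x i ∧ x i ≤ N := by
  simp only [Model.box, Finset.mem_Icc, Pi.le_def]
  exact ⟨fun h i => ⟨h.1 i, h.2 i⟩, fun h => ⟨fun i => (h i).1, fun i => (h i).2⟩⟩

theorem cast_eq_imp {L : ℕ} {a b : ℤ} (h : ((a : ℤ) : ZMod L) = ((b : ℤ) : ZMod L))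
    (hab : |a - b| < L) : a = b := by
  rw [← sub_eq_zero, ← Int.cast_sub, ZMod.intCast_zmod_eq_zero_iff_dvd] at h
  have := Int.eq_zero_of_abs_lt_dvd h hab
  linarith

theorem boxCast_injective (N : ℕ) : Function.Injective (boxCast N) := by
  intro x y hxy
  apply Subtype.ext
  funext i
  have hx := mem_boxM.1 x.2 i
  have hy := mem_boxM.1 y.2 i
  refine cast_eq_imp (congrFun hxy i) ?_
  rw [abs_lt]
  push_cast
  constructor <;> linarith [hx.1, hx.2, hy.1, hy.2]

theorem card_boxM (N : ℕ) : (Model.box N).card = (2 * N + 1) ^ 3 := card_box N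

theorem boxCast_bijective (N : ℕ) : Function.Bijective (boxCast N) := by
  rw [Fintype.bijective_iff_injective_and_card]
  refine ⟨boxCast_injective N, ?_⟩
  rw [Fintype.card_coe, card_boxM, Fintype.card_fun, ZMod.card, Fintype.card_fin]

noncomputable def boxEquiv (N : ℕ) : Model.box N ≃ (Fin 3 → ZMod (2 * N + 1)) :=
  Equiv.ofBijective (boxCast N) (boxCast_bijective N)

theorem boxEquiv_apply (N : ℕ) (x : Model.box N) (i : Fin 3) :
    boxEquiv N x i = ((x.1 i : ℤ) : ZMod (2 * N + 1)) := rfl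

theorem nn_iff {x y : Fin 3 → ℤ} : ∑ i, |x i - y i| = 1 ↔
    ∃ i, (x i = y i + 1 ∨ y i = x i + 1) ∧ ∀ j, j ≠ i → x j = y j := by
  constructor
  · intro h
    by_contra hcon
    push Not at hcon
    have hne : ∃ i, x i ≠ y i := by
      by_contra h2
      push Not at h2
      rw [Finset.sum_eq_zero fun i _ => by rw [h2 i, sub_self, abs_zero]] at h
      norm_num at h
    obtain ⟨i, hi⟩ := hne
    have h1 : 1 ≤ |x i - y i| := Int.one_le_abs (sub_ne_zero.2 hi)
    have h3 : ∑ j ∈ Finset.univ.erase i, |x j - y j| = 0 := by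
      have h4 := Finset.add_sum_erase Finset.univ (fun j => |x j - y j|) (Finset.mem_univ i)
      have h5 : 0 ≤ ∑ j ∈ Finset.univ.erase i, |x j - y j| :=
        Finset.sum_nonneg fun j _ => abs_nonneg _
      linarith
    have h6 : |x i - y i| = 1 := by
      have h4 := Finset.add_sum_erase Finset.univ (fun j => |x j - y j|) (Finset.mem_univ i)
      linarith
    have h7 : ∀ j, j ≠ i → x j = y j := by
      intro j hj
      have := (Finset.sum_eq_zero_iff_of_nonneg fun j _ => abs_nonneg _).1 h3 j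
        (Finset.mem_erase.2 ⟨hj, Finset.mem_univ j⟩)
      have := abs_eq_zero.1 this
      linarith
    obtain ⟨j, hj, hj2⟩ := hcon i (by
      rcases (abs_eq (by norm_num : (0 : ℤ) ≤ 1)).1 h6 with h | h
      · left; linarith
      · right; linarith)
    exact hj2 (h7 j hj)
  · rintro ⟨i, h1, h2⟩
    rw [← Finset.add_sum_erase Finset.univ (fun j => |x j - y j|) (Finset.mem_univ i),
      Finset.sum_eq_zero fun j hj => by
        rw [h2 j (Finset.ne_of_mem_erase hj), sub_self, abs_zero]]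
    rcases h1 with h1 | h1
    · rw [h1]; norm_num
    · rw [h1]; norm_num

theorem free_imp_torus {N : ℕ} (x y : Model.box N) (h : ∑ i, |x.1 i - y.1 i| = 1) :
    torusAdj (2 * N + 1) (boxEquiv N x) (boxEquiv N y) := by
  obtain ⟨i, h1, h2⟩ := nn_iff.1 h
  refine ⟨i, ?_, fun j hj => ?_⟩
  · rcases h1 with h1 | h1
    · left; rw [boxEquiv_apply, boxEquiv_apply, h1]; push_cast; ring
    · right; rw [boxEquiv_apply, boxEquiv_apply, h1]; push_cast; ring
  · rw [boxEquiv_apply, boxEquiv_apply, h2 j hj]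

/-- If `x` is not on the boundary, torus neighbours are free neighbours. -/
theorem torus_imp_free {N : ℕ} (hN : 1 ≤ N) (x y : Model.box N)
    (hx : ∀ i, -(N : ℤ) + 1 ≤ x.1 i ∧ x.1 i ≤ N - 1)
    (h : torusAdj (2 * N + 1) (boxEquiv N x) (boxEquiv N y)) : ∑ i, |x.1 i - y.1 i| = 1 := by
  obtain ⟨i, h1, h2⟩ := h
  refine nn_iff.2 ⟨i, ?_, fun j hj => ?_⟩
  · have hxi := hx i
    have hyi := mem_boxM.1 y.2 i
    rcases h1 with h1 | h1
    · left
      rw [boxEquiv_apply, boxEquiv_apply] at h1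
      have h3 : ((x.1 i : ℤ) : ZMod (2 * N + 1)) = ((y.1 i + 1 : ℤ) : ZMod (2 * N + 1)) := by
        rw [h1]; push_cast; ring
      refine cast_eq_imp h3 ?_
      rw [abs_lt]; push_cast
      constructor <;> linarith [hxi.1, hxi.2, hyi.1, hyi.2]
    · right
      rw [boxEquiv_apply, boxEquiv_apply] at h1
      have h3 : ((y.1 i : ℤ) : ZMod (2 * N + 1)) = ((x.1 i + 1 : ℤ) : ZMod (2 * N + 1)) := by
        rw [h1]; push_cast; ring
      refine cast_eq_imp h3 ?_
      rw [abs_lt]; push_cast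
      constructor <;> linarith [hxi.1, hxi.2, hyi.1, hyi.2]
  · have hxi := mem_boxM.1 x.2 j
    have hyi := mem_boxM.1 y.2 j
    have h3 : ((x.1 j : ℤ) : ZMod (2 * N + 1)) = ((y.1 j : ℤ) : ZMod (2 * N + 1)) := h2 j hj
    refine cast_eq_imp h3 ?_
    rw [abs_lt]; push_cast
    constructor <;> linarith [hxi.1, hxi.2, hyi.1, hyi.2]

theorem torus_degree {L : ℕ} [NeZero L] (x : Fin 3 → ZMod L) :
    (Finset.univ.filter fun y => torusAdj L x y).card ≤ 6 := by
  have hsub : (Finset.univ.filter fun y => torusAdj L x y) ⊆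
      (Finset.univ : Finset (Fin 3 × Bool)).image
        (fun p => Function.update x p.1 (if p.2 then x p.1 + 1 else x p.1 - 1)) := by
    intro y hy
    rw [Finset.mem_filter] at hy
    obtain ⟨i, h1, h2⟩ := hy.2
    rw [Finset.mem_image]
    rcases h1 with h1 | h1
    · refine ⟨(i, false), Finset.mem_univ _, ?_⟩
      funext j
      by_cases hj : j = i
      · subst hj; simp [h1]
      · simp only [Bool.false_eq_true, if_false]
        rw [Function.update_of_ne hj]; exact h2 j hj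
    · refine ⟨(i, true), Finset.mem_univ _, ?_⟩
      funext j
      by_cases hj : j = i
      · subst hj; simp [h1]
      · simp only [if_true]
        rw [Function.update_of_ne hj]; exact h2 j hj
  calc _ ≤ _ := Finset.card_le_card hsub
    _ ≤ (Finset.univ : Finset (Fin 3 × Bool)).card := Finset.card_image_le
    _ = 6 := by simp

/-- The torus adjacency transported to the box. -/
def torusBox (N : ℕ) (x y : Model.box N) : Prop :=
  torusAdj (2 * N + 1) (boxEquiv N x) (boxEquiv N y)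

noncomputable instance (N : ℕ) : DecidableRel (torusBox N) := fun x y => by
  unfold torusBox; infer_instance

theorem card_boundary (N : ℕ) (hN : 1 ≤ N) :
    ((Finset.univ.filter fun x : Model.box N =>
      ¬ ∀ i, -(N : ℤ) + 1 ≤ x.1 i ∧ x.1 i ≤ N - 1).card : ℝ) ≤ 3 * 2 * (2 * N + 1) ^ 2 := by
  obtain ⟨M, rfl⟩ : ∃ M, N = M + 1 := ⟨N - 1, by omega⟩
  have h1 : (Finset.univ.filter fun x : Model.box (M + 1) =>
      ∀ i, -((M + 1 : ℕ) : ℤ) + 1 ≤ x.1 i ∧ x.1 i ≤ ((M + 1 : ℕ) : ℤ) - 1).card =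
      (Model.box M).card := by
    refine Finset.card_bij (fun x _ => x.1) ?_ ?_ ?_
    · intro x hx
      rw [Finset.mem_filter] at hx
      rw [mem_boxM]
      intro i
      have := hx.2 i
      push_cast at this
      constructor <;> linarith [this.1, this.2]
    · intro x _ y _ h
      exact Subtype.ext h
    · intro x hx
      rw [mem_boxM] at hx
      refine ⟨⟨x, mem_boxM.2 fun i => ?_⟩, ?_, rfl⟩
      · have := hx i
        push_cast
        constructor <;> linarith [this.1, this.2]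
      · rw [Finset.mem_filter]
        refine ⟨Finset.mem_univ _, fun i => ?_⟩
        have := hx i
        push_cast
        constructor <;> linarith [this.1, this.2]
  have h2 := Finset.card_filter_add_card_filter_not (s := (Finset.univ : Finset (Model.box (M + 1))))
    (fun x : Model.box (M + 1) =>
      ∀ i, -((M + 1 : ℕ) : ℤ) + 1 ≤ x.1 i ∧ x.1 i ≤ ((M + 1 : ℕ) : ℤ) - 1)
  rw [h1, Finset.card_univ, Fintype.card_coe, card_boxM, card_boxM] at h2
  have h3 : ((2 * M + 1) ^ 3 : ℝ) + ((Finset.univ.filter fun x : Model.box (M + 1) =>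
      ¬ ∀ i, -((M + 1 : ℕ) : ℤ) + 1 ≤ x.1 i ∧ x.1 i ≤ ((M + 1 : ℕ) : ℤ) - 1).card : ℝ) =
      (2 * (M + 1) + 1) ^ 3 := by
    exact_mod_cast h2
  push_cast at h3 ⊢
  nlinarith [h3, (Nat.cast_nonneg M : (0 : ℝ) ≤ M)]

theorem pairs_torus_sub (N : ℕ) (hN : 1 ≤ N) :
    pairsV (torusBox N) - pairsV (fun x y : Model.box N => ∑ i, |x.1 i - y.1 i| = 1) ≤
      36 * (2 * N + 1) ^ 2 := by
  classical
  unfold pairsV
  rw [← Finset.sum_sub_distrib]
  have hstep : ∀ x : Model.box N, (∑ y : Model.box N, if torusBox N x y then (1 : ℝ) else 0) -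
      (∑ y : Model.box N, if ∑ i, |x.1 i - y.1 i| = 1 then (1 : ℝ) else 0) ≤
      if ¬ ∀ i, -(N : ℤ) + 1 ≤ x.1 i ∧ x.1 i ≤ N - 1 then (6 : ℝ) else 0 := by
    intro x
    by_cases hx : ∀ i, -(N : ℤ) + 1 ≤ x.1 i ∧ x.1 i ≤ N - 1
    · rw [if_neg (not_not.2 hx), sub_nonpos]
      refine Finset.sum_le_sum fun y _ => ?_
      by_cases h : torusBox N x y
      · rw [if_pos h, if_pos (torus_imp_free hN x y hx h)]
      · rw [if_neg h]; split_ifs <;> norm_num
    · rw [if_pos hx]
      have h1 : (∑ y : Model.box N, if torusBox N x y then (1 : ℝ) else 0) ≤ 6 := by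
        rw [Finset.sum_boole]
        have h2 : (Finset.univ.filter fun y => torusBox N x y).card =
            (Finset.univ.filter fun y => torusAdj (2 * N + 1) (boxEquiv N x) y).card := by
          refine Finset.card_bij (fun y _ => boxEquiv N y) ?_ ?_ ?_
          · intro y hy
            rw [Finset.mem_filter] at hy ⊢
            exact ⟨Finset.mem_univ _, hy.2⟩
          · intro y _ z _ h
            exact (boxEquiv N).injective h
          · intro y hy
            refine ⟨(boxEquiv N).symm y, ?_, by simp⟩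
            rw [Finset.mem_filter] at hy ⊢
            refine ⟨Finset.mem_univ _, ?_⟩
            unfold torusBox
            simpa using hy.2
        rw [h2]
        exact_mod_cast torus_degree _
      have h2 : (0 : ℝ) ≤ ∑ y : Model.box N, if ∑ i, |x.1 i - y.1 i| = 1 then (1 : ℝ) else 0 :=
        Finset.sum_nonneg fun y _ => by split_ifs <;> norm_num
      linarith
  refine (Finset.sum_le_sum fun x _ => hstep x).trans ?_
  rw [← Finset.sum_filter, Finset.sum_const, nsmul_eq_mul]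
  have := card_boundary N hN
  nlinarith [this]

/-- Pressure with periodic boundary conditions. -/
noncomputable def pressTorus (n N : ℕ) (β h : ℝ) : ℝ :=
  (β * (2 * N + 1) ^ 3)⁻¹ * Model.logTr n (torusAdj (2 * N + 1)) β h

theorem pressTorus_sub_le (n : ℕ) : ∃ C : ℝ, 0 ≤ C ∧ ∀ (N : ℕ), 1 ≤ N → ∀ β : ℝ, 0 < β → ∀ h : ℝ,
    |pressTorus n N β h - Model.finPressure n N β h| ≤ C / (2 * N + 1) := by
  obtain ⟨c, hc0, hc⟩ := exists_upper_bound (X := ∑ a, spin n a * spin n a) (by
    rw [Matrix.IsHermitian, Matrix.conjTranspose_sum]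
    refine Finset.sum_congr rfl fun a _ => ?_
    rw [Matrix.conjTranspose_mul, spin_isHermitian n a])
  refine ⟨18 * c, by positivity, fun N hN β hβ h => ?_⟩
  have hirr : ∀ x : Model.box N, ¬ (∑ i, |x.1 i - x.1 i| = 1) := by
    intro x hx
    simp at hx
  have hirr' : ∀ x : Model.box N, ¬ torusBox N x x := fun x =>
    torusAdj_irrefl (by omega) _
  have h1 := logTr_mono_pairs n hc (fun x y : Model.box N => ∑ i, |x.1 i - y.1 i| = 1)
    (torusBox N) hirr hirr' (fun x y hxy => free_imp_torus x y hxy) hβ.le h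
  have h2 : Model.logTr n (torusBox N) β h = Model.logTr n (torusAdj (2 * N + 1)) β h :=
    logTr_relabel (boxEquiv N) n (torusAdj (2 * N + 1)) (torusAdj_irrefl (by omega)) β h
  have h3 := pairs_torus_sub N hN
  rw [h2] at h1
  have hcard : ((Model.box N).card : ℝ) = (2 * N + 1) ^ 3 := by
    rw [card_boxM]; push_cast; ring
  unfold pressTorus Model.finPressure
  rw [hcard, ← mul_sub, abs_mul, abs_of_pos (by positivity : (0 : ℝ) < (β * (2 * N + 1) ^ 3)⁻¹)]
  have h4 : |Model.logTr n (torusAdj (2 * N + 1)) β h -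
      Model.logTr n (fun x y : Model.box N => ∑ i, |x.1 i - y.1 i| = 1) β h| ≤
      (β / 2) * c * (36 * (2 * N + 1) ^ 2) :=
    h1.trans (mul_le_mul_of_nonneg_left h3 (by positivity))
  refine (mul_le_mul_of_nonneg_left h4 (by positivity)).trans (le_of_eq ?_)
  field_simp
  ring

/-- The pressure with periodic boundary conditions converges to `Model.pressure`. -/
theorem pressTorus_tendsto (n : ℕ) {β : ℝ} (hβ : 0 < β) (h : ℝ) :
    Tendsto (fun N : ℕ => pressTorus n N β h) atTop (𝓝 (Model.pressure n β h)) := by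
  obtain ⟨C, hC, hb⟩ := pressTorus_sub_le n
  have h1 : Tendsto (fun N : ℕ => Model.finPressure n N β h) atTop
      (𝓝 (Model.pressure n β h)) := pressure_tendsto n hβ h
  have h2 : Tendsto (fun N : ℕ => C / (2 * (N : ℝ) + 1)) atTop (𝓝 0) := by
    refine Tendsto.div_atTop tendsto_const_nhds ?_
    exact tendsto_atTop_add_const_right _ _
      (Tendsto.const_mul_atTop (by norm_num) tendsto_natCast_atTop_atTop)
  have h3 : Tendsto (fun N : ℕ => pressTorus n N β h - Model.finPressure n N β h) atTop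
      (𝓝 0) := by
    refine squeeze_zero_norm' ?_ h2
    filter_upwards [eventually_ge_atTop 1] with N hN
    exact hb N hN β hβ h
  have h4 := h3.add h1
  simpa using h4

/-- Support line inequality for the torus pressure. -/
theorem pressTorus_support (n N : ℕ) (hN : 1 ≤ N) {β : ℝ} (hβ : 0 < β) (h h' : ℝ) :
    pressTorus n N β h + (h' - h) * (gibbsMagV n (torusAdj (2 * N + 1)) β h / (2 * N + 1) ^ 3) ≤
      pressTorus n N β h' := by
  have h1 := logTr_support n (torusAdj (2 * N + 1)) (torusAdj_irrefl (by omega)) β h h'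
  have h2 := mul_le_mul_of_nonneg_left h1 (a := (β * (2 * (N : ℝ) + 1) ^ 3)⁻¹) (by positivity)
  unfold pressTorus
  refine le_trans (le_of_eq ?_) h2
  field_simp

end Vale.Agent.P361.LRO
end

section

/-!
Bridge between the real swap model of `LRO/Defs.lean` and `Model.hamiltonian 1`.
-/

namespace Vale.Agent.P361.LRO

open Matrix Filter Topology Finset
open scoped ComplexOrder

section Pair

variable {V : Type} [Fintype V] [DecidableEq V] {d : Type*} [Fintype d] [DecidableEq d]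

theorem siteOpV_pair_apply {x y : V} (hxy : x ≠ y) (A B : Matrix d d ℂ) (σ τ : V → d) :
    (siteOpV x A * siteOpV y B) σ τ = A (σ x) (τ x) * (B (σ y) (τ y) *
      ∏ z ∈ (Finset.univ.erase x).erase y, (1 : Matrix d d ℂ) (σ z) (τ z)) := by
  simp only [siteOpV, prodOp_mul]
  simp only [prodOp, Matrix.of_apply]
  rw [← Finset.mul_prod_erase _ _ (Finset.mem_univ x),
    ← Finset.mul_prod_erase _ _ (Finset.mem_erase.2 ⟨hxy.symm, Finset.mem_univ y⟩)]
  congr 1
  · simp [hxy]
  · congr 1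
    · simp [hxy.symm]
    · refine Finset.prod_congr rfl fun z hz => ?_
      have h1 := Finset.ne_of_mem_erase hz
      have h2 := Finset.ne_of_mem_erase (Finset.mem_of_mem_erase hz)
      rw [if_neg h1, if_neg h2, Matrix.one_mul]

end Pair

theorem spinLower_one : spinLower 1 = !![0, 0; 1, 0] := by
  ext i j
  fin_cases i <;> fin_cases j <;> simp [spinLower]

theorem spin_one_sum (i i' j j' : Fin 2) :
    ∑ a : Fin 3, spin 1 a i i' * spin 1 a j j' =
      (1 / 2 : ℂ) * (if i = j' ∧ j = i' then 1 else 0) -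
        (1 / 4 : ℂ) * (if i = i' ∧ j = j' then 1 else 0) := by
  have h0 : spin 1 0 = (1 / 2 : ℂ) • ((spinLower 1)ᴴ + spinLower 1) := rfl
  have h1 : spin 1 1 = (1 / (2 * Complex.I) : ℂ) • ((spinLower 1)ᴴ - spinLower 1) := rfl
  have h2 : spin 1 2 = spinZ 1 := rfl
  rw [Fin.sum_univ_three, h0, h1, h2, spinLower_one]
  fin_cases i <;> fin_cases i' <;> fin_cases j <;> fin_cases j' <;>
    simp [spinZ, Matrix.conjTranspose, Matrix.transpose, Matrix.diagonal] <;>
    first
    | done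
    | (ring_nf; rw [Complex.I_sq]; norm_num)
    | norm_num

section Gen

variable {V : Type} [Fintype V] [DecidableEq V]

theorem cM_swap {x y : V} (hxy : x ≠ y) :
    cM (swapM x y) = (2 : ℂ) • ∑ a : Fin 3, siteOpV x (spin 1 a) * siteOpV y (spin 1 a) +
      (1 / 2 : ℂ) • (1 : Matrix (V → Fin 2) (V → Fin 2) ℂ) := by
  ext σ τ
  rw [cM_apply, Matrix.add_apply, Matrix.smul_apply, Matrix.smul_apply, Matrix.sum_apply]
  simp only [siteOpV_pair_apply hxy]
  rw [show (∑ a : Fin 3, spin 1 a (σ x) (τ x) * (spin 1 a (σ y) (τ y) *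
      ∏ z ∈ (Finset.univ.erase x).erase y, (1 : Matrix (Fin 2) (Fin 2) ℂ) (σ z) (τ z))) =
      (∑ a : Fin 3, spin 1 a (σ x) (τ x) * spin 1 a (σ y) (τ y)) *
      ∏ z ∈ (Finset.univ.erase x).erase y, (1 : Matrix (Fin 2) (Fin 2) ℂ) (σ z) (τ z) by
    rw [Finset.sum_mul]; exact Finset.sum_congr rfl fun a _ => by ring]
  rw [spin_one_sum]
  have hprod : (∏ z ∈ (Finset.univ.erase x).erase y,
      (1 : Matrix (Fin 2) (Fin 2) ℂ) (σ z) (τ z)) =
      if (∀ z, z ≠ x → z ≠ y → σ z = τ z) then 1 else 0 := by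
    split_ifs with h
    · refine Finset.prod_eq_one fun z hz => ?_
      have h1 := Finset.ne_of_mem_erase hz
      have h2 := Finset.ne_of_mem_erase (Finset.mem_of_mem_erase hz)
      rw [Matrix.one_apply, if_pos (h z h2 h1)]
    · push Not at h
      obtain ⟨z, h1, h2, h3⟩ := h
      refine Finset.prod_eq_zero (i := z) ?_ (by rw [Matrix.one_apply, if_neg h3])
      exact Finset.mem_erase.2 ⟨h2, Finset.mem_erase.2 ⟨h1, Finset.mem_univ z⟩⟩
  rw [hprod]
  have hsw : (σ = τ ∘ Equiv.swap x y) ↔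
      ((σ x = τ y ∧ σ y = τ x) ∧ ∀ z, z ≠ x → z ≠ y → σ z = τ z) := by
    constructor
    · intro h
      refine ⟨⟨by rw [h]; simp, by rw [h]; simp⟩, fun z h1 h2 => by
        rw [h]; simp [Equiv.swap_apply_of_ne_of_ne h1 h2]⟩
    · rintro ⟨⟨h1, h2⟩, h3⟩
      funext z
      simp only [Function.comp_apply]
      by_cases hz : z = x
      · subst hz; simpa using h1
      · by_cases hz2 : z = y
        · subst hz2; simpa using h2
        · rw [Equiv.swap_apply_of_ne_of_ne hz hz2]; exact h3 z hz hz2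
  have hone : (σ = τ) ↔ ((σ x = τ x ∧ σ y = τ y) ∧ ∀ z, z ≠ x → z ≠ y → σ z = τ z) := by
    constructor
    · rintro rfl; simp
    · rintro ⟨⟨h1, h2⟩, h3⟩
      funext z
      by_cases hz : z = x
      · subst hz; exact h1
      · by_cases hz2 : z = y
        · subst hz2; exact h2
        · exact h3 z hz hz2
  rw [swapM, Matrix.of_apply, Matrix.one_apply]
  simp only [hsw, hone, smul_eq_mul]
  have key : ∀ (P1 P2 P3 : Prop) [Decidable P1] [Decidable P2] [Decidable P3],
      (((if P1 ∧ P3 then (1 : ℝ) else 0) : ℝ) : ℂ) =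
        2 * (((1 / 2 : ℂ) * (if P1 then 1 else 0) - (1 / 4 : ℂ) * (if P2 then 1 else 0)) *
          (if P3 then 1 else 0)) + 1 / 2 * (if P2 ∧ P3 then 1 else 0) := by
    intro P1 P2 P3 _ _ _
    by_cases h1 : P1 <;> by_cases h2 : P2 <;> by_cases h3 : P3 <;> simp [h1, h2, h3] <;> norm_num
  exact key _ _ _

theorem cM_sz (x : V) : cM (szM x) = (2 : ℂ) • siteOpV x (spin 1 2) := by
  ext σ τ
  rw [cM_apply, Matrix.smul_apply, siteOpV_apply, szM]
  have h2 : spin 1 2 = spinZ 1 := rfl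
  by_cases h : σ = τ
  · subst h
    rw [Matrix.diagonal_apply_eq, Finset.prod_eq_one (fun z _ => by rw [Matrix.one_apply_eq]), h2]
    simp only [spinZ, Matrix.diagonal_apply_eq]
    rcases Fin.exists_fin_two.1 ⟨σ x, rfl⟩ with h | h
    · rw [h]; norm_num
    · rw [h]; norm_num
  · rw [Matrix.diagonal_apply_ne _ h]
    by_cases hx : σ x = τ x
    · have : ∃ z, z ≠ x ∧ σ z ≠ τ z := by
        by_contra hcon
        push Not at hcon
        apply h
        funext z
        by_cases hz : z = x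
        · subst hz; exact hx
        · exact hcon z hz
      obtain ⟨z, hz, hz2⟩ := this
      rw [Finset.prod_eq_zero (Finset.mem_erase.2 ⟨hz, Finset.mem_univ z⟩)
        (by rw [Matrix.one_apply, if_neg hz2])]
      simp
    · rw [h2, spinZ, Matrix.diagonal_apply_ne _ hx]
      simp

end Gen

end Vale.Agent.P361.LRO
end

section

/-! # The swap form of the spin-1/2 model on the torus -/

namespace Vale.Agent.P361.LRO

open Matrix Finset Filter Topology

section torus

variable {n : ℕ}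

theorem single_one_inj (hn : 1 < n) {i j : Fin 3}
    (h : (Pi.single i 1 : Fin 3 → ZMod n) = Pi.single j 1) : i = j := by
  have : Fact (1 < n) := ⟨hn⟩
  by_contra hij
  have := congrFun h i
  rw [Pi.single_eq_same, Pi.single_eq_of_ne hij] at this
  exact one_ne_zero this

theorem single_one_add_ne (hn : 3 ≤ n) (i j : Fin 3) :
    (Pi.single i 1 : Fin 3 → ZMod n) + Pi.single j 1 ≠ 0 := by
  have : Fact (1 < n) := ⟨by omega⟩
  intro h
  have h1 := congrFun h i
  rw [Pi.add_apply, Pi.single_eq_same, Pi.zero_apply] at h1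
  by_cases hij : i = j
  · subst hij
    rw [Pi.single_eq_same] at h1
    have h2 : ((2 : ℕ) : ZMod n) = 0 := by
      rw [← h1]; norm_num
    rw [ZMod.natCast_eq_zero_iff] at h2
    have := Nat.le_of_dvd (by norm_num) h2
    omega
  · rw [Pi.single_eq_of_ne hij, add_zero] at h1
    exact one_ne_zero h1

theorem torusAdj_iff_single (x y : Fin 3 → ZMod n) :
    torusAdj n x y ↔ ∃ i, y = x + Pi.single i 1 ∨ x = y + Pi.single i 1 := by
  have key : ∀ (i : Fin 3) (u v : Fin 3 → ZMod n),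
      (u i = v i + 1 ∧ ∀ j, j ≠ i → u j = v j) ↔ u = v + Pi.single i 1 := by
    intro i u v
    constructor
    · rintro ⟨h1, h2⟩
      funext j
      by_cases hj : j = i
      · subst hj
        rw [Pi.add_apply, Pi.single_eq_same, h1]
      · rw [Pi.add_apply, Pi.single_eq_of_ne hj, add_zero, h2 j hj]
    · rintro rfl
      refine ⟨by rw [Pi.add_apply, Pi.single_eq_same], fun j hj => ?_⟩
      rw [Pi.add_apply, Pi.single_eq_of_ne hj, add_zero]
  unfold torusAdj
  refine exists_congr fun i => ?_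
  rw [← key i y x, ← key i x y]
  constructor
  · rintro ⟨h1 | h1, h2⟩
    · exact Or.inr ⟨h1, h2⟩
    · exact Or.inl ⟨h1, fun j hj => (h2 j hj).symm⟩
  · rintro (⟨h1, h2⟩ | ⟨h1, h2⟩)
    · exact ⟨Or.inr h1, fun j hj => (h2 j hj).symm⟩
    · exact ⟨Or.inl h1, h2⟩

theorem ite_torusAdj (hn : 3 ≤ n) {M : Type*} [AddCommMonoid M] (x y : Fin 3 → ZMod n) (m : M) :
    (if torusAdj n x y then m else 0) =
      (∑ i : Fin 3, if y = x + Pi.single i 1 then m else 0) +
        ∑ i : Fin 3, if x = y + Pi.single i 1 then m else 0 := by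
  have hn1 : 1 < n := by omega
  by_cases h : torusAdj n x y
  · rw [if_pos h]
    rw [torusAdj_iff_single] at h
    obtain ⟨i, rfl | rfl⟩ := h
    · have e1 : ∀ j : Fin 3, (if x + Pi.single i 1 = x + Pi.single j (1 : ZMod n) then m else 0) =
          if j = i then m else 0 := by
        intro j
        by_cases hj : j = i
        · subst hj; simp
        · rw [if_neg hj, if_neg]
          intro h2
          exact hj (single_one_inj hn1 (add_left_cancel h2)).symm
      have e2 : ∀ j : Fin 3, (if x = x + Pi.single i 1 + Pi.single j (1 : ZMod n) then m else 0) =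
          0 := by
        intro j
        rw [if_neg]
        intro h2
        apply single_one_add_ne hn i j
        rw [add_assoc] at h2
        exact (left_eq_add.1 h2)
      simp only [e1, e2, Finset.sum_const_zero, add_zero, Finset.sum_ite_eq', Finset.mem_univ,
        if_true]
    · have e1 : ∀ j : Fin 3, (if y + Pi.single i 1 = y + Pi.single j (1 : ZMod n) then m else 0) =
          if j = i then m else 0 := by
        intro j
        by_cases hj : j = i
        · subst hj; simp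
        · rw [if_neg hj, if_neg]
          intro h2
          exact hj (single_one_inj hn1 (add_left_cancel h2)).symm
      have e2 : ∀ j : Fin 3, (if y = y + Pi.single i 1 + Pi.single j (1 : ZMod n) then m else 0) =
          0 := by
        intro j
        rw [if_neg]
        intro h2
        apply single_one_add_ne hn i j
        rw [add_assoc] at h2
        exact (left_eq_add.1 h2)
      simp only [e1, e2, Finset.sum_const_zero, zero_add, Finset.sum_ite_eq', Finset.mem_univ,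
        if_true]
  · rw [if_neg h]
    rw [torusAdj_iff_single] at h
    push Not at h
    rw [Finset.sum_eq_zero fun i _ => if_neg (h i).1, Finset.sum_eq_zero fun i _ => if_neg (h i).2,
      add_zero]

theorem sum_torusAdj [NeZero n] (hn : 3 ≤ n) {M : Type*} [AddCommMonoid M]
    (f : (Fin 3 → ZMod n) → (Fin 3 → ZMod n) → M) :
    (∑ x, ∑ y, if torusAdj n x y then f x y else 0) =
      (∑ z : (Fin 3 → ZMod n) × Fin 3, f z.1 (z.1 + Pi.single z.2 1)) +
        ∑ z : (Fin 3 → ZMod n) × Fin 3, f (z.1 + Pi.single z.2 1) z.1 := by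
  simp only [ite_torusAdj hn, Finset.sum_add_distrib, Fintype.sum_prod_type]
  congr 1
  · refine Finset.sum_congr rfl fun x _ => ?_
    rw [Finset.sum_comm]
    refine Finset.sum_congr rfl fun i _ => ?_
    rw [Finset.sum_ite_eq' Finset.univ (x + Pi.single i 1) (fun y => f x y), if_pos (mem_univ _)]
  · rw [Finset.sum_comm]
    refine Finset.sum_congr rfl fun y _ => ?_
    rw [Finset.sum_comm]
    refine Finset.sum_congr rfl fun i _ => ?_
    rw [Finset.sum_ite_eq' Finset.univ (y + Pi.single i 1) (fun x => f x y), if_pos (mem_univ _)]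

theorem sum_edges [NeZero n] {M : Type*} [AddCommMonoid M] (f : Tor n × Tor n → M) :
    ((edges n).map f).sum = ∑ z : (Fin 3 → ZMod n) × Fin 3, f (z.1, z.1 + Pi.single z.2 1) := by
  rw [edges, List.map_map, Finset.sum_map_toList]
  rfl

end torus

section gen

variable {V : Type} [Fintype V] [DecidableEq V]

theorem exp_add_smul_one {ι : Type*} [Fintype ι] [DecidableEq ι] (X : Matrix ι ι ℂ) (k : ℝ) :
    NormedSpace.exp (X + (k : ℂ) • (1 : Matrix ι ι ℂ)) =
      ((Real.exp k : ℝ) : ℂ) • NormedSpace.exp X := by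
  have hcomm : Commute X ((k : ℂ) • (1 : Matrix ι ι ℂ)) :=
    (Commute.one_right X).smul_right (k : ℂ)
  have h : (k : ℂ) • (1 : Matrix ι ι ℂ) = diagonal (fun _ => (k : ℂ)) := by
    ext i j
    by_cases hij : i = j
    · subst hij; simp
    · simp [hij]
  rw [Matrix.exp_add_of_commute _ _ hcomm, h, Matrix.exp_diagonal]
  have h2 : diagonal (NormedSpace.exp fun _ : ι => (k : ℂ)) =
      ((Real.exp k : ℝ) : ℂ) • (1 : Matrix ι ι ℂ) := by
    ext i j
    by_cases hij : i = j
    · subst hij; simp [Pi.exp_def, ← Complex.exp_eq_exp_ℂ]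
    · simp [hij]
  rw [h2, Matrix.mul_smul, Matrix.mul_one]

theorem cM_hM {x y : V} (hxy : x ≠ y) :
    cM (hM x y) = (1 / 4 : ℂ) • (1 : Matrix (V → Fin 2) (V → Fin 2) ℂ) -
      ∑ a : Fin 3, siteOpV x (spin 1 a) * siteOpV y (spin 1 a) := by
  have h1 := cM_swap hxy
  unfold hM
  rw [cM_smul, cM_sub, cM_one, h1]
  push_cast
  module

theorem rho_eq_gib [Nonempty V] (L : List (V × V)) (β : ℝ) (h : V → ℝ) (x : V)
    (hZ : Matrix.trace (NormedSpace.exp (-β • ham L h)) ≠ 0) :
    1 / 2 - rho L β h x = gib L β h ((1 / 2 : ℝ) • szM x) := by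
  unfold rho gib
  rw [smul_sub, Matrix.mul_sub, Matrix.trace_sub, Matrix.mul_smul, Matrix.mul_one,
    Matrix.trace_smul, smul_eq_mul, Matrix.mul_smul, Matrix.trace_smul, smul_eq_mul]
  field_simp
  ring

end gen

section final

variable {n : ℕ} [NeZero n]

end final

end Vale.Agent.P361.LRO
end

section

/-!
General spin, one site: the spin `n / 2` is the symmetric part of `n` spins `1 / 2`.
-/

namespace Vale.Agent.P361.LRO.GenS

open Matrix Finset

set_option linter.unusedSectionVars false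

theorem fin2_cases (c : Fin (1 + 1)) : c = 0 ∨ c = 1 := by
  fin_cases c <;> simp

theorem sum2 (f : Fin (1 + 1) → ℂ) : ∑ c, f c = f 0 + f 1 := Fin.sum_univ_two f

/-- Number of down spins. -/
def dn {n : ℕ} (s : Fin n → Fin (1 + 1)) : ℕ := ∑ i, (s i : ℕ)

theorem dn_le {n : ℕ} (s : Fin n → Fin (1 + 1)) : dn s ≤ n := by
  unfold dn
  calc ∑ i, (s i : ℕ) ≤ ∑ _i : Fin n, 1 := Finset.sum_le_sum fun i _ => by omega
    _ = n := by simp

theorem dn_eq_card {n : ℕ} (s : Fin n → Fin (1 + 1)) :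
    dn s = (univ.filter fun i => s i = 1).card := by
  unfold dn
  rw [Finset.card_filter]
  refine Finset.sum_congr rfl fun i _ => ?_
  have : s i = 0 ∨ s i = 1 := fin2_cases _
  rcases this with h | h <;> simp [h]

theorem card_dn {n : ℕ} (k : ℕ) :
    (univ.filter fun s : Fin n → Fin (1 + 1) => dn s = k).card = n.choose k := by
  have h : (univ.filter fun s : Fin n → Fin (1 + 1) => dn s = k).card =
      ((univ : Finset (Fin n)).powersetCard k).card := by
    refine Finset.card_bij (fun s _ => univ.filter fun i => s i = 1) ?_ ?_ ?_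
    · intro s hs
      rw [Finset.mem_filter] at hs
      rw [Finset.mem_powersetCard]
      exact ⟨Finset.filter_subset _ _, by rw [← dn_eq_card]; exact hs.2⟩
    · intro s _ t _ hst
      funext i
      have := congrArg (fun A => i ∈ A) hst
      simp only [Finset.mem_filter, Finset.mem_univ, true_and, eq_iff_iff] at this
      have h1 : s i = 0 ∨ s i = 1 := fin2_cases _
      have h2 : t i = 0 ∨ t i = 1 := fin2_cases _
      rcases h1 with h1 | h1 <;> rcases h2 with h2 | h2 <;> simp_all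
    · intro A hA
      rw [Finset.mem_powersetCard] at hA
      refine ⟨fun i => if i ∈ A then 1 else 0, ?_, ?_⟩
      · rw [Finset.mem_filter]
        refine ⟨Finset.mem_univ _, ?_⟩
        rw [dn_eq_card, ← hA.2]
        congr 1
        ext i
        by_cases h : i ∈ A <;> simp [h]
      · ext i
        by_cases h : i ∈ A <;> simp [h]
  rw [h, Finset.card_powersetCard, Finset.card_univ, Fintype.card_fin]

/-- The isometry onto the symmetric tensors. -/
noncomputable def W1 (n : ℕ) : Matrix (Fin n → Fin (1 + 1)) (Fin (n + 1)) ℂ :=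
  Matrix.of fun s j => if dn s = (j : ℕ) then (((Real.sqrt (n.choose (j : ℕ)))⁻¹ : ℝ) : ℂ) else 0

theorem choose_pos' {n : ℕ} (j : Fin (n + 1)) : (0 : ℝ) < (n.choose (j : ℕ) : ℝ) := by
  have := Nat.choose_pos (Nat.lt_succ_iff.1 j.2)
  exact_mod_cast this

theorem W1_conj_mul (n : ℕ) : (W1 n)ᴴ * W1 n = 1 := by
  ext i j
  rw [Matrix.mul_apply, Matrix.one_apply]
  simp only [W1, Matrix.conjTranspose_apply, Matrix.of_apply]
  by_cases hij : i = j
  · subst hij
    rw [if_pos rfl]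
    have h1 : ∀ s : Fin n → Fin (1 + 1),
        star (if dn s = (i : ℕ) then (((Real.sqrt (n.choose (i : ℕ)))⁻¹ : ℝ) : ℂ) else 0) *
          (if dn s = (i : ℕ) then (((Real.sqrt (n.choose (i : ℕ)))⁻¹ : ℝ) : ℂ) else 0) =
        if dn s = (i : ℕ) then (((n.choose (i : ℕ) : ℝ)⁻¹ : ℝ) : ℂ) else 0 := by
      intro s
      split_ifs with h
      · have hs : star (((Real.sqrt (n.choose (i : ℕ)))⁻¹ : ℝ) : ℂ) =
            (((Real.sqrt (n.choose (i : ℕ)))⁻¹ : ℝ) : ℂ) := Complex.conj_ofReal _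
        rw [hs, ← Complex.ofReal_mul, ← mul_inv, Real.mul_self_sqrt (choose_pos' i).le]
      · simp
    rw [Finset.sum_congr rfl fun s _ => h1 s, ← Finset.sum_filter, Finset.sum_const,
      card_dn, nsmul_eq_mul]
    have h0 : ((n.choose (i : ℕ) : ℕ) : ℂ) ≠ 0 := by
      have := Nat.choose_pos (Nat.lt_succ_iff.1 i.2)
      exact_mod_cast this.ne'
    push_cast
    field_simp
  · rw [if_neg hij]
    refine Finset.sum_eq_zero fun s _ => ?_
    by_cases h : dn s = (i : ℕ)
    · have : ¬ dn s = (j : ℕ) := fun h2 => hij (Fin.ext (h.symm.trans h2))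
      rw [if_neg this, mul_zero]
    · rw [if_neg h, star_zero, zero_mul]

section

variable {V d e : Type*} [Fintype V] [DecidableEq V] [Fintype d] [DecidableEq d]

theorem siteOpV_mul_apply (x : V) (A : Matrix d d ℂ) (M : Matrix (V → d) e ℂ) (σ : V → d) (j : e) :
    (siteOpV x A * M) σ j = ∑ c, A (σ x) c * M (Function.update σ x c) j := by
  rw [Matrix.mul_apply]
  rw [← Finset.sum_subset (Finset.subset_univ
    ((univ : Finset d).image fun c => Function.update σ x c))]
  · rw [Finset.sum_image]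
    · refine Finset.sum_congr rfl fun c _ => ?_
      congr 1
      rw [siteOpV_apply]
      rw [Finset.prod_eq_one, mul_one, Function.update_self]
      intro y hy
      rw [Function.update_of_ne (Finset.ne_of_mem_erase hy), Matrix.one_apply_eq]
    · intro c _ c' _ h
      have := congrFun h x
      simpa using this
  · intro τ _ hτ
    have : siteOpV x A σ τ = 0 := by
      rw [siteOpV_apply]
      have hne : ∃ y, y ≠ x ∧ σ y ≠ τ y := by
        by_contra hcon
        push Not at hcon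
        apply hτ
        rw [Finset.mem_image]
        refine ⟨τ x, Finset.mem_univ _, ?_⟩
        funext y
        by_cases hy : y = x
        · subst hy; simp
        · rw [Function.update_of_ne hy, hcon y hy]
      obtain ⟨y, hy, hne⟩ := hne
      rw [Finset.prod_eq_zero (Finset.mem_erase.2 ⟨hy, Finset.mem_univ _⟩), mul_zero]
      rw [Matrix.one_apply_ne hne]
    rw [this, zero_mul]

end

theorem dn_update {n : ℕ} (s : Fin n → Fin (1 + 1)) (i : Fin n) (c : Fin (1 + 1)) :
    dn (Function.update s i c) + (s i : ℕ) = dn s + (c : ℕ) := by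
  unfold dn
  rw [← Finset.add_sum_erase _ _ (Finset.mem_univ i),
    ← Finset.add_sum_erase univ (fun j => (s j : ℕ)) (Finset.mem_univ i)]
  rw [Function.update_self]
  have : ∑ j ∈ univ.erase i, ((Function.update s i c j : Fin (1 + 1)) : ℕ) =
      ∑ j ∈ univ.erase i, (s j : ℕ) :=
    Finset.sum_congr rfl fun j hj => by rw [Function.update_of_ne (Finset.ne_of_mem_erase hj)]
  rw [this]
  ring

/-- `S³`. -/
theorem site_Z (n : ℕ) :
    (∑ i : Fin n, siteOpV i (Model.spinZ 1)) * W1 n = W1 n * Model.spinZ n := by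
  ext s j
  rw [Matrix.sum_mul, Matrix.sum_apply]
  simp only [siteOpV_mul_apply, sum2]
  have h1 : ∀ i : Fin n, Model.spinZ 1 (s i) 0 * W1 n (Function.update s i 0) j +
      Model.spinZ 1 (s i) 1 * W1 n (Function.update s i 1) j =
      ((1 : ℂ) / 2 - ((s i : ℕ) : ℂ)) * W1 n s j := by
    intro i
    have hu : Function.update s i (s i) = s := Function.update_eq_self i s
    have : s i = 0 ∨ s i = 1 := fin2_cases _
    rcases this with h | h
    · rw [h] at hu ⊢
      simp [Model.spinZ, hu]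
    · rw [h] at hu ⊢
      simp [Model.spinZ, hu]
  rw [Finset.sum_congr rfl fun i _ => h1 i, ← Finset.sum_mul, Finset.sum_sub_distrib]
  simp only [Finset.sum_const, Finset.card_univ, Fintype.card_fin, nsmul_eq_mul]
  rw [Model.spinZ, Matrix.mul_diagonal, mul_comm]
  by_cases h : dn s = (j : ℕ)
  · have : (∑ i, ((s i : ℕ) : ℂ)) = ((j : ℕ) : ℂ) := by
      rw [← h]; unfold dn; push_cast; rfl
    rw [this]; ring_nf
  · simp [W1, h]

theorem sqrt_lower {n k : ℕ} (hk : k < n) :
    ((k : ℝ) + 1) * (Real.sqrt (n.choose k))⁻¹ =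
      (Real.sqrt (n.choose (k + 1)))⁻¹ * Real.sqrt (((k : ℝ) + 1) * (n - k)) := by
  have h1 : (0 : ℝ) < (n.choose k : ℝ) := by exact_mod_cast Nat.choose_pos hk.le
  have h2 : (0 : ℝ) < (n.choose (k + 1) : ℝ) := by exact_mod_cast Nat.choose_pos hk
  have h3 : (n.choose (k + 1) : ℝ) * ((k : ℝ) + 1) = (n.choose k : ℝ) * ((n : ℝ) - k) := by
    have := Nat.choose_succ_right_eq n k
    have h4 : ((n.choose (k + 1) * (k + 1) : ℕ) : ℝ) = ((n.choose k * (n - k) : ℕ) : ℝ) := by
      rw [this]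
    rw [Nat.cast_mul, Nat.cast_mul, Nat.cast_sub hk.le] at h4
    push_cast at h4
    linarith
  have hnk : (0 : ℝ) < (n : ℝ) - k := by
    have : (k : ℝ) < n := by exact_mod_cast hk
    linarith
  have hk1 : (0 : ℝ) < (k : ℝ) + 1 := by positivity
  have hr1 := Real.sqrt_pos.2 h1
  have hr2 := Real.sqrt_pos.2 h2
  rw [← sq_eq_sq₀ (by positivity) (by positivity)]
  rw [mul_pow, mul_pow, inv_pow, inv_pow, Real.sq_sqrt h1.le, Real.sq_sqrt h2.le,
    Real.sq_sqrt (by positivity)]
  field_simp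
  nlinarith [h3]

/-- `S⁻`. -/
theorem site_L (n : ℕ) :
    (∑ i : Fin n, siteOpV i (Model.spinLower 1)) * W1 n = W1 n * Model.spinLower n := by
  ext s j
  rw [Matrix.sum_mul, Matrix.sum_apply]
  simp only [siteOpV_mul_apply, sum2]
  have h1 : ∀ i : Fin n, Model.spinLower 1 (s i) 0 * W1 n (Function.update s i 0) j +
      Model.spinLower 1 (s i) 1 * W1 n (Function.update s i 1) j =
      ((s i : ℕ) : ℂ) * (if dn s = (j : ℕ) + 1 then
        (((Real.sqrt (n.choose (j : ℕ)))⁻¹ : ℝ) : ℂ) else 0) := by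
    intro i
    have hd := dn_update s i 0
    have : s i = 0 ∨ s i = 1 := fin2_cases _
    rcases this with h | h
    · rw [h]
      simp [Model.spinLower]
    · rw [h] at hd ⊢
      have hd' : dn (Function.update s i 0) = (j : ℕ) ↔ dn s = (j : ℕ) + 1 := by
        have : dn (Function.update s i 0) + 1 = dn s := by simpa using hd
        omega
      simp only [Model.spinLower, Matrix.of_apply, W1]
      by_cases hj : dn s = (j : ℕ) + 1
      · rw [if_pos (hd'.2 hj), if_pos hj]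
        norm_num
      · rw [if_neg (fun hh => hj (hd'.1 hh)), if_neg hj]
        norm_num
  rw [Finset.sum_congr rfl fun i _ => h1 i, ← Finset.sum_mul]
  rw [Matrix.mul_apply]
  have hsum : (∑ i, ((s i : ℕ) : ℂ)) = ((dn s : ℕ) : ℂ) := by unfold dn; push_cast; rfl
  rw [hsum]
  by_cases hj : dn s = (j : ℕ) + 1
  · rw [if_pos hj]
    have hjn : (j : ℕ) < n := by have := dn_le s; omega
    rw [Finset.sum_eq_single (⟨(j : ℕ) + 1, by omega⟩ : Fin (n + 1))]
    · simp only [W1, Model.spinLower, Matrix.of_apply]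
      rw [if_pos hj, if_pos trivial, hj]
      rw [← Complex.ofReal_natCast, ← Complex.ofReal_mul, ← Complex.ofReal_mul]
      congr 1
      have := sqrt_lower (n := n) (k := (j : ℕ)) hjn
      push_cast
      rw [this]
      congr 2
      ring
    · intro b _ hb
      have : ¬ dn s = (b : ℕ) := fun hh => hb (Fin.ext (by simp; omega))
      simp [W1, this]
    · intro hh; exact absurd (Finset.mem_univ _) hh
  · rw [if_neg hj, mul_zero]
    symm
    refine Finset.sum_eq_zero fun b _ => ?_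
    simp only [W1, Model.spinLower, Matrix.of_apply]
    by_cases hb : dn s = (b : ℕ)
    · have : ¬ (b : ℕ) = (j : ℕ) + 1 := fun hh => hj (hb.trans hh)
      rw [if_neg this, mul_zero]
    · rw [if_neg hb, zero_mul]

/-- `S⁺`. -/
theorem site_R (n : ℕ) :
    (∑ i : Fin n, siteOpV i (Model.spinLower 1)ᴴ) * W1 n = W1 n * (Model.spinLower n)ᴴ := by
  ext s j
  rw [Matrix.sum_mul, Matrix.sum_apply]
  simp only [siteOpV_mul_apply, sum2]
  have h1 : ∀ i : Fin n, (Model.spinLower 1)ᴴ (s i) 0 * W1 n (Function.update s i 0) j +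
      (Model.spinLower 1)ᴴ (s i) 1 * W1 n (Function.update s i 1) j =
      (1 - ((s i : ℕ) : ℂ)) * (if dn s + 1 = (j : ℕ) then
        (((Real.sqrt (n.choose (j : ℕ)))⁻¹ : ℝ) : ℂ) else 0) := by
    intro i
    have hd := dn_update s i 1
    have : s i = 0 ∨ s i = 1 := fin2_cases _
    rcases this with h | h
    · rw [h] at hd ⊢
      have hd' : dn (Function.update s i 1) = dn s + 1 := by simpa using hd
      simp only [Model.spinLower, Matrix.conjTranspose_apply, Matrix.of_apply, W1]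
      rw [hd']
      by_cases hj : dn s + 1 = (j : ℕ)
      · rw [if_pos hj]
        norm_num
      · rw [if_neg hj]
        norm_num
    · rw [h]
      simp [Model.spinLower]
  rw [Finset.sum_congr rfl fun i _ => h1 i, ← Finset.sum_mul]
  rw [Matrix.mul_apply]
  have hsum : (∑ i : Fin n, (1 - ((s i : ℕ) : ℂ))) = (n : ℂ) - ((dn s : ℕ) : ℂ) := by
    rw [Finset.sum_sub_distrib]; unfold dn; push_cast; simp
  rw [hsum]
  by_cases hj : dn s + 1 = (j : ℕ)
  · rw [if_pos hj]
    have hjn : dn s < n := by have := j.2; omega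
    rw [Finset.sum_eq_single (⟨dn s, by omega⟩ : Fin (n + 1))]
    · simp only [W1, Model.spinLower, Matrix.of_apply, Matrix.conjTranspose_apply]
      rw [if_pos trivial, if_pos hj.symm]
      have hc : ∀ r : ℝ, star (r : ℂ) = (r : ℂ) := Complex.conj_ofReal
      rw [hc, ← Complex.ofReal_natCast, ← Complex.ofReal_natCast, ← Complex.ofReal_sub,
        ← Complex.ofReal_mul, ← Complex.ofReal_mul]
      congr 1
      rw [← hj]
      have hk := sqrt_lower (n := n) (k := dn s) hjn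
      set k := dn s with hkdef
      have h1 : (0 : ℝ) < (n.choose k : ℝ) := by exact_mod_cast Nat.choose_pos hjn.le
      have h2 : (0 : ℝ) < (n.choose (k + 1) : ℝ) := by exact_mod_cast Nat.choose_pos hjn
      have hnk : (0 : ℝ) < (n : ℝ) - k := by
        have : (k : ℝ) < n := by exact_mod_cast hjn
        linarith
      have hk1 : (0 : ℝ) < (k : ℝ) + 1 := by positivity
      have h3 : (n.choose (k + 1) : ℝ) * ((k : ℝ) + 1) = (n.choose k : ℝ) * ((n : ℝ) - k) := by
        have := Nat.choose_succ_right_eq n k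
        have h4 : ((n.choose (k + 1) * (k + 1) : ℕ) : ℝ) = ((n.choose k * (n - k) : ℕ) : ℝ) := by
          rw [this]
        rw [Nat.cast_mul, Nat.cast_mul, Nat.cast_sub hjn.le] at h4
        push_cast at h4
        linarith
      have hr1 := Real.sqrt_pos.2 h1
      have hr2 := Real.sqrt_pos.2 h2
      push_cast
      have e1 : ((k : ℝ) + 1) * ((n : ℝ) + 1 - ((k : ℝ) + 1)) = ((k : ℝ) + 1) * ((n : ℝ) - k) := by
        ring
      rw [e1, ← sq_eq_sq₀ (by positivity) (by positivity)]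
      rw [mul_pow, mul_pow, inv_pow, inv_pow, Real.sq_sqrt h1.le, Real.sq_sqrt h2.le,
        Real.sq_sqrt (by positivity)]
      field_simp
      nlinarith [h3]
    · intro b _ hb
      have : ¬ dn s = (b : ℕ) := fun hh => hb (Fin.ext (by simp; omega))
      simp [W1, this]
    · intro hh; exact absurd (Finset.mem_univ _) hh
  · rw [if_neg hj, mul_zero]
    symm
    refine Finset.sum_eq_zero fun b _ => ?_
    simp only [W1, Model.spinLower, Matrix.of_apply, Matrix.conjTranspose_apply]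
    by_cases hb : dn s = (b : ℕ)
    · have : ¬ (j : ℕ) = (b : ℕ) + 1 := fun hh => hj (by omega)
      rw [if_neg this, star_zero, mul_zero]
    · rw [if_neg hb, zero_mul]

/-- All three components. -/
theorem site_spin (n : ℕ) (a : Fin 3) :
    (∑ i : Fin n, siteOpV i (Model.spin 1 a)) * W1 n = W1 n * Model.spin n a := by
  have hL := site_L n
  have hR := site_R n
  have hZ := site_Z n
  fin_cases a
  · show (∑ i : Fin n, siteOpV i ((1 / 2 : ℂ) • ((Model.spinLower 1)ᴴ + Model.spinLower 1))) * W1 n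
      = W1 n * ((1 / 2 : ℂ) • ((Model.spinLower n)ᴴ + Model.spinLower n))
    simp only [siteOpV_smul, siteOpV_add]
    rw [← Finset.smul_sum, Finset.sum_add_distrib, Matrix.smul_mul, Matrix.add_mul, hL, hR,
      Matrix.mul_smul, Matrix.mul_add]
  · show (∑ i : Fin n, siteOpV i ((1 / (2 * Complex.I) : ℂ) •
        ((Model.spinLower 1)ᴴ - Model.spinLower 1))) * W1 n
      = W1 n * ((1 / (2 * Complex.I) : ℂ) • ((Model.spinLower n)ᴴ - Model.spinLower n))
    simp only [siteOpV_smul, siteOpV_sub]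
    rw [← Finset.smul_sum, Finset.sum_sub_distrib, Matrix.smul_mul, Matrix.sub_mul, hL, hR,
      Matrix.mul_smul, Matrix.mul_sub]
  · exact hZ

end Vale.Agent.P361.LRO.GenS
end

section

/-!
General spin, many sites: the model of spin `n / 2` on `V` is the model of spin `1 / 2` on
`V × Fin n`, restricted to the tensors symmetric at each site.
-/

namespace Vale.Agent.P361.LRO.GenS

open Matrix Finset

set_option linter.unusedSectionVars false

section Rect

variable {V d e f : Type*} [Fintype V] [DecidableEq V]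

/-- Rectangular product operator. -/
def prodR (B : V → Matrix d e ℂ) : Matrix (V → d) (V → e) ℂ :=
  Matrix.of fun σ τ => ∏ y, B y (σ y) (τ y)

theorem prodR_mul [Fintype e] (B : V → Matrix d e ℂ) (C : V → Matrix e f ℂ) :
    prodR B * prodR C = prodR (fun y => B y * C y) := by
  classical
  ext σ τ
  simp only [prodR, Matrix.mul_apply, Matrix.of_apply]
  rw [Finset.prod_univ_sum, Fintype.piFinset_univ]
  refine Finset.sum_congr rfl fun ρ _ => ?_
  rw [← Finset.prod_mul_distrib]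

theorem prodR_one [DecidableEq d] : prodR (fun _ : V => (1 : Matrix d d ℂ)) = 1 := by
  ext σ τ
  simp only [prodR, Matrix.of_apply, Matrix.one_apply]
  by_cases h : σ = τ
  · subst h; simp
  · rw [if_neg h]
    obtain ⟨y, hy⟩ := Function.ne_iff.mp h
    exact Finset.prod_eq_zero (Finset.mem_univ y) (by simp [hy])

theorem prodR_conjTranspose (B : V → Matrix d e ℂ) :
    (prodR B)ᴴ = prodR (fun y => (B y)ᴴ) := by
  ext σ τ
  simp [prodR, Matrix.conjTranspose_apply]

/-- Multilinearity. -/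
theorem prodR_sum (x : V) {κ : Type*} (s : Finset κ) (C : κ → Matrix d e ℂ)
    (W : Matrix d e ℂ) :
    (∑ k ∈ s, prodR fun y => if y = x then C k else W) =
      prodR fun y => if y = x then ∑ k ∈ s, C k else W := by
  ext σ τ
  rw [Matrix.sum_apply]
  simp only [prodR, Matrix.of_apply]
  rw [← Finset.mul_prod_erase _ _ (Finset.mem_univ x), if_pos rfl, Matrix.sum_apply,
    Finset.sum_mul]
  refine Finset.sum_congr rfl fun k _ => ?_
  rw [← Finset.mul_prod_erase _ _ (Finset.mem_univ x), if_pos rfl]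
  congr 1
  refine Finset.prod_congr rfl fun y hy => ?_
  rw [if_neg (Finset.ne_of_mem_erase hy), if_neg (Finset.ne_of_mem_erase hy)]

end Rect

section Many

variable {V : Type} [Fintype V] [DecidableEq V]

/-- The isometry on all sites. -/
noncomputable def WV (n : ℕ) (V : Type) [Fintype V] :
    Matrix (V × Fin n → Fin (1 + 1)) (V → Fin (n + 1)) ℂ :=
  Matrix.of fun σ τ => ∏ x, W1 n (fun i => σ (x, i)) (τ x)

/-- Configurations of the copies, site by site. -/
def cu (V : Type) (n : ℕ) : (V × Fin n → Fin (1 + 1)) ≃ (V → Fin n → Fin (1 + 1)) :=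
  Equiv.curry V (Fin n) (Fin (1 + 1))

theorem WV_eq (n : ℕ) : WV n V = (prodR fun _ : V => W1 n).submatrix (cu V n) id := rfl

theorem WV_conj_mul (n : ℕ) : (WV n V)ᴴ * WV n V = 1 := by
  rw [WV_eq, Matrix.conjTranspose_submatrix, Matrix.submatrix_mul_equiv, prodR_conjTranspose,
    prodR_mul]
  simp only [W1_conj_mul, prodR_one]
  exact Matrix.submatrix_id_id _

theorem siteOp_copy (n : ℕ) (x : V) (i : Fin n) (A : Matrix (Fin (1 + 1)) (Fin (1 + 1)) ℂ) :
    siteOpV ((x, i) : V × Fin n) A =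
      (prodR fun y : V => if y = x then siteOpV i A else 1).submatrix (cu V n) (cu V n) := by
  ext σ τ
  simp only [siteOpV, prodOp, prodR, Matrix.of_apply, Matrix.submatrix_apply]
  rw [Fintype.prod_prod_type]
  refine Finset.prod_congr rfl fun y _ => ?_
  by_cases hy : y = x
  · subst hy
    rw [if_pos rfl]
    simp only [prodOp, Matrix.of_apply, Prod.mk.injEq, true_and, cu, Equiv.curry_apply,
      Function.curry]
  · rw [if_neg hy, Matrix.one_apply]
    have h1 : ∀ j : Fin n, (if (y, j) = (x, i) then A else 1) (σ (y, j)) (τ (y, j)) =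
        (1 : Matrix (Fin (1 + 1)) (Fin (1 + 1)) ℂ) (σ (y, j)) (τ (y, j)) := by
      intro j
      rw [if_neg (fun h => hy (Prod.mk.inj h).1)]
    rw [Finset.prod_congr rfl fun j _ => h1 j]
    by_cases h : cu V n σ y = cu V n τ y
    · rw [if_pos h]
      refine Finset.prod_eq_one fun j _ => ?_
      have : σ (y, j) = τ (y, j) := congrFun h j
      rw [this, Matrix.one_apply_eq]
    · rw [if_neg h]
      obtain ⟨j, hj⟩ := Function.ne_iff.mp h
      refine Finset.prod_eq_zero (Finset.mem_univ j) ?_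
      exact Matrix.one_apply_ne hj

/-- `∑_i s^a_{(x,i)}`. -/
noncomputable def tot (n : ℕ) (a : Fin 3) (x : V) :
    Matrix (V × Fin n → Fin (1 + 1)) (V × Fin n → Fin (1 + 1)) ℂ :=
  ∑ i : Fin n, siteOpV ((x, i) : V × Fin n) (Model.spin 1 a)

theorem tot_mul (n : ℕ) (a : Fin 3) (x : V) :
    tot n a x * WV n V = WV n V * siteOpV x (Model.spin n a) := by
  rw [tot, Matrix.sum_mul, WV_eq]
  have h1 : ∀ i : Fin n, siteOpV ((x, i) : V × Fin n) (Model.spin 1 a) *
      (prodR fun _ : V => W1 n).submatrix (cu V n) id =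
      (prodR fun y : V => if y = x then siteOpV i (Model.spin 1 a) * W1 n else W1 n).submatrix
        (cu V n) id := by
    intro i
    rw [siteOp_copy, Matrix.submatrix_mul_equiv, prodR_mul]
    congr 2
    funext y
    by_cases hy : y = x
    · rw [if_pos hy, if_pos hy]
    · rw [if_neg hy, if_neg hy, Matrix.one_mul]
  rw [Finset.sum_congr rfl fun i _ => h1 i]
  have h2 : (∑ i : Fin n,
      (prodR fun y : V => if y = x then siteOpV i (Model.spin 1 a) * W1 n else W1 n).submatrix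
        (cu V n) id) =
      (∑ i : Fin n,
        (prodR fun y : V => if y = x then siteOpV i (Model.spin 1 a) * W1 n else W1 n)).submatrix
          (cu V n) id := by
    ext σ τ
    simp [Matrix.sum_apply]
  rw [h2, prodR_sum, ← Matrix.sum_mul, site_spin]
  have h3 : siteOpV x (Model.spin n a) = prodR fun y : V => if y = x then Model.spin n a else 1 :=
    rfl
  rw [h3]
  have h4 : (prodR fun _ : V => W1 n).submatrix (cu V n) id *
      (prodR fun y : V => if y = x then Model.spin n a else 1) =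
      ((prodR fun _ : V => W1 n) *
        (prodR fun y : V => if y = x then Model.spin n a else 1)).submatrix (cu V n) id := by
    ext σ τ
    simp [Matrix.mul_apply]
  rw [h4, prodR_mul]
  congr 2
  funext y
  by_cases hy : y = x
  · rw [if_pos hy, if_pos hy]
  · rw [if_neg hy, if_neg hy, Matrix.mul_one]

/-- The Hamiltonian of the copies. -/
noncomputable def hamC (n : ℕ) (J : V → V → Prop) [DecidableRel J] (h : ℂ) :
    Matrix (V × Fin n → Fin (1 + 1)) (V × Fin n → Fin (1 + 1)) ℂ :=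
  -((1 / 2 : ℂ) • ∑ x : V, ∑ y : V,
      if J x y then ∑ a : Fin 3, tot n a x * tot n a y else 0) - h • ∑ x : V, tot n 2 x

theorem hamC_mul (n : ℕ) (J : V → V → Prop) [DecidableRel J] (h : ℂ) :
    hamC n J h * WV n V =
      WV n V * (Model.hamiltonian n J - h • Model.magnetization n V) := by
  have hs : ∀ (x : V) (A : Matrix (Fin (n + 1)) (Fin (n + 1)) ℂ),
      Model.siteOp x A = siteOpV x A := fun x A => rfl
  rw [hamC, Model.hamiltonian, Model.magnetization]
  simp only [hs]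
  rw [Matrix.sub_mul, Matrix.mul_sub, Matrix.neg_mul, Matrix.mul_neg, Matrix.smul_mul,
    Matrix.mul_smul, Matrix.smul_mul, Matrix.mul_smul, Matrix.sum_mul, Matrix.mul_sum,
    Matrix.sum_mul, Matrix.mul_sum]
  congr 1
  · congr 2
    refine Finset.sum_congr rfl fun x _ => ?_
    rw [Matrix.sum_mul, Matrix.mul_sum]
    refine Finset.sum_congr rfl fun y _ => ?_
    split_ifs
    · rw [Matrix.sum_mul, Matrix.mul_sum]
      refine Finset.sum_congr rfl fun a _ => ?_
      rw [Matrix.mul_assoc, tot_mul, ← Matrix.mul_assoc, tot_mul, Matrix.mul_assoc]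
    · simp
  · congr 1
    refine Finset.sum_congr rfl fun x _ => ?_
    rw [tot_mul]

end Many

section Exp

variable {α β : Type*} [Fintype α] [DecidableEq α] [Fintype β] [DecidableEq β]

theorem exp_intertwine {A : Matrix α α ℂ} {B : Matrix β β ℂ} {W : Matrix α β ℂ}
    (h : A * W = W * B) : NormedSpace.exp A * W = W * NormedSpace.exp B := by
  let _ : NormedRing (Matrix α α ℂ) := Matrix.linftyOpNormedRing
  let _ : NormedAlgebra ℂ (Matrix α α ℂ) := Matrix.linftyOpNormedAlgebra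
  let _ : NormedRing (Matrix β β ℂ) := Matrix.linftyOpNormedRing
  let _ : NormedAlgebra ℂ (Matrix β β ℂ) := Matrix.linftyOpNormedAlgebra
  have hpow : ∀ k : ℕ, A ^ k * W = W * B ^ k := by
    intro k
    induction k with
    | zero => simp
    | succ k ih =>
      rw [pow_succ, Matrix.mul_assoc, h, ← Matrix.mul_assoc, ih, Matrix.mul_assoc, ← pow_succ]
  have hA := NormedSpace.exp_series_hasSum_exp' (𝕂 := ℂ) A
  have hB := NormedSpace.exp_series_hasSum_exp' (𝕂 := ℂ) B
  have h1 : HasSum (fun k : ℕ => ((k.factorial : ℂ)⁻¹ • A ^ k) * W) (NormedSpace.exp A * W) := by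
    let φ : Matrix α α ℂ →+ Matrix α β ℂ :=
      { toFun := fun M => M * W, map_zero' := Matrix.zero_mul W,
        map_add' := fun M N => Matrix.add_mul M N W }
    exact hA.map φ (continuous_id.matrix_mul continuous_const)
  have h2 : HasSum (fun k : ℕ => W * ((k.factorial : ℂ)⁻¹ • B ^ k)) (W * NormedSpace.exp B) := by
    let φ : Matrix β β ℂ →+ Matrix α β ℂ :=
      { toFun := fun M => W * M, map_zero' := Matrix.mul_zero W,
        map_add' := fun M N => Matrix.mul_add W M N }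
    exact hB.map φ (continuous_const.matrix_mul continuous_id)
  refine h1.unique ?_
  have h3 : (fun k : ℕ => ((k.factorial : ℂ)⁻¹ • A ^ k) * W) =
      fun k : ℕ => W * ((k.factorial : ℂ)⁻¹ • B ^ k) := by
    funext k
    rw [Matrix.smul_mul, Matrix.mul_smul, hpow]
  rw [h3]
  exact h2

theorem trace_exp_bridge {A : Matrix α α ℂ} {B : Matrix β β ℂ} {W : Matrix α β ℂ}
    (h : A * W = W * B) (hW : Wᴴ * W = 1) :
    Matrix.trace (NormedSpace.exp B) = Matrix.trace (NormedSpace.exp A * (W * Wᴴ)) := by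
  have h1 := exp_intertwine h
  calc Matrix.trace (NormedSpace.exp B)
      = Matrix.trace ((Wᴴ * W) * NormedSpace.exp B) := by rw [hW, Matrix.one_mul]
    _ = Matrix.trace (Wᴴ * (NormedSpace.exp A * W)) := by rw [Matrix.mul_assoc, h1]
    _ = Matrix.trace (NormedSpace.exp A * W * Wᴴ) := by rw [Matrix.trace_mul_comm]
    _ = Matrix.trace (NormedSpace.exp A * (W * Wᴴ)) := by rw [Matrix.mul_assoc]

end Exp

section Pi

variable {V : Type} [Fintype V] [DecidableEq V]

/-- The symmetriser at one site. -/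
noncomputable def sym1 (n : ℕ) : Matrix (Fin n → Fin (1 + 1)) (Fin n → Fin (1 + 1)) ℂ :=
  Matrix.of fun s t => if dn s = dn t then ((n.choose (dn s) : ℂ))⁻¹ else 0

theorem W1_mul_conj (n : ℕ) : W1 n * (W1 n)ᴴ = sym1 n := by
  ext s t
  rw [Matrix.mul_apply]
  simp only [W1, sym1, Matrix.conjTranspose_apply, Matrix.of_apply]
  by_cases h : dn s = dn t
  · rw [if_pos h]
    have hs := dn_le s
    rw [Finset.sum_eq_single (⟨dn s, by omega⟩ : Fin (n + 1))]
    · rw [if_pos rfl, if_pos h.symm]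
      have hc : ∀ r : ℝ, star (r : ℂ) = (r : ℂ) := Complex.conj_ofReal
      have h1 : (0 : ℝ) < (n.choose (dn s) : ℝ) := by exact_mod_cast Nat.choose_pos hs
      rw [hc, ← Complex.ofReal_mul, ← mul_inv, Real.mul_self_sqrt h1.le]
      push_cast
      rfl
    · intro b _ hb
      have : ¬ dn s = (b : ℕ) := fun hh => hb (Fin.ext (by simp [hh]))
      rw [if_neg this, zero_mul]
    · intro hh; exact absurd (Finset.mem_univ _) hh
  · rw [if_neg h]
    refine Finset.sum_eq_zero fun b _ => ?_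
    by_cases hb : dn s = (b : ℕ)
    · have : ¬ dn t = (b : ℕ) := fun hh => h (hb.trans hh.symm)
      rw [if_neg this, star_zero, mul_zero]
    · rw [if_neg hb, zero_mul]

/-- The symmetriser at all sites. -/
noncomputable def symV (n : ℕ) (V : Type) [Fintype V] :
    Matrix (V × Fin n → Fin (1 + 1)) (V × Fin n → Fin (1 + 1)) ℂ :=
  Matrix.of fun σ τ => ∏ x : V, sym1 n (fun i => σ (x, i)) (fun i => τ (x, i))

theorem WV_mul_conj (n : ℕ) : WV n V * (WV n V)ᴴ = symV n V := by
  rw [WV_eq, Matrix.conjTranspose_submatrix, prodR_conjTranspose]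
  have h4 : (prodR fun _ : V => W1 n).submatrix (cu V n) id *
      (prodR fun _ : V => (W1 n)ᴴ).submatrix id (cu V n) =
      ((prodR fun _ : V => W1 n) * (prodR fun _ : V => (W1 n)ᴴ)).submatrix (cu V n) (cu V n) := by
    ext σ τ
    simp [Matrix.mul_apply]
  rw [h4, prodR_mul]
  simp only [W1_mul_conj]
  rfl

/-- **The bridge**: partition function of spin `n / 2` as a symmetrised trace over `n` copies of
spin `1 / 2`. -/
theorem trace_exp_spin (n : ℕ) (J : V → V → Prop) [DecidableRel J] (β h : ℝ) :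
    Matrix.trace (NormedSpace.exp
      (-(β : ℂ) • (Model.hamiltonian n J - (h : ℂ) • Model.magnetization n V))) =
    Matrix.trace (NormedSpace.exp (-(β : ℂ) • hamC n J (h : ℂ)) * symV n V) := by
  rw [← WV_mul_conj]
  refine trace_exp_bridge ?_ (WV_conj_mul n)
  rw [Matrix.smul_mul, Matrix.mul_smul, hamC_mul]

end Pi

end Vale.Agent.P361.LRO.GenS
end

section

/-!
P361, general spin: the symmetriser of `m` copies is exactly a finite product of exchange gates
`(1 - p) + p P_{ij}` with `p = 1 / (j - i + 1) ≤ 1/2` (fusion formula).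
-/

namespace Vale.Agent.P361.LRO.GenS

open Finset Matrix Equiv

noncomputable section

/-! ### The fusion formula in an algebra -/

section Alg

variable {A : Type*} [Ring A] [Algebra ℝ A] {ι : Type*} [DecidableEq ι]

/-- The gate `(1 - p) + p U(x y)`. -/
def gU (U : Perm ι →* A) (e : ι × ι × ℝ) : A :=
  (1 - e.2.2) • (1 : A) + e.2.2 • U (swap e.1 e.2.1)

/-- Fusion list: for `j < m`, for `i < j`, the gate `(c i, c j, 1 / (j - i + 1))`. -/
def fusL (c : ℕ → ι) : ℕ → List (ι × ι × ℝ)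
  | 0 => []
  | (j + 1) => fusL c j ++ (List.range j).map fun i => (c i, c j, 1 / ((j : ℝ) - i + 1))

omit [DecidableEq ι] in
theorem fusL_mem (c : ℕ → ι) (m : ℕ) {e : ι × ι × ℝ} (he : e ∈ fusL c m) :
    ∃ i j : ℕ, i < j ∧ j < m ∧ e = (c i, c j, 1 / ((j : ℝ) - i + 1)) := by
  induction m with
  | zero => simp [fusL] at he
  | succ m ih =>
    rw [fusL, List.mem_append] at he
    rcases he with he | he
    · obtain ⟨i, j, h1, h2, h3⟩ := ih he
      exact ⟨i, j, h1, by omega, h3⟩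
    · rw [List.mem_map] at he
      obtain ⟨i, hi, rfl⟩ := he
      exact ⟨i, m, List.mem_range.1 hi, by omega, rfl⟩

variable (U : Perm ι →* A) (c : ℕ → ι)

/-- stage: multiplication of `P` with the gates `(i j)`, `i < l`. -/
theorem stage {j : ℕ} (hc : ∀ i k, i ≤ j → k ≤ j → c i = c k → i = k) (P : A)
    (hP : ∀ i k, i < j → k < j → P * U (swap (c i) (c k)) = P) (l : ℕ) (hl : l ≤ j) :
    P * (((List.range l).map fun i => (c i, c j, 1 / ((j : ℝ) - i + 1))).map (gU U)).prod
      = (((j : ℝ) - l + 1) / (j + 1)) • P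
          + (1 / ((j : ℝ) + 1)) • (P * ∑ i ∈ range l, U (swap (c i) (c j))) := by
  have hj1 : (0 : ℝ) < (j : ℝ) + 1 := by positivity
  induction l with
  | zero =>
    have : ((j : ℝ) - ((0 : ℕ) : ℝ) + 1) / (j + 1) = 1 := by
      push_cast
      rw [sub_zero, div_self hj1.ne']
    rw [this]
    simp
  | succ l ih =>
    have ihl := ih (by omega)
    rw [List.range_succ, List.map_append, List.map_append, List.prod_append, ← mul_assoc, ihl]
    simp only [List.map_cons, List.map_nil, List.prod_cons, List.prod_nil, mul_one]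
    have hjl : (0 : ℝ) < (j : ℝ) - l + 1 := by
      have : ((l + 1 : ℕ) : ℝ) ≤ (j : ℝ) := by exact_mod_cast hl
      push_cast at this
      linarith
    set Y : A := U (swap (c l) (c j)) with hY
    set X : A := ∑ i ∈ range l, U (swap (c i) (c j)) with hX
    have hXY : P * X * Y = P * X := by
      rw [hX, Finset.mul_sum, Finset.sum_mul]
      refine sum_congr rfl fun i hi => ?_
      have hi' := mem_range.1 hi
      have e1 : swap (c i) (c j) * swap (c l) (c j) = swap (c i) (c l) * swap (c i) (c j) := by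
        rw [Equiv.mul_swap_eq_swap_mul, Equiv.swap_apply_right, Equiv.swap_apply_of_ne_of_ne,
          Equiv.swap_comm (c l) (c i)]
        · intro h; have := hc l i (by omega) (by omega) h; omega
        · intro h; have := hc l j (by omega) (by omega) h; omega
      rw [mul_assoc, hY, ← map_mul, e1, map_mul, ← mul_assoc, hP i l (by omega) (by omega)]
    rw [gU]
    dsimp only
    rw [sum_range_succ, ← hX, ← hY]
    have e2 : (((j : ℝ) - l + 1) / (j + 1)) • P * ((1 - 1 / ((j : ℝ) - l + 1)) • (1 : A)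
          + (1 / ((j : ℝ) - l + 1)) • Y)
        = (((j : ℝ) - ((l + 1 : ℕ) : ℝ) + 1) / (j + 1)) • P + (1 / ((j : ℝ) + 1)) • (P * Y) := by
      rw [mul_add, mul_smul_comm, mul_one, smul_smul, mul_smul_comm, smul_mul_assoc, smul_smul]
      congr 2
      · push_cast
        field_simp
        ring
      · field_simp
    have e3 : (1 / ((j : ℝ) + 1)) • (P * X) * ((1 - 1 / ((j : ℝ) - l + 1)) • (1 : A)
          + (1 / ((j : ℝ) - l + 1)) • Y) = (1 / ((j : ℝ) + 1)) • (P * X) := by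
      rw [mul_add, mul_smul_comm, mul_one, smul_smul, mul_smul_comm, smul_mul_assoc, smul_smul,
        hXY, ← add_smul]
      congr 1
      ring
    rw [add_mul, e2, e3, mul_add, smul_add]
    abel

omit [Algebra ℝ A] in
/-- One more copy: if `P` absorbs the exchanges of the copies `< j`, then `P (1 + Σ (i j))` absorbs
the exchanges of the copies `≤ j`. -/
theorem absorb_succ {j : ℕ} (hc : ∀ i k, i ≤ j → k ≤ j → c i = c k → i = k) (P : A)
    (hP : ∀ i k, i < j → k < j → P * U (swap (c i) (c k)) = P) (k l : ℕ) (hk : k ≤ j)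
    (hl : l ≤ j) :
    (P + P * ∑ i ∈ range j, U (swap (c i) (c j))) * U (swap (c k) (c l))
      = P + P * ∑ i ∈ range j, U (swap (c i) (c j)) := by
  -- the case `l = j`
  have key : ∀ k, k < j → (P + P * ∑ i ∈ range j, U (swap (c i) (c j))) * U (swap (c k) (c j))
      = P + P * ∑ i ∈ range j, U (swap (c i) (c j)) := by
    intro k hk
    have hkr : k ∈ range j := mem_range.2 hk
    rw [add_mul, ← Finset.add_sum_erase _ _ hkr, mul_add, add_mul]
    have h1 : P * U (swap (c k) (c j)) * U (swap (c k) (c j)) = P := by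
      rw [mul_assoc, ← map_mul, Equiv.swap_mul_self, map_one, mul_one]
    have h2 : P * ∑ i ∈ (range j).erase k, U (swap (c i) (c j)) * U (swap (c k) (c j))
        = P * ∑ i ∈ (range j).erase k, U (swap (c i) (c j)) := by
      rw [Finset.mul_sum, Finset.mul_sum]
      refine sum_congr rfl fun i hi => ?_
      have hi' := mem_range.1 (mem_of_mem_erase hi)
      have hik : i ≠ k := (mem_erase.1 hi).1
      have e1 : swap (c i) (c j) * swap (c k) (c j) = swap (c i) (c k) * swap (c i) (c j) := by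
        rw [Equiv.mul_swap_eq_swap_mul, Equiv.swap_apply_right, Equiv.swap_apply_of_ne_of_ne,
          Equiv.swap_comm (c k) (c i)]
        · intro h; have := hc k i (by omega) (by omega) h; omega
        · intro h; have := hc k j (by omega) (by omega) h; omega
      rw [← map_mul, e1, map_mul, ← mul_assoc, hP i k (by omega) (by omega)]
    rw [h1, mul_assoc P _ (U (swap (c k) (c j))), Finset.sum_mul, h2]
    abel
  have key2 : ∀ k l, k < j → l < j →
      (P + P * ∑ i ∈ range j, U (swap (c i) (c j))) * U (swap (c k) (c l))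
      = P + P * ∑ i ∈ range j, U (swap (c i) (c j)) := by
    intro k l hk hl
    rw [add_mul, hP k l hk hl, mul_assoc]
    congr 1
    have e : (∑ i ∈ range j, U (swap (c i) (c j))) * U (swap (c k) (c l))
        = U (swap (c k) (c l)) * ∑ i ∈ range j, U (swap (c (swap k l i)) (c j)) := by
      rw [Finset.sum_mul, Finset.mul_sum]
      refine sum_congr rfl fun i hi => ?_
      have hi' := mem_range.1 hi
      rw [← map_mul, ← map_mul]
      congr 1
      have hcc : swap (c k) (c l) (c (swap k l i)) = c i := by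
        rcases eq_or_ne i k with rfl | hik
        · rw [Equiv.swap_apply_left, Equiv.swap_apply_right]
        · rcases eq_or_ne i l with rfl | hil
          · rw [Equiv.swap_apply_right, Equiv.swap_apply_left]
          · rw [Equiv.swap_apply_of_ne_of_ne hik hil, Equiv.swap_apply_of_ne_of_ne]
            · intro h; exact hik (hc i k (by omega) (by omega) h)
            · intro h; exact hil (hc i l (by omega) (by omega) h)
      have hcj : swap (c k) (c l) (c j) = c j := by
        rw [Equiv.swap_apply_of_ne_of_ne]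
        · intro h; have := hc j k (by omega) (by omega) h; omega
        · intro h; have := hc j l (by omega) (by omega) h; omega
      rw [Equiv.mul_swap_eq_swap_mul (swap (c k) (c l)) (c (swap k l i)) (c j), hcc, hcj]
    rw [e, ← mul_assoc, hP k l hk hl]
    congr 1
    refine Finset.sum_nbij' (fun i => swap k l i) (fun i => swap k l i) ?_ ?_ ?_ ?_ ?_
    · intro i hi
      rw [mem_range] at hi ⊢
      rcases eq_or_ne i k with rfl | hik
      · rwa [Equiv.swap_apply_left]
      · rcases eq_or_ne i l with rfl | hil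
        · rwa [Equiv.swap_apply_right]
        · rwa [Equiv.swap_apply_of_ne_of_ne hik hil]
    · intro i hi
      rw [mem_range] at hi ⊢
      rcases eq_or_ne i k with rfl | hik
      · rwa [Equiv.swap_apply_left]
      · rcases eq_or_ne i l with rfl | hil
        · rwa [Equiv.swap_apply_right]
        · rwa [Equiv.swap_apply_of_ne_of_ne hik hil]
    · intro i _
      exact Equiv.swap_apply_self k l i
    · intro i _
      exact Equiv.swap_apply_self k l i
    · intro i _
      rfl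
  rcases lt_or_eq_of_le hk with hk | rfl
  · rcases lt_or_eq_of_le hl with hl | rfl
    · exact key2 k l hk hl
    · exact key k hk
  · rcases lt_or_eq_of_le hl with hl | rfl
    · rw [Equiv.swap_comm]
      exact key l hl
    · rw [Equiv.swap_self]
      have : (Equiv.refl ι : Perm ι) = 1 := rfl
      rw [this, map_one, mul_one]

/-- The product of the fusion list absorbs the exchanges of all copies. -/
theorem fus_absorb (m : ℕ) (hc : ∀ i k, i < m → k < m → c i = c k → i = k) (k l : ℕ)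
    (hk : k < m) (hl : l < m) :
    ((fusL c m).map (gU U)).prod * U (swap (c k) (c l)) = ((fusL c m).map (gU U)).prod := by
  induction m generalizing k l with
  | zero => omega
  | succ j ih =>
    have ihj : ∀ i k, i < j → k < j →
        ((fusL c j).map (gU U)).prod * U (swap (c i) (c k)) = ((fusL c j).map (gU U)).prod :=
      fun i k hi hk => ih (fun a b ha hb => hc a b (by omega) (by omega)) i k hi hk
    have hc' : ∀ i k, i ≤ j → k ≤ j → c i = c k → i = k :=
      fun i k hi hk => hc i k (by omega) (by omega)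
    have hst := stage U c hc' _ ihj j le_rfl
    rw [fusL, List.map_append, List.prod_append, hst]
    have e : ((j : ℝ) - j + 1) / (j + 1) = 1 / ((j : ℝ) + 1) := by ring
    rw [e, ← smul_add, smul_mul_assoc, absorb_succ U c hc' _ ihj k l (by omega) (by omega)]

end Alg

/-! ### Matrices -/

section Mat

variable {ι : Type} [Fintype ι] [DecidableEq ι]

/-- The permutation matrix on configurations, `U g σ τ = 1` iff `σ ∘ g = τ`. -/
def permU : Perm ι →* Matrix (ι → Fin 2) (ι → Fin 2) ℝ where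
  toFun g := Matrix.of fun σ τ => if σ ∘ g = τ then 1 else 0
  map_one' := by
    ext σ τ
    simp [Matrix.one_apply]
  map_mul' g h := by
    ext σ τ
    simp only [Matrix.mul_apply, Matrix.of_apply, Equiv.Perm.coe_mul]
    rw [Finset.sum_eq_single (σ ∘ g)]
    · rw [if_pos rfl, one_mul]
      rfl
    · intro ρ _ hρ
      rw [if_neg (Ne.symm hρ), zero_mul]
    · intro h
      exact absurd (mem_univ _) h

theorem permU_apply (g : Perm ι) (σ τ : ι → Fin 2) :
    permU g σ τ = if σ ∘ g = τ then 1 else 0 := rfl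

theorem permU_swap (x y : ι) : permU (swap x y) = swapM x y := by
  ext σ τ
  rw [permU_apply, swapM, Matrix.of_apply]
  congr 1
  apply propext
  constructor
  · rintro rfl
    funext z
    simp
  · rintro rfl
    funext z
    simp

/-- The gate `(1 - p) + p P_{xy}` as a matrix. -/
def gM (e : ι × ι × ℝ) : Matrix (ι → Fin 2) (ι → Fin 2) ℝ :=
  (1 - e.2.2) • (1 : Matrix (ι → Fin 2) (ι → Fin 2) ℝ) + e.2.2 • swapM e.1 e.2.1

theorem gU_permU (e : ι × ι × ℝ) : gU permU e = gM e := by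
  rw [gU, gM, permU_swap]

theorem mul_swapM_apply (P : Matrix (ι → Fin 2) (ι → Fin 2) ℝ) (x y : ι) (σ τ : ι → Fin 2) :
    (P * swapM x y) σ τ = P σ (τ ∘ swap x y) := by
  rw [← permU_swap, Matrix.mul_apply, Finset.sum_eq_single (τ ∘ swap x y)]
  · rw [permU_apply, if_pos, mul_one]
    funext z
    simp
  · intro ρ _ hρ
    rw [permU_apply, if_neg, mul_zero]
    rintro rfl
    apply hρ
    funext z
    simp
  · intro h
    exact absurd (mem_univ _) h

theorem swapM_mul_apply (P : Matrix (ι → Fin 2) (ι → Fin 2) ℝ) (x y : ι) (σ τ : ι → Fin 2) :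
    (swapM x y * P) σ τ = P (σ ∘ swap x y) τ := by
  rw [← permU_swap, Matrix.mul_apply, Finset.sum_eq_single (σ ∘ swap x y)]
  · rw [permU_apply, if_pos rfl, one_mul]
  · intro ρ _ hρ
    rw [permU_apply, if_neg (Ne.symm hρ), zero_mul]
  · intro h
    exact absurd (mem_univ _) h

end Mat

/-! ### Copies -/

section Copies

variable {V : Type} [Fintype V] [DecidableEq V] {m : ℕ} [NeZero m]

/-- The gates of the symmetriser: sites in some order, at each site the fusion list. -/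
def symGates (V : Type) [Fintype V] [DecidableEq V] (m : ℕ) [NeZero m] :
    List ((V × Fin m) × (V × Fin m) × ℝ) :=
  ((Finset.univ : Finset V).toList).flatMap fun x => fusL (fun i => (x, Fin.ofNat m i)) m

theorem symGates_site : ∀ e ∈ symGates V m, e.1.1 = e.2.1.1 := by
  intro e he
  rw [symGates, List.mem_flatMap] at he
  obtain ⟨x, -, hx⟩ := he
  obtain ⟨i, j, h1, h2, rfl⟩ := fusL_mem _ m hx
  rfl

/-- The product of the gates of the symmetriser. -/
def symProd (V : Type) [Fintype V] [DecidableEq V] (m : ℕ) [NeZero m] :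
    Matrix (V × Fin m → Fin 2) (V × Fin m → Fin 2) ℝ :=
  ((symGates V m).map gM).prod

omit [NeZero m] in
theorem flat_prod (l : List V) (f : V → List ((V × Fin m) × (V × Fin m) × ℝ)) :
    ((l.flatMap f).map gM).prod = (l.map fun x => ((f x).map gM).prod).prod := by
  induction l with
  | nil => simp
  | cons a l ih => simp [List.prod_append, ih]

/-- The symmetriser absorbs the exchange of two copies of a site. -/
theorem symProd_mul_swapM (x : V) (a b : Fin m) :
    symProd V m * swapM (x, a) (x, b) = symProd V m := by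
  have hfus : ((fusL (fun i => (x, Fin.ofNat m i)) m).map gM).prod * swapM (x, a) (x, b)
      = ((fusL (fun i => (x, Fin.ofNat m i)) m).map gM).prod := by
    have h := fus_absorb (permU (ι := V × Fin m)) (fun i => (x, Fin.ofNat m i)) m
      (by
        intro i k hi hk h
        have h2 := congrArg (fun z : V × Fin m => (z.2 : ℕ)) h
        simpa [Fin.ofNat, Nat.mod_eq_of_lt hi, Nat.mod_eq_of_lt hk] using h2)
      a b a.2 b.2
    have e1 : (gU (permU (ι := V × Fin m))) = gM := by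
      funext e
      exact gU_permU e
    rw [e1, permU_swap] at h
    simpa using h
  have hcomm : ∀ y : V, y ≠ x →
      Commute (((fusL (fun i => (y, Fin.ofNat m i)) m).map gM).prod) (swapM (x, a) (x, b)) := by
    intro y hy
    refine List.prod_induction (fun M => Commute M (swapM (x, a) (x, b))) (fun A B hA hB => ?_)
      (Commute.one_left _) ?_
    · exact Commute.mul_left hA hB
    · intro M hM
      rw [List.mem_map] at hM
      obtain ⟨e, he, rfl⟩ := hM
      obtain ⟨i, j, h1, h2, rfl⟩ := fusL_mem _ m he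
      rw [gM]
      refine Commute.add_left ((Commute.one_left _).smul_left _) (Commute.smul_left ?_ _)
      rw [← permU_swap, ← permU_swap]
      have : Commute (swap (y, Fin.ofNat m i) (y, Fin.ofNat m j)) (swap (x, a) (x, b)) := by
        apply Equiv.Perm.Disjoint.commute
        intro z
        by_cases hz : z.1 = x
        · left
          rw [Equiv.swap_apply_of_ne_of_ne]
          · rintro rfl
            exact hy hz
          · rintro rfl
            exact hy hz
        · right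
          rw [Equiv.swap_apply_of_ne_of_ne]
          · rintro rfl
            exact hz rfl
          · rintro rfl
            exact hz rfl
      exact this.map permU
  rw [symProd, symGates, flat_prod]
  have hnd : ((Finset.univ : Finset V).toList).Nodup := Finset.nodup_toList _
  have hx : x ∈ (Finset.univ : Finset V).toList := by simp
  generalize (Finset.univ : Finset V).toList = l at hnd hx
  induction l with
  | nil => simp at hx
  | cons y l ih =>
    rw [List.map_cons, List.prod_cons]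
    rw [List.nodup_cons] at hnd
    by_cases hxl : x ∈ l
    · rw [mul_assoc, ih hnd.2 hxl]
    · have hyx : x = y := by
        rcases List.mem_cons.1 hx with h | h
        · exact h
        · exact absurd h hxl
      subst hyx
      have hc : Commute ((l.map fun x => ((fusL (fun i => (x, Fin.ofNat m i)) m).map gM).prod).prod)
          (swapM (x, a) (x, b)) := by
        refine List.prod_induction (fun M => Commute M (swapM (x, a) (x, b)))
          (fun A B hA hB => Commute.mul_left hA hB) (Commute.one_left _) ?_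
        intro M hM
        rw [List.mem_map] at hM
        obtain ⟨y, hy, rfl⟩ := hM
        exact hcomm y (by rintro rfl; exact hxl hy)
      rw [mul_assoc, hc.eq, ← mul_assoc, hfus]

/-- Every gate with the two copies at the same site is absorbed. -/
theorem symProd_mul_gM {e : (V × Fin m) × (V × Fin m) × ℝ} (he : e.1.1 = e.2.1.1) :
    symProd V m * gM e = symProd V m := by
  obtain ⟨⟨x, a⟩, ⟨y, b⟩, p⟩ := e
  dsimp only at he
  subst he
  rw [gM, mul_add, mul_smul_comm, mul_one, mul_smul_comm]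
  dsimp only
  rw [symProd_mul_swapM, ← add_smul]
  simp

theorem symProd_mul_list (l : List ((V × Fin m) × (V × Fin m) × ℝ))
    (hl : ∀ e ∈ l, e.1.1 = e.2.1.1) : symProd V m * (l.map gM).prod = symProd V m := by
  induction l with
  | nil => simp
  | cons e l ih =>
    rw [List.map_cons, List.prod_cons, ← mul_assoc, symProd_mul_gM (hl e (by simp)),
      ih fun e he => hl e (by simp [he])]

theorem symProd_sq : symProd V m * symProd V m = symProd V m :=
  symProd_mul_list _ symGates_site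

/-- Everything which commutes with the exchanges of two copies of a site commutes with the
symmetriser. -/
theorem symProd_comm (B : Matrix (V × Fin m → Fin 2) (V × Fin m → Fin 2) ℝ)
    (hB : ∀ (x : V) (a b : Fin m), Commute (swapM (x, a) (x, b)) B) :
    Commute (symProd V m) B := by
  rw [symProd]
  refine List.prod_induction (fun M => Commute M B) (fun A B hA hB => Commute.mul_left hA hB)
    (Commute.one_left _) ?_
  intro M hM
  rw [List.mem_map] at hM
  obtain ⟨e, he, rfl⟩ := hM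
  have hs := symGates_site e he
  obtain ⟨⟨x, a⟩, ⟨y, b⟩, p⟩ := e
  dsimp only at hs
  subst hs
  rw [gM]
  exact Commute.add_left ((Commute.one_left _).smul_left _) (Commute.smul_left (hB _ _ _) _)

/-- Number of copies at `x` which are down. -/
def cnt (σ : V × Fin m → Fin 2) (x : V) : ℕ := #{a : Fin m | σ (x, a) = 1}

omit [Fintype V] [NeZero m] in
theorem cnt_swap (σ : V × Fin m → Fin 2) (x : V) (a b : Fin m) (y : V) :
    cnt (σ ∘ swap (x, a) (x, b)) y = cnt σ y := by
  unfold cnt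
  by_cases hy : y = x
  · subst hy
    refine Finset.card_nbij' (fun c => swap a b c) (fun c => swap a b c) ?_ ?_ ?_ ?_
    · intro c hc
      rw [mem_coe, mem_filter] at hc ⊢
      refine ⟨mem_univ _, ?_⟩
      rw [← hc.2]
      simp only [Function.comp_apply]
      congr 1
      rcases eq_or_ne c a with rfl | hca
      · rw [Equiv.swap_apply_left, Equiv.swap_apply_left]
      · rcases eq_or_ne c b with rfl | hcb
        · rw [Equiv.swap_apply_right, Equiv.swap_apply_right]
        · rw [Equiv.swap_apply_of_ne_of_ne hca hcb, Equiv.swap_apply_of_ne_of_ne]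
          · simpa using hca
          · simpa using hcb
    · intro c hc
      rw [mem_coe, mem_filter] at hc ⊢
      refine ⟨mem_univ _, ?_⟩
      rw [← hc.2]
      simp only [Function.comp_apply]
      congr 1
      rcases eq_or_ne c a with rfl | hca
      · rw [Equiv.swap_apply_left, Equiv.swap_apply_right]
      · rcases eq_or_ne c b with rfl | hcb
        · rw [Equiv.swap_apply_right, Equiv.swap_apply_left]
        · rw [Equiv.swap_apply_of_ne_of_ne hca hcb, Equiv.swap_apply_of_ne_of_ne]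
          · simpa using hca
          · simpa using hcb
    · intro c _
      exact Equiv.swap_apply_self a b c
    · intro c _
      exact Equiv.swap_apply_self a b c
  · congr 1
    refine filter_congr fun c _ => ?_
    rw [Function.comp_apply, Equiv.swap_apply_of_ne_of_ne]
    · rintro h
      exact hy (congrArg Prod.fst h)
    · rintro h
      exact hy (congrArg Prod.fst h)

omit [NeZero m] in
/-- A product of gates inside the sites conserves the counts. -/
theorem list_supp (l : List ((V × Fin m) × (V × Fin m) × ℝ)) (hl : ∀ e ∈ l, e.1.1 = e.2.1.1)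
    (σ τ : V × Fin m → Fin 2) (h : cnt σ ≠ cnt τ) : (l.map gM).prod σ τ = 0 := by
  induction l generalizing σ with
  | nil =>
    rw [List.map_nil, List.prod_nil, Matrix.one_apply, if_neg]
    rintro rfl
    exact h rfl
  | cons e l ih =>
    have he := hl e (by simp)
    obtain ⟨⟨x, a⟩, ⟨y, b⟩, p⟩ := e
    dsimp only at he
    subst he
    have ih' := fun σ h => ih (fun e he => hl e (by simp [he])) σ h
    rw [List.map_cons, List.prod_cons, gM, add_mul, smul_mul_assoc, one_mul, smul_mul_assoc,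
      Matrix.add_apply, Matrix.smul_apply, Matrix.smul_apply, swapM_mul_apply, ih' σ h, ih']
    · simp
    · intro h2
      apply h
      rw [← h2]
      funext y
      exact (cnt_swap σ x a b y).symm

omit [NeZero m] in
/-- Row sums of a product of gates. -/
theorem list_row (l : List ((V × Fin m) × (V × Fin m) × ℝ)) (σ : V × Fin m → Fin 2) :
    ∑ τ, (l.map gM).prod σ τ = 1 := by
  induction l generalizing σ with
  | nil =>
    simp [Matrix.one_apply]
  | cons e l ih =>
    simp only [List.map_cons, List.prod_cons, gM, add_mul, smul_mul_assoc, one_mul,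
      Matrix.add_apply, Matrix.smul_apply, swapM_mul_apply, Finset.sum_add_distrib, smul_eq_mul,
      ← Finset.mul_sum, ih]
    ring

/-- The entries of the symmetriser depend only on the counts of the column. -/
theorem symProd_const (σ : V × Fin m → Fin 2) : ∀ (d : ℕ) (τ τ' : V × Fin m → Fin 2),
    #{z | τ z ≠ τ' z} = d → cnt τ = cnt τ' → symProd V m σ τ = symProd V m σ τ' := by
  intro d
  induction d using Nat.strong_induction_on with
  | _ d ih =>
    intro τ τ' hd hc
    by_cases h0 : τ = τ'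
    · rw [h0]
    · obtain ⟨⟨x, a⟩, hxa⟩ := Function.ne_iff.1 h0
      -- there is `b` with the opposite difference
      have hb : ∃ b, τ (x, b) = τ' (x, a) ∧ τ' (x, b) = τ (x, a) := by
        by_contra hcon
        push Not at hcon
        have hcx : cnt τ x = cnt τ' x := by rw [hc]
        unfold cnt at hcx
        have h2 : ∀ u v : Fin 2, u ≠ v → (u = 0 ∧ v = 1) ∨ (u = 1 ∧ v = 0) := by decide
        rcases h2 _ _ hxa with ⟨h3, h4⟩ | ⟨h3, h4⟩
        · -- τ (x,a) = 0, τ' (x,a) = 1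
          have hsub : ({c : Fin m | τ (x, c) = 1} : Finset (Fin m))
              ⊂ ({c : Fin m | τ' (x, c) = 1} : Finset (Fin m)) := by
            rw [Finset.ssubset_iff_of_subset]
            · refine ⟨a, ?_, ?_⟩
              · simp [h4]
              · simp [h3]
            · intro c hcm
              rw [mem_filter] at hcm ⊢
              refine ⟨mem_univ _, ?_⟩
              have h5 := hcon c (by rw [hcm.2, h4])
              rw [h3] at h5
              by_contra h6
              have : ∀ u : Fin 2, u ≠ 1 → u = 0 := by decide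
              exact h5 (this _ h6)
          exact absurd hcx (Finset.card_lt_card hsub).ne
        · have hsub : ({c : Fin m | τ' (x, c) = 1} : Finset (Fin m))
              ⊂ ({c : Fin m | τ (x, c) = 1} : Finset (Fin m)) := by
            rw [Finset.ssubset_iff_of_subset]
            · refine ⟨a, ?_, ?_⟩
              · simp [h3]
              · simp [h4]
            · intro c hcm
              rw [mem_filter] at hcm ⊢
              refine ⟨mem_univ _, ?_⟩
              by_contra h6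
              have : ∀ u : Fin 2, u ≠ 1 → u = 0 := by decide
              have h5 := hcon c (by rw [h4]; exact this _ h6)
              rw [h3] at h5
              exact h5 hcm.2
          exact absurd hcx (Finset.card_lt_card hsub).ne'
      obtain ⟨b, hb1, hb2⟩ := hb
      have hstep : symProd V m σ τ = symProd V m σ (τ ∘ swap (x, a) (x, b)) := by
        have h := mul_swapM_apply (symProd V m) (x, a) (x, b) σ τ
        rw [symProd_mul_swapM] at h
        exact h
      rw [hstep]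
      refine ih #{z | (τ ∘ swap (x, a) (x, b)) z ≠ τ' z} ?_ _ _ rfl ?_
      · rw [← hd]
        apply Finset.card_lt_card
        rw [Finset.ssubset_iff_of_subset]
        · refine ⟨(x, a), ?_, ?_⟩
          · simpa using hxa
          · simp [hb1]
        · intro z hz
          rw [mem_filter] at hz ⊢
          refine ⟨mem_univ _, ?_⟩
          have hz2 := hz.2
          rw [Function.comp_apply] at hz2
          rcases eq_or_ne z (x, a) with rfl | h1
          · exact hxa
          · rcases eq_or_ne z (x, b) with rfl | h2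
            · rw [Equiv.swap_apply_right] at hz2
              exact absurd hb2.symm hz2
            · rwa [Equiv.swap_apply_of_ne_of_ne h1 h2] at hz2
      · rw [← hc]
        funext y
        exact cnt_swap τ x a b y

/-- The number of configurations of `m` copies with `k` downs. -/
theorem card_one (m k : ℕ) : #{f : Fin m → Fin 2 | #{a | f a = 1} = k} = m.choose k := by
  have h := Finset.card_powersetCard k (Finset.univ : Finset (Fin m))
  rw [Finset.card_univ, Fintype.card_fin] at h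
  rw [← h]
  refine Finset.card_nbij' (fun f => ({a | f a = 1} : Finset (Fin m)))
    (fun s a => if a ∈ s then 1 else 0) ?_ ?_ ?_ ?_
  · intro f hf
    rw [mem_coe, mem_filter] at hf
    rw [mem_coe, mem_powersetCard]
    exact ⟨subset_univ _, hf.2⟩
  · intro s hs
    rw [mem_coe, mem_powersetCard] at hs
    rw [mem_coe, mem_filter]
    refine ⟨mem_univ _, ?_⟩
    rw [← hs.2]
    congr 1
    ext a
    by_cases ha : a ∈ s <;> simp [ha]
  · intro f _
    funext a
    have h2 : ∀ u : Fin 2, (if u = 1 then (1 : Fin 2) else 0) = u := by decide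
    simp only [mem_filter, mem_univ, true_and]
    exact h2 (f a)
  · intro s _
    ext a
    by_cases ha : a ∈ s <;> simp [ha]

omit [NeZero m] in
theorem card_cnt (k : V → ℕ) : #{τ : V × Fin m → Fin 2 | cnt τ = k} = ∏ x, m.choose (k x) := by
  have h1 : #{τ : V × Fin m → Fin 2 | cnt τ = k}
      = #(Fintype.piFinset fun x => ({f : Fin m → Fin 2 | #{a | f a = 1} = k x} :
          Finset (Fin m → Fin 2))) := by
    refine Finset.card_nbij' (fun τ x a => τ (x, a)) (fun f z => f z.1 z.2) ?_ ?_ ?_ ?_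
    · intro τ hτ
      rw [mem_coe, mem_filter] at hτ
      rw [mem_coe, Fintype.mem_piFinset]
      intro x
      rw [mem_filter]
      refine ⟨mem_univ _, ?_⟩
      rw [← hτ.2]
      rfl
    · intro f hf
      rw [mem_coe, Fintype.mem_piFinset] at hf
      rw [mem_coe, mem_filter]
      refine ⟨mem_univ _, ?_⟩
      funext x
      exact (mem_filter.1 (hf x)).2
    · intro τ _
      rfl
    · intro f _
      rfl
  rw [h1, Fintype.card_piFinset]
  exact prod_congr rfl fun x _ => card_one m (k x)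

/-- The entries of the symmetriser: `1 / ∏ C(m, d_x)` if the numbers `d_x` of downs agree. -/
theorem symProd_apply (σ τ : V × Fin m → Fin 2) :
    symProd V m σ τ = if cnt σ = cnt τ then ∏ x, ((m.choose (cnt σ x) : ℕ) : ℝ)⁻¹ else 0 := by
  by_cases h : cnt σ = cnt τ
  · rw [if_pos h]
    have hrow : ∑ τ', symProd V m σ τ' = 1 := list_row (symGates V m) σ
    have h2 : ∑ τ', symProd V m σ τ'
        = ∑ τ' ∈ ({τ' | cnt τ' = cnt σ} : Finset (V × Fin m → Fin 2)), symProd V m σ τ := by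
      rw [← Finset.sum_filter_add_sum_filter_not univ (fun τ' => cnt τ' = cnt σ)]
      have h3 : ∑ τ' ∈ univ.filter (fun τ' => ¬ cnt τ' = cnt σ), symProd V m σ τ' = 0 := by
        refine sum_eq_zero fun τ' hτ' => ?_
        exact list_supp (symGates V m) symGates_site σ τ' (Ne.symm (mem_filter.1 hτ').2)
      rw [h3, add_zero]
      refine sum_congr rfl fun τ' hτ' => ?_
      exact symProd_const σ _ τ' τ rfl (by rw [(mem_filter.1 hτ').2, h])
    rw [h2, sum_const, card_cnt, nsmul_eq_mul] at hrow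
    rw [Finset.prod_inv_distrib, ← Nat.cast_prod]
    exact eq_inv_of_mul_eq_one_right hrow
  · rw [if_neg h]
    exact list_supp (symGates V m) symGates_site σ τ h

theorem symProd_transpose : (symProd V m)ᵀ = symProd V m := by
  ext σ τ
  rw [Matrix.transpose_apply, symProd_apply, symProd_apply]
  by_cases h : cnt σ = cnt τ
  · rw [if_pos h, if_pos h.symm, h]
  · rw [if_neg h, if_neg (Ne.symm h)]

theorem swapM_transpose {ι : Type} [Fintype ι] [DecidableEq ι] (x y : ι) :
    (swapM x y)ᵀ = swapM x y := by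
  ext σ τ
  rw [Matrix.transpose_apply, swapM, Matrix.of_apply, Matrix.of_apply]
  congr 1
  apply propext
  constructor
  · rintro rfl
    funext z
    simp
  · rintro rfl
    funext z
    simp

theorem swapM_mul_symProd (x : V) (a b : Fin m) :
    swapM (x, a) (x, b) * symProd V m = symProd V m := by
  have h := congrArg Matrix.transpose (symProd_mul_swapM (V := V) (m := m) x a b)
  rwa [Matrix.transpose_mul, symProd_transpose, swapM_transpose] at h

end Copies

end

end Vale.Agent.P361.LRO.GenS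
end

section

/-!
P361, general spin: facts about the symmetriser, real form of the spin bridge.
-/

namespace Vale.Agent.P361.LRO.GenS

open Finset Matrix Equiv

noncomputable section

variable {V : Type} [Fintype V] [DecidableEq V] {m : ℕ} [NeZero m]

/-- The complex symmetriser of `Many.lean` is the product of the gates. -/
theorem symV_eq : symV m V = cM (symProd V m) := by
  ext σ τ
  rw [cM_apply, symProd_apply, symV, Matrix.of_apply]
  have hd : ∀ (ρ : V × Fin m → Fin 2) (x : V), dn (fun i => ρ (x, i)) = cnt ρ x := by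
    intro ρ x
    rw [dn_eq_card]
    rfl
  simp only [sym1, Matrix.of_apply]
  by_cases h : cnt σ = cnt τ
  · rw [if_pos h, Complex.ofReal_prod]
    refine prod_congr rfl fun x _ => ?_
    rw [if_pos (by rw [hd, hd, h]), hd]
    push_cast
    rfl
  · rw [if_neg h]
    obtain ⟨x, hx⟩ := Function.ne_iff.1 h
    rw [Complex.ofReal_zero]
    refine prod_eq_zero (mem_univ x) ?_
    rw [if_neg]
    rw [hd, hd]
    exact hx

/-- Vectors invariant under the exchanges of copies are fixed by the symmetriser. -/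
theorem symProd_mulVec (v : (V × Fin m → Fin 2) → ℝ)
    (hv : ∀ (x : V) (a b : Fin m), swapM (x, a) (x, b) *ᵥ v = v) : symProd V m *ᵥ v = v := by
  have key : ∀ l : List ((V × Fin m) × (V × Fin m) × ℝ), (∀ e ∈ l, e.1.1 = e.2.1.1) →
      (l.map gM).prod *ᵥ v = v := by
    intro l hl
    induction l with
    | nil => simp
    | cons e l ih =>
      rw [List.map_cons, List.prod_cons, ← Matrix.mulVec_mulVec,
        ih fun e he => hl e (by simp [he])]
      have he := hl e (by simp)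
      obtain ⟨⟨x, a⟩, ⟨y, b⟩, p⟩ := e
      dsimp only at he
      subst he
      rw [gM, Matrix.add_mulVec, Matrix.smul_mulVec, Matrix.smul_mulVec, Matrix.one_mulVec,
        hv x a b, ← add_smul]
      simp
  exact key _ symGates_site

/-! ### Copy edges -/

omit [Fintype V] [DecidableEq V] [NeZero m] in
theorem sum_interL {M : Type*} [AddCommMonoid M] (L : List (V × V))
    (f : (V × Fin m) × (V × Fin m) → M) :
    ((interL L m).map f).sum
      = (L.map fun e => ∑ ab : Fin m × Fin m, f ((e.1, ab.1), (e.2, ab.2))).sum := by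
  induction L with
  | nil => simp [interL]
  | cons e L ih =>
    rw [interL] at ih ⊢
    rw [List.flatMap_cons, List.map_append, List.sum_append, ih, List.map_cons, List.sum_cons]
    congr 1
    rw [List.map_map, Finset.sum_map_toList]
    rfl

/-- Conjugation of an exchange. -/
theorem swapM_conj {ι : Type} [Fintype ι] [DecidableEq ι] (x y z w : ι) :
    swapM x y * swapM z w = swapM (swap x y z) (swap x y w) * swapM x y := by
  rw [← permU_swap, ← permU_swap, ← permU_swap, ← map_mul, ← map_mul,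
    Equiv.mul_swap_eq_swap_mul]

/-- Conjugation of `σ³`. -/
theorem swapM_szM {ι : Type} [Fintype ι] [DecidableEq ι] (x y z : ι) :
    swapM x y * szM z = szM (swap x y z) * swapM x y := by
  ext σ τ
  rw [swapM_mul_apply, mul_swapM_apply, szM, szM, Matrix.diagonal_apply, Matrix.diagonal_apply]
  by_cases h : σ ∘ swap x y = τ
  · subst h
    have h2 : σ = (σ ∘ swap x y) ∘ swap x y := by
      funext u
      simp
    rw [if_pos rfl, if_pos h2]
    simp
  · rw [if_neg h, if_neg]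
    intro h2
    apply h
    rw [h2]
    funext u
    simp

omit [Fintype V] [NeZero m] in
theorem swap_site (x : V) (a b : Fin m) (u : V) (c : Fin m) :
    swap (x, a) (x, b) (u, c) = (u, (if u = x then swap a b else 1) c) := by
  by_cases hu : u = x
  · subst hu
    rw [if_pos rfl]
    rcases eq_or_ne c a with rfl | hca
    · rw [Equiv.swap_apply_left, Equiv.swap_apply_left]
    · rcases eq_or_ne c b with rfl | hcb
      · rw [Equiv.swap_apply_right, Equiv.swap_apply_right]
      · rw [Equiv.swap_apply_of_ne_of_ne hca hcb, Equiv.swap_apply_of_ne_of_ne]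
        · simpa using hca
        · simpa using hcb
  · rw [if_neg hu, Equiv.swap_apply_of_ne_of_ne]
    · rfl
    · rintro h
      exact hu (congrArg Prod.fst h)
    · rintro h
      exact hu (congrArg Prod.fst h)

omit [NeZero m] in
/-- The Hamiltonian of the copies commutes with the exchanges of copies of a site. -/
theorem comm_ham (L : List (V × V)) (h : V → ℝ) (x : V) (a b : Fin m) :
    Commute (swapM (x, a) (x, b)) (ham (interL L m) (lift m h)) := by
  rw [ham]
  refine Commute.sub_right ?_ ?_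
  · rw [sum_interL]
    refine List.sum_induction (fun M => Commute (swapM (x, a) (x, b)) M)
      (fun A B hA hB => Commute.add_right hA hB) (Commute.zero_right _) ?_
    intro M hM
    rw [List.mem_map] at hM
    obtain ⟨e, -, rfl⟩ := hM
    have e1 : swapM (x, a) (x, b) * ∑ ab : Fin m × Fin m, LRO.hM (e.1, ab.1) (e.2, ab.2)
        = (∑ ab : Fin m × Fin m, LRO.hM (e.1, (if e.1 = x then swap a b else 1) ab.1)
            (e.2, (if e.2 = x then swap a b else 1) ab.2)) * swapM (x, a) (x, b) := by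
      rw [Finset.mul_sum, Finset.sum_mul]
      refine sum_congr rfl fun ab _ => ?_
      rw [LRO.hM, LRO.hM, mul_smul_comm, smul_mul_assoc, mul_sub, sub_mul, mul_one, one_mul,
        swapM_conj, swap_site, swap_site]
    have e2 : (∑ ab : Fin m × Fin m, LRO.hM (e.1, (if e.1 = x then swap a b else 1) ab.1)
            (e.2, (if e.2 = x then swap a b else 1) ab.2))
        = ∑ ab : Fin m × Fin m, LRO.hM (e.1, ab.1) (e.2, ab.2) :=
      Equiv.sum_comp (Equiv.prodCongr (if e.1 = x then swap a b else 1 : Perm (Fin m))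
        (if e.2 = x then swap a b else 1 : Perm (Fin m)))
        (fun ab : Fin m × Fin m => LRO.hM (e.1, ab.1) (e.2, ab.2))
    rw [e2] at e1
    exact e1
  · have e1 : swapM (x, a) (x, b) * ∑ z : V × Fin m, (lift m h z / 2) • szM z
        = (∑ z : V × Fin m, (lift m h (swap (x, a) (x, b) z) / 2) •
            szM (swap (x, a) (x, b) z)) * swapM (x, a) (x, b) := by
      rw [Finset.mul_sum, Finset.sum_mul]
      refine sum_congr rfl fun z _ => ?_
      have hz : lift m h (swap (x, a) (x, b) z) = lift m h z := by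
        obtain ⟨u, c⟩ := z
        rw [swap_site]
        rfl
      rw [mul_smul_comm, smul_mul_assoc, swapM_szM, hz]
    have e2 : (∑ z : V × Fin m, (lift m h (swap (x, a) (x, b) z) / 2) •
            szM (swap (x, a) (x, b) z)) = ∑ z : V × Fin m, (lift m h z / 2) • szM z :=
      Equiv.sum_comp (swap (x, a) (x, b)) (fun z : V × Fin m => (lift m h z / 2) • szM z)
    rw [e2] at e1
    exact e1

/-- The symmetriser commutes with the Hamiltonian. -/
theorem symProd_comm_ham (L : List (V × V)) (h : V → ℝ) :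
    Commute (symProd V m) (ham (interL L m) (lift m h)) :=
  symProd_comm _ fun x a b => comm_ham L h x a b

/-- The intra-site part vanishes on the range of the symmetriser. -/
theorem intraM_mul_symProd : intraM V m * symProd V m = 0 := by
  rw [intraM]
  have key : ∀ l : List ((V × Fin m) × (V × Fin m)), (∀ e ∈ l, e.1.1 = e.2.1) →
      (l.map fun e => LRO.hM e.1 e.2).sum * symProd V m = 0 := by
    intro l hl
    induction l with
    | nil => simp
    | cons e l ih =>
      rw [List.map_cons, List.sum_cons, add_mul, ih fun e he => hl e (by simp [he]), add_zero]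
      have he := hl e (by simp)
      obtain ⟨⟨x, a⟩, ⟨y, b⟩⟩ := e
      dsimp only at he
      subst he
      rw [LRO.hM, smul_mul_assoc, sub_mul, one_mul, swapM_mul_symProd, sub_self, smul_zero]
  exact key _ fun e he => (mem_intraL.1 he).1

/-- Quadratic form of `h_xy`. -/
theorem hM_quad {ι : Type} [Fintype ι] [DecidableEq ι] (x y : ι) (v : (ι → Fin 2) → ℝ) :
    v ⬝ᵥ (LRO.hM x y *ᵥ v) = (1 / 4) * ∑ σ, (v σ - (swapM x y *ᵥ v) σ) ^ 2 := by
  have hsq : ∑ σ, (swapM x y *ᵥ v) σ ^ 2 = ∑ σ, v σ ^ 2 := by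
    have h1 : ∀ σ, (swapM x y *ᵥ v) σ = v (σ ∘ swap x y) := by
      intro σ
      rw [← permU_swap, Matrix.mulVec, dotProduct, Finset.sum_eq_single (σ ∘ swap x y)]
      · rw [permU_apply, if_pos rfl, one_mul]
      · intro ρ _ hρ
        rw [permU_apply, if_neg (Ne.symm hρ), zero_mul]
      · intro h
        exact absurd (mem_univ _) h
    simp only [h1]
    exact Equiv.sum_comp ((swap x y).arrowCongr (Equiv.refl (Fin 2))) (fun σ => v σ ^ 2)
  rw [LRO.hM, Matrix.smul_mulVec, Matrix.sub_mulVec, Matrix.one_mulVec, dotProduct_smul,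
    dotProduct_sub, smul_eq_mul]
  have h2 : ∑ σ, (v σ - (swapM x y *ᵥ v) σ) ^ 2
      = ∑ σ, v σ ^ 2 - 2 * ∑ σ, v σ * (swapM x y *ᵥ v) σ + ∑ σ, (swapM x y *ᵥ v) σ ^ 2 := by
    rw [Finset.mul_sum, ← Finset.sum_sub_distrib, ← Finset.sum_add_distrib]
    exact sum_congr rfl fun σ _ => by ring
  rw [h2, hsq]
  simp only [dotProduct]
  have h3 : ∑ σ, v σ * v σ = ∑ σ, v σ ^ 2 := sum_congr rfl fun σ _ => by ring
  rw [h3]
  ring

omit [NeZero m] in
theorem intraM_quad_nonneg_eq (v : (V × Fin m → Fin 2) → ℝ) (l : List ((V × Fin m) × (V × Fin m))) :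
    0 ≤ v ⬝ᵥ ((l.map fun e => LRO.hM e.1 e.2).sum *ᵥ v) ∧
      (v ⬝ᵥ ((l.map fun e => LRO.hM e.1 e.2).sum *ᵥ v) = 0 →
        ∀ e ∈ l, swapM e.1 e.2 *ᵥ v = v) := by
  induction l with
  | nil => simp
  | cons e l ih =>
    rw [List.map_cons, List.sum_cons, Matrix.add_mulVec, dotProduct_add]
    have h0 : 0 ≤ v ⬝ᵥ (LRO.hM e.1 e.2 *ᵥ v) := by
      rw [hM_quad]
      positivity
    refine ⟨add_nonneg h0 ih.1, fun h => ?_⟩
    have h1 : v ⬝ᵥ (LRO.hM e.1 e.2 *ᵥ v) = 0 := by
      have := ih.1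
      linarith
    have h2 : v ⬝ᵥ ((l.map fun e => LRO.hM e.1 e.2).sum *ᵥ v) = 0 := by
      linarith
    intro f hf
    rcases List.mem_cons.1 hf with rfl | hf
    · rw [hM_quad] at h1
      have h3 : ∑ σ, (v σ - (swapM f.1 f.2 *ᵥ v) σ) ^ 2 = 0 := by
        linarith
      rw [Finset.sum_eq_zero_iff_of_nonneg fun σ _ => sq_nonneg _] at h3
      funext σ
      have h4 := h3 σ (mem_univ _)
      rw [sq_eq_zero_iff] at h4
      linarith
    · exact ih.2 h2 f hf

/-- The kernel of the intra-site part is the range of the symmetriser. -/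
theorem symProd_mulVec_of_intra (v : (V × Fin m → Fin 2) → ℝ) (hv : intraM V m *ᵥ v = 0) :
    symProd V m *ᵥ v = v := by
  apply symProd_mulVec
  have h0 : v ⬝ᵥ (((intraL V m).map fun e => LRO.hM e.1 e.2).sum *ᵥ v) = 0 := by
    have : ((intraL V m).map fun e => LRO.hM e.1 e.2).sum *ᵥ v = 0 := hv
    rw [this, dotProduct_zero]
  have h1 := (intraM_quad_nonneg_eq v (intraL V m)).2 h0
  intro x a b
  rcases lt_trichotomy a b with h | h | h
  · exact h1 ((x, a), (x, b)) (mem_intraL.2 ⟨rfl, h⟩)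
  · subst h
    rw [← permU_swap, Equiv.swap_self]
    have : (Equiv.refl (V × Fin m) : Perm (V × Fin m)) = 1 := rfl
    rw [this, map_one, Matrix.one_mulVec]
  · rw [← permU_swap, Equiv.swap_comm, permU_swap]
    exact h1 ((x, b), (x, a)) (mem_intraL.2 ⟨rfl, h⟩)

/-! ### The real form of the spin bridge -/

omit [NeZero m] in
theorem tot_mul_tot (x y : V) (hxy : x ≠ y) :
    ∑ a : Fin 3, tot m a x * tot m a y
      = ((m : ℂ) ^ 2 * (1 / 4)) • (1 : Matrix (V × Fin m → Fin 2) (V × Fin m → Fin 2) ℂ)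
        - cM (∑ ab : Fin m × Fin m, LRO.hM (x, ab.1) (y, ab.2)) := by
  have h1 : ∀ ab : Fin m × Fin m, cM (LRO.hM ((x, ab.1) : V × Fin m) (y, ab.2))
      = (1 / 4 : ℂ) • (1 : Matrix (V × Fin m → Fin 2) (V × Fin m → Fin 2) ℂ) -
        ∑ a : Fin 3, siteOpV ((x, ab.1) : V × Fin m) (Model.spin 1 a) *
          siteOpV ((y, ab.2) : V × Fin m) (Model.spin 1 a) := by
    intro ab
    exact cM_hM (by
      intro h
      exact hxy (congrArg Prod.fst h))
  rw [cM_sum, Finset.sum_congr rfl fun ab _ => h1 ab, Finset.sum_sub_distrib, Finset.sum_const,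
    Finset.card_univ, Fintype.card_prod, Fintype.card_fin, ← Nat.cast_smul_eq_nsmul ℂ, smul_smul]
  have h2 : ∑ a : Fin 3, tot m a x * tot m a y = ∑ ab : Fin m × Fin m,
      ∑ a : Fin 3, siteOpV ((x, ab.1) : V × Fin m) (Model.spin 1 a) *
          siteOpV ((y, ab.2) : V × Fin m) (Model.spin 1 a) := by
    rw [Finset.sum_comm]
    refine Finset.sum_congr rfl fun a _ => ?_
    rw [tot, tot, Finset.sum_mul_sum, Fintype.sum_prod_type]
  rw [h2]
  push_cast
  module

omit [NeZero m] in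
theorem tot_z (x : V) : tot m 2 x = cM (∑ i : Fin m, (1 / 2 : ℝ) • szM ((x, i) : V × Fin m)) := by
  rw [tot, cM_sum]
  refine Finset.sum_congr rfl fun i _ => ?_
  have h2 : (((1 / 2 : ℝ) : ℝ) : ℂ) * 2 = 1 := by
    push_cast
    norm_num
  rw [cM_smul, cM_sz, smul_smul, h2, one_smul]
  rfl

end

section torusS

variable {n : ℕ} [NeZero n] {s : ℕ}

/-- The Hamiltonian of the copies in the swap form. -/
theorem hamC_eq (hn : 3 ≤ n) (h : ℝ) :
    hamC s (torusAdj n) (h : ℂ) =
      cM (ham (interL (edges n) s) (lift s fun _ : Tor n => h)) -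
        (((s : ℂ) ^ 2 * (1 / 4)) * (Fintype.card (Tor n × Fin 3) : ℂ)) •
          (1 : Matrix (Tor n × Fin s → Fin 2) (Tor n × Fin s → Fin 2) ℂ) := by
  have hn1 : 1 < n := by omega
  have hne : ∀ z : Tor n × Fin 3, z.1 ≠ z.1 + Pi.single z.2 1 := by
    intro z hz
    have : Fact (1 < n) := ⟨hn1⟩
    have h2 : (Pi.single z.2 1 : Tor n) = 0 := (left_eq_add.1 hz)
    have h3 := congrFun h2 z.2
    rw [Pi.single_eq_same, Pi.zero_apply] at h3
    exact one_ne_zero h3
  rw [hamC, sum_torusAdj hn (fun x y => ∑ a : Fin 3, tot s a x * tot s a y)]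
  have e1 : ∀ z : Tor n × Fin 3, ∑ a : Fin 3, tot s a z.1 * tot s a (z.1 + Pi.single z.2 1)
      = ((s : ℂ) ^ 2 * (1 / 4)) • (1 : Matrix (Tor n × Fin s → Fin 2) (Tor n × Fin s → Fin 2) ℂ)
        - cM (∑ ab : Fin s × Fin s, LRO.hM (z.1, ab.1) (z.1 + Pi.single z.2 1, ab.2)) :=
    fun z => tot_mul_tot _ _ (hne z)
  have hsym : ∀ x y : Tor n, (∑ ab : Fin s × Fin s, LRO.hM ((x, ab.1) : Tor n × Fin s) (y, ab.2))
      = ∑ ab : Fin s × Fin s, LRO.hM ((y, ab.1) : Tor n × Fin s) (x, ab.2) := by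
    intro x y
    rw [← Equiv.sum_comp (Equiv.prodComm (Fin s) (Fin s))]
    refine Finset.sum_congr rfl fun ab _ => ?_
    simp only [Equiv.prodComm_apply, Prod.fst_swap, Prod.snd_swap]
    rw [LRO.hM, LRO.hM, ← permU_swap, ← permU_swap, Equiv.swap_comm]
  have e2 : ∀ z : Tor n × Fin 3, ∑ a : Fin 3, tot s a (z.1 + Pi.single z.2 1) * tot s a z.1
      = ((s : ℂ) ^ 2 * (1 / 4)) • (1 : Matrix (Tor n × Fin s → Fin 2) (Tor n × Fin s → Fin 2) ℂ)
        - cM (∑ ab : Fin s × Fin s, LRO.hM (z.1, ab.1) (z.1 + Pi.single z.2 1, ab.2)) := by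
    intro z
    rw [tot_mul_tot _ _ (hne z).symm, hsym]
  rw [Finset.sum_congr rfl fun z _ => e1 z, Finset.sum_congr rfl fun z _ => e2 z]
  rw [ham, sum_interL, sum_edges, cM_sub, cM_sum, Finset.sum_sub_distrib, Finset.sum_const,
    Finset.card_univ, ← Nat.cast_smul_eq_nsmul ℂ, smul_smul]
  have e3 : (h : ℂ) • ∑ x : Tor n, tot s 2 x
      = cM (∑ z : Tor n × Fin s, (lift s (fun _ : Tor n => h) z / 2) • szM z) := by
    rw [Fintype.sum_prod_type, cM_sum, Finset.smul_sum]
    refine Finset.sum_congr rfl fun x _ => ?_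
    rw [tot_z, ← cM_smul, Finset.smul_sum]
    congr 1
    refine Finset.sum_congr rfl fun i _ => ?_
    rw [smul_smul]
    congr 1
    rw [lift]
    ring
  rw [e3]
  have key : ∀ (A O M : Matrix (Tor n × Fin s → Fin 2) (Tor n × Fin s → Fin 2) ℂ) (k k' : ℂ),
      k = k' → -((1 / 2 : ℂ) • ((k • O - A) + (k • O - A))) - M = A - M - k' • O := by
    intro A O M k k' hk
    subst hk
    module
  exact key _ _ _ _ _ (mul_comm _ _)

theorem exp_hamC_eq (hn : 3 ≤ n) (β h : ℝ) :
    NormedSpace.exp (-(β : ℂ) • hamC s (torusAdj n) (h : ℂ)) =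
      ((Real.exp (β * ((s : ℝ) ^ 2 * (1 / 4) * (Fintype.card (Tor n × Fin 3)))) : ℝ) : ℂ) •
        cM (NormedSpace.exp (-β • ham (interL (edges n) s) (lift s fun _ : Tor n => h))) := by
  have e1 : -(β : ℂ) • hamC s (torusAdj n) (h : ℂ) =
      cM (-β • ham (interL (edges n) s) (lift s fun _ : Tor n => h)) +
        ((β * ((s : ℝ) ^ 2 * (1 / 4) * (Fintype.card (Tor n × Fin 3))) : ℝ) : ℂ) •
          (1 : Matrix (Tor n × Fin s → Fin 2) (Tor n × Fin s → Fin 2) ℂ) := by
    rw [hamC_eq hn, cM_smul]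
    have key : ∀ (X O : Matrix (Tor n × Fin s → Fin 2) (Tor n × Fin s → Fin 2) ℂ)
        (k : ℂ), -(β : ℂ) • (X - k • O) = (-(β : ℂ)) • X + ((β : ℂ) * k) • O := by
      intro X O k
      module
    rw [key]
    push_cast
    rfl
  rw [e1, exp_add_smul_one, exp_cM]

/-- `Tr (e^B M) = Tr (e^A M' W Wᴴ)` if `A W = W B`, `M' W = W M`. -/
theorem trace_exp_mul_bridge {α β : Type*} [Fintype α] [DecidableEq α] [Fintype β] [DecidableEq β]
    {A M' : Matrix α α ℂ} {B M : Matrix β β ℂ} {W : Matrix α β ℂ}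
    (h : A * W = W * B) (hM : M' * W = W * M) (hW : Wᴴ * W = 1) :
    Matrix.trace (NormedSpace.exp B * M) =
      Matrix.trace (W * Wᴴ * NormedSpace.exp A * M') := by
  have h1 := exp_intertwine h
  calc Matrix.trace (NormedSpace.exp B * M)
      = Matrix.trace ((Wᴴ * W) * NormedSpace.exp B * M) := by rw [hW, Matrix.one_mul]
    _ = Matrix.trace (Wᴴ * (NormedSpace.exp A * (M' * W))) := by
        rw [hM, ← Matrix.mul_assoc (NormedSpace.exp A), h1]
        simp only [Matrix.mul_assoc]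
    _ = Matrix.trace ((Wᴴ * (NormedSpace.exp A * M')) * W) := by
        simp only [Matrix.mul_assoc]
    _ = Matrix.trace (W * (Wᴴ * (NormedSpace.exp A * M'))) := by rw [Matrix.trace_mul_comm]
    _ = Matrix.trace (W * Wᴴ * NormedSpace.exp A * M') := by
        simp only [Matrix.mul_assoc]

variable [NeZero s]

/-- **Real form of the bridge** (partition function). -/
theorem trace_exp_spin_real (hn : 3 ≤ n) (β h : ℝ) :
    Matrix.trace (NormedSpace.exp (expoV s (torusAdj n) β h)) =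
      ((Real.exp (β * ((s : ℝ) ^ 2 * (1 / 4) * (Fintype.card (Tor n × Fin 3)))) *
        Matrix.trace (symProd (Tor n) s *
          NormedSpace.exp (-β • ham (interL (edges n) s) (lift s fun _ : Tor n => h))) : ℝ) :
            ℂ) := by
  have h0 : expoV s (torusAdj n) β h = -(β : ℂ) • (Model.hamiltonian s (torusAdj n) -
    (h : ℂ) • Model.magnetization s (Tor n)) := rfl
  rw [h0, trace_exp_spin, exp_hamC_eq hn, symV_eq, Matrix.smul_mul, Matrix.trace_smul, ← cM_mul,
    trace_cM, smul_eq_mul, Matrix.trace_mul_comm, Complex.ofReal_mul]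

/-- **Real form of the bridge** (magnetization). -/
theorem trace_exp_mag_real (hn : 3 ≤ n) (β h : ℝ) :
    Matrix.trace (NormedSpace.exp (expoV s (torusAdj n) β h) * Model.magnetization s (Tor n)) =
      ((Real.exp (β * ((s : ℝ) ^ 2 * (1 / 4) * (Fintype.card (Tor n × Fin 3)))) *
        Matrix.trace (symProd (Tor n) s *
          NormedSpace.exp (-β • ham (interL (edges n) s) (lift s fun _ : Tor n => h)) *
          ∑ z : Tor n × Fin s, (1 / 2 : ℝ) • szM z) : ℝ) : ℂ) := by
  have h0 : expoV s (torusAdj n) β h = -(β : ℂ) • (Model.hamiltonian s (torusAdj n) -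
    (h : ℂ) • Model.magnetization s (Tor n)) := rfl
  have hA : (-(β : ℂ) • hamC s (torusAdj n) (h : ℂ)) * WV s (Tor n) =
      WV s (Tor n) * expoV s (torusAdj n) β h := by
    rw [h0, Matrix.smul_mul, Matrix.mul_smul, hamC_mul]
  have hM : (∑ x : Tor n, tot s 2 x) * WV s (Tor n) =
      WV s (Tor n) * Model.magnetization s (Tor n) := by
    have h1 : Model.magnetization s (Tor n) = ∑ x : Tor n, siteOpV x (Model.spin s 2) := rfl
    rw [h1, Matrix.sum_mul, Matrix.mul_sum]
    exact Finset.sum_congr rfl fun x _ => tot_mul s 2 x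
  rw [trace_exp_mul_bridge hA hM (WV_conj_mul s), WV_mul_conj, exp_hamC_eq hn, symV_eq]
  have hS : (∑ x : Tor n, tot s 2 x) = cM (∑ z : Tor n × Fin s, (1 / 2 : ℝ) • szM z) := by
    rw [Fintype.sum_prod_type, cM_sum]
    exact Finset.sum_congr rfl fun x _ => tot_z x
  rw [hS, Matrix.mul_smul, Matrix.smul_mul, Matrix.trace_smul, ← cM_mul, ← cM_mul, trace_cM,
    smul_eq_mul, Complex.ofReal_mul]

/-- The magnetization of the spin `s / 2` model in terms of the copies. -/
theorem gibbsMagV_spin (hn : 3 ≤ n) (β h : ℝ) :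
    gibbsMagV s (torusAdj n) β h =
      Matrix.trace (symProd (Tor n) s *
          NormedSpace.exp (-β • ham (interL (edges n) s) (lift s fun _ : Tor n => h)) *
          ∑ z : Tor n × Fin s, (1 / 2 : ℝ) • szM z) /
        Matrix.trace (symProd (Tor n) s *
          NormedSpace.exp (-β • ham (interL (edges n) s) (lift s fun _ : Tor n => h))) := by
  rw [gibbsMagV, trace_exp_mag_real hn, trace_exp_spin_real hn, Complex.ofReal_re,
    Complex.ofReal_re, mul_div_mul_left _ _ (Real.exp_pos _).ne']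

/-- The symmetrised partition function is positive. -/
theorem trace_symProd_exp_pos (hn : 3 ≤ n) (β h : ℝ) :
    0 < Matrix.trace (symProd (Tor n) s *
          NormedSpace.exp (-β • ham (interL (edges n) s) (lift s fun _ : Tor n => h))) := by
  have h1 := trace_exp_pos (expoV_isHermitian s (torusAdj n) (torusAdj_irrefl (by omega)) β h)
  rw [trace_exp_spin_real hn, Complex.ofReal_re] at h1
  exact (mul_pos_iff_of_pos_left (Real.exp_pos _)).1 h1

end torusS

end Vale.Agent.P361.LRO.GenS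
end

section

/-!
P361, stage 3, block (M), step (V2): Peierls-Bogoliubov for the torus mean (helper836).
-/

set_option linter.unusedSectionVars false

namespace Vale.Agent.P361.LRO.S3.Mean

open Finset Matrix

noncomputable section

variable {V : Type} [Fintype V] [DecidableEq V]

/-- One-particle hopping matrix of the list of edges, `t = (1/2) ∑_e (δ_x - δ_y)(δ_x - δ_y)ᵀ`. -/
def tL (L : List (V × V)) (u v : V) : ℝ := (1 / 2 : ℝ) * (L.map fun e => pairK e.1 e.2 u v).sum

/-- Identity kernel. -/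
def oneK (u v : V) : ℝ := if u = v then 1 else 0

/-- Pair operator of the edges. -/
def WL (L : List (V × V)) : Matrix (V → Fin 2) (V → Fin 2) ℝ :=
  (L.map fun e => nM e.1 * nM e.2).sum

theorem pairK_self (x u v : V) : pairK x x u v = 0 := by
  simp [pairK]

theorem pairK_symm (x y u v : V) : pairK x y u v = pairK x y v u := by
  simp only [pairK]; ring

theorem hcM_zero : hcM (fun _ _ : V => (0 : ℝ)) = 0 := by
  simp [hcM]

theorem hcM_tL (L : List (V × V)) (hL : ∀ e ∈ L, e.1 ≠ e.2) :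
    hcM (tL L) = (L.map fun e => hM e.1 e.2).sum + WL L := by
  have h0 : tL L = fun u v => (1 / 2 : ℝ) * (L.map fun e => pairK e.1 e.2 u v).sum := rfl
  rw [h0, hcM_smul]
  clear h0
  induction L with
  | nil => simp [WL, hcM_zero]
  | cons e L ih =>
    have ih' := ih fun e' he' => hL e' (List.mem_cons_of_mem _ he')
    simp only [List.map_cons, List.sum_cons, WL] at ih' ⊢
    rw [hcM_add (fun u v => pairK e.1 e.2 u v), smul_add, ih']
    have h1 : hcM (fun u v => pairK e.1 e.2 u v) = (2 : ℝ) • hM e.1 e.2 +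
        (2 : ℝ) • (nM e.1 * nM e.2) := hcM_pairK (hL e List.mem_cons_self)
    rw [h1, smul_add, smul_smul, smul_smul]
    norm_num
    abel

theorem szM_symm (x : V) : (szM x : Matrix (V → Fin 2) (V → Fin 2) ℝ).IsSymm := by
  rw [szM]; exact Matrix.isSymm_diagonal _

theorem nn_eq (x y : V) : nM x * nM y = Matrix.diagonal fun σ : V → Fin 2 =>
    (if σ x = 1 then (1 : ℝ) else 0) * (if σ y = 1 then 1 else 0) := by
  rw [nM, nM, Matrix.diagonal_mul_diagonal]

theorem nn_symm (x y : V) : (nM x * nM y).IsSymm := by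
  rw [nn_eq]
  exact Matrix.isSymm_diagonal _

theorem WL_symm (L : List (V × V)) : (WL L).IsSymm := by
  induction L with
  | nil => simp [WL, Matrix.isSymm_zero]
  | cons e L ih =>
    simp only [WL, List.map_cons, List.sum_cons] at ih ⊢
    exact (nn_symm _ _).add ih

theorem swapM_symm (x y : V) : (swapM x y : Matrix (V → Fin 2) (V → Fin 2) ℝ).IsSymm := by
  ext σ τ
  simp only [Matrix.transpose_apply, swapM, Matrix.of_apply]
  have : (τ = σ ∘ Equiv.swap x y) ↔ (σ = τ ∘ Equiv.swap x y) := by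
    constructor
    · rintro rfl; funext z; simp
    · rintro rfl; funext z; simp
  simp only [this]

theorem hM_symm (x y : V) : (hM x y : Matrix (V → Fin 2) (V → Fin 2) ℝ).IsSymm := by
  rw [hM]
  exact (Matrix.isSymm_one.sub (swapM_symm x y)).smul _

theorem ham_symm (L : List (V × V)) (h : V → ℝ) : (ham L h).IsSymm := by
  rw [ham]
  refine Matrix.IsSymm.sub ?_ ?_
  · induction L with
    | nil => simp [Matrix.isSymm_zero]
    | cons e L ih =>
      simp only [List.map_cons, List.sum_cons]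
      exact (hM_symm _ _).add ih
  · rw [Matrix.IsSymm, Matrix.transpose_sum]
    exact Finset.sum_congr rfl fun x _ => by
      rw [Matrix.transpose_smul, (szM_symm x).eq]

/-- The Hamiltonian in terms of the second quantisation. -/
theorem ham_eq (L : List (V × V)) (hL : ∀ e ∈ L, e.1 ≠ e.2) (h : ℝ) :
    ham L (fun _ => h) = hcM (fun u v => tL L u v + h * oneK u v) - WL L -
      (h * Fintype.card V / 2) • (1 : Matrix (V → Fin 2) (V → Fin 2) ℝ) := by
  have h1 : ∑ x : V, (h / 2) • szM x = (h * Fintype.card V / 2) •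
      (1 : Matrix (V → Fin 2) (V → Fin 2) ℝ) - h • ∑ x, nM x := by
    have h2 : ∀ x : V, (h / 2) • szM x = (h / 2) • (1 : Matrix (V → Fin 2) (V → Fin 2) ℝ) -
        h • nM x := by
      intro x
      rw [nM_eq, smul_smul, smul_sub, show h * (1 / 2) = h / 2 by ring, sub_sub_cancel]
    rw [Finset.sum_congr rfl fun x _ => h2 x, Finset.sum_sub_distrib,
      Finset.sum_const, Finset.card_univ, ← Nat.cast_smul_eq_nsmul ℝ, smul_smul, Finset.smul_sum]
    congr 2
    ring
  have h3 : hcM (fun u v : V => h * oneK u v) = h • ∑ x : V, nM x := by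
    rw [hcM_smul]
    congr 1
    exact hcM_one
  rw [hcM_add (fun u v => tL L u v) (fun u v => h * oneK u v), h3]
  have h4 : hcM (fun u v => tL L u v) = (L.map fun e => hM e.1 e.2).sum + WL L := hcM_tL L hL
  rw [h4, ham, h1]
  abel

theorem gib_add (L : List (V × V)) (β : ℝ) (h : V → ℝ)
    (A B : Matrix (V → Fin 2) (V → Fin 2) ℝ) :
    gib L β h (A + B) = gib L β h A + gib L β h B := by
  rw [gib, gib, gib, Matrix.mul_add, Matrix.trace_add, add_div]

theorem gib_smul (L : List (V × V)) (β : ℝ) (h : V → ℝ) (c : ℝ)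
    (A : Matrix (V → Fin 2) (V → Fin 2) ℝ) :
    gib L β h (c • A) = c * gib L β h A := by
  rw [gib, gib, Matrix.mul_smul, Matrix.trace_smul, smul_eq_mul, mul_div_assoc]

theorem gib_sub (L : List (V × V)) (β : ℝ) (h : V → ℝ)
    (A B : Matrix (V → Fin 2) (V → Fin 2) ℝ) :
    gib L β h (A - B) = gib L β h A - gib L β h B := by
  rw [gib, gib, gib, Matrix.mul_sub, Matrix.trace_sub, sub_div]

theorem gib_sum {ι : Type*} (s : Finset ι) (L : List (V × V)) (β : ℝ) (h : V → ℝ)
    (A : ι → Matrix (V → Fin 2) (V → Fin 2) ℝ) :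
    gib L β h (∑ i ∈ s, A i) = ∑ i ∈ s, gib L β h (A i) := by
  simp only [gib]
  rw [Finset.mul_sum, Matrix.trace_sum, Finset.sum_div]

theorem exp_add_smul_one {ι : Type} [Fintype ι] [DecidableEq ι] (A : Matrix ι ι ℝ) (c : ℝ) :
    NormedSpace.exp (A + c • (1 : Matrix ι ι ℝ)) = Real.exp c • NormedSpace.exp A := by
  have hc : Commute A (c • (1 : Matrix ι ι ℝ)) := (Commute.one_right A).smul_right c
  rw [Matrix.exp_add_of_commute _ _ hc]
  have h1 : NormedSpace.exp (c • (1 : Matrix ι ι ℝ)) = Real.exp c • (1 : Matrix ι ι ℝ) := by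
    have h2 : c • (1 : Matrix ι ι ℝ) = Matrix.diagonal fun _ => c := by
      ext i j
      by_cases hij : i = j
      · subst hij; simp
      · simp [hij]
    rw [h2, Matrix.exp_diagonal, Pi.exp_def, ← Real.exp_eq_exp_ℝ]
    ext i j
    by_cases hij : i = j
    · subst hij
      simp
    · simp [hij]
  rw [h1, Matrix.mul_smul, Matrix.mul_one]

end

end Vale.Agent.P361.LRO.S3.Mean
end

section

/-!
P361, stage 3, block (M): translation invariance of the static state in a uniform field, and the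
block rewards averaged over all translates.
-/

namespace Vale.Agent.P361.LRO.S3

open Finset Matrix

noncomputable section

section gen

variable {V : Type} [Fintype V] [DecidableEq V]

theorem gib_relab (L : List (V × V)) (g : V ≃ V)
    (hL : ∀ f : V → V → Matrix (V → Fin 2) (V → Fin 2) ℝ,
      (L.map fun e => f e.1 e.2).sum = (L.map fun e => f (g e.1) (g e.2)).sum)
    (β : ℝ) (h : V → ℝ) (A : Matrix (V → Fin 2) (V → Fin 2) ℝ) :
    gib L β (fun y => h (g y)) (A.submatrix (Bs.relab g) (Bs.relab g)) = gib L β h A := by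
  have h1 : (ham L h).submatrix (Bs.relab g) (Bs.relab g) = ham L (fun y => h (g y)) := by
    unfold ham
    rw [Bs.subm_sub]
    congr 1
    · have h2 : ∀ L : List (V × V),
          ((L.map fun e => hM (g e.1) (g e.2)).sum).submatrix (Bs.relab g) (Bs.relab g) =
            (L.map fun e => hM e.1 e.2).sum := by
        intro L
        induction L with
        | nil => ext i j; rfl
        | cons a L ih =>
          rw [List.map_cons, List.sum_cons, List.map_cons, List.sum_cons, Bs.subm_add, ih,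
            Bs.hM_relab]
      conv_lhs => rw [hL hM]
      exact h2 L
    · rw [Bs.subm_sum, ← Equiv.sum_comp g]
      refine Finset.sum_congr rfl fun y _ => ?_
      rw [Bs.subm_smul, Bs.szM_relab]
  have h2 : NormedSpace.exp (-β • ham L (fun y => h (g y))) =
      (NormedSpace.exp (-β • ham L h)).submatrix (Bs.relab g) (Bs.relab g) := by
    rw [← Bs.exp_submatrix_real, ← h1]
    congr 1
  unfold gib
  rw [h2, Bs.trace_submatrix_real, Matrix.submatrix_mul_equiv, Bs.trace_submatrix_real]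

theorem nn_posSemidef (x y : V) : (nM x * nM y).PosSemidef := by
  have h1 : nM x * nM y = Matrix.diagonal fun σ : V → Fin 2 =>
      (if σ x = 1 then (1 : ℝ) else 0) * (if σ y = 1 then 1 else 0) := by
    unfold nM
    rw [Matrix.diagonal_mul_diagonal]
  rw [h1]
  exact Matrix.PosSemidef.diagonal fun σ => by
    simp only [Pi.zero_apply]
    split_ifs <;> norm_num

theorem gib_nn_nonneg (L : List (V × V)) (β : ℝ) (h : V → ℝ) (x y : V) :
    0 ≤ gib L β h (nM x * nM y) := Bs.gib_nonneg L β h (nn_posSemidef x y)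

theorem hM_self (x : V) : hM x x = 0 := by
  unfold hM
  have h1 : swapM x x = 1 := by
    ext σ τ
    simp only [swapM, Matrix.of_apply, Equiv.swap_self, Matrix.one_apply]
    rfl
  rw [h1, sub_self, smul_zero]

end gen

section torus

variable {n : ℕ} [NeZero n]

/-- The point `z + a` of the cube. -/
def ptc (z : Tor n) {w : ℕ} (a : Fin 3 → Fin w) : Tor n := z + fun i => ((a i : ℕ) : ZMod n)

omit [NeZero n] in
theorem ptc_injective {w : ℕ} (hw : w ≤ n) (z : Tor n) :
    Function.Injective fun a : Fin 3 → Fin w => ptc z a := by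
  intro a b hab
  have h2 := add_left_cancel hab
  funext i
  have h3 := congrFun h2 i
  have h4 : ((a i : ℕ) : ZMod n) = ((b i : ℕ) : ZMod n) := h3
  rw [ZMod.natCast_eq_natCast_iff'] at h4
  rw [Nat.mod_eq_of_lt ((a i).2.trans_le hw), Nat.mod_eq_of_lt ((b i).2.trans_le hw)] at h4
  exact Fin.ext h4

omit [NeZero n] in
theorem sum_cubeM {w : ℕ} (hw : w ≤ n) {M : Type*} [AddCommMonoid M] (z : Tor n)
    (f : Tor n → M) : ∑ x ∈ cube n z w, f x = ∑ a : Fin 3 → Fin w, f (ptc z a) := by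
  unfold cube
  rw [Finset.sum_image]
  · rfl
  · intro a _ b _ hab
    exact ptc_injective hw z hab

omit [NeZero n] in
theorem card_cubeM {w : ℕ} (hw : w ≤ n) (z : Tor n) : (cube n z w).card = w ^ 3 := by
  rw [Finset.card_eq_sum_ones, sum_cubeM hw, Finset.sum_const, Finset.card_univ, Fintype.card_fun,
    Fintype.card_fin, Fintype.card_fin, smul_eq_mul, mul_one]

end torus

end

end Vale.Agent.P361.LRO.S3
end

section

/-!
P361, stage 3, block (M), item (C): the block rewards averaged over all translates are bounded by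
the second quantisation of `gmat` (helper44).
-/

namespace Vale.Agent.P361.LRO.S3

open Finset Matrix

noncomputable section

section gen

variable {V : Type} [Fintype V] [DecidableEq V]

theorem dd_eq_pairK (x y : V) : OB.dd x y = pairK x y := by
  funext u v
  rfl

theorem gib_hcM_dd (L : List (V × V)) (β : ℝ) (h : V → ℝ) (x y : V) :
    2 * gib L β h (hM x y) ≤ gib L β h (hcM (OB.dd x y)) := by
  rw [dd_eq_pairK]
  by_cases hxy : x = y
  · subst hxy
    have h2 : (pairK x x : V → V → ℝ) = fun _ _ => 0 := by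
      funext u v; exact Mean.pairK_self x u v
    rw [h2, Mean.hcM_zero, hM_self]
    simp [gib]
  · rw [hcM_pairK hxy, Mean.gib_add, Mean.gib_smul, Mean.gib_smul]
    have := gib_nn_nonneg L β h x y
    linarith

end gen

section torus

variable {n : ℕ} [NeZero n]

end torus

end

end Vale.Agent.P361.LRO.S3
end
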