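import Mathlib
import Vale.Agent.P361.Bd6.B1
import Vale.Agent.P361.Bd6.B2

set_option linter.all false

section

/-!
P361, STAGE 3 for all spins `S = s / 2` (Bloch's law with the constant), route M: the graph
`edgesS n s M` on `Tor n × Fin s`, `M → ∞` at fixed `n`.  Exact outputs of the blocks.
Fields are `h = g / (s β)`, `g ∈ Fam n g0 (β ^ (-9/2))`.
`DirStmt3` and `DirSharpStmt3` of `S3/Iface.lean` are used verbatim (any graph).
-/

namespace Vale.Agent.P361.LRO.S3S

open Finset Matrix Filter Topology Vale.Agent.P361.LRO.GenS Vale.Agent.P361.LRO.S3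

noncomputable section

/-- Bloch's constant for spin `s / 2`. -/
def BCS (s : ℕ) : ℝ :=
  (riemannZeta (3 / 2)).re / (8 * Real.pi ^ (3 / 2 : ℝ) * ((s : ℝ) / 2) ^ (3 / 2 : ℝ))

/-- Bootstrap hypothesis on the capped family. -/
def BH3S (n s M : ℕ) [NeZero n] (β η g0 : ℝ) : Prop :=
  ∀ g : Tor n → ℝ, Fam n g0 (β ^ (-(9 / 2) : ℝ)) g →
    ∀ z, rho (edgesS n s M) β (hS fun y => g y / (s * β)) z ≤ η

/-- (K) network block. -/
def KappaStmt3S (s : ℕ) : Prop :=
  ∃ c2 c3 : ℝ, 0 < c2 ∧ 0 < c3 ∧ ∀ C7 Lam : ℝ, 0 < C7 → 0 < Lam → ∃ β0 : ℝ, ∀ β : ℝ, β0 ≤ β →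
    ∃ n0 : ℕ, ∀ (n : ℕ) [NeZero n], n0 ≤ n → Odd n → ∀ M : ℕ, ∀ a : ℕ,
    Real.sqrt β ≤ (3 : ℝ) ^ a → (3 : ℝ) ^ a ≤ β ^ (3 / 4 : ℝ) →
    ∀ K : ℝ, 1 ≤ K → K ≤ Lam * β ^ (3 / 2 : ℝ) → K ≤ c2 * β * 3 ^ a →
    ∀ g0 : ℝ, (n : ℝ) ^ (-(1 / 4) : ℝ) ≤ g0 → g0 ≤ 1 → BH3S n s M β (C7 * β ^ (-(3 / 2) : ℝ)) g0 →
    ∀ g : Tor n → ℝ, Fam n g0 (β ^ (-(9 / 2) : ℝ)) g → ∀ x : Tor n,
      ∃ᶠ N : ℕ in atTop,
        c3 * K ≤ kap (edgesS n s M) β N (hS fun y => g y / (s * β)) K (cubeS n s x (3 ^ a))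

/-- (E) crude energy for all profiles. -/
def EnergyStmt3S (s : ℕ) : Prop :=
  ∃ C β0 : ℝ, ∀ β : ℝ, β0 ≤ β → ∃ n0 : ℕ, ∀ (n : ℕ) [NeZero n], n0 ≤ n →
    ∃ M0 : ℕ, ∀ M : ℕ, M0 ≤ M → ∀ g : Tor n → ℝ,
    (∀ x, 0 < g x ∧ g x ≤ 1) → ∀ (x : Tor n) (w m : ℕ), 1 ≤ w → (w : ℝ) ≤ 3 * Real.sqrt β →
    β ^ (3 : ℝ) ≤ w * m → (w : ℝ) * m ≤ 2 * β ^ (3 : ℝ) →
    (∑ y : Fin 3 → Fin m, yb (edgesS n s M) β (hS fun z => g z / (s * β))
      (cubeS n s (x + fun i => ((w * (y i : ℕ) : ℕ) : ZMod n)) w)) / (m : ℝ) ^ 3 ≤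
      C * β ^ (-(3 / 2) : ℝ)

/-- (B0) start of the bootstrap: the uniform field `1/(sβ)`. -/
def StartStmt3S (s : ℕ) : Prop :=
  ∃ C β0 : ℝ, ∀ β : ℝ, β0 ≤ β → ∃ n0 : ℕ, ∀ (n : ℕ) [NeZero n], n0 ≤ n → Odd n →
    ∃ M0 : ℕ, ∀ M : ℕ, M0 ≤ M → ∀ z : Tor n × Fin s,
      rho (edgesS n s M) β (hS fun _ => 1 / (s * β)) z ≤ C * β ^ (-(3 / 2) : ℝ)

/-- (B) output of the bootstrap: Bloch's order for all profiles. -/
def BootStmt3S (s : ℕ) : Prop :=
  ∃ C7 β0 : ℝ, 0 < C7 ∧ ∀ β : ℝ, β0 ≤ β → ∃ n0 : ℕ, ∀ (n : ℕ) [NeZero n], n0 ≤ n → Odd n →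
    ∃ M0 : ℕ, ∀ M : ℕ, M0 ≤ M → ∀ g0 : ℝ, (n : ℝ) ^ (-(1 / 4) : ℝ) ≤ g0 → g0 ≤ 1 →
      BH3S n s M β (C7 * β ^ (-(3 / 2) : ℝ)) g0

/-- (M) sharp mean of `N_b` (`|b| = s w^3`), uniform small field. -/
def MeanStmt3S (s : ℕ) : Prop :=
  ∃ d : ℝ, 0 < d ∧ d ≤ 1 / 100 ∧ ∀ δ : ℝ, 0 < δ → ∃ β0 : ℝ, ∀ β : ℝ, β0 ≤ β → ∀ a : ℕ,
    β ^ (1 / 2 + d) ≤ (3 : ℝ) ^ a → (3 : ℝ) ^ a ≤ 3 * β ^ (1 / 2 + d) →
    ∀ h : ℝ, 0 < h → h ≤ β ^ (-(10 : ℝ)) → ∃ n0 : ℕ, ∀ (n : ℕ) [NeZero n], n0 ≤ n → Odd n →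
    ∃ M0 : ℕ, ∀ M : ℕ, M0 ≤ M → ∀ x : Tor n,
      yb (edgesS n s M) β (hS fun _ => h) (cubeS n s x (3 ^ a)) ≤
        (1 + δ) * (BCS s / s) * β ^ (-(3 / 2) : ℝ)

/-- (T) lower tail of `N_b`. -/
def TailStmt3S (s : ℕ) : Prop :=
  ∀ d : ℝ, 0 < d → d ≤ 1 / 100 → ∀ δ : ℝ, 0 < δ → ∃ β0 : ℝ, ∀ β : ℝ, β0 ≤ β → ∀ a : ℕ,
    β ^ (1 / 2 + d) ≤ (3 : ℝ) ^ a → (3 : ℝ) ^ a ≤ 3 * β ^ (1 / 2 + d) →
    ∀ h : ℝ, 0 < h → h ≤ β ^ (-(10 : ℝ)) → ∃ n0 : ℕ, ∀ (n : ℕ) [NeZero n], n0 ≤ n → Odd n →
    ∀ (x : Tor n) (P : Polynomial ℝ),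
      (∀ r : ℕ, 2 * r ≤ (cubeS n s x (3 ^ a)).card →
        P.eval ((r : ℝ) * (((cubeS n s x (3 ^ a)).card : ℝ) - r + 1)) ≤
          if (r : ℝ) < (1 - δ) * (BCS s / s) * β ^ (-(3 / 2) : ℝ) * (cubeS n s x (3 ^ a)).card
          then 1 else 0) →
      ∃ M0 : ℕ, ∀ M : ℕ, M0 ≤ M →
        gib (edgesS n s M) β (hS fun _ => h) (Polynomial.aeval (CM (cubeS n s x (3 ^ a))) P) ≤ δ

/-- (F) output for the torus: `s ρ = S - m` per site. -/
def FinalStmt3S (s : ℕ) : Prop :=
  ∀ ε : ℝ, 0 < ε → ∃ β0 : ℝ, ∀ β : ℝ, β0 ≤ β → ∀ h : ℝ, 0 < h → h ≤ β ^ (-(10 : ℝ)) →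
    ∃ n0 : ℕ, ∀ (n : ℕ) [NeZero n], n0 ≤ n → Odd n → ∃ M0 : ℕ, ∀ M : ℕ, M0 ≤ M →
      ∀ z : Tor n × Fin s,
        s * rho (edgesS n s M) β (hS fun _ => h) z ≤ (1 + ε) * BCS s * β ^ (-(3 / 2) : ℝ)

end

end Vale.Agent.P361.LRO.S3S
end

section

/-!
Part B: joint diagonalization with a number operator.
-/

namespace Vale.Agent.P361.B

open Matrix Finset

variable {κ : Type*} [Fintype κ] [DecidableEq κ]

lemma joint_diag (A : Matrix κ κ ℝ) (hA : Aᵀ = A) (tot : κ → ℕ)
    (hcomm : ∀ i j, tot i ≠ tot j → A i j = 0) :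
    ∃ (U : Matrix κ κ ℝ) (E : κ → ℝ) (Nn : κ → ℕ), Uᵀ * U = 1 ∧ U * Uᵀ = 1 ∧
      A = U * diagonal E * Uᵀ ∧ ∀ i j, tot i ≠ Nn j → U i j = 0 := by
  set C : ℝ := ∑ i, ∑ j, |A i j| with hC
  have hC0 : 0 ≤ C := Finset.sum_nonneg fun i _ => Finset.sum_nonneg fun j _ => abs_nonneg _
  set τ : ℝ := 2 * C + 1 with hτ
  set B : Matrix κ κ ℝ := A + τ • diagonal (fun i => (tot i : ℝ)) with hB
  have hBh : B.IsHermitian := by
    unfold Matrix.IsHermitian
    rw [hB, Matrix.conjTranspose_add, Matrix.conjTranspose_smul, Matrix.diagonal_conjTranspose]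
    have h1 : Aᴴ = A := by
      ext i j
      rw [Matrix.conjTranspose_apply]
      simp only [star_trivial]
      conv_rhs => rw [← hA]
      rfl
    rw [h1]
    simp
  set U : Matrix κ κ ℝ := (hBh.eigenvectorUnitary : Matrix κ κ ℝ) with hU
  have hstar : star U = Uᵀ := by
    ext i j
    rw [Matrix.star_apply, Matrix.transpose_apply]; simp
  have hUU : Uᵀ * U = 1 := by rw [← hstar]; exact Unitary.coe_star_mul_self _
  have hUU' : U * Uᵀ = 1 := by rw [← hstar]; exact Unitary.coe_mul_star_self _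
  set b : κ → ℝ := hBh.eigenvalues with hb
  have hspec : B = U * diagonal b * Uᵀ := by
    have h := hBh.spectral_theorem
    rw [Unitary.conjStarAlgAut_apply] at h
    rw [← hstar]
    exact h
  have hcol : B * U = U * diagonal b := by
    calc B * U = U * diagonal b * Uᵀ * U := by rw [← hspec]
      _ = U * diagonal b := by rw [Matrix.mul_assoc, hUU, Matrix.mul_one]
  -- mass in each sector
  set S : ℕ → κ → ℝ := fun N j => ∑ i, if tot i = N then U i j ^ 2 else 0 with hS
  have hS0 : ∀ N j, 0 ≤ S N j := fun N j =>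
    Finset.sum_nonneg fun i _ => by split_ifs <;> positivity
  have hle : ∀ i j, U i j ^ 2 ≤ S (tot i) j := by
    intro i j
    have := Finset.single_le_sum (f := fun k => if tot k = tot i then U k j ^ 2 else 0)
      (fun k _ => by split_ifs <;> positivity) (Finset.mem_univ i)
    simpa using this
  have hkey : ∀ (N : ℕ) (j : κ), |b j - τ * N| * S N j ≤ C * S N j := by
    intro N j
    have h1 : ∀ i, (∑ k, A i k * U k j) + τ * tot i * U i j = U i j * b j := by
      intro i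
      have h2 := congrFun (congrFun hcol i) j
      rw [Matrix.mul_diagonal, Matrix.mul_apply] at h2
      rw [← h2, hB]
      simp only [Matrix.add_apply, Matrix.smul_apply, Matrix.diagonal_apply, add_mul,
        Finset.sum_add_distrib, smul_eq_mul]
      congr 1
      rw [Finset.sum_eq_single i]
      · simp
      · intro k _ hk; simp [Ne.symm hk]
      · simp
    have h2 : (b j - τ * N) * S N j =
        ∑ i, ∑ k, if tot i = N then A i k * (U i j * U k j) else 0 := by
      simp only [hS]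
      rw [Finset.mul_sum]
      refine Finset.sum_congr rfl fun i _ => ?_
      by_cases hi : tot i = N
      · simp only [if_pos hi]
        have h3 := h1 i
        rw [hi] at h3
        calc (b j - τ * N) * U i j ^ 2 = U i j * (U i j * b j - τ * N * U i j) := by ring
          _ = U i j * ∑ k, A i k * U k j := by rw [← h3]; ring
          _ = _ := by rw [Finset.mul_sum]; exact Finset.sum_congr rfl fun k _ => by ring
      · simp [if_neg hi]
    calc |b j - τ * N| * S N j = |(b j - τ * N) * S N j| := by rw [abs_mul, abs_of_nonneg (hS0 N j)]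
      _ = |∑ i, ∑ k, if tot i = N then A i k * (U i j * U k j) else 0| := by rw [h2]
      _ ≤ ∑ i, ∑ k, |A i k| * S N j := by
          refine (Finset.abs_sum_le_sum_abs _ _).trans (Finset.sum_le_sum fun i _ => ?_)
          refine (Finset.abs_sum_le_sum_abs _ _).trans (Finset.sum_le_sum fun k _ => ?_)
          split_ifs with hi
          · rw [abs_mul]
            by_cases hk : tot i = tot k
            · refine mul_le_mul_of_nonneg_left ?_ (abs_nonneg _)
              have e1 := hle i j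
              have e2 := hle k j
              rw [hi] at e1
              rw [← hk, hi] at e2
              rw [abs_le]
              constructor <;> nlinarith [sq_nonneg (U i j + U k j), sq_nonneg (U i j - U k j)]
            · rw [hcomm i k hk]; simp
          · rw [abs_zero]; exact mul_nonneg (abs_nonneg _) (hS0 N j)
      _ = C * S N j := by
          rw [hC, Finset.sum_mul]
          exact Finset.sum_congr rfl fun i _ => by rw [Finset.sum_mul]
  have hnz : ∀ j, ∃ i, U i j ≠ 0 := by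
    intro j
    by_contra hcon
    push Not at hcon
    have h1 := congrFun (congrFun hUU j) j
    rw [Matrix.mul_apply, Matrix.one_apply_eq] at h1
    rw [Finset.sum_eq_zero] at h1
    · exact zero_ne_one h1
    · intro i _
      rw [hcon i, mul_zero]
  choose i0 hi0 using hnz
  have hzero : ∀ i j, tot i ≠ tot (i0 j) → U i j = 0 := by
    intro i j hij
    by_contra hne
    have p1 : 0 < S (tot i) j := lt_of_lt_of_le (by positivity) (hle i j)
    have p2 : 0 < S (tot (i0 j)) j :=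
      lt_of_lt_of_le (by have := hi0 j; positivity) (hle (i0 j) j)
    have q1 : |b j - τ * tot i| ≤ C := le_of_mul_le_mul_right (hkey _ _) p1
    have q2 : |b j - τ * tot (i0 j)| ≤ C := le_of_mul_le_mul_right (hkey _ _) p2
    have h3 : τ ≤ |τ * tot i - τ * tot (i0 j)| := by
      rw [← mul_sub, abs_mul, abs_of_nonneg (by positivity : 0 ≤ τ)]
      have : (1 : ℝ) ≤ |(tot i : ℝ) - tot (i0 j)| := by
        have h4 : (1 : ℤ) ≤ |(tot i : ℤ) - tot (i0 j)| := by
          exact Int.one_le_abs (by omega)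
        exact_mod_cast h4
      nlinarith
    have h5 : |τ * tot i - τ * tot (i0 j)| ≤ |b j - τ * tot i| + |b j - τ * tot (i0 j)| := by
      rw [abs_sub_comm (b j) (τ * tot i)]
      have := abs_add_le (τ * tot i - b j) (b j - τ * tot (i0 j))
      simpa using this
    linarith
  refine ⟨U, fun j => b j - τ * tot (i0 j), fun j => tot (i0 j), hUU, hUU', ?_, hzero⟩
  have hnum : diagonal (fun i => (tot i : ℝ)) = U * diagonal (fun j => (tot (i0 j) : ℝ)) * Uᵀ := by
    have h1 : diagonal (fun i => (tot i : ℝ)) * U = U * diagonal (fun j => (tot (i0 j) : ℝ)) := by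
      ext i j
      rw [Matrix.diagonal_mul, Matrix.mul_diagonal]
      by_cases hij : tot i = tot (i0 j)
      · rw [hij]; ring
      · rw [hzero i j hij]; ring
    rw [← h1, Matrix.mul_assoc, hUU', Matrix.mul_one]
  have h1 : A = B - τ • diagonal (fun i => (tot i : ℝ)) := by rw [hB]; simp
  have h2 : (diagonal fun j => b j - τ * (tot (i0 j) : ℝ)) =
      diagonal b - τ • diagonal (fun j => (tot (i0 j) : ℝ)) := by
    rw [← Matrix.diagonal_smul, Matrix.diagonal_sub]
    rfl
  rw [h2, Matrix.mul_sub, Matrix.sub_mul, ← hspec, Matrix.mul_smul, Matrix.smul_mul, ← hnum]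
  exact h1

lemma trace_exp_real_conj (U : Matrix κ κ ℝ) (h1 : Uᵀ * U = 1) (h2 : U * Uᵀ = 1) (d : κ → ℝ) :
    trace (NormedSpace.exp ((U * diagonal d * Uᵀ).map (fun r : ℝ => (r : ℂ)))) =
      ((∑ i, Real.exp (d i) : ℝ) : ℂ) := by
  set W : Matrix κ κ ℂ := U.map (fun r : ℝ => (r : ℂ)) with hW
  have hWi : W⁻¹ = (Uᵀ).map (fun r : ℝ => (r : ℂ)) := by
    apply Matrix.inv_eq_right_inv
    have := congrArg (fun M : Matrix κ κ ℝ => M.map (fun r : ℝ => (r : ℂ))) h2
    have e1 := Matrix.map_mul (L := U) (M := Uᵀ) (f := Complex.ofRealHom)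
    have e2 : (1 : Matrix κ κ ℝ).map (fun r : ℝ => (r : ℂ)) = 1 := by
      ext i j
      by_cases h : i = j
      · subst h; simp
      · simp [Matrix.one_apply_ne h]
    rw [e2] at this
    exact e1.symm.trans this
  have hunit : IsUnit W := by
    have := congrArg (fun M : Matrix κ κ ℝ => M.map (fun r : ℝ => (r : ℂ))) h2
    have e1 := Matrix.map_mul (L := U) (M := Uᵀ) (f := Complex.ofRealHom)
    have e2 : (1 : Matrix κ κ ℝ).map (fun r : ℝ => (r : ℂ)) = 1 := by
      ext i j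
      by_cases h : i = j
      · subst h; simp
      · simp [Matrix.one_apply_ne h]
    rw [e2] at this
    exact IsUnit.of_mul_eq_one _ (e1.symm.trans this)
  have hD : (diagonal d).map (fun r : ℝ => (r : ℂ)) = diagonal (fun i => ((d i : ℝ) : ℂ)) := by
    rw [Matrix.diagonal_map (by simp)]
  have hfac : (U * diagonal d * Uᵀ).map (fun r : ℝ => (r : ℂ)) =
      W * diagonal (fun i => ((d i : ℝ) : ℂ)) * W⁻¹ := by
    rw [hWi, ← hD]
    have e1 := Matrix.map_mul (L := U * diagonal d) (M := Uᵀ) (f := Complex.ofRealHom)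
    have e2 := Matrix.map_mul (L := U) (M := diagonal d) (f := Complex.ofRealHom)
    rw [e2] at e1
    exact e1
  rw [hfac, Matrix.exp_conj _ _ hunit, Matrix.exp_diagonal, Matrix.trace_mul_comm,
    ← Matrix.mul_assoc, Matrix.nonsing_inv_mul _ ((Matrix.isUnit_iff_isUnit_det _).1 hunit),
    Matrix.one_mul, Matrix.trace_diagonal]
  push_cast
  refine Finset.sum_congr rfl fun i _ => ?_
  rw [Pi.exp_def]
  simp [Complex.exp_eq_exp_ℂ]

end Vale.Agent.P361.B
end

section

set_option linter.unusedSectionVars false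

/-!
Part B: pair functions of eigenvectors. Occupation numbers are functions `V → ℕ`.
-/

namespace Vale.Agent.P361.B

open Finset

variable {V : Type*} [Fintype V] [DecidableEq V]

/-- Occupation numbers at most `n`. -/
def occBox (V : Type*) [Fintype V] [DecidableEq V] (n : ℕ) : Finset (V → ℕ) :=
  Fintype.piFinset fun _ => Finset.range (n + 1)

lemma mem_occBox {n : ℕ} {ζ : V → ℕ} : ζ ∈ occBox V n ↔ ∀ x, ζ x ≤ n := by
  simp [occBox]

lemma add_single_apply (σ : V → ℕ) (x y : V) :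
    ((σ + Pi.single y 1 : V → ℕ) x : ℝ) = (σ x : ℝ) + if x = y then 1 else 0 := by
  rw [Pi.add_apply]
  by_cases h : x = y
  · subst h; simp
  · simp [h]

lemma sub_single_apply (η : V → ℕ) (x y : V) (hy : 0 < η y) :
    ((η - Pi.single y 1 : V → ℕ) x : ℝ) = (η x : ℝ) - if x = y then 1 else 0 := by
  rw [Pi.sub_apply]
  by_cases h : x = y
  · subst h
    simp only [Pi.single_eq_same, if_true]
    rw [Nat.cast_sub hy]; simp
  · simp [h]

lemma sub_add_single (η : V → ℕ) (y : V) (hy : 0 < η y) :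
    (η - Pi.single y 1 : V → ℕ) + Pi.single y 1 = η := by
  ext x
  rw [Pi.add_apply, Pi.sub_apply]
  by_cases h : x = y
  · subst h; simp; omega
  · simp [h]

lemma add_sub_single (σ : V → ℕ) (y : V) :
    (σ + Pi.single y 1 : V → ℕ) - Pi.single y 1 = σ := by
  ext x
  rw [Pi.sub_apply, Pi.add_apply]; omega

lemma sum_shift (n : ℕ) (y : V) (F g : (V → ℕ) → ℝ) (hF : ∀ ζ, ζ ∉ occBox V n → F ζ = 0) :
    ∑ σ ∈ occBox V n, ((σ y : ℝ) + 1) * F (σ + Pi.single y 1) * g σ =
      ∑ η ∈ occBox V n, (η y : ℝ) * F η * g (η - Pi.single y 1) := by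
  have h1 : ∑ σ ∈ occBox V n, ((σ y : ℝ) + 1) * F (σ + Pi.single y 1) * g σ =
      ∑ σ ∈ (occBox V n).filter (fun σ => σ y < n),
        ((σ y : ℝ) + 1) * F (σ + Pi.single y 1) * g σ := by
    rw [Finset.sum_filter]
    refine Finset.sum_congr rfl fun σ hσ => ?_
    split_ifs with h
    · rfl
    · rw [hF]
      · ring
      · rw [mem_occBox]
        push Not
        refine ⟨y, ?_⟩
        simp; omega
  have h2 : ∑ η ∈ occBox V n, (η y : ℝ) * F η * g (η - Pi.single y 1) =
      ∑ η ∈ (occBox V n).filter (fun η => 0 < η y),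
        (η y : ℝ) * F η * g (η - Pi.single y 1) := by
    rw [Finset.sum_filter]
    refine Finset.sum_congr rfl fun η hη => ?_
    split_ifs with h
    · rfl
    · have : η y = 0 := by omega
      rw [this]; simp
  rw [h1, h2]
  refine Finset.sum_nbij' (fun σ => σ + Pi.single y 1) (fun η => η - Pi.single y 1) ?_ ?_ ?_ ?_ ?_
  · intro σ hσ
    rw [Finset.mem_filter, mem_occBox] at hσ ⊢
    refine ⟨fun x => ?_, by simp⟩
    rw [Pi.add_apply]
    by_cases h : x = y
    · subst h; simp; omega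
    · simp [h, hσ.1 x]
  · intro η hη
    rw [Finset.mem_filter, mem_occBox] at hη ⊢
    refine ⟨fun x => ?_, ?_⟩
    · rw [Pi.sub_apply]; exact (Nat.sub_le _ _).trans (hη.1 x)
    · have := hη.1 y
      have h0 := hη.2
      simp; omega
  · intro σ _
    exact add_sub_single σ y
  · intro η hη
    exact sub_add_single η y (Finset.mem_filter.1 hη).2
  · intro σ hσ
    rw [add_sub_single, add_single_apply, if_pos rfl]

/-- The edge operator `a_x b_y - b_x a_y` on functions of occupation numbers. -/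
noncomputable def edgeT (n : ℕ) (x y : V) (f : (V → ℕ) → ℝ) (σ : V → ℕ) : ℝ :=
  Real.sqrt ((n : ℝ) - σ x) * (Real.sqrt ((σ y : ℝ) + 1) * f (σ + Pi.single y 1)) -
    Real.sqrt ((n : ℝ) - σ y) * (Real.sqrt ((σ x : ℝ) + 1) * f (σ + Pi.single x 1))

/-- `ψ` is a normalized eigenvector with `N` magnons and energy `E` (weak form). -/
structure IsEig (n : ℕ) (adj : V → V → Prop) [DecidableRel adj] (N : ℕ) (E : ℝ)
    (ψ : (V → ℕ) → ℝ) : Prop where
  supp : ∀ ζ, ζ ∉ occBox V n → ψ ζ = 0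
  sect : ∀ ζ, ∑ x, ζ x ≠ N → ψ ζ = 0
  norm : ∑ ζ ∈ occBox V n, ψ ζ ^ 2 = 1
  weak : ∀ X : (V → ℕ) → ℝ, E * ∑ ζ ∈ occBox V n, X ζ * ψ ζ ^ 2 =
    1 / 4 * ∑ x, ∑ y, if adj x y then
      ∑ σ ∈ occBox V n, edgeT n x y (fun ζ => X ζ * ψ ζ) σ * edgeT n x y ψ σ else 0

section

variable {n N : ℕ} {adj : V → V → Prop} [DecidableRel adj] {E : ℝ} {ψ : (V → ℕ) → ℝ}

lemma edge_pointwise (x y : V) (X : (V → ℕ) → ℝ) (hX : ∀ ζ, 0 ≤ X ζ) (σ : V → ℕ)
    (hσ : σ ∈ occBox V n) :
    1 / 2 * ((((n : ℝ) - σ x) * ((σ y : ℝ) + 1) * ψ (σ + Pi.single y 1) ^ 2 *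
        (X (σ + Pi.single y 1) - X (σ + Pi.single x 1))) +
      (((n : ℝ) - σ y) * ((σ x : ℝ) + 1) * ψ (σ + Pi.single x 1) ^ 2 *
        (X (σ + Pi.single x 1) - X (σ + Pi.single y 1)))) ≤
      edgeT n x y (fun ζ => X ζ * ψ ζ) σ * edgeT n x y ψ σ := by
  rw [mem_occBox] at hσ
  have hx : 0 ≤ (n : ℝ) - σ x := by have := hσ x; rw [sub_nonneg]; exact_mod_cast this
  have hy : 0 ≤ (n : ℝ) - σ y := by have := hσ y; rw [sub_nonneg]; exact_mod_cast this
  have hx1 : (0 : ℝ) ≤ (σ x : ℝ) + 1 := by positivity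
  have hy1 : (0 : ℝ) ≤ (σ y : ℝ) + 1 := by positivity
  simp only [edgeT]
  set Xy := X (σ + Pi.single y 1) with hXy
  set Xx := X (σ + Pi.single x 1) with hXx
  set A := Real.sqrt ((n : ℝ) - σ x) * (Real.sqrt ((σ y : ℝ) + 1) * ψ (σ + Pi.single y 1)) with hA
  set B := Real.sqrt ((n : ℝ) - σ y) * (Real.sqrt ((σ x : ℝ) + 1) * ψ (σ + Pi.single x 1)) with hB
  have eA : A ^ 2 = ((n : ℝ) - σ x) * ((σ y : ℝ) + 1) * ψ (σ + Pi.single y 1) ^ 2 := by
    rw [hA, mul_pow, mul_pow, Real.sq_sqrt hx, Real.sq_sqrt hy1]; ring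
  have eB : B ^ 2 = ((n : ℝ) - σ y) * ((σ x : ℝ) + 1) * ψ (σ + Pi.single x 1) ^ 2 := by
    rw [hB, mul_pow, mul_pow, Real.sq_sqrt hy, Real.sq_sqrt hx1]; ring
  rw [← eA, ← eB]
  have e1 : Real.sqrt ((n : ℝ) - σ x) * (Real.sqrt ((σ y : ℝ) + 1) *
      (Xy * ψ (σ + Pi.single y 1))) = Xy * A := by rw [hA]; ring
  have e2 : Real.sqrt ((n : ℝ) - σ y) * (Real.sqrt ((σ x : ℝ) + 1) *
      (Xx * ψ (σ + Pi.single x 1))) = Xx * B := by rw [hB]; ring
  rw [e1, e2]
  have h1 : 0 ≤ Xx := hX _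
  have h2 : 0 ≤ Xy := hX _
  nlinarith [mul_nonneg (add_nonneg h1 h2) (sq_nonneg (A - B))]

lemma IsEig.dirichlet (h : IsEig n adj N E ψ) (hadj : ∀ x y, adj x y → adj y x)
    (X : (V → ℕ) → ℝ) (hX : ∀ ζ, 0 ≤ X ζ) :
    1 / 4 * ∑ x, ∑ y, (if adj x y then ∑ σ ∈ occBox V n,
      ((n : ℝ) - σ x) * ((σ y : ℝ) + 1) * ψ (σ + Pi.single y 1) ^ 2 *
        (X (σ + Pi.single y 1) - X (σ + Pi.single x 1)) else 0) ≤
      E * ∑ ζ ∈ occBox V n, X ζ * ψ ζ ^ 2 := by
  rw [h.weak X]
  refine mul_le_mul_of_nonneg_left ?_ (by norm_num)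
  set t : V → V → ℝ := fun x y => ∑ σ ∈ occBox V n,
      ((n : ℝ) - σ x) * ((σ y : ℝ) + 1) * ψ (σ + Pi.single y 1) ^ 2 *
        (X (σ + Pi.single y 1) - X (σ + Pi.single x 1)) with ht
  have hsymm : ∑ x, ∑ y, (if adj x y then t x y else 0) =
      ∑ x, ∑ y, (if adj x y then t y x else 0) := by
    rw [Finset.sum_comm]
    refine Finset.sum_congr rfl fun y _ => Finset.sum_congr rfl fun x _ => ?_
    by_cases hxy : adj x y
    · rw [if_pos hxy, if_pos (hadj _ _ hxy)]
    · rw [if_neg hxy, if_neg fun h' => hxy (hadj _ _ h')]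
  have hhalf : ∑ x, ∑ y, (if adj x y then t x y else 0) =
      ∑ x, ∑ y, (if adj x y then 1 / 2 * (t x y + t y x) else 0) := by
    have : ∑ x, ∑ y, (if adj x y then 1 / 2 * (t x y + t y x) else 0) =
        1 / 2 * (∑ x, ∑ y, (if adj x y then t x y else 0) +
          ∑ x, ∑ y, (if adj x y then t y x else 0)) := by
      rw [← Finset.sum_add_distrib, Finset.mul_sum]
      refine Finset.sum_congr rfl fun x _ => ?_
      rw [← Finset.sum_add_distrib, Finset.mul_sum]
      refine Finset.sum_congr rfl fun y _ => ?_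
      split_ifs <;> ring
    rw [this, ← hsymm]; ring
  rw [hhalf]
  refine Finset.sum_le_sum fun x _ => Finset.sum_le_sum fun y _ => ?_
  split_ifs with hxy
  · rw [ht, ← Finset.sum_add_distrib, Finset.mul_sum]
    exact Finset.sum_le_sum fun σ hσ => edge_pointwise x y X hX σ hσ
  · exact le_rfl

/-- `φ(u,v) = ⟨η_u (η_v - δ_uv)⟩`. -/
noncomputable def pairFn (n : ℕ) (ψ : (V → ℕ) → ℝ) (u v : V) : ℝ :=
  ∑ η ∈ occBox V n, ((η u : ℝ) * ((η v : ℝ) - if u = v then 1 else 0)) * ψ η ^ 2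

lemma pair_nonneg_aux (η : V → ℕ) (u v : V) :
    0 ≤ (η u : ℝ) * ((η v : ℝ) - if u = v then 1 else 0) := by
  split_ifs with h
  · subst h
    rcases Nat.eq_zero_or_pos (η u) with h0 | h0
    · rw [h0]; simp
    · have : (1 : ℝ) ≤ η u := by exact_mod_cast h0
      exact mul_nonneg (by linarith) (by linarith)
  · rw [sub_zero]; positivity

lemma pair_symm_aux (η : V → ℕ) (u v : V) :
    (η u : ℝ) * ((η v : ℝ) - if u = v then 1 else 0) =
      (η v : ℝ) * ((η u : ℝ) - if v = u then 1 else 0) := by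
  by_cases h : u = v
  · subst h; ring
  · rw [if_neg h, if_neg (Ne.symm h)]; ring

lemma pairFn_symm (u v : V) : pairFn n ψ u v = pairFn n ψ v u :=
  Finset.sum_congr rfl fun η _ => by rw [pair_symm_aux]

lemma pair_diff (σ : V → ℕ) (u v x y : V) :
    ((σ + Pi.single y 1 : V → ℕ) u : ℝ) *
        (((σ + Pi.single y 1 : V → ℕ) v : ℝ) - if u = v then 1 else 0) -
      ((σ + Pi.single x 1 : V → ℕ) u : ℝ) *
        (((σ + Pi.single x 1 : V → ℕ) v : ℝ) - if u = v then 1 else 0) =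
    ((if u = y then 1 else 0) - if u = x then 1 else 0) * (σ v : ℝ) +
      ((if v = y then 1 else 0) - if v = x then 1 else 0) * (σ u : ℝ) := by
  simp only [add_single_apply]
  by_cases huv : u = v
  · subst huv
    rw [if_pos rfl]
    by_cases h1 : u = y
    · by_cases h2 : u = x
      · simp only [if_pos h1, if_pos h2]; ring
      · simp only [if_pos h1, if_neg h2]; ring
    · by_cases h2 : u = x
      · simp only [if_neg h1, if_pos h2]; ring
      · simp only [if_neg h1, if_neg h2]; ring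
  · by_cases h1 : u = y
    · have h3 : v ≠ y := fun h => huv (h1.trans h.symm)
      by_cases h2 : u = x
      · have h4 : v ≠ x := fun h => huv (h2.trans h.symm)
        simp only [if_neg huv, if_pos h1, if_pos h2, if_neg h3, if_neg h4]; ring
      · by_cases h4 : v = x
        · simp only [if_neg huv, if_pos h1, if_neg h2, if_neg h3, if_pos h4]; ring
        · simp only [if_neg huv, if_pos h1, if_neg h2, if_neg h3, if_neg h4]; ring
    · by_cases h3 : v = y
      · by_cases h2 : u = x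
        · have h4 : v ≠ x := fun h => huv (h2.trans h.symm)
          simp only [if_neg huv, if_neg h1, if_pos h2, if_pos h3, if_neg h4]; ring
        · by_cases h4 : v = x
          · simp only [if_neg huv, if_neg h1, if_neg h2, if_pos h3, if_pos h4]; ring
          · simp only [if_neg huv, if_neg h1, if_neg h2, if_pos h3, if_neg h4]; ring
      · by_cases h2 : u = x
        · have h4 : v ≠ x := fun h => huv (h2.trans h.symm)
          simp only [if_neg huv, if_neg h1, if_pos h2, if_neg h3, if_neg h4]; ring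
        · by_cases h4 : v = x
          · simp only [if_neg huv, if_neg h1, if_neg h2, if_neg h3, if_pos h4]; ring
          · simp only [if_neg huv, if_neg h1, if_neg h2, if_neg h3, if_neg h4]; ring

lemma IsEig.term_eq (h : IsEig n adj N E ψ) (u v x y : V) (hxy : x ≠ y) :
    ∑ σ ∈ occBox V n, ((n : ℝ) - σ x) * ((σ y : ℝ) + 1) * ψ (σ + Pi.single y 1) ^ 2 *
        (((σ + Pi.single y 1 : V → ℕ) u : ℝ) *
            (((σ + Pi.single y 1 : V → ℕ) v : ℝ) - if u = v then 1 else 0) -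
          ((σ + Pi.single x 1 : V → ℕ) u : ℝ) *
            (((σ + Pi.single x 1 : V → ℕ) v : ℝ) - if u = v then 1 else 0)) =
      ∑ η ∈ occBox V n, ψ η ^ 2 * ((η y : ℝ) * ((n : ℝ) - η x) *
        (((if u = y then 1 else 0) - if u = x then 1 else 0) *
            ((η v : ℝ) - if v = y then 1 else 0) +
          ((if v = y then 1 else 0) - if v = x then 1 else 0) *
            ((η u : ℝ) - if u = y then 1 else 0))) := by
  have hF : ∀ ζ, ζ ∉ occBox V n → (fun ζ => ψ ζ ^ 2) ζ = 0 := by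
    intro ζ hζ
    simp only [h.supp ζ hζ]; norm_num
  have key := sum_shift n y (fun ζ => ψ ζ ^ 2) (fun σ => ((n : ℝ) - σ x) *
    (((if u = y then 1 else 0) - if u = x then 1 else 0) * (σ v : ℝ) +
      ((if v = y then 1 else 0) - if v = x then 1 else 0) * (σ u : ℝ))) hF
  calc _ = ∑ σ ∈ occBox V n, ((σ y : ℝ) + 1) * ψ (σ + Pi.single y 1) ^ 2 *
        (((n : ℝ) - σ x) * (((if u = y then 1 else 0) - if u = x then 1 else 0) * (σ v : ℝ) +
      ((if v = y then 1 else 0) - if v = x then 1 else 0) * (σ u : ℝ))) := by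
        refine Finset.sum_congr rfl fun σ _ => ?_
        rw [pair_diff]; ring
    _ = _ := key
    _ = _ := by
        refine Finset.sum_congr rfl fun η _ => ?_
        rcases Nat.eq_zero_or_pos (η y) with h0 | h0
        · rw [h0]; simp
        · rw [sub_single_apply η x y h0, sub_single_apply η v y h0, sub_single_apply η u y h0,
            if_neg hxy]
          ring

lemma sum_delta_right (adj : V → V → Prop) [DecidableRel adj] (u : V) (g : V → V → ℝ) :
    ∑ x, ∑ y, (if adj x y then (if u = y then 1 else 0) * g x y else 0) =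
      ∑ x, if adj x u then g x u else 0 := by
  refine Finset.sum_congr rfl fun x _ => ?_
  rw [Finset.sum_eq_single u]
  · simp
  · intro y _ hy
    rw [if_neg (Ne.symm hy)]; simp
  · simp

lemma sum_delta_left (adj : V → V → Prop) [DecidableRel adj] (u : V) (g : V → V → ℝ) :
    ∑ x, ∑ y, (if adj x y then (if u = x then 1 else 0) * g x y else 0) =
      ∑ y, if adj u y then g u y else 0 := by
  rw [Finset.sum_comm]
  refine Finset.sum_congr rfl fun y _ => ?_
  rw [Finset.sum_eq_single u]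
  · simp
  · intro x _ hx
    rw [if_neg (Ne.symm hx)]; simp
  · simp

lemma pair_combine (hadj : ∀ x y, adj x y → adj y x) (hirr : ∀ x, ¬ adj x x)
    (η : V → ℕ) (u v : V) :
    ∑ x, ∑ y, (if adj x y then (η y : ℝ) * ((n : ℝ) - η x) *
        (((if u = y then 1 else 0) - if u = x then 1 else 0) *
            ((η v : ℝ) - if v = y then 1 else 0) +
          ((if v = y then 1 else 0) - if v = x then 1 else 0) *
            ((η u : ℝ) - if u = y then 1 else 0)) else 0) =
    ∑ z, (if adj u z then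
        (n : ℝ) * ((η u : ℝ) * ((η v : ℝ) - if u = v then 1 else 0)) -
        n * ((η z : ℝ) * ((η v : ℝ) - if z = v then 1 else 0)) +
        ((if u = v then 1 else 0) - if v = z then 1 else 0) *
          ((η z : ℝ) * ((η u : ℝ) - if z = u then 1 else 0)) else 0) +
    ∑ z, (if adj v z then
        (n : ℝ) * ((η u : ℝ) * ((η v : ℝ) - if u = v then 1 else 0)) -
        n * ((η z : ℝ) * ((η u : ℝ) - if z = u then 1 else 0)) +
        ((if u = v then 1 else 0) - if u = z then 1 else 0) *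
          ((η z : ℝ) * ((η v : ℝ) - if z = v then 1 else 0)) else 0) := by
  have hsym : ∀ x y, adj x y ↔ adj y x := fun x y => ⟨hadj x y, hadj y x⟩
  have expand : ∑ x, ∑ y, (if adj x y then (η y : ℝ) * ((n : ℝ) - η x) *
        (((if u = y then 1 else 0) - if u = x then 1 else 0) *
            ((η v : ℝ) - if v = y then 1 else 0) +
          ((if v = y then 1 else 0) - if v = x then 1 else 0) *
            ((η u : ℝ) - if u = y then 1 else 0)) else 0) =
      (∑ x, ∑ y, (if adj x y then (if u = y then 1 else 0) *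
          ((η y : ℝ) * ((n : ℝ) - η x) * ((η v : ℝ) - if v = y then 1 else 0)) else 0) -
       ∑ x, ∑ y, (if adj x y then (if u = x then 1 else 0) *
          ((η y : ℝ) * ((n : ℝ) - η x) * ((η v : ℝ) - if v = y then 1 else 0)) else 0)) +
      (∑ x, ∑ y, (if adj x y then (if v = y then 1 else 0) *
          ((η y : ℝ) * ((n : ℝ) - η x) * ((η u : ℝ) - if u = y then 1 else 0)) else 0) -
       ∑ x, ∑ y, (if adj x y then (if v = x then 1 else 0) *
          ((η y : ℝ) * ((n : ℝ) - η x) * ((η u : ℝ) - if u = y then 1 else 0)) else 0)) := by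
    rw [← Finset.sum_sub_distrib, ← Finset.sum_sub_distrib, ← Finset.sum_add_distrib]
    refine Finset.sum_congr rfl fun x _ => ?_
    rw [← Finset.sum_sub_distrib, ← Finset.sum_sub_distrib, ← Finset.sum_add_distrib]
    refine Finset.sum_congr rfl fun y _ => ?_
    by_cases hxy : adj x y
    · simp only [if_pos hxy]; ring
    · simp only [if_neg hxy]; ring
  rw [expand, sum_delta_right, sum_delta_left, sum_delta_right, sum_delta_left,
    ← Finset.sum_sub_distrib, ← Finset.sum_sub_distrib]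
  congr 1
  · refine Finset.sum_congr rfl fun z _ => ?_
    by_cases hz : adj u z
    · have hz' : adj z u := hadj _ _ hz
      have hne : z ≠ u := fun h' => hirr u (h' ▸ hz)
      rw [if_pos hz, if_pos hz', if_pos hz, if_neg hne]
      by_cases h1 : u = v
      · have h2 : v ≠ z := fun h' => hne (h1.trans h').symm
        rw [if_pos h1, if_pos h1.symm, if_neg h2, if_neg (Ne.symm h2)]
        ring
      · rw [if_neg h1, if_neg (Ne.symm h1)]
        by_cases h2 : v = z
        · rw [if_pos h2, if_pos h2.symm]; ring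
        · rw [if_neg h2, if_neg (Ne.symm h2)]; ring
    · have hz' : ¬ adj z u := fun h' => hz (hadj _ _ h')
      rw [if_neg hz, if_neg hz', if_neg hz]; ring
  · refine Finset.sum_congr rfl fun z _ => ?_
    by_cases hz : adj v z
    · have hz' : adj z v := hadj _ _ hz
      have hne : z ≠ v := fun h' => hirr v (h' ▸ hz)
      rw [if_pos hz, if_pos hz', if_pos hz, if_neg hne]
      by_cases h1 : u = v
      · have h2 : u ≠ z := fun h' => hne (h1.symm.trans h').symm
        rw [if_pos h1, if_neg h2, if_neg (Ne.symm h2)]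
        rw [h1]
        ring
      · rw [if_neg h1]
        by_cases h2 : u = z
        · rw [if_pos h2, if_pos h2.symm]; ring
        · rw [if_neg h2, if_neg (Ne.symm h2)]; ring
    · have hz' : ¬ adj z v := fun h' => hz (hadj _ _ h')
      rw [if_neg hz, if_neg hz', if_neg hz]; ring

lemma sum_swap3 {ι : Type*} (s : Finset ι) (w : ι → ℝ) (c : V → V → ι → ℝ) :
    ∑ x, ∑ y, ∑ i ∈ s, w i * c x y i = ∑ i ∈ s, w i * ∑ x, ∑ y, c x y i := by
  simp only [Finset.mul_sum]
  calc ∑ x, ∑ y, ∑ i ∈ s, w i * c x y i = ∑ x, ∑ i ∈ s, ∑ y, w i * c x y i :=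
        Finset.sum_congr rfl fun x _ => Finset.sum_comm
    _ = ∑ i ∈ s, ∑ x, ∑ y, w i * c x y i := Finset.sum_comm

/-- The two-particle operator. -/
noncomputable def pairOpM (n : ℕ) (adj : V → V → Prop) [DecidableRel adj] (g : V → V → ℝ)
    (u v : V) : ℝ :=
  ∑ z, (if adj u z then (n : ℝ) * (g z v - g u v) +
      ((if v = z then 1 else 0) - if u = v then 1 else 0) * g z u else 0) +
  ∑ z, (if adj v z then (n : ℝ) * (g u z - g u v) +
      ((if u = z then 1 else 0) - if u = v then 1 else 0) * g v z else 0)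

lemma IsEig.pair_ineq (h : IsEig n adj N E ψ) (hadj : ∀ x y, adj x y → adj y x)
    (hirr : ∀ x, ¬ adj x x) (u v : V) :
    0 ≤ pairOpM n adj (pairFn n ψ) u v + 4 * E * pairFn n ψ u v := by
  have h1 := h.dirichlet hadj
    (fun η => (η u : ℝ) * ((η v : ℝ) - if u = v then 1 else 0)) (fun η => pair_nonneg_aux η u v)
  have h2 : ∑ x, ∑ y, (if adj x y then ∑ σ ∈ occBox V n,
      ((n : ℝ) - σ x) * ((σ y : ℝ) + 1) * ψ (σ + Pi.single y 1) ^ 2 *
        (((σ + Pi.single y 1 : V → ℕ) u : ℝ) *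
            (((σ + Pi.single y 1 : V → ℕ) v : ℝ) - if u = v then 1 else 0) -
          ((σ + Pi.single x 1 : V → ℕ) u : ℝ) *
            (((σ + Pi.single x 1 : V → ℕ) v : ℝ) - if u = v then 1 else 0)) else 0) =
      - pairOpM n adj (pairFn n ψ) u v := by
    have e1 : ∀ x y, (if adj x y then ∑ σ ∈ occBox V n,
      ((n : ℝ) - σ x) * ((σ y : ℝ) + 1) * ψ (σ + Pi.single y 1) ^ 2 *
        (((σ + Pi.single y 1 : V → ℕ) u : ℝ) *
            (((σ + Pi.single y 1 : V → ℕ) v : ℝ) - if u = v then 1 else 0) -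
          ((σ + Pi.single x 1 : V → ℕ) u : ℝ) *
            (((σ + Pi.single x 1 : V → ℕ) v : ℝ) - if u = v then 1 else 0)) else 0) =
      ∑ η ∈ occBox V n, ψ η ^ 2 * (if adj x y then (η y : ℝ) * ((n : ℝ) - η x) *
        (((if u = y then 1 else 0) - if u = x then 1 else 0) *
            ((η v : ℝ) - if v = y then 1 else 0) +
          ((if v = y then 1 else 0) - if v = x then 1 else 0) *
            ((η u : ℝ) - if u = y then 1 else 0)) else 0) := by
      intro x y
      by_cases hxy : adj x y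
      · have hne : x ≠ y := fun h' => hirr x (by rw [← h'] at hxy; exact hxy)
        simp only [if_pos hxy]
        exact h.term_eq u v x y hne
      · simp only [if_neg hxy, mul_zero, Finset.sum_const_zero]
    simp only [e1]
    rw [sum_swap3]
    simp only [pair_combine hadj hirr]
    have e3 : ∀ a b, pairFn n ψ a b = ∑ η ∈ occBox V n,
      ψ η ^ 2 * ((η a : ℝ) * ((η b : ℝ) - if a = b then 1 else 0)) := fun a b =>
      Finset.sum_congr rfl fun η _ => by ring
    have e4 : ∀ (a b : V) (G : V → (V → ℕ) → ℝ), ∑ η ∈ occBox V n, ψ η ^ 2 *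
        (∑ z, if adj a z then G z η else 0) =
        ∑ z, if adj a z then ∑ η ∈ occBox V n, ψ η ^ 2 * G z η else 0 := by
      intro a b G
      simp only [Finset.mul_sum]
      rw [Finset.sum_comm]
      refine Finset.sum_congr rfl fun z _ => ?_
      split_ifs
      · rfl
      · simp
    simp only [mul_add (ψ _ ^ 2), Finset.sum_add_distrib]
    rw [e4 u v, e4 v u, pairOpM, neg_add, ← Finset.sum_neg_distrib, ← Finset.sum_neg_distrib]
    have e5 : ∀ (a b c d e f : V) (w : ℝ), ∑ η ∈ occBox V n, ψ η ^ 2 *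
        ((n : ℝ) * ((η a : ℝ) * ((η b : ℝ) - if a = b then 1 else 0)) -
        n * ((η c : ℝ) * ((η d : ℝ) - if c = d then 1 else 0)) +
        w * ((η e : ℝ) * ((η f : ℝ) - if e = f then 1 else 0))) =
        n * pairFn n ψ a b - n * pairFn n ψ c d + w * pairFn n ψ e f := by
      intro a b c d e f w
      rw [e3, e3, e3, Finset.mul_sum, Finset.mul_sum, Finset.mul_sum, ← Finset.sum_sub_distrib,
        ← Finset.sum_add_distrib]
      exact Finset.sum_congr rfl fun η _ => by ring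
    congr 1
    · refine Finset.sum_congr rfl fun z _ => ?_
      by_cases hz : adj u z
      · rw [if_pos hz, if_pos hz, e5]; ring
      · rw [if_neg hz, if_neg hz]; ring
    · refine Finset.sum_congr rfl fun z _ => ?_
      by_cases hz : adj v z
      · rw [if_pos hz, if_pos hz]
        have e6 : ∑ η ∈ occBox V n, ψ η ^ 2 *
            ((n : ℝ) * ((η u : ℝ) * ((η v : ℝ) - if u = v then 1 else 0)) -
            n * ((η z : ℝ) * ((η u : ℝ) - if z = u then 1 else 0)) +
            ((if u = v then 1 else 0) - if u = z then 1 else 0) *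
              ((η z : ℝ) * ((η v : ℝ) - if z = v then 1 else 0))) =
            n * pairFn n ψ u v - n * pairFn n ψ z u +
              ((if u = v then 1 else 0) - if u = z then 1 else 0) * pairFn n ψ z v :=
          e5 u v z u z v _
        rw [e6, pairFn_symm z u, pairFn_symm z v]; ring
      · rw [if_neg hz, if_neg hz]; ring
  rw [h2] at h1
  have h3 : ∑ ζ ∈ occBox V n, ((ζ u : ℝ) * ((ζ v : ℝ) - if u = v then 1 else 0)) * ψ ζ ^ 2 =
      pairFn n ψ u v := rfl
  rw [h3] at h1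
  linarith

end

end Vale.Agent.P361.B
end

section

set_option linter.unusedSectionVars false

/-!
Part B: comparison of pair functions with the heat flow.
-/

namespace Vale.Agent.P361.B

open Finset Filter Topology

lemma quasi_monotone {ι : Type*} [Finite ι] (G G' : ℝ → ι → ℝ) (K : ℝ)
    (hd : ∀ s i, HasDerivAt (fun s => G s i) (G' s i) s) (h0 : ∀ i, 0 ≤ G 0 i)
    (hq : ∀ s, 0 ≤ s → ∀ δ, 0 < δ → (∀ j, -δ ≤ G s j) → ∀ i, G s i = -δ → -(K * δ) ≤ G' s i) :
    ∀ s, 0 ≤ s → ∀ i, 0 ≤ G s i := by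
  intro s1 hs1 i1
  by_contra hneg
  push Not at hneg
  obtain ⟨ε, hε, hεs⟩ : ∃ ε > 0, ε * Real.exp ((K + 1) * s1) < - G s1 i1 := by
    refine ⟨- G s1 i1 / Real.exp ((K + 1) * s1) / 2, by have := Real.exp_pos ((K + 1) * s1)
                                                        apply div_pos (div_pos (by linarith) this)
                                                        norm_num, ?_⟩
    have := Real.exp_pos ((K + 1) * s1)
    field_simp
    linarith
  set δ : ℝ → ℝ := fun s => ε * Real.exp ((K + 1) * s) with hδ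
  have hδpos : ∀ s, 0 < δ s := fun s => mul_pos hε (Real.exp_pos _)
  have hδd : ∀ s, HasDerivAt δ ((K + 1) * δ s) s := by
    intro s
    have h1 : HasDerivAt (fun s : ℝ => (K + 1) * s) (K + 1) s := by
      simpa using (hasDerivAt_id s).const_mul (K + 1)
    have h2 := (h1.exp).const_mul ε
    have e : (K + 1) * δ s = ε * (Real.exp ((K + 1) * s) * (K + 1)) := by simp only [hδ]; ring
    rw [e]
    exact h2
  have hFd : ∀ s i, HasDerivAt (fun s => G s i + δ s) (G' s i + (K + 1) * δ s) s :=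
    fun s i => (hd s i).add (hδd s)
  have hFc : ∀ i, Continuous fun s => G s i + δ s := fun i =>
    continuous_iff_continuousAt.2 fun s => (hFd s i).continuousAt
  set B : Set ℝ := {s | s ∈ Set.Icc 0 s1 ∧ ∃ i, G s i + δ s ≤ 0} with hB
  have hBc : IsCompact B := by
    have : B = Set.Icc 0 s1 ∩ ⋃ i, {s | G s i + δ s ≤ 0} := by
      ext s; simp [hB]
    rw [this]
    refine isCompact_Icc.inter_right ?_
    exact isClosed_iUnion_of_finite fun i => isClosed_le (hFc i) continuous_const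
  have hBn : B.Nonempty := ⟨s1, ⟨hs1, le_rfl⟩, i1, by linarith⟩
  obtain ⟨t, ⟨⟨ht0, ht1⟩, i, hi⟩, hmin⟩ := hBc.exists_isLeast hBn
  have htpos : 0 < t := by
    rcases ht0.lt_or_eq with h | h
    · exact h
    · exfalso
      rw [← h] at hi
      have := h0 i
      have := hδpos 0
      linarith
  have hbefore : ∀ s, 0 ≤ s → s < t → ∀ j, 0 < G s j + δ s := by
    intro s hs hst j
    by_contra hcon
    push Not at hcon
    exact absurd (hmin ⟨⟨hs, by linarith⟩, j, hcon⟩) (not_le.2 hst)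
  have hge : ∀ j, 0 ≤ G t j + δ t := by
    intro j
    have h1 : Tendsto (fun s => G s j + δ s) (𝓝[<] t) (𝓝 (G t j + δ t)) :=
      ((hFc j).tendsto t).mono_left nhdsWithin_le_nhds
    refine ge_of_tendsto h1 ?_
    filter_upwards [Ioo_mem_nhdsLT htpos] with s hs
    exact (hbefore s hs.1.le hs.2 j).le
  have hit : G t i = - δ t := by linarith [hge i]
  have hG' := hq t ht0 (δ t) (hδpos t) (fun j => by linarith [hge j]) i hit
  have hpos : 0 < G' t i + (K + 1) * δ t := by
    have := hδpos t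
    nlinarith
  have hslope := hasDerivAt_iff_tendsto_slope.1 (hFd t i)
  have hev : ∀ᶠ s in 𝓝[≠] t, 0 < slope (fun s => G s i + δ s) t s :=
    hslope.eventually (lt_mem_nhds hpos)
  have hev2 : ∀ᶠ s in 𝓝[<] t, 0 < slope (fun s => G s i + δ s) t s :=
    hev.filter_mono (nhdsWithin_mono _ fun s hs => ne_of_lt hs)
  obtain ⟨s, hs1', hs2⟩ := (hev2.and (Ioo_mem_nhdsLT htpos)).exists
  have h3 := hbefore s hs2.1.le hs2.2 i
  rw [slope_def_field] at hs1'
  have h4 : G t i + δ t = 0 := by linarith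
  have h5 : s - t < 0 := by linarith [hs2.2]
  rw [h4] at hs1'
  have : (G s i + δ s - 0) / (s - t) < 0 := div_neg_of_pos_of_neg (by linarith) h5
  linarith

variable {V : Type*} [Fintype V] [DecidableEq V]

/-- Eigenbasis of the graph Laplacian. -/
structure Spec (adj : V → V → Prop) [DecidableRel adj] (e : V → V → ℝ) (lam : V → ℝ) : Prop where
  eig : ∀ k x, ∑ z, (if adj x z then e k z - e k x else 0) = - lam k * e k x
  compl : ∀ x y, ∑ k, e k x * e k y = if x = y then 1 else 0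
  orth : ∀ k l, ∑ x, e k x * e l x = if k = l then 1 else 0

/-- Heat flow. -/
noncomputable def heat (n : ℕ) (e : V → V → ℝ) (lam : V → ℝ) (ζ : V → ℕ) (s : ℝ) (x : V) : ℝ :=
  ∑ k, Real.exp (-(s * n * lam k)) * (∑ y, (ζ y : ℝ) * e k y) * e k x

section

variable {n : ℕ} {adj : V → V → Prop} [DecidableRel adj] {e : V → V → ℝ} {lam : V → ℝ}

lemma heat_zero (hS : Spec adj e lam) (ζ : V → ℕ) (x : V) : heat n e lam ζ 0 x = ζ x := by
  unfold heat
  calc _ = ∑ k, ∑ y, (ζ y : ℝ) * (e k y * e k x) := by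
        refine Finset.sum_congr rfl fun k _ => ?_
        rw [zero_mul, zero_mul, neg_zero, Real.exp_zero, one_mul, Finset.sum_mul]
        exact Finset.sum_congr rfl fun y _ => by ring
    _ = ∑ y, (ζ y : ℝ) * ∑ k, e k y * e k x := by
        rw [Finset.sum_comm]
        exact Finset.sum_congr rfl fun y _ => by rw [Finset.mul_sum]
    _ = _ := by
        simp only [hS.compl]
        simp

lemma heat_deriv (hS : Spec adj e lam) (ζ : V → ℕ) (s : ℝ) (x : V) :
    HasDerivAt (fun s => heat n e lam ζ s x)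
      (n * ∑ z, (if adj x z then heat n e lam ζ s z - heat n e lam ζ s x else 0)) s := by
  have h1 : HasDerivAt (fun s => heat n e lam ζ s x)
      (∑ k, Real.exp (-(s * n * lam k)) * (-(n * lam k)) * (∑ y, (ζ y : ℝ) * e k y) * e k x) s := by
    unfold heat
    refine HasDerivAt.fun_sum fun k _ => ?_
    have h2 : HasDerivAt (fun s : ℝ => -(s * n * lam k)) (-(n * lam k)) s := by
      have h0 : HasDerivAt (fun s : ℝ => (-((n : ℝ) * lam k)) * s) (-(n * lam k)) s := by
        simpa using (hasDerivAt_id' s).const_mul (-((n : ℝ) * lam k))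
      have h3 : (fun s : ℝ => -(s * n * lam k)) = fun s : ℝ => (-((n : ℝ) * lam k)) * s := by
        funext s; ring
      rw [h3]; exact h0
    exact (h2.exp.mul_const _).mul_const _
  convert h1 using 1
  have h3 : ∀ z, (if adj x z then heat n e lam ζ s z - heat n e lam ζ s x else 0) =
      ∑ k, Real.exp (-(s * n * lam k)) * (∑ y, (ζ y : ℝ) * e k y) *
        (if adj x z then e k z - e k x else 0) := by
    intro z
    split_ifs
    · unfold heat
      rw [← Finset.sum_sub_distrib]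
      exact Finset.sum_congr rfl fun k _ => by ring
    · simp
  simp only [h3]
  rw [Finset.sum_comm, Finset.mul_sum]
  refine Finset.sum_congr rfl fun k _ => ?_
  rw [← Finset.mul_sum, hS.eig]
  ring

lemma heat_sq (hS : Spec adj e lam) (ζ : V → ℕ) (s : ℝ) :
    ∑ x, heat n e lam ζ s x ^ 2 =
      ∑ k, Real.exp (-(2 * s * n * lam k)) * (∑ y, (ζ y : ℝ) * e k y) ^ 2 := by
  have h1 : ∀ x, heat n e lam ζ s x ^ 2 = ∑ k, ∑ l,
      (Real.exp (-(s * n * lam k)) * (∑ y, (ζ y : ℝ) * e k y)) *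
      (Real.exp (-(s * n * lam l)) * (∑ y, (ζ y : ℝ) * e l y)) * (e k x * e l x) := by
    intro x
    rw [sq]
    unfold heat
    rw [Finset.sum_mul_sum]
    exact Finset.sum_congr rfl fun k _ => Finset.sum_congr rfl fun l _ => by ring
  simp only [h1]
  rw [Finset.sum_comm]
  refine Finset.sum_congr rfl fun k _ => ?_
  rw [Finset.sum_comm]
  simp only [← Finset.mul_sum, hS.orth]
  rw [Finset.sum_eq_single k]
  · rw [if_pos rfl, mul_one]
    have : Real.exp (-(2 * s * n * lam k)) = Real.exp (-(s * n * lam k)) *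
        Real.exp (-(s * n * lam k)) := by rw [← Real.exp_add]; congr 1; ring
    rw [this]; ring
  · intro l _ hl
    rw [if_neg (Ne.symm hl), mul_zero]
  · simp

lemma heat_sq_le (hS : Spec adj e lam) {N : ℕ} (ζ : V → ℕ) (hζ : ∑ x, ζ x = N) (s : ℝ)
    {b : V → ℝ} (hb : ∀ k x, e k x ^ 2 ≤ b k) :
    ∑ x, heat n e lam ζ s x ^ 2 ≤ (N : ℝ) ^ 2 * ∑ k, Real.exp (-(2 * s * n * lam k)) * b k := by
  rw [heat_sq hS, Finset.mul_sum]
  refine Finset.sum_le_sum fun k _ => ?_
  have h1 : (∑ y, (ζ y : ℝ) * e k y) ^ 2 ≤ (N : ℝ) ^ 2 * b k := by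
    have h2 : (∑ y, (ζ y : ℝ) * e k y) ^ 2 ≤ (∑ y, (ζ y : ℝ)) * ∑ y, (ζ y : ℝ) * e k y ^ 2 := by
      have := Finset.sum_sq_le_sum_mul_sum_of_sq_le_mul (R := ℝ) Finset.univ
        (r := fun y => (ζ y : ℝ) * e k y) (f := fun y => (ζ y : ℝ))
        (g := fun y => (ζ y : ℝ) * e k y ^ 2) (fun y _ => by positivity)
        (fun y _ => by positivity) (fun y _ => le_of_eq (by ring))
      exact this
    have h3 : ∑ y, (ζ y : ℝ) = N := by rw [← hζ]; push_cast; rfl
    have h4 : ∑ y, (ζ y : ℝ) * e k y ^ 2 ≤ N * b k := by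
      rw [← h3, Finset.sum_mul]
      exact Finset.sum_le_sum fun y _ => mul_le_mul_of_nonneg_left (hb k y) (by positivity)
    calc _ ≤ _ := h2
      _ ≤ (N : ℝ) * (N * b k) := by rw [h3]; exact mul_le_mul_of_nonneg_left h4 (by positivity)
      _ = _ := by ring
  calc _ ≤ Real.exp (-(2 * s * n * lam k)) * ((N : ℝ) ^ 2 * b k) :=
        mul_le_mul_of_nonneg_left h1 (Real.exp_pos _).le
    _ = _ := by ring

/-- Product supersolution. -/
noncomputable def prodW (n : ℕ) (a : V → ℝ) (u v : V) : ℝ :=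
  (1 - (if u = v then (1 : ℝ) else 0) / n) * (a u * a v)

/-- Its time derivative. -/
noncomputable def prodW' (n : ℕ) (adj : V → V → Prop) [DecidableRel adj] (a : V → ℝ)
    (u v : V) : ℝ :=
  (1 - (if u = v then (1 : ℝ) else 0) / n) *
    ((n * ∑ z, (if adj u z then a z - a u else 0)) * a v +
      a u * (n * ∑ z, (if adj v z then a z - a v else 0)))

lemma pairOpM_prodW (hn : 1 ≤ n) (hadj : ∀ x y, adj x y → adj y x) (hirr : ∀ x, ¬ adj x x)
    (a : V → ℝ) (u v : V) :
    pairOpM n adj (prodW n a) u v ≤ prodW' n adj a u v := by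
  have hn0 : (n : ℝ) ≠ 0 := by positivity
  have hrest : prodW' n adj a u v = (1 - (if u = v then (1 : ℝ) else 0) / n) *
      (∑ z, (if adj u z then n * (a z - a u) * a v else 0) +
       ∑ z, (if adj v z then n * (a z - a v) * a u else 0)) := by
    unfold prodW'
    congr 1
    rw [Finset.mul_sum, Finset.sum_mul, Finset.mul_sum, Finset.mul_sum]
    congr 1
    · exact Finset.sum_congr rfl fun z _ => by split_ifs <;> ring
    · exact Finset.sum_congr rfl fun z _ => by split_ifs <;> ring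
  rw [hrest]
  by_cases huv : u = v
  · subst huv
    rw [if_pos rfl]
    refine le_of_eq ?_
    unfold pairOpM
    rw [mul_add, Finset.mul_sum]
    congr 1
    · refine Finset.sum_congr rfl fun z _ => ?_
      by_cases hz : adj u z
      · have hne : z ≠ u := fun h' => hirr u (h' ▸ hz)
        rw [if_pos hz, if_pos hz, if_pos rfl, if_neg (Ne.symm hne), prodW, prodW, if_neg hne,
          if_pos rfl]
        field_simp
        ring
      · rw [if_neg hz, if_neg hz, mul_zero]
    · refine Finset.sum_congr rfl fun z _ => ?_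
      by_cases hz : adj u z
      · have hne : z ≠ u := fun h' => hirr u (h' ▸ hz)
        rw [if_pos hz, if_pos hz, if_pos rfl, if_neg (Ne.symm hne), prodW, prodW,
          if_neg (Ne.symm hne), if_pos rfl]
        field_simp
        ring
      · rw [if_neg hz, if_neg hz, mul_zero]
  · rw [if_neg huv, zero_div, sub_zero, one_mul]
    unfold pairOpM
    have h1 : ∑ z, (if adj u z then (n : ℝ) * (prodW n a z v - prodW n a u v) +
        ((if v = z then 1 else 0) - if u = v then 1 else 0) * prodW n a z u else 0) =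
        ∑ z, (if adj u z then n * (a z - a u) * a v else 0) +
          (if adj u v then a v * a u - a v ^ 2 else 0) := by
      have h2 : (if adj u v then a v * a u - a v ^ 2 else 0) =
          ∑ z, (if v = z then (if adj u v then a v * a u - a v ^ 2 else 0) else 0) := by
        simp
      rw [h2, ← Finset.sum_add_distrib]
      refine Finset.sum_congr rfl fun z _ => ?_
      by_cases hz : adj u z
      · have hne : z ≠ u := fun h' => hirr u (h' ▸ hz)
        rw [if_pos hz, if_pos hz, if_neg huv, prodW, prodW, prodW, if_neg huv, if_neg hne]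
        by_cases hvz : v = z
        · rw [if_pos hvz, if_pos hvz.symm, if_pos hvz, hvz, if_pos hz]
          field_simp
          ring
        · rw [if_neg hvz, if_neg (Ne.symm hvz), if_neg hvz]; ring
      · rw [if_neg hz, if_neg hz]
        by_cases hvz : v = z
        · rw [if_pos hvz, hvz, if_neg hz]; ring
        · rw [if_neg hvz]; ring
    have h3 : ∑ z, (if adj v z then (n : ℝ) * (prodW n a u z - prodW n a u v) +
        ((if u = z then 1 else 0) - if u = v then 1 else 0) * prodW n a v z else 0) =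
        ∑ z, (if adj v z then n * (a z - a v) * a u else 0) +
          (if adj v u then a u * a v - a u ^ 2 else 0) := by
      have h2 : (if adj v u then a u * a v - a u ^ 2 else 0) =
          ∑ z, (if u = z then (if adj v u then a u * a v - a u ^ 2 else 0) else 0) := by
        simp
      rw [h2, ← Finset.sum_add_distrib]
      refine Finset.sum_congr rfl fun z _ => ?_
      by_cases hz : adj v z
      · have hne : z ≠ v := fun h' => hirr v (h' ▸ hz)
        rw [if_pos hz, if_pos hz, if_neg huv, prodW, prodW, prodW, if_neg huv,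
          if_neg (Ne.symm hne)]
        by_cases hvz : u = z
        · rw [if_pos hvz, if_pos hvz, hvz, if_pos hz]
          field_simp
          ring
        · rw [if_neg hvz, if_neg hvz]; ring
      · rw [if_neg hz, if_neg hz]
        by_cases hvz : u = z
        · rw [if_pos hvz, hvz, if_neg hz]; ring
        · rw [if_neg hvz]; ring
    rw [h1, h3]
    by_cases huv2 : adj u v
    · rw [if_pos huv2, if_pos (hadj _ _ huv2)]
      nlinarith [sq_nonneg (a u - a v)]
    · rw [if_neg huv2, if_neg fun h' => huv2 (hadj _ _ h')]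
      linarith

lemma pairOpM_lower (hn : 1 ≤ n) (hirr : ∀ x, ¬ adj x x) {g : V → V → ℝ} {δ : ℝ} (hδ : 0 < δ)
    (hg : ∀ a b, -δ ≤ g a b) {u v : V} (huv : g u v = -δ) : -(2 * δ) ≤ pairOpM n adj g u v := by
  have hn1 : (1 : ℝ) ≤ n := by exact_mod_cast hn
  unfold pairOpM
  have key : ∀ (u v : V) (g : V → V → ℝ), (∀ a b, -δ ≤ g a b) → g u v = -δ →
      -δ ≤ ∑ z, (if adj u z then (n : ℝ) * (g z v - g u v) +
      ((if v = z then 1 else 0) - if u = v then 1 else 0) * g z u else 0) := by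
    intro u v g hg huv
    by_cases h : u = v
    · refine le_trans (by linarith : -δ ≤ 0) (Finset.sum_nonneg fun z _ => ?_)
      split_ifs with hz h1
      · exfalso; rw [← h1, ← h] at hz; exact hirr u hz
      · rw [← h] at huv ⊢
        have := hg z u
        rw [huv]
        nlinarith
      · exact le_rfl
    · rw [show (-δ : ℝ) = ∑ z, (if v = z then -δ else 0) by simp]
      refine Finset.sum_le_sum fun z _ => ?_
      rw [if_neg h, huv]
      have h1 := hg z v
      have h2 := hg z u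
      have h3 : 0 ≤ (n : ℝ) * (g z v - -δ) := mul_nonneg (by linarith) (by linarith)
      split_ifs <;> linarith
  have k1 := key u v g hg huv
  have k2 := key v u (fun a b => g b a) (fun a b => hg b a) huv
  have e : (∑ z, if adj v z then (n : ℝ) * (g u z - g u v) +
      ((if u = z then 1 else 0) - if v = u then 1 else 0) * g v z else 0) =
      ∑ z, if adj v z then (n : ℝ) * (g u z - g u v) +
      ((if u = z then 1 else 0) - if u = v then 1 else 0) * g v z else 0 := by
    refine Finset.sum_congr rfl fun z _ => ?_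
    by_cases h : u = v
    · rw [if_pos h, if_pos h.symm]
    · rw [if_neg h, if_neg (Ne.symm h)]
  rw [e] at k2
  linarith

end

end Vale.Agent.P361.B
end

section

set_option linter.unusedSectionVars false

/-!
Part B: bound on the pair function of an eigenvector.
-/

namespace Vale.Agent.P361.B

open Finset Filter Topology

variable {V : Type*} [Fintype V] [DecidableEq V]
variable {n N : ℕ} {adj : V → V → Prop} [DecidableRel adj] {e : V → V → ℝ} {lam : V → ℝ}
variable {E : ℝ} {ψ : (V → ℕ) → ℝ}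

lemma pairOpM_comb {ι : Type*} (t : Finset ι) (c : ι → ℝ) (g : ι → V → V → ℝ) (h : V → V → ℝ)
    (w : ℝ) (u v : V) :
    pairOpM n adj (fun a b => w * ∑ i ∈ t, c i * g i a b - h a b) u v =
      w * ∑ i ∈ t, c i * pairOpM n adj (g i) u v - pairOpM n adj h u v := by
  unfold pairOpM
  simp only [mul_add (c _), Finset.sum_add_distrib, mul_add w]
  have key : ∀ (u v : V) (f₁ f₂ f₃ : V → V × V) (r : V → ℝ),
      ∑ z, (if adj u z then (n : ℝ) * ((w * ∑ i ∈ t, c i * g i (f₁ z).1 (f₁ z).2 -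
          h (f₁ z).1 (f₁ z).2) - (w * ∑ i ∈ t, c i * g i (f₂ z).1 (f₂ z).2 -
          h (f₂ z).1 (f₂ z).2)) + r z * (w * ∑ i ∈ t, c i * g i (f₃ z).1 (f₃ z).2 -
          h (f₃ z).1 (f₃ z).2) else 0) =
      w * ∑ i ∈ t, c i * ∑ z, (if adj u z then (n : ℝ) * (g i (f₁ z).1 (f₁ z).2 -
          g i (f₂ z).1 (f₂ z).2) + r z * g i (f₃ z).1 (f₃ z).2 else 0) -
        ∑ z, (if adj u z then (n : ℝ) * (h (f₁ z).1 (f₁ z).2 -
          h (f₂ z).1 (f₂ z).2) + r z * h (f₃ z).1 (f₃ z).2 else 0) := by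
    intro u v f₁ f₂ f₃ r
    have e1 : ∑ i ∈ t, c i * ∑ z, (if adj u z then (n : ℝ) * (g i (f₁ z).1 (f₁ z).2 -
          g i (f₂ z).1 (f₂ z).2) + r z * g i (f₃ z).1 (f₃ z).2 else 0) =
        ∑ z, (if adj u z then (n : ℝ) * (∑ i ∈ t, c i * g i (f₁ z).1 (f₁ z).2 -
          ∑ i ∈ t, c i * g i (f₂ z).1 (f₂ z).2) +
          r z * ∑ i ∈ t, c i * g i (f₃ z).1 (f₃ z).2 else 0) := by
      simp only [Finset.mul_sum (Finset.univ)]
      rw [Finset.sum_comm]
      refine Finset.sum_congr rfl fun z _ => ?_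
      split_ifs
      · rw [← Finset.sum_sub_distrib, Finset.mul_sum, Finset.mul_sum, ← Finset.sum_add_distrib]
        exact Finset.sum_congr rfl fun i _ => by ring
      · simp
    rw [e1, Finset.mul_sum, ← Finset.sum_sub_distrib]
    refine Finset.sum_congr rfl fun z _ => ?_
    split_ifs
    · ring
    · ring
  have k1 := key u v (fun z => (z, v)) (fun _ => (u, v)) (fun z => (z, u))
    (fun z => (if v = z then 1 else 0) - if u = v then 1 else 0)
  have k2 := key v u (fun z => (u, z)) (fun _ => (u, v)) (fun z => (v, z))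
    (fun z => (if u = z then 1 else 0) - if u = v then 1 else 0)
  simp only at k1 k2
  rw [k1, k2]
  ring

lemma prodW_deriv (hS : Spec adj e lam) (ζ : V → ℕ) (u v : V) (s : ℝ) :
    HasDerivAt (fun s => prodW n (heat n e lam ζ s) u v) (prodW' n adj (heat n e lam ζ s) u v) s :=
  ((heat_deriv hS ζ s u).mul (heat_deriv hS ζ s v)).const_mul _

theorem IsEig.pair_le (h : IsEig n adj N E ψ) (hn : 1 ≤ n) (hE : 0 ≤ E)
    (hadj : ∀ x y, adj x y → adj y x) (hirr : ∀ x, ¬ adj x x) (hS : Spec adj e lam)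
    {s : ℝ} (hs : 0 ≤ s) (u v : V) :
    pairFn n ψ u v ≤ Real.exp (4 * E * s) *
      ∑ ζ ∈ occBox V n, ψ ζ ^ 2 * prodW n (heat n e lam ζ s) u v := by
  set G : ℝ → V × V → ℝ := fun s p => Real.exp (4 * E * s) *
      ∑ ζ ∈ occBox V n, ψ ζ ^ 2 * prodW n (heat n e lam ζ s) p.1 p.2 - pairFn n ψ p.1 p.2 with hG
  set G' : ℝ → V × V → ℝ := fun s p => Real.exp (4 * E * s) * (4 * E) *
      ∑ ζ ∈ occBox V n, ψ ζ ^ 2 * prodW n (heat n e lam ζ s) p.1 p.2 +
      Real.exp (4 * E * s) *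
      ∑ ζ ∈ occBox V n, ψ ζ ^ 2 * prodW' n adj (heat n e lam ζ s) p.1 p.2 with hG'
  have hd : ∀ s p, HasDerivAt (fun s => G s p) (G' s p) s := by
    intro s p
    have h1 : HasDerivAt (fun s : ℝ => Real.exp (4 * E * s)) (Real.exp (4 * E * s) * (4 * E)) s := by
      have h0 : HasDerivAt (fun s : ℝ => 4 * E * s) (4 * E) s := by
        simpa using (hasDerivAt_id' s).const_mul (4 * E)
      exact h0.exp
    have h2 : HasDerivAt (fun s => ∑ ζ ∈ occBox V n, ψ ζ ^ 2 *
        prodW n (heat n e lam ζ s) p.1 p.2)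
        (∑ ζ ∈ occBox V n, ψ ζ ^ 2 * prodW' n adj (heat n e lam ζ s) p.1 p.2) s :=
      HasDerivAt.fun_sum fun ζ _ => (prodW_deriv hS ζ p.1 p.2 s).const_mul _
    exact (h1.mul h2).sub_const _
  have hn0 : (0 : ℝ) < n := by exact_mod_cast hn
  have h0 : ∀ p, 0 ≤ G 0 p := by
    intro p
    simp only [hG, mul_zero, Real.exp_zero, one_mul, sub_nonneg, pairFn]
    refine Finset.sum_le_sum fun ζ hζ => ?_
    rw [mul_comm]
    refine mul_le_mul_of_nonneg_left ?_ (sq_nonneg _)
    rw [prodW, heat_zero hS, heat_zero hS]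
    rw [mem_occBox] at hζ
    by_cases hp : p.1 = p.2
    · rw [if_pos hp, hp]
      have h1 : (ζ p.2 : ℝ) ≤ n := by exact_mod_cast hζ p.2
      have h2 : (0 : ℝ) ≤ ζ p.2 := by positivity
      have h3 : (ζ p.2 : ℝ) * ζ p.2 / n ≤ ζ p.2 := by
        rw [div_le_iff₀ hn0]
        exact mul_le_mul_of_nonneg_left h1 h2
      have h4 : (1 - 1 / (n : ℝ)) * ((ζ p.2 : ℝ) * ζ p.2) =
        (ζ p.2 : ℝ) * ζ p.2 - (ζ p.2 : ℝ) * ζ p.2 / n := by ring
      rw [h4]; nlinarith
    · rw [if_neg hp]; simp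
  have hq : ∀ s, 0 ≤ s → ∀ δ, 0 < δ → (∀ j, -δ ≤ G s j) → ∀ p, G s p = -δ →
      -((2 + 4 * E) * δ) ≤ G' s p := by
    intro s _ δ hδ hge p hp
    have h1 : -(2 * δ) ≤ pairOpM n adj (fun a b => G s (a, b)) p.1 p.2 :=
      pairOpM_lower hn hirr hδ (fun a b => hge (a, b)) hp
    have h2 : pairOpM n adj (fun a b => G s (a, b)) p.1 p.2 =
        Real.exp (4 * E * s) * ∑ ζ ∈ occBox V n, ψ ζ ^ 2 *
          pairOpM n adj (prodW n (heat n e lam ζ s)) p.1 p.2 -
        pairOpM n adj (pairFn n ψ) p.1 p.2 :=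
      pairOpM_comb (occBox V n) (fun ζ => ψ ζ ^ 2) (fun ζ => prodW n (heat n e lam ζ s))
        (pairFn n ψ) (Real.exp (4 * E * s)) p.1 p.2
    have h3 : ∑ ζ ∈ occBox V n, ψ ζ ^ 2 * pairOpM n adj (prodW n (heat n e lam ζ s)) p.1 p.2 ≤
        ∑ ζ ∈ occBox V n, ψ ζ ^ 2 * prodW' n adj (heat n e lam ζ s) p.1 p.2 :=
      Finset.sum_le_sum fun ζ _ => mul_le_mul_of_nonneg_left
        (pairOpM_prodW hn hadj hirr _ p.1 p.2) (sq_nonneg _)
    have h4 := mul_le_mul_of_nonneg_left h3 (Real.exp_pos (4 * E * s)).le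
    have h5 := h.pair_ineq hadj hirr p.1 p.2
    have h6 : G' s p = 4 * E * (G s p + pairFn n ψ p.1 p.2) + Real.exp (4 * E * s) *
      ∑ ζ ∈ occBox V n, ψ ζ ^ 2 * prodW' n adj (heat n e lam ζ s) p.1 p.2 := by
      simp only [hG, hG']; ring
    rw [h6, hp]
    rw [h2] at h1
    nlinarith
  have hfin := quasi_monotone G G' (2 + 4 * E) hd h0 hq s hs (u, v)
  simp only [hG] at hfin
  linarith

/-- Main bound on pair correlations across edges. -/
theorem IsEig.edge_sum_le (h : IsEig n adj N E ψ) (hn : 1 ≤ n) (hE : 0 ≤ E)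
    (hadj : ∀ x y, adj x y → adj y x) (hirr : ∀ x, ¬ adj x x) (hS : Spec adj e lam)
    {D : ℝ} (hD : ∀ x, ∑ y, (if adj x y then (1 : ℝ) else 0) ≤ D)
    {b : V → ℝ} (hb : ∀ k x, e k x ^ 2 ≤ b k) {s : ℝ} (hs : 0 ≤ s) :
    ∑ x, ∑ y, (if adj x y then pairFn n ψ x y + pairFn n ψ y y else 0) ≤
      2 * D * Real.exp (4 * E * s) * ((N : ℝ) ^ 2 * ∑ k, Real.exp (-(2 * s * n * lam k)) * b k) := by
  have hn0 : (0 : ℝ) < n := by exact_mod_cast hn
  have hn1 : (1 : ℝ) ≤ n := by exact_mod_cast hn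
  set P := (N : ℝ) ^ 2 * ∑ k, Real.exp (-(2 * s * n * lam k)) * b k with hP
  have hD0 : ∀ x : V, 0 ≤ D := fun x => le_trans
    (Finset.sum_nonneg fun y _ => by split_ifs <;> norm_num) (hD x)
  -- bound for one configuration
  have hone : ∀ ζ : V → ℕ, ∑ x, ∑ y, (if adj x y then prodW n (heat n e lam ζ s) x y +
      prodW n (heat n e lam ζ s) y y else 0) ≤ 2 * D * ∑ x, heat n e lam ζ s x ^ 2 := by
    intro ζ
    set a := heat n e lam ζ s with ha
    have h1 : ∀ x y, adj x y → prodW n a x y + prodW n a y y ≤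
        1 / 2 * a x ^ 2 + 3 / 2 * a y ^ 2 := by
      intro x y hxy
      have hne : x ≠ y := fun h' => hirr x (by rw [← h'] at hxy; exact hxy)
      rw [prodW, prodW, if_neg hne, if_pos rfl]
      have h2 : (1 - 1 / (n : ℝ)) * (a y * a y) ≤ a y ^ 2 := by
        have : 0 ≤ 1 / (n : ℝ) * (a y * a y) := mul_nonneg (by positivity) (mul_self_nonneg _)
        nlinarith
      have h3 : (1 - 0 / (n : ℝ)) * (a x * a y) ≤ 1 / 2 * a x ^ 2 + 1 / 2 * a y ^ 2 := by
        rw [zero_div, sub_zero, one_mul]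
        nlinarith [sq_nonneg (a x - a y)]
      linarith
    calc ∑ x, ∑ y, (if adj x y then prodW n a x y + prodW n a y y else 0)
        ≤ ∑ x, ∑ y, ((if adj x y then (1 : ℝ) else 0) * (1 / 2 * a x ^ 2) +
            (if adj x y then (1 : ℝ) else 0) * (3 / 2 * a y ^ 2)) := by
          refine Finset.sum_le_sum fun x _ => Finset.sum_le_sum fun y _ => ?_
          split_ifs with hxy
          · have := h1 x y hxy; linarith
          · simp
      _ = ∑ x, (∑ y, (if adj x y then (1 : ℝ) else 0)) * (1 / 2 * a x ^ 2) +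
          ∑ y, (∑ x, (if adj y x then (1 : ℝ) else 0)) * (3 / 2 * a y ^ 2) := by
          simp only [Finset.sum_add_distrib]
          congr 1
          · exact Finset.sum_congr rfl fun x _ => by rw [Finset.sum_mul]
          · rw [Finset.sum_comm]
            refine Finset.sum_congr rfl fun y _ => ?_
            rw [Finset.sum_mul]
            refine Finset.sum_congr rfl fun x _ => ?_
            by_cases hxy : adj x y
            · rw [if_pos hxy, if_pos (hadj _ _ hxy)]
            · rw [if_neg hxy, if_neg fun h' => hxy (hadj _ _ h')]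
      _ ≤ ∑ x, D * (1 / 2 * a x ^ 2) + ∑ y, D * (3 / 2 * a y ^ 2) := by
          refine add_le_add (Finset.sum_le_sum fun x _ => ?_) (Finset.sum_le_sum fun y _ => ?_)
          · exact mul_le_mul_of_nonneg_right (hD x) (by positivity)
          · exact mul_le_mul_of_nonneg_right (hD y) (by positivity)
      _ = _ := by
          rw [← Finset.sum_add_distrib, Finset.mul_sum]
          exact Finset.sum_congr rfl fun x _ => by ring
  have hsum : ∑ x, ∑ y, (if adj x y then pairFn n ψ x y + pairFn n ψ y y else 0) ≤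
      Real.exp (4 * E * s) * ∑ ζ ∈ occBox V n, ψ ζ ^ 2 *
        ∑ x, ∑ y, (if adj x y then prodW n (heat n e lam ζ s) x y +
          prodW n (heat n e lam ζ s) y y else 0) := by
    rw [← sum_swap3, Finset.mul_sum]
    refine Finset.sum_le_sum fun x _ => ?_
    rw [Finset.mul_sum]
    refine Finset.sum_le_sum fun y _ => ?_
    by_cases hxy : adj x y
    · simp only [if_pos hxy]
      have h1 := h.pair_le hn hE hadj hirr hS hs x y
      have h2 := h.pair_le hn hE hadj hirr hS hs y y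
      calc _ ≤ _ := add_le_add h1 h2
        _ = _ := by
          rw [← mul_add, ← Finset.sum_add_distrib]
          congr 1
          exact Finset.sum_congr rfl fun ζ _ => by ring
    · simp only [if_neg hxy, mul_zero, Finset.sum_const_zero]
      exact le_rfl
  refine hsum.trans ?_
  have hfin : ∑ ζ ∈ occBox V n, ψ ζ ^ 2 *
        ∑ x, ∑ y, (if adj x y then prodW n (heat n e lam ζ s) x y +
          prodW n (heat n e lam ζ s) y y else 0) ≤ 2 * D * P := by
    have h1 : ∀ ζ ∈ occBox V n, ψ ζ ^ 2 *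
        ∑ x, ∑ y, (if adj x y then prodW n (heat n e lam ζ s) x y +
          prodW n (heat n e lam ζ s) y y else 0) ≤ ψ ζ ^ 2 * (2 * D * P) := by
      intro ζ _
      by_cases hζ : ∑ x, ζ x = N
      · refine mul_le_mul_of_nonneg_left ((hone ζ).trans ?_) (sq_nonneg _)
        rcases isEmpty_or_nonempty V with hV | ⟨⟨x⟩⟩
        · simp [hP]
        · exact mul_le_mul_of_nonneg_left (heat_sq_le hS ζ hζ s hb)
            (by have := hD0 x; positivity)
      · rw [h.sect ζ hζ]; simp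
    calc _ ≤ ∑ ζ ∈ occBox V n, ψ ζ ^ 2 * (2 * D * P) := Finset.sum_le_sum h1
      _ = 2 * D * P := by rw [← Finset.sum_mul, h.norm, one_mul]
  calc _ ≤ Real.exp (4 * E * s) * (2 * D * P) :=
        mul_le_mul_of_nonneg_left hfin (Real.exp_pos _).le
    _ = _ := by ring

end Vale.Agent.P361.B
end

section

set_option linter.unusedSectionVars false

/-!
Part B: eigenvectors of `hT` with fixed number, in occupation number form.
-/

namespace Vale.Agent.P361.B

open Matrix Finset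
open Vale.Agent.P361.H (oA oB dotOp schwA schwB siteOp_apply siteOp_comm fin_le isNN_ne isNN_symm)

variable {n : ℕ} {Λ : Finset Site}

/-- Extension by zero to all occupation numbers. -/
noncomputable def extF {n : ℕ} {Λ : Finset Site} (f : (Λ → Fin (n + 1)) → ℝ) (ζ : Λ → ℕ) : ℝ :=
  if h : ∀ x, ζ x ≤ n then f (fun x => ⟨ζ x, Nat.lt_succ_of_le (h x)⟩) else 0

/-- Occupation numbers of a configuration. -/
def valF {n : ℕ} {Λ : Finset Site} (σ : Λ → Fin (n + 1)) (x : Λ) : ℕ := (σ x : ℕ)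

lemma extF_valF (f : (Λ → Fin (n + 1)) → ℝ) (σ : Λ → Fin (n + 1)) : extF f (valF σ) = f σ := by
  unfold extF
  have h : ∀ x, valF σ x ≤ n := fun x => Nat.lt_succ_iff.1 (σ x).2
  rw [dif_pos h]
  rfl

lemma extF_out (f : (Λ → Fin (n + 1)) → ℝ) (ζ : Λ → ℕ) (h : ζ ∉ occBox Λ n) : extF f ζ = 0 := by
  unfold extF
  rw [mem_occBox] at h
  rw [dif_neg h]

lemma sum_occBox (G : (Λ → ℕ) → ℝ) :
    ∑ ζ ∈ occBox Λ n, G ζ = ∑ σ : Λ → Fin (n + 1), G (valF σ) := by
  symm
  refine Finset.sum_bij' (fun σ _ => valF σ)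
    (fun ζ hζ => fun x => ⟨ζ x, Nat.lt_succ_of_le (mem_occBox.1 hζ x)⟩) ?_ ?_ ?_ ?_ ?_
  · intro σ _
    rw [mem_occBox]
    exact fun x => Nat.lt_succ_iff.1 (σ x).2
  · intro ζ _; exact Finset.mem_univ _
  · intro σ _; rfl
  · intro ζ _; rfl
  · intro σ _; rfl

lemma prod_one_self (x : Λ) (σ : Λ → Fin (n + 1)) :
    ∏ z ∈ Finset.univ.erase x, (1 : Matrix (Fin (n + 1)) (Fin (n + 1)) ℂ) (σ z) (σ z) = 1 :=
  Finset.prod_eq_one fun z _ => Matrix.one_apply_eq _

lemma prod_one_ne (x : Λ) (σ τ : Λ → Fin (n + 1)) (z : Λ) (hz : z ≠ x) (h : σ z ≠ τ z) :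
    ∏ z ∈ Finset.univ.erase x, (1 : Matrix (Fin (n + 1)) (Fin (n + 1)) ℂ) (σ z) (τ z) = 0 :=
  Finset.prod_eq_zero (i := z) (Finset.mem_erase.2 ⟨hz, Finset.mem_univ z⟩) (Matrix.one_apply_ne h)

lemma oB_apply (y : Λ) (σ τ : Λ → Fin (n + 1)) : oB n y σ τ = schwB n (σ y) (τ y) *
    ∏ z ∈ Finset.univ.erase y, (1 : Matrix (Fin (n + 1)) (Fin (n + 1)) ℂ) (σ z) (τ z) :=
  siteOp_apply y _ σ τ

lemma oA_apply (y : Λ) (σ τ : Λ → Fin (n + 1)) : oA n y σ τ = schwA n (σ y) (τ y) *
    ∏ z ∈ Finset.univ.erase y, (1 : Matrix (Fin (n + 1)) (Fin (n + 1)) ℂ) (σ z) (τ z) :=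
  siteOp_apply y _ σ τ

lemma oB_mulVec (y : Λ) (f : (Λ → Fin (n + 1)) → ℝ) (σ : Λ → Fin (n + 1)) :
    (oB n y *ᵥ fun τ => (f τ : ℂ)) σ =
      ((Real.sqrt ((valF σ y : ℝ) + 1) * extF f (valF σ + Pi.single y 1) : ℝ) : ℂ) := by
  rw [Matrix.mulVec, dotProduct]
  by_cases h : (σ y : ℕ) < n
  · set τ0 : Λ → Fin (n + 1) := Function.update σ y ⟨(σ y : ℕ) + 1, by omega⟩ with hτ0
    have hv : valF τ0 = valF σ + Pi.single y 1 := by
      ext x
      by_cases hx : x = y
      · subst hx; simp [hτ0, valF]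
      · simp [hτ0, valF, hx]
    rw [← hv, extF_valF, Finset.sum_eq_single τ0]
    · rw [oB_apply]
      have h1 : ∏ z ∈ Finset.univ.erase y, (1 : Matrix (Fin (n + 1)) (Fin (n + 1)) ℂ) (σ z) (τ0 z) =
          1 := by
        refine Finset.prod_eq_one fun z hz => ?_
        have : τ0 z = σ z := by simp [hτ0, Finset.ne_of_mem_erase hz]
        rw [this, Matrix.one_apply_eq]
      rw [h1, mul_one]
      have h2 : schwB n (σ y) (τ0 y) = ((Real.sqrt ((valF σ y : ℝ) + 1) : ℝ) : ℂ) := by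
        simp only [schwB, Matrix.of_apply]
        have : (τ0 y : ℕ) = (σ y : ℕ) + 1 := by simp [hτ0]
        rw [if_pos this, this]
        push_cast
        rfl
      rw [h2]; push_cast; ring
    · intro τ _ hτ
      rw [oB_apply]
      by_cases hall : ∀ z, z ≠ y → τ z = σ z
      · have hy : (τ y : ℕ) ≠ (σ y : ℕ) + 1 := by
          intro hy
          apply hτ
          ext z
          by_cases hz : z = y
          · subst hz; simp [hτ0, hy]
          · simp [hτ0, hz, hall z hz]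
        have : schwB n (σ y) (τ y) = 0 := by
          simp only [schwB, Matrix.of_apply, if_neg hy]
        rw [this]; simp
      · push Not at hall
        obtain ⟨z, hz, hne⟩ := hall
        rw [prod_one_ne y σ τ z hz (Ne.symm hne)]
        simp
    · intro h'; exact absurd (Finset.mem_univ _) h'
  · have hout : extF f (valF σ + Pi.single y 1) = 0 := by
      apply extF_out
      rw [mem_occBox]
      push Not
      refine ⟨y, ?_⟩
      have := (σ y).2
      simp only [Pi.add_apply, Pi.single_eq_same, valF]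
      omega
    rw [hout, mul_zero, Complex.ofReal_zero]
    refine Finset.sum_eq_zero fun τ _ => ?_
    rw [oB_apply]
    have : schwB n (σ y) (τ y) = 0 := by
      simp only [schwB, Matrix.of_apply]
      rw [if_neg]
      have := (τ y).2
      omega
    rw [this]; simp

lemma oA_mulVec (x : Λ) (g : (Λ → Fin (n + 1)) → ℂ) (σ : Λ → Fin (n + 1)) :
    (oA n x *ᵥ g) σ = ((Real.sqrt ((n : ℝ) - valF σ x) : ℝ) : ℂ) * g σ := by
  rw [Matrix.mulVec, dotProduct, Finset.sum_eq_single σ]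
  · rw [oA_apply, prod_one_self, mul_one]
    simp only [schwA, Matrix.diagonal_apply_eq, valF]
  · intro τ _ hτ
    rw [oA_apply]
    by_cases hx : τ x = σ x
    · obtain ⟨z, hz⟩ := Function.ne_iff.1 hτ
      have hzx : z ≠ x := fun h => hz (h ▸ hx)
      rw [prod_one_ne x σ τ z hzx (Ne.symm hz)]
      simp
    · simp only [schwA]
      rw [Matrix.diagonal_apply_ne _ (Ne.symm hx)]; simp
  · intro h'; exact absurd (Finset.mem_univ _) h'

lemma edge_mulVec {x y : Λ} (hxy : x ≠ y) (f : (Λ → Fin (n + 1)) → ℝ) (σ : Λ → Fin (n + 1)) :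
    ((oA n x * oB n y - oB n x * oA n y) *ᵥ fun τ => (f τ : ℂ)) σ =
      ((edgeT n x y (extF f) (valF σ) : ℝ) : ℂ) := by
  have hc : oB n x * oA n y = oA n y * oB n x := siteOp_comm hxy _ _
  rw [hc, Matrix.sub_mulVec, Pi.sub_apply, ← Matrix.mulVec_mulVec, ← Matrix.mulVec_mulVec,
    oA_mulVec, oA_mulVec, oB_mulVec, oB_mulVec, edgeT]
  push_cast
  ring

/-- The energy form. -/
noncomputable def eForm (n : ℕ) (Λ : Finset Site) (f g : (Λ → ℕ) → ℝ) : ℝ :=
  1 / 4 * ∑ x : Λ, ∑ y : Λ, if IsNN x.1 y.1 then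
    ∑ ζ ∈ occBox Λ n, edgeT n x y f ζ * edgeT n x y g ζ else 0

lemma edge_form {x y : Λ} (hxy : x ≠ y) (f g : (Λ → Fin (n + 1)) → ℝ) :
    (fun σ => (f σ : ℂ)) ⬝ᵥ (((((n : ℂ) / 2) ^ 2) • (1 : Matrix _ _ ℂ) - dotOp n x y) *ᵥ
      fun σ => (g σ : ℂ)) =
    ((1 / 2 * ∑ ζ ∈ occBox Λ n, edgeT n x y (extF f) ζ * edgeT n x y (extF g) ζ : ℝ) : ℂ) := by
  have h1 := H.dot_sos (n := n) hxy
  set T : Matrix (Λ → Fin (n + 1)) (Λ → Fin (n + 1)) ℂ :=
    oA n x * oB n y - oB n x * oA n y with hT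
  have h2 : (((n : ℂ) / 2) ^ 2) • (1 : Matrix (Λ → Fin (n + 1)) (Λ → Fin (n + 1)) ℂ) - dotOp n x y =
      (1 / 2 : ℂ) • (Tᴴ * T) := by
    rw [h1, smul_sub, smul_smul, smul_smul]
    congr 1
    · congr 1; ring
    · norm_num
  rw [h2, Matrix.smul_mulVec, dotProduct_smul, ← Matrix.mulVec_mulVec, Matrix.dotProduct_mulVec]
  have h3 : (fun σ => (f σ : ℂ)) ᵥ* Tᴴ = star (T *ᵥ fun σ => (f σ : ℂ)) := by
    rw [Matrix.star_mulVec]
    congr 1
    ext σ
    simp
  rw [h3, dotProduct, smul_eq_mul, sum_occBox]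
  push_cast
  congr 1
  refine Finset.sum_congr rfl fun σ _ => ?_
  rw [Pi.star_apply, hT, edge_mulVec hxy, edge_mulVec hxy]
  simp

lemma hT_form (f g : (Λ → Fin (n + 1)) → ℝ) :
    (fun σ => (f σ : ℂ)) ⬝ᵥ (hT n Λ *ᵥ fun σ => (g σ : ℂ)) =
      ((eForm n Λ (extF f) (extF g) : ℝ) : ℂ) := by
  rw [hT, Matrix.smul_mulVec, dotProduct_smul, Matrix.sum_mulVec, dotProduct_sum, smul_eq_mul]
  have h1 : ∀ x : Λ, (fun σ => (f σ : ℂ)) ⬝ᵥ ((∑ y : Λ, if IsNN x.1 y.1 then
      (((n : ℂ) / 2) ^ 2) • (1 : Matrix _ _ ℂ) - H.dotOp n x y else 0) *ᵥ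
      fun σ => (g σ : ℂ)) = ((∑ y : Λ, if IsNN x.1 y.1 then
        (1 / 2 * ∑ ζ ∈ occBox Λ n, edgeT n x y (extF f) ζ * edgeT n x y (extF g) ζ : ℝ) else 0 : ℝ)
          : ℂ) := by
    intro x
    rw [Matrix.sum_mulVec, dotProduct_sum]
    push_cast
    refine Finset.sum_congr rfl fun y _ => ?_
    split_ifs with hxy
    · rw [edge_form (isNN_ne hxy)]
    · simp
  simp only [h1]
  unfold eForm
  have h2 : (1 / 4 : ℝ) * ∑ x : Λ, ∑ y : Λ, (if IsNN x.1 y.1 then
      ∑ ζ ∈ occBox Λ n, edgeT n x y (extF f) ζ * edgeT n x y (extF g) ζ else 0) =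
      1 / 2 * ∑ x : Λ, ∑ y : Λ, (if IsNN x.1 y.1 then
      (1 / 2 * ∑ ζ ∈ occBox Λ n, edgeT n x y (extF f) ζ * edgeT n x y (extF g) ζ) else 0) := by
    rw [Finset.mul_sum, Finset.mul_sum]
    refine Finset.sum_congr rfl fun x _ => ?_
    rw [Finset.mul_sum, Finset.mul_sum]
    refine Finset.sum_congr rfl fun y _ => ?_
    split_ifs
    · ring
    · ring
  rw [h2]
  push_cast
  rfl

/-- Real matrix of `hT`. -/
noncomputable def hR (n : ℕ) (Λ : Finset Site) : Matrix (Λ → Fin (n + 1)) (Λ → Fin (n + 1)) ℝ :=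
  Matrix.of fun σ τ => eForm n Λ (extF (Pi.single σ 1)) (extF (Pi.single τ 1))

lemma hT_eq_map : hT n Λ = (hR n Λ).map (fun r : ℝ => (r : ℂ)) := by
  ext σ τ
  rw [Matrix.map_apply, hR, Matrix.of_apply, ← hT_form]
  have e1 : ∀ ρ : Λ → Fin (n + 1), (fun σ' => ((Pi.single ρ (1 : ℝ) : (Λ → Fin (n + 1)) → ℝ) σ' : ℂ)) =
      Pi.single ρ (1 : ℂ) := by
    intro ρ
    ext σ'
    by_cases h : σ' = ρ
    · subst h; simp
    · simp [h]
  rw [e1, e1]
  simp

lemma eForm_symm (f g : (Λ → ℕ) → ℝ) : eForm n Λ f g = eForm n Λ g f := by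
  unfold eForm
  congr 1
  refine Finset.sum_congr rfl fun x _ => Finset.sum_congr rfl fun y _ => ?_
  by_cases hxy : IsNN x.1 y.1
  · rw [if_pos hxy, if_pos hxy]
    exact Finset.sum_congr rfl fun ζ _ => mul_comm _ _
  · rw [if_neg hxy, if_neg hxy]

lemma hR_symm : (hR n Λ)ᵀ = hR n Λ := by
  ext σ τ
  rw [Matrix.transpose_apply]
  exact eForm_symm _ _

lemma hR_form (f g : (Λ → Fin (n + 1)) → ℝ) :
    f ⬝ᵥ (hR n Λ *ᵥ g) = eForm n Λ (extF f) (extF g) := by
  have h := hT_form (n := n) f g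
  rw [hT_eq_map] at h
  have h2 : (fun σ => (f σ : ℂ)) ⬝ᵥ ((hR n Λ).map (fun r : ℝ => (r : ℂ)) *ᵥ fun σ => (g σ : ℂ)) =
      ((f ⬝ᵥ (hR n Λ *ᵥ g) : ℝ) : ℂ) := by
    simp only [dotProduct, Matrix.mulVec, Matrix.map_apply]
    push_cast
    rfl
  rw [h2] at h
  exact_mod_cast h

/-- Number of magnons. -/
def totF {n : ℕ} {Λ : Finset Site} (σ : Λ → Fin (n + 1)) : ℕ := ∑ x, valF σ x

lemma extF_single {σ : Λ → Fin (n + 1)} {ζ : Λ → ℕ}
    (h : extF (Pi.single σ (1 : ℝ)) ζ ≠ 0) : ζ = valF σ := by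
  unfold extF at h
  by_cases h1 : ∀ x, ζ x ≤ n
  · rw [dif_pos h1] at h
    have h2 : (fun x => (⟨ζ x, Nat.lt_succ_of_le (h1 x)⟩ : Fin (n + 1))) = σ := by
      by_contra hne
      apply h
      simp [hne]
    ext x
    rw [← h2]
    rfl
  · rw [dif_neg h1] at h
    exact absurd rfl h

lemma edgeT_single {σ : Λ → Fin (n + 1)} {x y : Λ} {ζ : Λ → ℕ}
    (h : edgeT n x y (extF (Pi.single σ (1 : ℝ))) ζ ≠ 0) : ∑ z, ζ z + 1 = totF σ := by
  have hs : ∀ w : Λ, ∑ z, (ζ + Pi.single w 1 : Λ → ℕ) z = ∑ z, ζ z + 1 := by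
    intro w
    simp only [Pi.add_apply, Finset.sum_add_distrib]
    rw [Finset.sum_pi_single']
    simp
  by_cases h1 : extF (Pi.single σ (1 : ℝ)) (ζ + Pi.single y 1) = 0
  · by_cases h2 : extF (Pi.single σ (1 : ℝ)) (ζ + Pi.single x 1) = 0
    · exfalso; apply h; rw [edgeT, h1, h2]; ring
    · rw [← hs x, extF_single h2]; rfl
  · rw [← hs y, extF_single h1]; rfl

lemma hR_comm (σ τ : Λ → Fin (n + 1)) (h : totF σ ≠ totF τ) : hR n Λ σ τ = 0 := by
  rw [hR, Matrix.of_apply, eForm]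
  refine mul_eq_zero_of_right _ (Finset.sum_eq_zero fun x _ => Finset.sum_eq_zero fun y _ => ?_)
  split_ifs
  · refine Finset.sum_eq_zero fun ζ _ => ?_
    by_contra hne
    have h1 := left_ne_zero_of_mul hne
    have h2 := right_ne_zero_of_mul hne
    exact h ((edgeT_single h1).symm.trans (edgeT_single h2))
  · rfl

lemma numOp_eq : numOp n Λ = (diagonal fun σ : Λ → Fin (n + 1) => (totF σ : ℝ)).map
    (fun r : ℝ => (r : ℂ)) := by
  have h1 : ∀ x : Λ, ((n : ℂ) / 2) • (1 : Matrix (Λ → Fin (n + 1)) (Λ → Fin (n + 1)) ℂ) -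
      H.oZ n x = diagonal fun σ => ((valF σ x : ℕ) : ℂ) := by
    intro x
    rw [← H.siteOp_one x, ← H.siteOp_smul, ← H.siteOp_sub]
    ext σ τ
    rw [siteOp_apply]
    by_cases hστ : σ = τ
    · subst hστ
      rw [prod_one_self, Matrix.diagonal_apply_eq, mul_one, Matrix.sub_apply, Matrix.smul_apply,
        Matrix.one_apply_eq, spinZ, Matrix.diagonal_apply_eq, valF]
      simp
    · rw [Matrix.diagonal_apply_ne _ hστ]
      by_cases hx : σ x = τ x
      · obtain ⟨z, hz⟩ := Function.ne_iff.1 hστ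
        have hzx : z ≠ x := fun h => hz (h ▸ hx)
        rw [prod_one_ne x σ τ z hzx hz, mul_zero]
      · rw [Matrix.sub_apply, Matrix.smul_apply, Matrix.one_apply_ne hx, spinZ,
          Matrix.diagonal_apply_ne _ hx]
        simp
  rw [numOp]
  simp only [h1]
  ext σ τ
  rw [Matrix.sum_apply, Matrix.map_apply]
  by_cases hστ : σ = τ
  · subst hστ
    simp only [Matrix.diagonal_apply_eq, totF]
    push_cast
    rfl
  · simp only [Matrix.diagonal_apply_ne _ hστ]
    simp

/-- Eigenbasis of `hT` with magnon numbers, and the partition function. -/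
theorem exists_eigs (n : ℕ) (Λ : Finset Site) :
    ∃ (E : (Λ → Fin (n + 1)) → ℝ) (Nn : (Λ → Fin (n + 1)) → ℕ)
      (ψ : (Λ → Fin (n + 1)) → (Λ → ℕ) → ℝ),
      (∀ i, IsEig n (fun x y : Λ => IsNN x.1 y.1) (Nn i) (E i) (ψ i)) ∧ (∀ i, 0 ≤ E i) ∧
      (∀ i j, i ≠ j → ∑ ζ ∈ occBox Λ n, ψ i ζ * ψ j ζ = 0) ∧
      ∀ β t : ℝ, Zt n Λ β t = ∑ i, Real.exp (-(β * E i + t * Nn i)) := by
  obtain ⟨U, E, Nn, h1, h2, h3, h4⟩ := joint_diag (hR n Λ) hR_symm totF hR_comm
  have hinner : ∀ (f g : (Λ → Fin (n + 1)) → ℝ),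
      ∑ ζ ∈ occBox Λ n, extF f ζ * extF g ζ = ∑ σ, f σ * g σ := by
    intro f g
    rw [sum_occBox]
    exact Finset.sum_congr rfl fun σ _ => by rw [extF_valF, extF_valF]
  have horth : ∀ i j, ∑ ζ ∈ occBox Λ n, extF (fun σ => U σ i) ζ * extF (fun σ => U σ j) ζ =
      if i = j then 1 else 0 := by
    intro i j
    rw [hinner]
    have := congrFun (congrFun h1 i) j
    rw [Matrix.mul_apply] at this
    simp only [Matrix.transpose_apply, Matrix.one_apply] at this
    exact this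
  have heig : ∀ i, hR n Λ *ᵥ (fun σ => U σ i) = fun σ => E i * U σ i := by
    intro i
    have h5 : hR n Λ * U = U * diagonal E := by
      conv_lhs => rw [h3]
      rw [Matrix.mul_assoc, h1, Matrix.mul_one]
    ext σ
    have h6 := congrFun (congrFun h5 σ) i
    rw [Matrix.mul_diagonal, Matrix.mul_apply] at h6
    rw [Matrix.mulVec, dotProduct, h6]; ring
  have hweak : ∀ i (f : (Λ → Fin (n + 1)) → ℝ), eForm n Λ (extF f) (extF fun σ => U σ i) =
      E i * ∑ ζ ∈ occBox Λ n, extF f ζ * extF (fun σ => U σ i) ζ := by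
    intro i f
    rw [← hR_form, heig, hinner, dotProduct, Finset.mul_sum]
    exact Finset.sum_congr rfl fun σ _ => by ring
  refine ⟨E, Nn, fun i => extF (fun σ => U σ i), ?_, ?_, ?_, ?_⟩
  · intro i
    refine ⟨fun ζ hζ => extF_out _ ζ hζ, ?_, ?_, ?_⟩
    · intro ζ hζ
      by_cases hb : ζ ∈ occBox Λ n
      · rw [mem_occBox] at hb
        change extF (fun σ => U σ i) ζ = 0
        unfold extF
        rw [dif_pos hb]
        exact h4 _ i hζ
      · exact extF_out _ ζ hb
    · have := horth i i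
      rw [if_pos rfl] at this
      rw [← this]
      exact Finset.sum_congr rfl fun ζ _ => by ring
    · intro X
      have hX : ∀ ζ, X ζ * extF (fun σ => U σ i) ζ = extF (fun σ => X (valF σ) * U σ i) ζ := by
        intro ζ
        unfold extF
        split_ifs with hb
        · rfl
        · ring
      have h5 := hweak i (fun σ => X (valF σ) * U σ i)
      have h6 : ∑ ζ ∈ occBox Λ n, X ζ * extF (fun σ => U σ i) ζ ^ 2 =
          ∑ ζ ∈ occBox Λ n, extF (fun σ => X (valF σ) * U σ i) ζ * extF (fun σ => U σ i) ζ :=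
        Finset.sum_congr rfl fun ζ _ => by rw [← hX]; ring
      rw [h6, ← h5, eForm]
      simp only [hX]
  · intro i
    have h5 := hweak i (fun σ => U σ i)
    have h6 := horth i i
    rw [if_pos rfl] at h6
    rw [h6, mul_one] at h5
    rw [← h5, eForm]
    refine mul_nonneg (by norm_num) (Finset.sum_nonneg fun x _ => Finset.sum_nonneg fun y _ => ?_)
    split_ifs
    · exact Finset.sum_nonneg fun ζ _ => mul_self_nonneg _
    · exact le_rfl
  · intro i j hij
    have := horth i j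
    rwa [if_neg hij] at this
  · intro β t
    have hnum : diagonal (fun σ : Λ → Fin (n + 1) => (totF σ : ℝ)) =
        U * diagonal (fun j => (Nn j : ℝ)) * Uᵀ := by
      have h5 : diagonal (fun σ : Λ → Fin (n + 1) => (totF σ : ℝ)) * U =
          U * diagonal (fun j => (Nn j : ℝ)) := by
        ext σ j
        rw [Matrix.diagonal_mul, Matrix.mul_diagonal]
        by_cases hij : totF σ = Nn j
        · rw [hij]; ring
        · rw [h4 σ j hij]; ring
      rw [← h5, Matrix.mul_assoc, h2, Matrix.mul_one]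
    have hmat : -((β : ℂ) • hT n Λ + (t : ℂ) • numOp n Λ) =
        (U * diagonal (fun i => -(β * E i + t * Nn i)) * Uᵀ).map (fun r : ℝ => (r : ℂ)) := by
      have h5 : U * diagonal (fun i => -(β * E i + t * Nn i)) * Uᵀ =
          -(β • hR n Λ + t • diagonal (fun σ : Λ → Fin (n + 1) => (totF σ : ℝ))) := by
        rw [hnum]
        conv_rhs => rw [h3]
        have : (diagonal fun i => -(β * E i + t * (Nn i : ℝ))) =
            -(β • diagonal E + t • diagonal (fun j => (Nn j : ℝ))) := by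
          rw [← Matrix.diagonal_smul, ← Matrix.diagonal_smul, Matrix.diagonal_add,
            ← Matrix.diagonal_neg]
          rfl
        rw [this]
        simp only [Matrix.mul_neg, Matrix.neg_mul, Matrix.mul_add, Matrix.add_mul, Matrix.mul_smul,
          Matrix.smul_mul]
      rw [h5, hT_eq_map, numOp_eq]
      ext σ τ
      simp only [Matrix.map_apply, Matrix.neg_apply, Matrix.add_apply, Matrix.smul_apply,
        smul_eq_mul]
      push_cast
      rfl
    rw [Zt, hmat, trace_exp_real_conj U h1 h2, Complex.ofReal_re]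

end Vale.Agent.P361.B
end

section

/-!
# P361, long range order, block SR: the one-node inequality on the common definitions
-/

namespace Vale.Agent.P361.LRO.ONI

open Finset
open scoped BigOperators

noncomputable section

variable {X : Type} [Fintype X] [DecidableEq X]

/-- the exponents `1 + j` of the charge law -/
def nj (ω : Equiv.Perm X × (X → Fin 2)) (x : X) : ℕ :=
  if ω.2 x = ω.2 (ω.1 x) then 1 else if ω.2 x = 1 then 2 else 0

omit [Fintype X] [DecidableEq X] in
lemma nj_le (ω : Equiv.Perm X × (X → Fin 2)) (x : X) : nj ω x ≤ 2 := by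
  unfold nj; split_ifs <;> norm_num

omit [Fintype X] [DecidableEq X] in
lemma nj_eq_one (ω : Equiv.Perm X × (X → Fin 2)) (x : X) :
    nj ω x = 1 ↔ ω.2 x = ω.2 (ω.1 x) := by
  unfold nj; split_ifs <;> simp_all

omit [Fintype X] [DecidableEq X] in
lemma jc_nj (ω : Equiv.Perm X × (X → Fin 2)) (x : X) :
    SR.jc (nj (X := X)) ω x = jj ω.1 ω.2 x := by
  unfold SR.jc nj jj
  generalize ω.2 x = a
  generalize ω.2 (ω.1 x) = b
  fin_cases a <;> fin_cases b <;> simp <;> norm_num

/-- the weight at `θ = 1` -/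
def Wμ (μ : Equiv.Perm X → ℝ) (ω : Equiv.Perm X × (X → Fin 2)) : ℝ := μ ω.1

lemma wθ_nj (μ : Equiv.Perm X → ℝ) (θ : X → ℝ) (ω : Equiv.Perm X × (X → Fin 2)) :
    SR.wθ (Wμ μ) nj θ ω = μ ω.1 * wt θ ω.1 ω.2 := by
  unfold SR.wθ Wμ wt
  congr 1
  refine Finset.prod_congr rfl fun x _ => ?_
  simp only [nj_eq_one]

lemma sum_nj (μ : Equiv.Perm X → ℝ) (θ : X → ℝ) (f : Equiv.Perm X → (X → Fin 2) → ℝ) :
    ∑ ω, SR.wθ (Wμ μ) nj θ ω * f ω.1 ω.2 = ∑ π, ∑ s, μ π * wt θ π s * f π s := by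
  rw [Fintype.sum_prod_type]
  refine Finset.sum_congr rfl fun π _ => Finset.sum_congr rfl fun s _ => ?_
  rw [wθ_nj]

lemma Zθ_nj (μ : Equiv.Perm X → ℝ) (θ : X → ℝ) : SR.Zθ (Wμ μ) nj θ = ZZ μ θ := by
  have := sum_nj μ θ (fun _ _ => 1)
  simp only [mul_one] at this
  exact this

lemma Eθ_nj (μ : Equiv.Perm X → ℝ) (θ : X → ℝ) (f : Equiv.Perm X → (X → Fin 2) → ℝ) :
    SR.Eθ (Wμ μ) nj θ (fun ω => f ω.1 ω.2) = EE μ θ f := by
  unfold SR.Eθ EE
  rw [sum_nj, Zθ_nj]

lemma vθ_nj (μ : Equiv.Perm X → ℝ) (θ : X → ℝ) (z : X) :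
    SR.vθ (Wμ μ) nj θ z = vv μ θ z := by
  unfold SR.vθ vv
  simp only [jc_nj]
  exact Eθ_nj μ θ (fun π s => jj π s z ^ 2)

lemma cθ_nj (μ : Equiv.Perm X → ℝ) (θ : X → ℝ) (u v : X) :
    SR.cθ (Wμ μ) nj θ u v = cc μ θ u v := by
  unfold SR.cθ cc
  simp only [jc_nj]
  rw [Eθ_nj μ θ (fun π s => jj π s u * jj π s v)]

/-- law of a product of random transpositions: nonnegativity -/
lemma law_nonneg (l : List (X × X × ℝ)) (σ : Equiv.Perm X)
    (hl : ∀ g ∈ l, 0 ≤ g.2.2 ∧ g.2.2 ≤ 1 / 2) (π : Equiv.Perm X) : 0 ≤ law l σ π := by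
  induction l generalizing π with
  | nil =>
    unfold law
    by_cases h : π = σ
    · subst h; simp
    · simp [Pi.single_apply, h]
  | cons g l ih =>
    have h1 := hl g (by simp)
    have h2 := ih (fun g' hg' => hl g' (by simp [hg']))
    unfold law
    have h3 := h2 π
    have h4 := h2 (Equiv.swap g.1 g.2.1 * π)
    have h5 : 0 ≤ 1 - g.2.2 := by linarith [h1.2]
    have := h1.1
    positivity

/-- law of a product of random transpositions: total mass -/
lemma law_sum (l : List (X × X × ℝ)) (σ : Equiv.Perm X) : ∑ π, law l σ π = 1 := by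
  induction l with
  | nil =>
    unfold law
    simp
  | cons g l ih =>
    have : ∑ π, law l σ (Equiv.swap g.1 g.2.1 * π) = 1 := by
      rw [← ih]
      exact Fintype.sum_equiv (Equiv.mulLeft (Equiv.swap g.1 g.2.1)) _ _ (fun π => rfl)
    unfold law
    rw [Finset.sum_add_distrib, ← Finset.mul_sum, ← Finset.mul_sum, ih, this]
    ring

lemma isLaw_nonneg {μ : Equiv.Perm X → ℝ} (h : IsLaw μ) (π : Equiv.Perm X) : 0 ≤ μ π := by
  obtain ⟨l, σ, hl, rfl⟩ := h
  exact law_nonneg l σ hl π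

lemma isLaw_sum {μ : Equiv.Perm X → ℝ} (h : IsLaw μ) : ∑ π, μ π = 1 := by
  obtain ⟨l, σ, hl, rfl⟩ := h
  exact law_sum l σ

lemma wt_nonneg' {θ : X → ℝ} (h : ∀ x, 0 ≤ θ x) (π : Equiv.Perm X) (s : X → Fin 2) :
    0 ≤ wt θ π s := by
  unfold wt
  refine Finset.prod_nonneg fun x _ => ?_
  split_ifs
  · exact zero_le_one
  · exact h x

lemma sum_jj_eq_zero (π : Equiv.Perm X) (s : X → Fin 2) : ∑ x, jj π s x = 0 := by
  unfold jj
  rw [Finset.sum_sub_distrib, sub_eq_zero]
  exact (Equiv.sum_comp π (fun x => ((s x : ℕ) : ℝ))).symm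

lemma sum_nj_eq_card (ω : Equiv.Perm X × (X → Fin 2)) : ∑ x, nj ω x = Fintype.card X := by
  have h := sum_jj_eq_zero ω.1 ω.2
  have h2 : ∑ x, jj ω.1 ω.2 x = ((∑ x, nj ω x : ℕ) : ℝ) - Fintype.card X := by
    rw [Nat.cast_sum, ← Finset.card_univ, Finset.cast_card, ← Finset.sum_sub_distrib]
    refine Finset.sum_congr rfl fun x _ => ?_
    rw [← jc_nj]; rfl
  rw [h2, sub_eq_zero] at h
  exact_mod_cast h

/-- the global flip of the spins -/
def flipPerm : Equiv.Perm (Equiv.Perm X × (X → Fin 2)) where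
  toFun ω := (ω.1, fun x => 1 - ω.2 x)
  invFun ω := (ω.1, fun x => 1 - ω.2 x)
  left_inv ω := by ext <;> simp
  right_inv ω := by ext <;> simp

omit [Fintype X] [DecidableEq X] in
lemma nj_flip (ω : Equiv.Perm X × (X → Fin 2)) (x : X) :
    nj (flipPerm ω) x = 2 - nj ω x := by
  have h : ∀ a b : Fin 2, (if (1 - a : Fin 2) = 1 - b then 1 else if (1 - a : Fin 2) = 1 then 2 else 0)
      = 2 - (if a = b then 1 else if a = 1 then 2 else 0) := by decide
  exact h (ω.2 x) (ω.2 (ω.1 x))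

lemma wθ_flip (μ : Equiv.Perm X → ℝ) (θ : X → ℝ) (ω : Equiv.Perm X × (X → Fin 2)) :
    SR.wθ (Wμ μ) nj θ (flipPerm ω) = SR.wθ (Wμ μ) nj θ ω := by
  unfold SR.wθ
  have h1 : Wμ μ (flipPerm ω) = Wμ μ ω := rfl
  rw [h1]
  congr 1
  refine Finset.prod_congr rfl fun x _ => ?_
  have h2 : nj (flipPerm ω) x = 1 ↔ nj ω x = 1 := by
    rw [nj_flip]
    have := nj_le ω x
    omega
  simp only [h2]

/-- the generating function in Omega-form -/
lemma gen_eq (μ : Equiv.Perm X → ℝ) (θ : X → ℝ) (ζ : X → ℂ) :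
    gen μ θ ζ = ∑ ω, ((SR.wθ (Wμ μ) nj θ ω : ℝ) : ℂ) * ∏ x, ζ x ^ nj ω x := by
  unfold gen
  rw [Fintype.sum_prod_type]
  refine Finset.sum_congr rfl fun π _ => Finset.sum_congr rfl fun s _ => ?_
  rw [wθ_nj]
  congr 1
  refine Finset.prod_congr rfl fun x _ => ?_
  unfold nj
  simp only
  split_ifs <;> simp

lemma QA_one_nj (μ : Equiv.Perm X → ℝ) (θ : X → ℝ) (z : X) :
    SR.QA (Wμ μ) nj θ z (fun _ => 1)
      = ∑ π, ∑ s : X → Fin 2, if s z = s (π z) then 0
          else μ π * wt (Function.update θ z 1) π s := by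
  unfold SR.QA
  rw [Fintype.sum_prod_type]
  refine Finset.sum_congr rfl fun π _ => Finset.sum_congr rfl fun s _ => ?_
  simp only [nj_eq_one, wθ_nj, mul_one]

lemma wt_update_of_eq (θ : X → ℝ) (z : X) (t : ℝ) (π : Equiv.Perm X) (s : X → Fin 2)
    (h : s z = s (π z)) : wt (Function.update θ z t) π s = wt θ π s := by
  unfold wt
  refine Finset.prod_congr rfl fun x _ => ?_
  by_cases hx : x = z
  · subst hx; simp [h]
  · rw [Function.update_of_ne hx]

lemma QB_one_nj (μ : Equiv.Perm X → ℝ) (θ : X → ℝ) (z : X) :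
    SR.QB (Wμ μ) nj θ z (fun _ => 1)
      = ∑ π, ∑ s : X → Fin 2, if s z = s (π z) then μ π * wt θ π s else 0 := by
  unfold SR.QB
  rw [Fintype.sum_prod_type]
  refine Finset.sum_congr rfl fun π _ => Finset.sum_congr rfl fun s _ => ?_
  simp only [nj_eq_one, wθ_nj, mul_one]
  split_ifs with h
  · rw [wt_update_of_eq θ z 1 π s h]
  · rfl

lemma mag_eq (μ : Equiv.Perm X → ℝ) (θ : X → ℝ) (z : X) :
    mag μ θ z = SR.QA (Wμ μ) nj θ z (fun _ => 1) / SR.QB (Wμ μ) nj θ z (fun _ => 1) := by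
  rw [QA_one_nj, QB_one_nj]
  rfl

lemma wθ_nonneg {μ : Equiv.Perm X → ℝ} (hμ : IsLaw μ) {θ : X → ℝ} (hθ : ∀ x, 0 ≤ θ x)
    (ω : Equiv.Perm X × (X → Fin 2)) : 0 ≤ SR.wθ (Wμ μ) nj θ ω := by
  rw [wθ_nj]
  exact mul_nonneg (isLaw_nonneg hμ _) (wt_nonneg' hθ _ _)

lemma update_nonneg {θ : X → ℝ} (hθ : ∀ x, 0 ≤ θ x) (z : X) (x : X) :
    0 ≤ Function.update θ z 1 x := by
  by_cases hx : x = z
  · subst hx; simp
  · rw [Function.update_of_ne hx]; exact hθ x

lemma QB_pos {μ : Equiv.Perm X → ℝ} (hμ : IsLaw μ) {θ : X → ℝ} (hθ : ∀ x, 0 ≤ θ x) (z : X) :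
    0 < SR.QB (Wμ μ) nj θ z (fun _ => 1) := by
  have h1 : (1:ℝ) ≤ SR.QB (Wμ μ) nj θ z (fun _ => 1) := by
    rw [QB_one_nj, ← isLaw_sum hμ]
    refine Finset.sum_le_sum fun π _ => ?_
    have h2 : (fun s : X → Fin 2 => if s z = s (π z) then μ π * wt θ π s else 0)
        (fun _ => 0) = μ π := by
      simp [wt]
    have h3 := Finset.single_le_sum (f := fun s : X → Fin 2 => if s z = s (π z)
      then μ π * wt θ π s else 0) (s := Finset.univ) (fun s _ => by
        split_ifs
        · exact mul_nonneg (isLaw_nonneg hμ _) (wt_nonneg' hθ _ _)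
        · exact le_rfl) (Finset.mem_univ (fun _ => 0))
    exact h2.symm.le.trans h3
  linarith

lemma QA_nonneg {μ : Equiv.Perm X → ℝ} (hμ : IsLaw μ) {θ : X → ℝ} (hθ : ∀ x, 0 ≤ θ x) (z : X) :
    0 ≤ SR.QA (Wμ μ) nj θ z (fun _ => 1) := by
  unfold SR.QA
  refine Finset.sum_nonneg fun ω _ => ?_
  split_ifs
  · exact le_rfl
  · rw [mul_one]; exact wθ_nonneg hμ (update_nonneg hθ z) ω

lemma QA_eq_zero {μ : Equiv.Perm X → ℝ} (hμ : IsLaw μ) {θ : X → ℝ} (hθ : ∀ x, 0 ≤ θ x) (z : X)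
    (h : SR.QA (Wμ μ) nj θ z (fun _ => 1) = 0) (F : Equiv.Perm X × (X → Fin 2) → ℝ) :
    SR.QA (Wμ μ) nj θ z F = 0 := by
  unfold SR.QA at h ⊢
  have h1 := (Finset.sum_eq_zero_iff_of_nonneg (fun ω _ => by
    split_ifs
    · exact le_rfl
    · rw [mul_one]; exact wθ_nonneg hμ (update_nonneg hθ z) ω)).mp h
  refine Finset.sum_eq_zero fun ω hω => ?_
  have h2 := h1 ω hω
  split_ifs at h2 ⊢ with h3
  · rfl
  · rw [mul_one] at h2; rw [h2, zero_mul]

/-- the conclusion of Theorem 1 of note 8371 for the law at `θ z = 1` (Omega-form). -/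
def StarMeshAt (μ : Equiv.Perm X → ℝ) (θ : X → ℝ) (z : X) : Prop :=
  SR.QA (Wμ μ) nj θ z (fun _ => 1) ≤ SR.QB (Wμ μ) nj θ z (fun _ => 1) ∧
  (0 < SR.QA (Wμ μ) nj θ z (fun _ => 1) → ∀ a : X → ℝ, ∀ ε : ℝ,
    ε = Real.sqrt (1 - 2 * SR.QA (Wμ μ) nj θ z (fun _ => 1) /
      (SR.QA (Wμ μ) nj θ z (fun _ => 1) + SR.QB (Wμ μ) nj θ z (fun _ => 1))) →
      SR.QA (Wμ μ) nj θ z (fun ω => (∑ x, a x * SR.jc nj ω x) ^ 2)
          / SR.QA (Wμ μ) nj θ z (fun _ => 1)
        - SR.QB (Wμ μ) nj θ z (fun ω => (∑ x, a x * SR.jc nj ω x) ^ 2)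
          / SR.QB (Wμ μ) nj θ z (fun _ => 1)
      ≤ (∑ x, SR.QA (Wμ μ) nj θ z (fun ω => - (SR.jc nj ω z * SR.jc nj ω x))
            / SR.QA (Wμ μ) nj θ z (fun _ => 1) * (a x - a z)) ^ 2
        + 2 * ε / (1 + ε ^ 2) *
          (∑ x, SR.QA (Wμ μ) nj θ z (fun ω => - (SR.jc nj ω z * SR.jc nj ω x))
            / SR.QA (Wμ μ) nj θ z (fun _ => 1) * (a x - a z) ^ 2
          - (∑ x, SR.QA (Wμ μ) nj θ z (fun ω => - (SR.jc nj ω z * SR.jc nj ω x))
            / SR.QA (Wμ μ) nj θ z (fun _ => 1) * (a x - a z)) ^ 2))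

lemma delta_eq {p q ε : ℝ} (hp : 0 ≤ p) (hq : 0 < q) (hpq : p ≤ q)
    (hε : ε = Real.sqrt (1 - 2 * p / (p + q))) :
    2 * ε / (1 + ε ^ 2) = Real.sqrt (1 - (p / q) ^ 2) := by
  have h0 : 1 - 2 * p / (p + q) = (q - p) / (q + p) := by field_simp; ring
  have h1 : 0 ≤ (q - p) / (q + p) := div_nonneg (by linarith) (by linarith)
  have h2 : ε ^ 2 = (q - p) / (q + p) := by
    rw [hε, h0, Real.sq_sqrt h1]
  have h3 : 0 ≤ ε := by rw [hε]; exact Real.sqrt_nonneg _
  have h4 : 0 ≤ 2 * ε / (1 + ε ^ 2) := by positivity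
  have hpq0 : 0 < q + p := by linarith
  have h5 : 1 - (p / q) ^ 2 = (2 * ε / (1 + ε ^ 2)) ^ 2 := by
    have h6 : (2 * ε / (1 + ε ^ 2)) ^ 2 = 4 * ε ^ 2 / (1 + ε ^ 2) ^ 2 := by
      rw [div_pow, mul_pow]; norm_num
    have h7 : 1 + (q - p) / (q + p) = 2 * q / (q + p) := by field_simp; ring
    rw [h6, h2, h7]
    field_simp
    ring
  rw [h5, Real.sqrt_sq h4]

theorem oneNode_aux {μ : Equiv.Perm X → ℝ} (hμ : IsLaw μ)
    (hcc : ∀ θ : X → ℝ, (∀ x, 0 ≤ θ x ∧ θ x ≤ 1) → ∀ u v, u ≠ v → 0 ≤ cc μ θ u v)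
    (hT : ∀ θ : X → ℝ, (∀ x, 0 ≤ θ x ∧ θ x ≤ 1) → ∀ z, StarMeshAt μ θ z) : OneNode μ := by
  intro θ hθ z hz a
  obtain ⟨hAB, hT1⟩ := hT θ hθ z
  have hθ0 : ∀ x, 0 ≤ θ x := fun x => (hθ x).1
  set wA := SR.QA (Wμ μ) nj θ z (fun _ => 1) with hwA
  set wB := SR.QB (Wμ μ) nj θ z (fun _ => 1) with hwB
  have hA : 0 ≤ wA := QA_nonneg hμ hθ0 z
  have hB : 0 < wB := QB_pos hμ hθ0 z
  have hδ := delta_eq hA hB hAB rfl
  have hM : mag μ θ z = wA / wB := mag_eq μ θ z
  have key := SR.cov_le (Wμ μ) nj nj_le θ z a (Real.sqrt (1 - (wA / wB) ^ 2)) hz.le hA hB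
    (fun h F => QA_eq_zero hμ hθ0 z h F) (fun h => by
      rw [← hδ]
      exact hT1 h a _ rfl)
  simp only [jc_nj, cθ_nj, vθ_nj] at key
  rw [Eθ_nj μ θ (fun π s => jj π s z ^ 2 * (∑ x, a x * jj π s x) ^ 2),
    Eθ_nj μ θ (fun π s => jj π s z ^ 2),
    Eθ_nj μ θ (fun π s => (∑ x, a x * jj π s x) ^ 2)] at key
  rw [hM]
  set δ := Real.sqrt (1 - (wA / wB) ^ 2) with hδdef
  have hS : 0 ≤ ∑ x, cc μ θ z x * (a x - a z) ^ 2 := by
    refine Finset.sum_nonneg fun x _ => ?_
    by_cases hx : z = x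
    · subst hx; simp
    · exact mul_nonneg (hcc θ hθ z x hx) (sq_nonneg _)
  have hδ0 : 0 ≤ δ := Real.sqrt_nonneg _
  have hδ1 : δ ≤ 1 := by
    rw [hδdef]
    apply Real.sqrt_le_one.mpr
    nlinarith [sq_nonneg (wA / wB)]
  have hZ : ZZ μ θ = wB + θ z * wA := by
    rw [← Zθ_nj]; exact SR.Zθ_split (Wμ μ) nj θ z
  have hv : vv μ θ z = θ z * wA / (wB + θ z * wA) := by
    rw [← vθ_nj]
    unfold SR.vθ SR.Eθ
    have := SR.sum_jsq (Wμ μ) nj nj_le θ z (fun _ => 1)
    simp only [mul_one] at this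
    rw [this, SR.Zθ_split (Wμ μ) nj θ z]
  have hv0 : 0 ≤ vv μ θ z := by rw [hv]; positivity
  have hv1 : vv μ θ z ≤ 1 := by
    rw [hv, div_le_one (by positivity)]; linarith
  have hF : 0 ≤ (∑ x, cc μ θ z x * (a x - a z)) ^ 2 / vv μ θ z := div_nonneg (sq_nonneg _) hv0
  refine key.trans ?_
  set F := (∑ x, cc μ θ z x * (a x - a z)) ^ 2 / vv μ θ z
  set S := ∑ x, cc μ θ z x * (a x - a z) ^ 2
  have h1 : (1 - δ) * F + δ * S ≤ F + δ * S := by nlinarith [mul_nonneg hδ0 hF]
  have h2 : 0 ≤ (1 - δ) * F + δ * S := by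
    have := mul_nonneg (sub_nonneg.mpr hδ1) hF
    have := mul_nonneg hδ0 hS
    linarith
  have h3 : (1 - vv μ θ z) * ((1 - δ) * F + δ * S) ≤ 1 * ((1 - δ) * F + δ * S) :=
    mul_le_mul_of_nonneg_right (by linarith) h2
  linarith

/-- Theorem 1 (helper106) for the charge laws. -/
theorem starMeshAt_of_stable {μ : Equiv.Perm X → ℝ} (hμ : IsLaw μ) {θ : X → ℝ}
    (hθ : ∀ x, 0 ≤ θ x) (z : X) (hst : Stable μ (Function.update θ z 1)) :
    StarMeshAt μ θ z := by
  set W' : Equiv.Perm X × (X → Fin 2) → ℝ :=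
    fun ω => SR.wθ (Wμ μ) nj (Function.update θ z 1) ω with hW'
  have hW : ∀ ω, 0 ≤ W' ω := fun ω => wθ_nonneg hμ (update_nonneg hθ z) ω
  have hst' : ∀ y : X → ℂ, (∀ x, 0 < (y x).im) →
      ∑ ω, (W' ω : ℂ) * ∏ x, y x ^ nj ω x ≠ 0 := by
    intro y hy
    rw [← gen_eq]
    exact hst y hy
  have hdeg : ∀ ω, W' ω ≠ 0 → ∑ x, nj ω x = Fintype.card X := fun ω _ => sum_nj_eq_card ω
  have hWι : ∀ ω, W' (flipPerm ω) = W' ω := fun ω => wθ_flip μ _ ω
  refine ⟨?_, ?_⟩
  · -- `wA ≤ wB`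
    set w1 : ℝ := T1.Sk W' nj z 2 (fun _ => 1) with hw1
    have h00 : T1.Sk W' nj z 0 (fun _ => 1) = w1 :=
      T1.Sk_symm nj_le flipPerm hWι nj_flip z (by norm_num) _
    have hw1n : 0 ≤ w1 := Finset.sum_nonneg fun w _ => by
      split_ifs
      · rw [mul_one]; exact hW w
      · exact le_rfl
    have hw0n : 0 ≤ T1.Sk W' nj z 1 (fun _ => 1) := Finset.sum_nonneg fun w _ => by
      split_ifs
      · rw [mul_one]; exact hW w
      · exact le_rfl
    have hsA1 : SR.QA (Wμ μ) nj θ z (fun _ => 1) = 2 * w1 := by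
      change T1.sA W' nj z (fun _ => 1) = 2 * w1
      rw [T1.sA_eq nj_le, h00]
      ring
    have hsB1 : SR.QB (Wμ μ) nj θ z (fun _ => 1) = T1.Sk W' nj z 1 (fun _ => 1) := rfl
    rw [hsA1, hsB1]
    rcases hw1n.eq_or_lt with h | h
    · rw [← h]; simpa using hw0n
    · refine T1.two_mul_le nj_le hdeg ?_ z _ _ h hw0n h00 rfl rfl
      intro y hy
      rw [T1.gen_aeval]
      exact hst' y hy
  · intro _ a ε hε
    have key := T1.theorem_one hW nj_le hdeg flipPerm hWι nj_flip hst' z a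
      (fun x => T1.EA W' nj z fun w => -((nj w z : ℝ) - 1) * ((nj w x : ℝ) - 1)) _ _ ε
      (fun _ => rfl) rfl rfl hε
    have e1 : ∀ x, T1.EA W' nj z (fun w => -((nj w z : ℝ) - 1) * ((nj w x : ℝ) - 1))
        = SR.QA (Wμ μ) nj θ z (fun ω => - (SR.jc nj ω z * SR.jc nj ω x))
            / SR.QA (Wμ μ) nj θ z (fun _ => 1) := by
      intro x
      have : (fun ω : Equiv.Perm X × (X → Fin 2) => -(SR.jc nj ω z * SR.jc nj ω x))
          = fun w => -((nj w z : ℝ) - 1) * ((nj w x : ℝ) - 1) := by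
        funext w; unfold SR.jc; ring
      rw [this]
      rfl
    simp only [e1] at key
    exact key

/-- **The one-node inequality**, from strong Rayleigh stability. -/
theorem oneNode_of_stable {μ : Equiv.Perm X → ℝ} (hμ : IsLaw μ)
    (hst : ∀ θ : X → ℝ, (∀ x, 0 ≤ θ x ∧ θ x ≤ 1) → Stable μ θ)
    (hcc : ∀ θ : X → ℝ, (∀ x, 0 ≤ θ x ∧ θ x ≤ 1) → ∀ u v, u ≠ v → 0 ≤ cc μ θ u v) :
    OneNode μ := by
  refine oneNode_aux hμ hcc fun θ hθ z => starMeshAt_of_stable hμ (fun x => (hθ x).1) z ?_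
  apply hst
  intro x
  by_cases hx : x = z
  · subst hx; simp
  · rw [Function.update_of_ne hx]; exact hθ x

/-- `v_z ≤ θ_z M_z` and `M_z ≤ 1`. -/
theorem mag_le_one {μ : Equiv.Perm X → ℝ} (hμ : IsLaw μ) {θ : X → ℝ}
    (hθ : ∀ x, 0 ≤ θ x) (z : X) (hst : Stable μ (Function.update θ z 1)) :
    mag μ θ z ≤ 1 := by
  rw [mag_eq, div_le_one (QB_pos hμ hθ z)]
  exact (starMeshAt_of_stable hμ hθ z hst).1

theorem mag_nonneg {μ : Equiv.Perm X → ℝ} (hμ : IsLaw μ) {θ : X → ℝ}
    (hθ : ∀ x, 0 ≤ θ x) (z : X) : 0 ≤ mag μ θ z := by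
  rw [mag_eq]
  exact div_nonneg (QA_nonneg hμ hθ z) (QB_pos hμ hθ z).le

/-- `v_z = θ_z M_z / (1 + θ_z M_z)`. -/
theorem vv_eq {μ : Equiv.Perm X → ℝ} (hμ : IsLaw μ) {θ : X → ℝ}
    (hθ : ∀ x, 0 ≤ θ x) (z : X) :
    vv μ θ z = θ z * mag μ θ z / (1 + θ z * mag μ θ z) := by
  have hB := QB_pos hμ hθ z
  have hA := QA_nonneg hμ hθ z
  rw [mag_eq, ← vθ_nj]
  unfold SR.vθ SR.Eθ
  have := SR.sum_jsq (Wμ μ) nj nj_le θ z (fun _ => 1)
  simp only [mul_one] at this
  rw [this, SR.Zθ_split (Wμ μ) nj θ z]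
  have h0 := hθ z
  field_simp

/-- `v_z ≤ θ_z`. -/
theorem vv_le {μ : Equiv.Perm X → ℝ} (hμ : IsLaw μ) {θ : X → ℝ}
    (hθ : ∀ x, 0 ≤ θ x) (z : X) (hst : Stable μ (Function.update θ z 1)) :
    vv μ θ z ≤ θ z := by
  rw [vv_eq hμ hθ z]
  have h0 := mag_nonneg hμ hθ z
  have h1 := mag_le_one hμ hθ z hst
  have h2 := hθ z
  have h3 : 0 ≤ θ z * mag μ θ z := mul_nonneg h2 h0
  rw [div_le_iff₀ (by linarith)]
  nlinarith [mul_nonneg h2 h3, mul_le_mul_of_nonneg_left h1 h2]

end

end Vale.Agent.P361.LRO.ONI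
end

section

/-!
# Closed hemisphere calculus (P361, block SR)

Pairs `u : Fin 2 → ℂ`; `Dc u`: `u ≠ 0` and `0 ≤ Re (u 0 * conj (u 1))` (closed hemisphere);
`Do u`: strict inequality.
* `pair_ne`: the pairing of an open and a closed point does not vanish;
* `gate_two`: the partial swap of a bilinear form which does not vanish on `Dc × Dc`;
* `trace_ne`: its trace does not vanish;
* `node_open`: a node with `θ > 0`, `Re z > 0` maps closed to open.
-/

namespace Vale.Agent.P361.LRO.SR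

open Complex

/-- closed hemisphere -/
def Dc (u : Fin 2 → ℂ) : Prop := u ≠ 0 ∧ 0 ≤ (u 0 * (starRingEnd ℂ) (u 1)).re

/-- open hemisphere -/
def Do (u : Fin 2 → ℂ) : Prop := 0 < (u 0 * (starRingEnd ℂ) (u 1)).re

theorem re_mul_conj (a b : ℂ) : (a * (starRingEnd ℂ) b).re = a.re * b.re + a.im * b.im := by
  simp [Complex.mul_re]

/-- pairing of a closed and an open point -/
theorem pair_ne {w u : Fin 2 → ℂ} (hw : Do w) (hu : Dc u) : w 0 * u 0 + w 1 * u 1 ≠ 0 := by
  intro h
  obtain ⟨h0, h1⟩ := hu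
  have hw1 : w 1 ≠ 0 := by
    intro h2; rw [Do, h2] at hw; simp at hw
  have hw0 : w 0 ≠ 0 := by
    intro h2; rw [Do, h2] at hw; simp at hw
  have hu0 : u 0 ≠ 0 := by
    intro h2
    rw [h2, mul_zero, zero_add] at h
    have h3 : u 1 = 0 := (mul_eq_zero.1 h).resolve_left hw1
    exact h0 (by funext i; fin_cases i <;> simp [h2, h3])
  have h4 : u 1 = - (w 0 * u 0) / w 1 := by
    field_simp
    linear_combination h
  have h5 : (u 0 * (starRingEnd ℂ) (u 1)) * (w 0 * (starRingEnd ℂ) (w 0)) * 0 = 0 := by ring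
  have h6 : u 0 * (starRingEnd ℂ) (u 1) * (w 1 * (starRingEnd ℂ) (w 1)) =
      - (u 0 * (starRingEnd ℂ) (u 0)) * ((starRingEnd ℂ) (w 0) * w 1) := by
    rw [h4]
    have hc : (starRingEnd ℂ) (w 1) ≠ 0 := by simpa using hw1
    rw [map_div₀, map_neg, map_mul]
    field_simp
  have h7 := congrArg Complex.re h6
  rw [Complex.mul_conj, Complex.mul_conj] at h7
  have h8 : (starRingEnd ℂ) (w 0) * w 1 = (starRingEnd ℂ) (w 0 * (starRingEnd ℂ) (w 1)) := by
    simp
  rw [h8] at h7
  simp only [Complex.re_mul_ofReal, neg_mul, Complex.neg_re, Complex.re_ofReal_mul,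
    Complex.conj_re] at h7
  have h9 : 0 < normSq (u 0) := normSq_pos.2 hu0
  have h10 : 0 < normSq (w 1) := normSq_pos.2 hw1
  have h11 : 0 < normSq (u 0) * (w 0 * (starRingEnd ℂ) (w 1)).re := mul_pos h9 hw
  have h12 : 0 ≤ (u 0 * (starRingEnd ℂ) (u 1)).re * normSq (w 1) := mul_nonneg h1 h10.le
  linarith

/-- the bilinear form of `C` -/
def bil (C : Fin 2 → Fin 2 → ℂ) (u w : Fin 2 → ℂ) : ℂ :=
  ∑ i, ∑ k, C i k * u i * w k

theorem bil_eq (C : Fin 2 → Fin 2 → ℂ) (u w : Fin 2 → ℂ) :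
    bil C u w = (C 0 0 * u 0 + C 1 0 * u 1) * w 0 + (C 0 1 * u 0 + C 1 1 * u 1) * w 1 := by
  simp only [bil, Fin.sum_univ_two]
  ring

theorem open_of_bil {C : Fin 2 → Fin 2 → ℂ} {u : Fin 2 → ℂ}
    (h : ∀ w, Dc w → bil C u w ≠ 0) :
    0 < ((C 0 0 * u 0 + C 1 0 * u 1) * (starRingEnd ℂ) (C 0 1 * u 0 + C 1 1 * u 1)).re := by
  set A := C 0 0 * u 0 + C 1 0 * u 1
  set B := C 0 1 * u 0 + C 1 1 * u 1
  by_contra hn
  rw [not_lt] at hn
  by_cases hAB : A = 0 ∧ B = 0
  · refine h ![1, 1] ⟨?_, by simp⟩ ?_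
    · intro h0
      have := congrFun h0 0
      simp at this
    · rw [bil_eq]
      change A * _ + B * _ = 0
      rw [hAB.1, hAB.2]; ring
  · refine h ![B, -A] ⟨?_, ?_⟩ ?_
    · intro h0
      have e0 := congrFun h0 0
      have e1 := congrFun h0 1
      simp at e0 e1
      exact hAB ⟨e1, e0⟩
    · rw [re_mul_conj] at hn ⊢
      simp only [Matrix.cons_val_zero, Matrix.cons_val_one, Complex.neg_re, Complex.neg_im]
      linarith
    · rw [bil_eq]
      change A * B + B * (-A) = 0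
      ring

/-- **two-site gate lemma** -/
theorem gate_two {C : Fin 2 → Fin 2 → ℂ} (h : ∀ u w, Dc u → Dc w → bil C u w ≠ 0) {p : ℝ}
    (hp0 : 0 ≤ p) (hp1 : p ≤ 1) {u w : Fin 2 → ℂ} (hu : Dc u) (hw : Dc w) :
    (1 - p) * bil C u w + p * bil C w u ≠ 0 := by
  have h0 := open_of_bil (C := C) (u := u) fun w hw => h u w hu hw
  have h1 := open_of_bil (C := fun i k => C k i) (u := u) fun w hw => by
    have e : bil (fun i k => C k i) u w = bil C w u := by
      rw [bil_eq, bil_eq]; ring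
    rw [e]
    exact h w u hw hu
  have hopen : Do ![C 0 0 * u 0 + ((1 - p) * C 1 0 + p * C 0 1) * u 1,
      ((1 - p) * C 0 1 + p * C 1 0) * u 0 + C 1 1 * u 1] := by
    rw [Do]
    simp only [Matrix.cons_val_zero, Matrix.cons_val_one]
    have key : ((C 0 0 * u 0 + ((1 - p) * C 1 0 + p * C 0 1) * u 1) *
        (starRingEnd ℂ) (((1 - p) * C 0 1 + p * C 1 0) * u 0 + C 1 1 * u 1)).re =
        (1 - p) * ((C 0 0 * u 0 + C 1 0 * u 1) *
          (starRingEnd ℂ) (C 0 1 * u 0 + C 1 1 * u 1)).re +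
        p * ((C 0 0 * u 0 + C 0 1 * u 1) *
          (starRingEnd ℂ) (C 1 0 * u 0 + C 1 1 * u 1)).re +
        p * (1 - p) * normSq (C 1 0 - C 0 1) * (u 0 * (starRingEnd ℂ) (u 1)).re := by
      simp only [re_mul_conj]
      simp only [normSq_apply, Complex.add_re, Complex.add_im, Complex.mul_re,
        Complex.mul_im, Complex.sub_re, Complex.sub_im, Complex.ofReal_re, Complex.ofReal_im,
        Complex.one_re, Complex.one_im]
      ring
    rw [key]
    have hp2 : 0 ≤ 1 - p := by linarith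
    have t3 : 0 ≤ p * (1 - p) * normSq (C 1 0 - C 0 1) * (u 0 * (starRingEnd ℂ) (u 1)).re :=
      mul_nonneg (mul_nonneg (mul_nonneg hp0 hp2) (normSq_nonneg _)) hu.2
    rcases hp0.eq_or_lt with h2 | h2
    · rw [← h2] at t3 ⊢
      simp only [sub_zero, one_mul, zero_mul, add_zero]
      exact h0
    · have t2 := mul_pos h2 h1
      have t1 : 0 ≤ (1 - p) * ((C 0 0 * u 0 + C 1 0 * u 1) *
          (starRingEnd ℂ) (C 0 1 * u 0 + C 1 1 * u 1)).re := mul_nonneg hp2 h0.le
      linarith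
  have h2 := pair_ne hopen hw
  intro h3
  apply h2
  rw [bil_eq, bil_eq] at h3
  simp only [Matrix.cons_val_zero, Matrix.cons_val_one]
  linear_combination h3

theorem exists_root_re (c : ℂ) : ∃ t : ℂ, t ^ 2 = c ∧ 0 ≤ t.re := by
  obtain ⟨t, ht⟩ := IsAlgClosed.exists_pow_nat_eq c (n := 2) (by norm_num)
  rcases le_total 0 t.re with h | h
  · exact ⟨t, ht, h⟩
  · exact ⟨-t, by rw [neg_sq, ht], by rw [Complex.neg_re]; linarith⟩

/-- **trace lemma** -/
theorem trace_ne {C : Fin 2 → Fin 2 → ℂ} (h : ∀ u w, Dc u → Dc w → bil C u w ≠ 0) :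
    C 0 0 + C 1 1 ≠ 0 := by
  intro h0
  by_cases h1 : C 1 0 = 0
  · refine h ![0, 1] ![1, 0] ⟨?_, ?_⟩ ⟨?_, ?_⟩ ?_
    · intro e
      have := congrFun e 1
      simp at this
    · simp
    · intro e
      have := congrFun e 0
      simp at this
    · simp
    · rw [bil_eq]
      simp [h1]
  · obtain ⟨t, ht, htr⟩ := exists_root_re (-(C 0 1) / C 1 0)
    refine h ![1, t] ![t, 1] ⟨?_, ?_⟩ ⟨?_, ?_⟩ ?_
    · intro e
      have := congrFun e 0
      simp at this
    · rw [re_mul_conj]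
      simpa using htr
    · intro e
      have := congrFun e 1
      simp at this
    · rw [re_mul_conj]
      simpa using htr
    · rw [bil_eq]
      simp only [Matrix.cons_val_zero, Matrix.cons_val_one]
      have h2 : C 1 0 * t ^ 2 = - C 0 1 := by
        rw [ht]; field_simp
      linear_combination h2 + t * h0

/-- a node with `θ > 0`, `Re z > 0` maps the closed hemisphere into the open one -/
theorem node_open {θ : ℝ} {z : ℂ} (h0 : 0 < θ) (h1 : θ ≤ 1) (hz : 0 < z.re) {u : Fin 2 → ℂ}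
    (hu : Dc u) : Do ![u 0 * z + u 1 * (θ * z ^ 2), u 0 * θ + u 1 * z] := by
  obtain ⟨hne, hm⟩ := hu
  rw [Do]
  simp only [Matrix.cons_val_zero, Matrix.cons_val_one]
  rw [re_mul_conj] at hm ⊢
  have key : (u 0 * z + u 1 * (θ * z ^ 2)).re * (u 0 * θ + u 1 * z).re +
      (u 0 * z + u 1 * (θ * z ^ 2)).im * (u 0 * θ + u 1 * z).im =
      θ * z.re * (((u 0).re - θ * z.im * (u 1).im) ^ 2 + ((u 0).im + θ * z.im * (u 1).re) ^ 2 +
        ((u 1).re ^ 2 + (u 1).im ^ 2) * (z.re ^ 2 + z.im ^ 2 * (1 - θ ^ 2))) +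
      ((u 0).re * (u 1).re + (u 0).im * (u 1).im) *
        (z.re ^ 2 * (1 + θ ^ 2) + z.im ^ 2 * (1 - θ ^ 2)) := by
    simp only [Complex.add_re, Complex.add_im, Complex.mul_re, Complex.mul_im,
      Complex.ofReal_re, Complex.ofReal_im, pow_two]
    ring
  rw [key]
  have hθ2 : 0 ≤ 1 - θ ^ 2 := by nlinarith
  have t2 : 0 ≤ ((u 0).re * (u 1).re + (u 0).im * (u 1).im) *
        (z.re ^ 2 * (1 + θ ^ 2) + z.im ^ 2 * (1 - θ ^ 2)) := by positivity
  have t3 : 0 < ((u 0).re - θ * z.im * (u 1).im) ^ 2 + ((u 0).im + θ * z.im * (u 1).re) ^ 2 +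
        ((u 1).re ^ 2 + (u 1).im ^ 2) * (z.re ^ 2 + z.im ^ 2 * (1 - θ ^ 2)) := by
    by_cases hb : u 1 = 0
    · have ha : u 0 ≠ 0 := by
        intro ha
        exact hne (by funext i; fin_cases i <;> simp [ha, hb])
      have h3 : 0 < (u 0).re ^ 2 + (u 0).im ^ 2 := by
        have := normSq_pos.2 ha
        rw [normSq_apply] at this
        nlinarith
      simpa [hb] using h3
    · have h3 : 0 < (u 1).re ^ 2 + (u 1).im ^ 2 := by
        have := normSq_pos.2 hb
        rw [normSq_apply] at this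
        nlinarith
      have h4 : 0 < z.re ^ 2 + z.im ^ 2 * (1 - θ ^ 2) := by
        have : 0 < z.re ^ 2 := by positivity
        have : 0 ≤ z.im ^ 2 * (1 - θ ^ 2) := by positivity
        linarith
      positivity
  have t1 := mul_pos (mul_pos h0 hz) t3
  linarith

end Vale.Agent.P361.LRO.SR
end

section

/-!
# Strong Rayleigh property of the charge law (P361, block SR)

`stable_of_isLaw_pos`: the generating polynomial of the charges of a law `IsLaw μ` with
`0 < θ ≤ 1` does not vanish when all variables are in the open upper half plane.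
-/

namespace Vale.Agent.P361.LRO.SR

open Finset

variable {X : Type} [Fintype X] [DecidableEq X]

/-- evaluation of a vector at a family of pairs -/
noncomputable def ev (ψ : (X → Fin 2) → ℂ) (ζ : X → Fin 2 → ℂ) : ℂ := ∑ s, ψ s * ∏ x, ζ x (s x)

/-- strict stability -/
def SSt (ψ : (X → Fin 2) → ℂ) : Prop := ∀ ζ : X → Fin 2 → ℂ, (∀ x, Dc (ζ x)) → ev ψ ζ ≠ 0

theorem prod_upd (ζ : X → Fin 2 → ℂ) (a : X) (u : Fin 2 → ℂ) (s : X → Fin 2) :
    ∏ x, Function.update ζ a u x (s x) = u (s a) * ∏ x ∈ univ \ {a}, ζ x (s x) := by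
  have h : (fun x => Function.update ζ a u x (s x)) =
      Function.update (fun x => ζ x (s x)) a (u (s a)) := by
    funext x
    exact Function.apply_update (fun x (v : Fin 2 → ℂ) => v (s x)) ζ a u x
  rw [show (∏ x, Function.update ζ a u x (s x)) =
    ∏ x, (fun x => Function.update ζ a u x (s x)) x from rfl, h]
  exact Finset.prod_update_of_mem (mem_univ a) _ _

theorem ev_update (ψ : (X → Fin 2) → ℂ) (ζ : X → Fin 2 → ℂ) (a : X) (u : Fin 2 → ℂ) :
    ev ψ (Function.update ζ a u) =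
      ∑ i, u i * ev ψ (Function.update ζ a (Pi.single i 1)) := by
  simp only [ev, prod_upd, Finset.mul_sum]
  rw [Finset.sum_comm]
  refine Finset.sum_congr rfl fun s _ => ?_
  have h : u (s a) = ∑ i, u i * (Pi.single i (1 : ℂ) : Fin 2 → ℂ) (s a) := by
    simp [Pi.single_apply]
  conv_lhs => rw [h]
  rw [Finset.sum_mul, Finset.mul_sum]
  exact Finset.sum_congr rfl fun i _ => by ring

theorem ev_prod (φ : X → Fin 2 → ℂ) (ζ : X → Fin 2 → ℂ) :
    ev (fun s => ∏ x, φ x (s x)) ζ = ∏ x, ∑ i, φ x i * ζ x i := by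
  rw [ev, Finset.prod_univ_sum]
  simp only [Fintype.piFinset_univ, Finset.prod_mul_distrib]

theorem ev_comp (ψ : (X → Fin 2) → ℂ) (τ : Equiv.Perm X) (ζ : X → Fin 2 → ℂ) :
    ev (fun s => ψ (s ∘ τ)) ζ = ev ψ (ζ ∘ τ) := by
  rw [ev, ev]
  refine Fintype.sum_equiv (Equiv.arrowCongr τ.symm (Equiv.refl (Fin 2))) _ _ fun s => ?_
  have h : ((Equiv.arrowCongr τ.symm (Equiv.refl (Fin 2))) s) = s ∘ τ := by
    funext x
    simp [Equiv.arrowCongr]
  rw [h]
  congr 1
  rw [← Equiv.prod_comp τ]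
  rfl

theorem sst_prod {φ : X → Fin 2 → ℂ} (hφ : ∀ x, Do (φ x)) : SSt (fun s => ∏ x, φ x (s x)) := by
  intro ζ hζ
  rw [ev_prod]
  refine Finset.prod_ne_zero_iff.2 fun x _ => ?_
  rw [Fin.sum_univ_two]
  exact pair_ne (hφ x) (hζ x)

theorem sst_comp {ψ : (X → Fin 2) → ℂ} (h : SSt ψ) (τ : Equiv.Perm X) :
    SSt (fun s => ψ (s ∘ τ)) := by
  intro ζ hζ
  rw [ev_comp]
  exact h _ fun x => hζ _

theorem sst_gate {ψ : (X → Fin 2) → ℂ} (h : SSt ψ) (a b : X) {p : ℝ} (hp0 : 0 ≤ p) (hp1 : p ≤ 1) :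
    SSt (fun s => (1 - (p : ℂ)) * ψ s + (p : ℂ) * ψ (s ∘ Equiv.swap a b)) := by
  intro ζ hζ
  have h1 : ev (fun s => (1 - (p : ℂ)) * ψ s + (p : ℂ) * ψ (s ∘ Equiv.swap a b)) ζ =
      (1 - (p : ℂ)) * ev ψ ζ + (p : ℂ) * ev ψ (ζ ∘ Equiv.swap a b) := by
    rw [← ev_comp]
    simp only [ev, Finset.mul_sum, ← Finset.sum_add_distrib]
    exact Finset.sum_congr rfl fun s _ => by ring
  rw [h1]
  by_cases hab : a = b
  · subst hab
    have : ζ ∘ Equiv.swap a a = ζ := by
      funext x; simp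
    rw [this]
    have h2 := h ζ hζ
    intro h3
    apply h2
    linear_combination h3
  · set C : Fin 2 → Fin 2 → ℂ := fun i k =>
      ev ψ (Function.update (Function.update ζ a (Pi.single i 1)) b (Pi.single k 1)) with hC
    have key : ∀ u w : Fin 2 → ℂ,
        ev ψ (Function.update (Function.update ζ a u) b w) = bil C u w := by
      intro u w
      rw [ev_update, bil]
      rw [Finset.sum_comm]
      refine Finset.sum_congr rfl fun k _ => ?_
      rw [Function.update_comm hab, ev_update, Finset.mul_sum]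
      refine Finset.sum_congr rfl fun i _ => ?_
      have e : C i k = ev ψ (Function.update (Function.update ζ b (Pi.single k 1)) a
          (Pi.single i 1)) := by
        rw [hC]
        simp only
        rw [Function.update_comm hab]
      rw [e]
      ring
    have hCne : ∀ u w, Dc u → Dc w → bil C u w ≠ 0 := by
      intro u w hu hw
      rw [← key]
      refine h _ fun x => ?_
      by_cases hxb : x = b
      · subst hxb; simpa using hw
      · rw [Function.update_of_ne hxb]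
        by_cases hxa : x = a
        · subst hxa; simpa using hu
        · rw [Function.update_of_ne hxa]; exact hζ x
    have e1 : ev ψ ζ = bil C (ζ a) (ζ b) := by
      rw [← key]
      simp
    have e2 : ev ψ (ζ ∘ Equiv.swap a b) = bil C (ζ b) (ζ a) := by
      rw [← key]
      congr 1
      funext x
      by_cases hxb : x = b
      · subst hxb; simp
      · rw [Function.update_of_ne hxb]
        by_cases hxa : x = a
        · subst hxa; simp
        · rw [Function.update_of_ne hxa]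
          simp [Equiv.swap_apply_of_ne_of_ne hxa hxb]
    rw [e1, e2]
    exact gate_two hCne hp0 hp1 (hζ a) (hζ b)

/-- the vector obtained from a product vector by a law of permutations -/
noncomputable def lv (μ : Equiv.Perm X → ℝ) (φ : X → Fin 2 → ℂ) (s : X → Fin 2) : ℂ :=
  ∑ π : Equiv.Perm X, (μ π : ℂ) * ∏ x, φ x (s (π x))

theorem sst_law (l : List (X × X × ℝ)) (σ : Equiv.Perm X)
    (hl : ∀ g ∈ l, 0 ≤ g.2.2 ∧ g.2.2 ≤ 1) {φ : X → Fin 2 → ℂ} (hφ : ∀ x, Do (φ x)) :
    SSt (lv (law l σ) φ) := by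
  induction l with
  | nil =>
    have h : lv (law [] σ) φ = fun s => (fun s => ∏ x, φ x (s x)) (s ∘ σ) := by
      funext s
      rw [lv, Finset.sum_eq_single σ]
      · simp [law]
      · intro π _ hπ
        simp [law, Pi.single_eq_of_ne hπ]
      · intro h; exact absurd (mem_univ σ) h
    rw [h]
    exact sst_comp (sst_prod hφ) σ
  | cons g l ih =>
    have ih' := ih fun g' hg' => hl g' (List.mem_cons_of_mem _ hg')
    obtain ⟨h0, h1⟩ := hl g List.mem_cons_self
    have h : lv (law (g :: l) σ) φ = fun s => (1 - (g.2.2 : ℂ)) * lv (law l σ) φ s +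
        (g.2.2 : ℂ) * lv (law l σ) φ (s ∘ Equiv.swap g.1 g.2.1) := by
      funext s
      have e2 : lv (law l σ) φ (s ∘ Equiv.swap g.1 g.2.1) =
          ∑ π : Equiv.Perm X, (law l σ (Equiv.swap g.1 g.2.1 * π) : ℂ) * ∏ x, φ x (s (π x)) := by
        rw [lv]
        refine (Fintype.sum_equiv (Equiv.mulLeft (Equiv.swap g.1 g.2.1)) _ _ fun π => ?_).symm
        simp only [Equiv.coe_mulLeft, Function.comp, Equiv.Perm.mul_apply, Equiv.swap_apply_self]
      rw [e2, lv, lv, Finset.mul_sum, Finset.mul_sum, ← Finset.sum_add_distrib]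
      refine Finset.sum_congr rfl fun π _ => ?_
      rw [law]
      push_cast
      ring
    rw [h]
    exact sst_gate ih' _ _ h0 h1

/-- general contraction of a kernel -/
noncomputable def con (K : (X → Fin 2) → (X → Fin 2) → ℂ) (E : X → Fin 2 → Fin 2 → ℂ) : ℂ :=
  ∑ s, ∑ t, K s t * ∏ x, E x (s x) (t x)

theorem con_update (K : (X → Fin 2) → (X → Fin 2) → ℂ) (E : X → Fin 2 → Fin 2 → ℂ) (a : X)
    (e : Fin 2 → Fin 2 → ℂ) :
    con K (Function.update E a e) =
      ∑ i, ∑ k, e i k * con K (Function.update E a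
        (fun i' k' => if i' = i ∧ k' = k then 1 else 0)) := by
  have hp : ∀ (e : Fin 2 → Fin 2 → ℂ) (s t : X → Fin 2),
      ∏ x, Function.update E a e x (s x) (t x) =
        e (s a) (t a) * ∏ x ∈ univ \ {a}, E x (s x) (t x) := by
    intro e s t
    have h : (fun x => Function.update E a e x (s x) (t x)) =
        Function.update (fun x => E x (s x) (t x)) a (e (s a) (t a)) := by
      funext x
      exact Function.apply_update (fun x (v : Fin 2 → Fin 2 → ℂ) => v (s x) (t x)) E a e x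
    rw [show (∏ x, Function.update E a e x (s x) (t x)) =
      ∏ x, (fun x => Function.update E a e x (s x) (t x)) x from rfl, h]
    exact Finset.prod_update_of_mem (mem_univ a) _ _
  simp only [con, hp, Finset.mul_sum]
  have e1 : ∀ s t : X → Fin 2, K s t * (e (s a) (t a) * ∏ x ∈ univ \ {a}, E x (s x) (t x)) =
      ∑ i, ∑ k, e i k * (K s t * ((if s a = i ∧ t a = k then 1 else 0) *
        ∏ x ∈ univ \ {a}, E x (s x) (t x))) := by
    intro s t
    rw [Finset.sum_eq_single (s a), Finset.sum_eq_single (t a)]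
    · simp; ring
    · intro k _ hk
      simp [Ne.symm hk]
    · intro h; exact absurd (mem_univ _) h
    · intro i _ hi
      simp [Ne.symm hi]
    · intro h; exact absurd (mem_univ _) h
  simp only [e1]
  rw [Finset.sum_congr rfl fun s _ => Finset.sum_comm]
  rw [Finset.sum_comm]
  refine Finset.sum_congr rfl fun i _ => ?_
  rw [Finset.sum_congr rfl fun s _ => Finset.sum_comm]
  rw [Finset.sum_comm]

/-- the trace of a strictly stable kernel does not vanish -/
theorem trace_con {K : (X → Fin 2) → (X → Fin 2) → ℂ}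
    (h : ∀ ω ζ : X → Fin 2 → ℂ, (∀ x, Dc (ω x)) → (∀ x, Dc (ζ x)) →
      con K (fun x i k => ω x i * ζ x k) ≠ 0) : ∑ s, K s s ≠ 0 := by
  have key : ∀ T : Finset X, ∀ ω ζ : X → Fin 2 → ℂ, (∀ x, Dc (ω x)) → (∀ x, Dc (ζ x)) →
      con K (fun x => if x ∈ T then (fun i k => if i = k then 1 else 0)
        else fun i k => ω x i * ζ x k) ≠ 0 := by
    intro T
    induction T using Finset.induction_on with
    | empty =>
      intro ω ζ hω hζ
      simpa using h ω ζ hω hζ
    | insert a T ha ih =>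
      intro ω ζ hω hζ
      set E : X → Fin 2 → Fin 2 → ℂ := fun x => if x ∈ T then (fun i k => if i = k then 1 else 0)
        else fun i k => ω x i * ζ x k with hE
      have e1 : (fun x => if x ∈ insert a T then (fun i k => if i = k then (1 : ℂ) else 0)
        else fun i k => ω x i * ζ x k) =
          Function.update E a (fun i k => if i = k then 1 else 0) := by
        funext x
        by_cases hx : x = a
        · subst hx; simp
        · rw [Function.update_of_ne hx]
          simp [hE, hx]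
      rw [e1, con_update]
      set C : Fin 2 → Fin 2 → ℂ := fun i k => con K (Function.update E a
        (fun i' k' => if i' = i ∧ k' = k then 1 else 0)) with hC
      have hCne : ∀ u w, Dc u → Dc w → bil C u w ≠ 0 := by
        intro u w hu hw
        have e2 : bil C u w = con K (Function.update E a (fun i k => u i * w k)) := by
          rw [con_update, bil]
          refine Finset.sum_congr rfl fun i _ => Finset.sum_congr rfl fun k _ => ?_
          rw [hC]; ring
        rw [e2]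
        have e3 : Function.update E a (fun i k => u i * w k) =
            fun x => if x ∈ T then (fun i k => if i = k then (1 : ℂ) else 0)
              else fun i k => Function.update ω a u x i * Function.update ζ a w x k := by
          funext x
          by_cases hx : x = a
          · subst hx; simp [ha]
          · rw [Function.update_of_ne hx, Function.update_of_ne hx, Function.update_of_ne hx]
        rw [e3]
        refine ih _ _ (fun x => ?_) (fun x => ?_)
        · by_cases hx : x = a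
          · subst hx; simpa using hu
          · rw [Function.update_of_ne hx]; exact hω x
        · by_cases hx : x = a
          · subst hx; simpa using hw
          · rw [Function.update_of_ne hx]; exact hζ x
      have h1 := trace_ne hCne
      intro h2
      apply h1
      rw [← h2]
      simp [Fin.sum_univ_two, hC]
  have h1 := key univ (fun _ => ![1, 1]) (fun _ => ![1, 1]) (fun x => ⟨?_, by simp⟩)
    (fun x => ⟨?_, by simp⟩)
  · intro h2
    apply h1
    rw [con]
    refine Eq.trans ?_ h2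
    refine Finset.sum_congr rfl fun s _ => ?_
    rw [Finset.sum_eq_single s]
    · simp
    · intro t _ ht
      have : ∃ x, s x ≠ t x := by
        by_contra hcon
        push Not at hcon
        exact ht (funext fun x => (hcon x).symm)
      obtain ⟨x, hx⟩ := this
      have h0 : ∏ x, (if x ∈ (univ : Finset X) then (fun i k => if i = k then (1 : ℂ) else 0)
        else fun i k => (![1, 1] : Fin 2 → ℂ) i * (![1, 1] : Fin 2 → ℂ) k) (s x) (t x) = 0 :=
        Finset.prod_eq_zero (mem_univ x) (by simp [hx])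
      rw [h0, mul_zero]
    · intro h; exact absurd (mem_univ s) h
  · intro e
    have := congrFun e 0
    simp at this
  · intro e
    have := congrFun e 0
    simp at this

/-- node matrix -/
noncomputable def nod (θ : ℝ) (z : ℂ) (i k : Fin 2) : ℂ :=
  if i = k then z else θ * (if i = 1 then z ^ 2 else 1)

theorem gen_eq (μ : Equiv.Perm X → ℝ) (θ : X → ℝ) (ζ : X → ℂ) :
    gen μ θ ζ = ∑ s : X → Fin 2, ∑ π : Equiv.Perm X,
      (μ π : ℂ) * ∏ x, nod (θ x) (ζ x) (s x) (s (π x)) := by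
  rw [gen, Finset.sum_comm]
  refine Finset.sum_congr rfl fun s _ => Finset.sum_congr rfl fun π _ => ?_
  push_cast [wt]
  rw [mul_assoc, ← Finset.prod_mul_distrib]
  congr 1
  refine Finset.prod_congr rfl fun x _ => ?_
  rw [nod]
  by_cases h : s x = s (π x)
  · simp [h]
  · simp only [h, if_false]

/-- the generating polynomial does not vanish in the right half plane -/
theorem gen_ne_of_re {l : List (X × X × ℝ)} {σ : Equiv.Perm X}
    (hl : ∀ g ∈ l, 0 ≤ g.2.2 ∧ g.2.2 ≤ 1) {θ : X → ℝ} (hθ : ∀ x, 0 < θ x ∧ θ x ≤ 1) {ζ : X → ℂ}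
    (hζ : ∀ x, 0 < (ζ x).re) : gen (law l σ) θ ζ ≠ 0 := by
  rw [gen_eq]
  set K : (X → Fin 2) → (X → Fin 2) → ℂ := fun s' s =>
    ∑ π : Equiv.Perm X, ((law l σ π : ℝ) : ℂ) * ∏ x, nod (θ x) (ζ x) (s' x) (s (π x)) with hK
  refine trace_con (K := K) fun ω ξ hω hξ => ?_
  set φ : X → Fin 2 → ℂ := fun x k => ∑ i, ω x i * nod (θ x) (ζ x) i k with hφ
  have hφo : ∀ x, Do (φ x) := by
    intro x
    have h1 := node_open (hθ x).1 (hθ x).2 (hζ x) (hω x)
    have e : φ x = ![ω x 0 * ζ x + ω x 1 * (θ x * ζ x ^ 2), ω x 0 * θ x + ω x 1 * ζ x] := by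
      funext k
      fin_cases k <;> simp [hφ, nod, Fin.sum_univ_two]
    rw [e]; exact h1
  have h1 := sst_law l σ hl hφo ξ hξ
  have e : con K (fun x i k => ω x i * ξ x k) = ev (lv (law l σ) φ) ξ := by
    rw [con, ev, Finset.sum_comm]
    refine Finset.sum_congr rfl fun s _ => ?_
    simp only [hK, lv, Finset.sum_mul]
    rw [Finset.sum_comm]
    refine Finset.sum_congr rfl fun π _ => ?_
    have e3 : ∏ x, φ x (s (π x)) = ∑ s' : X → Fin 2,
        ∏ x, (ω x (s' x) * nod (θ x) (ζ x) (s' x) (s (π x))) := by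
      rw [hφ]
      simp only
      rw [Finset.prod_univ_sum]
      simp only [Fintype.piFinset_univ]
    rw [e3, Finset.mul_sum, Finset.sum_mul]
    refine Finset.sum_congr rfl fun s' _ => ?_
    rw [Finset.prod_mul_distrib, Finset.prod_mul_distrib]
    ring
  rw [e]
  exact h1

/-- homogeneity -/
theorem gen_smul (μ : Equiv.Perm X → ℝ) (θ : X → ℝ) (ζ : X → ℂ) {c : ℂ} (hc : c ≠ 0) :
    gen μ θ (fun x => c * ζ x) = c ^ Fintype.card X * gen μ θ ζ := by
  rw [gen, gen, Finset.mul_sum]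
  refine Finset.sum_congr rfl fun π _ => ?_
  rw [Finset.mul_sum]
  refine Finset.sum_congr rfl fun s _ => ?_
  have h : ∏ x, (if s x = s (π x) then c * ζ x else if s x = 1 then (c * ζ x) ^ 2 else 1) =
      c ^ Fintype.card X * ∏ x, (if s x = s (π x) then ζ x else if s x = 1 then ζ x ^ 2 else 1) := by
    have h1 : ∀ x, (if s x = s (π x) then c * ζ x else if s x = 1 then (c * ζ x) ^ 2 else 1) *
        (if s (π x) = 1 then c else 1) =
        (c * (if s x = 1 then c else 1)) *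
        (if s x = s (π x) then ζ x else if s x = 1 then ζ x ^ 2 else 1) := by
      intro x
      by_cases h2 : s x = s (π x)
      · rw [if_pos h2, if_pos h2, ← h2]
        by_cases h3 : s x = 1
        · simp [h3]; ring
        · simp [h3]
      · rw [if_neg h2, if_neg h2]
        by_cases h3 : s x = 1
        · have h4 : s (π x) ≠ 1 := fun h => h2 (h3.trans h.symm)
          simp [h3, h4]; ring
        · have h4 : s (π x) = 1 := by omega
          simp [h3, h4]
    have h5 : ∏ x, (if s (π x) = 1 then c else (1 : ℂ)) = ∏ x, (if s x = 1 then c else 1) :=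
      Equiv.prod_comp π (fun x => if s x = 1 then c else (1 : ℂ))
    have h6 : ∏ x, (if s x = 1 then c else (1 : ℂ)) ≠ 0 :=
      Finset.prod_ne_zero_iff.2 fun x _ => by split_ifs <;> simp [hc]
    have h7 := Finset.prod_congr (rfl : (univ : Finset X) = univ) fun x _ => h1 x
    rw [Finset.prod_mul_distrib, Finset.prod_mul_distrib, Finset.prod_mul_distrib, h5,
      Finset.prod_const, Finset.card_univ] at h7
    apply mul_right_cancel₀ h6
    rw [h7]; ring
  rw [h]; ring

/-- **strong Rayleigh property**, `θ > 0` -/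
theorem stable_of_isLaw_pos {μ : Equiv.Perm X → ℝ} (hμ : IsLaw μ) {θ : X → ℝ}
    (hθ : ∀ x, 0 < θ x ∧ θ x ≤ 1) : Stable μ θ := by
  obtain ⟨l, σ, hl, rfl⟩ := hμ
  intro ζ hζ h0
  have h1 := gen_smul (law l σ) θ ζ (c := -Complex.I) (by simp)
  rw [h0, mul_zero] at h1
  refine gen_ne_of_re (l := l) (σ := σ) (θ := θ) (ζ := fun x => -Complex.I * ζ x)
    (fun g hg => ⟨(hl g hg).1, by linarith [(hl g hg).2]⟩) hθ (fun x => ?_) h1
  simpa using hζ x

end Vale.Agent.P361.LRO.SR
end

section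

/-!
# Strong Rayleigh property, `θ ≥ 0` (P361, block SR)
-/

namespace Vale.Agent.P361.LRO.SR

open Finset

variable {X : Type} [Fintype X] [DecidableEq X]

/-- exponent of the node `x` -/
def expo (π : Equiv.Perm X) (s : X → Fin 2) (x : X) : ℕ :=
  if s x = s (π x) then 1 else if s x = 1 then 2 else 0

omit [DecidableEq X] in
theorem sum_expo (π : Equiv.Perm X) (s : X → Fin 2) : ∑ x, expo π s x = Fintype.card X := by
  have h1 : ∀ x, expo π s x + (s (π x) : ℕ) = 1 + (s x : ℕ) := by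
    intro x
    rw [expo]
    by_cases h : s x = s (π x)
    · rw [if_pos h, h]
    · rw [if_neg h]
      by_cases h3 : s x = 1
      · have h4 : s (π x) = 0 := by
          have : s (π x) ≠ 1 := fun h' => h (h3.trans h'.symm)
          omega
        simp [h3, h4]
      · have h5 : s x = 0 := by omega
        have h4 : s (π x) = 1 := by omega
        simp [h5, h4]
  have h2 := Finset.sum_congr (rfl : (univ : Finset X) = univ) fun x _ => h1 x
  rw [Finset.sum_add_distrib, Finset.sum_add_distrib,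
    Equiv.sum_comp π (fun x => (s x : ℕ))] at h2
  simpa using h2

/-- the generating polynomial -/
noncomputable def genP (μ : Equiv.Perm X → ℝ) (θ : X → ℝ) : MvPolynomial X ℝ :=
  ∑ π : Equiv.Perm X, ∑ s : X → Fin 2, MvPolynomial.C (μ π * wt θ π s) *
    ∏ x, MvPolynomial.X x ^ expo π s x

theorem genP_hom (μ : Equiv.Perm X → ℝ) (θ : X → ℝ) :
    (genP μ θ).IsHomogeneous (Fintype.card X) := by
  refine MvPolynomial.IsHomogeneous.sum _ _ _ fun π _ =>
    MvPolynomial.IsHomogeneous.sum _ _ _ fun s _ => ?_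
  have h1 : (∏ x, (MvPolynomial.X x : MvPolynomial X ℝ) ^ expo π s x).IsHomogeneous
      (∑ x, expo π s x) :=
    MvPolynomial.IsHomogeneous.prod _ _ _ fun x _ => by
      simpa using (MvPolynomial.isHomogeneous_X ℝ x).pow (expo π s x)
  rw [sum_expo] at h1
  have h2 := (MvPolynomial.isHomogeneous_C X (μ π * wt θ π s)).mul h1
  simpa using h2

theorem aeval_genP (μ : Equiv.Perm X → ℝ) (θ : X → ℝ) (ζ : X → ℂ) :
    MvPolynomial.aeval ζ (genP μ θ) = gen μ θ ζ := by
  rw [genP, map_sum, gen]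
  refine Finset.sum_congr rfl fun π _ => ?_
  rw [map_sum]
  refine Finset.sum_congr rfl fun s _ => ?_
  rw [map_mul, map_prod, MvPolynomial.aeval_C]
  congr 1
  refine Finset.prod_congr rfl fun x _ => ?_
  rw [map_pow, MvPolynomial.aeval_X, expo]
  split_ifs <;> simp

theorem gen_lower {μ : Equiv.Perm X → ℝ} {θ : X → ℝ} (h : Stable μ θ) {ζ : X → ℂ}
    (hζ : ∀ x, 0 < (ζ x).im) (hb0 : gen μ θ (fun x => ((ζ x).im : ℂ)) ≠ 0) :
    ‖gen μ θ (fun x => ((ζ x).im : ℂ))‖ * (1 / 2) ^ Fintype.card X ≤ ‖gen μ θ ζ‖ := by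
  set p : X → ℂ := fun x => ((ζ x).re : ℂ) + ((ζ x).im / 2 : ℝ) * Complex.I with hp
  set q : X → ℂ := fun x => ((ζ x).im : ℂ) with hq
  obtain ⟨h1, h2⟩ := T1.line_degree (genP_hom μ θ) p q
  rw [aeval_genP] at h2
  have h3 := T1.eval_norm_ge (T1.line (genP μ θ) p q) (Fintype.card X) h1 (by rw [h2]; exact hb0)
    (fun u hu => ?_) (Complex.I / 2) (by simp)
  · rw [h2, T1.line_eval, aeval_genP] at h3
    have e : (fun i => p i + q i * (Complex.I / 2)) = ζ := by
      funext x
      apply Complex.ext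
      · simp [hp, hq]
      · simp [hp, hq]
        ring
    rw [e] at h3
    have e2 : (Complex.I / 2).im = 1 / 2 := by simp
    rw [e2] at h3
    exact h3
  · rw [T1.line_eval, aeval_genP]
    refine h _ fun x => ?_
    have : (p x + q x * u).im = (ζ x).im / 2 + (ζ x).im * u.im := by
      simp [hp, hq]
    rw [this]
    have h4 := hζ x
    have : 0 ≤ (ζ x).im * u.im := mul_nonneg h4.le hu
    linarith

theorem continuous_gen (μ : Equiv.Perm X → ℝ) (ζ : X → ℂ) : Continuous fun θ : X → ℝ =>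
    gen μ θ ζ := by
  unfold gen wt
  refine continuous_finsetSum _ fun π _ => continuous_finsetSum _ fun s _ => ?_
  refine Continuous.mul ?_ continuous_const
  refine Complex.continuous_ofReal.comp (continuous_const.mul ?_)
  refine continuous_finsetProd _ fun x _ => ?_
  split_ifs
  · exact continuous_const
  · exact continuous_apply x

theorem gen_pos {μ : Equiv.Perm X → ℝ} (hμ0 : ∀ π, 0 ≤ μ π) (hμ1 : 0 < ∑ π, μ π) {θ : X → ℝ}
    (hθ : ∀ x, 0 ≤ θ x) {b : X → ℝ} (hb : ∀ x, 0 < b x) :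
    gen μ θ (fun x => (b x : ℂ)) ≠ 0 := by
  have e : gen μ θ (fun x => (b x : ℂ)) = ((∑ π : Equiv.Perm X, ∑ s : X → Fin 2, μ π * wt θ π s *
      ∏ x, (if s x = s (π x) then b x else if s x = 1 then b x ^ 2 else 1) : ℝ) : ℂ) := by
    rw [gen]
    push_cast
    refine Finset.sum_congr rfl fun π _ => Finset.sum_congr rfl fun s _ => ?_
    congr 1
    refine Finset.prod_congr rfl fun x _ => ?_
    split_ifs <;> simp
  rw [e, Complex.ofReal_ne_zero]
  apply ne_of_gt
  have hP : ∀ (π : Equiv.Perm X) (s : X → Fin 2),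
      0 < ∏ x, (if s x = s (π x) then b x else if s x = 1 then b x ^ 2 else 1) := fun π s =>
    Finset.prod_pos fun x _ => by
      have := hb x
      split_ifs <;> positivity
  have hw : ∀ (π : Equiv.Perm X) (s : X → Fin 2), 0 ≤ wt θ π s := fun π s =>
    Finset.prod_nonneg fun x _ => by
      split_ifs
      · exact zero_le_one
      · exact hθ x
  have h1 : 0 < ∑ π : Equiv.Perm X, μ π * ∏ x, b x := by
    rw [← Finset.sum_mul]
    exact mul_pos hμ1 (Finset.prod_pos fun x _ => hb x)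
  refine h1.trans_le (Finset.sum_le_sum fun π _ => ?_)
  have h2 := Finset.single_le_sum (f := fun s : X → Fin 2 => μ π * wt θ π s *
      ∏ x, (if s x = s (π x) then b x else if s x = 1 then b x ^ 2 else 1))
    (fun s _ => mul_nonneg (mul_nonneg (hμ0 π) (hw π s)) (hP π s).le)
    (mem_univ (fun _ : X => (0 : Fin 2)))
  refine le_trans (le_of_eq ?_) h2
  simp [wt]

/-- closure of stability in `θ` -/
theorem stable_closure {μ : Equiv.Perm X → ℝ} (hμ0 : ∀ π, 0 ≤ μ π) (hμ1 : 0 < ∑ π, μ π)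
    (h : ∀ θ : X → ℝ, (∀ x, 0 < θ x ∧ θ x ≤ 1) → Stable μ θ) {θ : X → ℝ}
    (hθ : ∀ x, 0 ≤ θ x ∧ θ x ≤ 1) : Stable μ θ := by
  intro ζ hζ h0
  set g : ℝ → X → ℝ := fun ε x => max (θ x) ε with hg
  have hgc : Continuous g := continuous_pi fun x => continuous_const.max continuous_id
  have hg0 : g 0 = θ := by
    funext x
    exact max_eq_left (hθ x).1
  have hc1 : Continuous fun ε => ‖gen μ (g ε) ζ‖ := ((continuous_gen μ ζ).comp hgc).norm
  have hc2 : Continuous fun ε => ‖gen μ (g ε) (fun x => ((ζ x).im : ℂ))‖ *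
      (1 / 2) ^ Fintype.card X :=
    (((continuous_gen μ _).comp hgc).norm).mul continuous_const
  have hle : ‖gen μ (g 0) (fun x => ((ζ x).im : ℂ))‖ * (1 / 2) ^ Fintype.card X ≤
      ‖gen μ (g 0) ζ‖ := by
    have t1 : Filter.Tendsto (fun ε => ‖gen μ (g ε) ζ‖) (nhdsWithin 0 (Set.Ioi 0))
        (nhds ‖gen μ (g 0) ζ‖) := (hc1.tendsto 0).mono_left nhdsWithin_le_nhds
    have t2 : Filter.Tendsto (fun ε => ‖gen μ (g ε) (fun x => ((ζ x).im : ℂ))‖ *
        (1 / 2) ^ Fintype.card X) (nhdsWithin 0 (Set.Ioi 0))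
        (nhds (‖gen μ (g 0) (fun x => ((ζ x).im : ℂ))‖ * (1 / 2) ^ Fintype.card X)) :=
      (hc2.tendsto 0).mono_left nhdsWithin_le_nhds
    refine le_of_tendsto_of_tendsto t2 t1 ?_
    have hmem : Set.Ioc (0 : ℝ) 1 ∈ nhdsWithin (0 : ℝ) (Set.Ioi 0) :=
      Ioc_mem_nhdsGT one_pos
    filter_upwards [hmem] with ε hε
    refine gen_lower (h (g ε) fun x => ⟨lt_max_of_lt_right hε.1, max_le (hθ x).2 hε.2⟩) hζ ?_
    exact gen_pos hμ0 hμ1 (fun x => le_max_of_le_left (hθ x).1) hζ
  rw [hg0, h0, norm_zero] at hle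
  have h1 : 0 < ‖gen μ θ (fun x => ((ζ x).im : ℂ))‖ * (1 / 2) ^ Fintype.card X :=
    mul_pos (norm_pos_iff.2 (gen_pos hμ0 hμ1 (fun x => (hθ x).1) hζ)) (by positivity)
  linarith

theorem law_nonneg' {l : List (X × X × ℝ)} (hl : ∀ g ∈ l, 0 ≤ g.2.2 ∧ g.2.2 ≤ 1 / 2)
    (σ π : Equiv.Perm X) : 0 ≤ law l σ π := by
  induction l generalizing π with
  | nil =>
    rw [law]
    by_cases h : π = σ
    · subst h; simp
    · rw [Pi.single_eq_of_ne h]
  | cons g l ih =>
    obtain ⟨h0, h1⟩ := hl g List.mem_cons_self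
    have ih' := fun π => ih (fun g' hg' => hl g' (List.mem_cons_of_mem _ hg')) π
    rw [law]
    have := ih' π
    have := ih' (Equiv.swap g.1 g.2.1 * π)
    have : 0 ≤ 1 - g.2.2 := by linarith
    positivity

theorem law_sum' (l : List (X × X × ℝ)) (σ : Equiv.Perm X) : ∑ π, law l σ π = 1 := by
  induction l with
  | nil => simp [law]
  | cons g l ih =>
    have h1 : ∑ π, law l σ (Equiv.swap g.1 g.2.1 * π) = ∑ π, law l σ π :=
      Equiv.sum_comp (Equiv.mulLeft (Equiv.swap g.1 g.2.1)) (law l σ)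
    simp only [law]
    rw [Finset.sum_add_distrib, ← Finset.mul_sum, ← Finset.mul_sum, h1, ih]
    ring

/-- **The charge law is strong Rayleigh.** -/
theorem stable_of_isLaw {μ : Equiv.Perm X → ℝ} (hμ : IsLaw μ) {θ : X → ℝ}
    (hθ : ∀ x, 0 ≤ θ x ∧ θ x ≤ 1) : Stable μ θ := by
  obtain ⟨l, σ, hl, h⟩ := id hμ
  refine stable_closure (fun π => ?_) ?_ (fun θ hθ => stable_of_isLaw_pos hμ hθ) hθ
  · rw [h]; exact law_nonneg' hl σ π
  · rw [h, law_sum']; exact one_pos

end Vale.Agent.P361.LRO.SR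
end

section

/-!
P361, LRO: Griffiths' first inequality for the spins of the charge network (helper169), and its
consequences `0 ≤ cc` off the diagonal, `mag ≤ 1`, for every law `μ ≥ 0` and `0 ≤ θ ≤ 1`.
-/

namespace Vale.Agent.P361.LRO

open Finset

noncomputable section

variable {X : Type} [Fintype X] [DecidableEq X]

/-- `±1` spin. -/
def sgn2 (i : Fin 2) : ℝ := if i = 0 then 1 else -1

theorem sgn2_zero : sgn2 0 = 1 := by simp [sgn2]

theorem sgn2_one : sgn2 1 = -1 := by simp [sgn2]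

theorem sgn2_flip (i : Fin 2) : sgn2 (1 - i) = - sgn2 i := by
  fin_cases i <;> simp [sgn2]

/-- Monomials in the spins. -/
def mon (m : X → ℕ) (s : X → Fin 2) : ℝ := ∏ x, sgn2 (s x) ^ m x

omit [DecidableEq X] in
theorem mon_add (m m' : X → ℕ) (s : X → Fin 2) : mon (m + m') s = mon m s * mon m' s := by
  simp only [mon, Pi.add_apply, pow_add, Finset.prod_mul_distrib]

theorem mon_single (p : X) (s : X → Fin 2) : mon (Pi.single p 1) s = sgn2 (s p) := by
  unfold mon
  rw [Finset.prod_eq_single p]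
  · simp
  · intro x _ hx; simp [Pi.single_eq_of_ne hx]
  · intro h; exact absurd (Finset.mem_univ p) h

theorem sum_mon_nonneg (m : X → ℕ) : 0 ≤ ∑ s : X → Fin 2, mon m s := by
  have h := Finset.prod_univ_sum (fun _ : X => (univ : Finset (Fin 2)))
    (fun x i => sgn2 i ^ m x)
  rw [Fintype.piFinset_univ] at h
  unfold mon
  rw [← h]
  refine Finset.prod_nonneg fun x _ => ?_
  rw [Fin.sum_univ_two, sgn2_zero, sgn2_one, one_pow]
  rcases neg_one_pow_eq_or ℝ (m x) with h | h <;> rw [h] <;> norm_num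

/-- **Griffiths' first inequality.** -/
theorem griffiths (T : Finset X) (α β : X → ℝ) (hα : ∀ x, 0 ≤ α x) (hβ : ∀ x, 0 ≤ β x)
    (p q : X → X) (m : X → ℕ) :
    0 ≤ ∑ s : X → Fin 2, mon m s * ∏ x ∈ T, (α x + β x * (sgn2 (s (p x)) * sgn2 (s (q x)))) := by
  induction T using Finset.induction generalizing m with
  | empty => simpa using sum_mon_nonneg m
  | insert a T ha ih =>
    have e : ∀ s : X → Fin 2,
        mon m s * ∏ x ∈ insert a T, (α x + β x * (sgn2 (s (p x)) * sgn2 (s (q x)))) =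
        α a * (mon m s * ∏ x ∈ T, (α x + β x * (sgn2 (s (p x)) * sgn2 (s (q x))))) +
        β a * (mon (m + Pi.single (p a) 1 + Pi.single (q a) 1) s *
          ∏ x ∈ T, (α x + β x * (sgn2 (s (p x)) * sgn2 (s (q x))))) := by
      intro s
      rw [Finset.prod_insert ha, mon_add, mon_add, mon_single, mon_single]
      ring
    rw [Finset.sum_congr rfl fun s _ => e s, Finset.sum_add_distrib, ← Finset.mul_sum,
      ← Finset.mul_sum]
    exact add_nonneg (mul_nonneg (hα a) (ih m)) (mul_nonneg (hβ a) (ih _))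

/-- The bond weight. -/
theorem bond_eq (t : ℝ) (i j : Fin 2) :
    (if i = j then (1 : ℝ) else t) = (1 + t) / 2 + (1 - t) / 2 * (sgn2 i * sgn2 j) := by
  fin_cases i <;> fin_cases j <;> simp [sgn2] <;> ring

omit [Fintype X] [DecidableEq X] in
theorem jj_eq_sgn (π : Equiv.Perm X) (s : X → Fin 2) (x : X) :
    jj π s x = (sgn2 (s (π x)) - sgn2 (s x)) / 2 := by
  unfold jj
  generalize s x = a
  generalize s (π x) = b
  fin_cases a <;> fin_cases b <;> simp [sgn2] <;> norm_num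

/-- Two point function with the bonds in `T`. -/
theorem griffiths_two {θ : X → ℝ} (hθ : ∀ x, 0 ≤ θ x ∧ θ x ≤ 1) (π : Equiv.Perm X)
    (T : Finset X) (a b : X) :
    0 ≤ ∑ s : X → Fin 2, (sgn2 (s a) * sgn2 (s b)) *
      ∏ x ∈ T, (if s x = s (π x) then 1 else θ x) := by
  have h := griffiths T (fun x => (1 + θ x) / 2) (fun x => (1 - θ x) / 2)
    (fun x => by have := (hθ x).1; positivity) (fun x => by have := (hθ x).2; linarith)
    (fun x => x) (fun x => π x) (Pi.single a 1 + Pi.single b 1)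
  refine h.trans (le_of_eq ?_)
  refine Finset.sum_congr rfl fun s _ => ?_
  rw [mon_add, mon_single, mon_single]
  congr 1
  exact Finset.prod_congr rfl fun x _ => (bond_eq _ _ _).symm

/-! ### Flipping a set of spins -/

/-- Flip the spins in `P`. -/
def flipP (P : X → Prop) [DecidablePred P] (s : X → Fin 2) : X → Fin 2 :=
  fun x => if P x then 1 - s x else s x

omit [Fintype X] [DecidableEq X] in
theorem flipP_invol (P : X → Prop) [DecidablePred P] : Function.Involutive (flipP P) := by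
  intro s
  funext x
  unfold flipP
  by_cases h : P x
  · simp [h]
  · simp [h]

theorem sum_flipP (P : X → Prop) [DecidablePred P] (F : (X → Fin 2) → ℝ) :
    ∑ s, F (flipP P s) = ∑ s, F s :=
  Equiv.sum_comp (Function.Involutive.toPerm (flipP P) (flipP_invol P)) F

theorem sum_eq_zero_of_flip (P : X → Prop) [DecidablePred P] (F : (X → Fin 2) → ℝ)
    (h : ∀ s, F (flipP P s) = - F s) : ∑ s, F s = 0 := by
  have h1 := sum_flipP P F
  rw [Finset.sum_congr rfl fun s _ => h s, Finset.sum_neg_distrib] at h1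
  linarith

omit [Fintype X] [DecidableEq X] in
theorem sgn2_flipP (P : X → Prop) [DecidablePred P] (s : X → Fin 2) (x : X) :
    sgn2 (flipP P s x) = (if P x then -1 else 1) * sgn2 (s x) := by
  unfold flipP
  split_ifs with h
  · rw [sgn2_flip]; ring
  · ring

omit [Fintype X] [DecidableEq X] in
theorem flipP_eq_iff (P : X → Prop) [DecidablePred P] (s : X → Fin 2) {x y : X}
    (h : P x ↔ P y) : (flipP P s x = flipP P s y) ↔ (s x = s y) := by
  unfold flipP
  by_cases hx : P x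
  · have hy : P y := h.mp hx
    simp [hx, hy]
  · have hy : ¬ P y := fun h' => hx (h.mpr h')
    simp [hx, hy]

/-- The arc from `π u` to the first visit of `{u, v}`. -/
theorem exists_arc (π : Equiv.Perm X) {u v : X} (huv : u ≠ v) :
    ∃ P : X → Prop, (∀ x, x ≠ u → x ≠ v → (P x ↔ P (π x))) ∧ P (π u) ∧ ¬ P (π v) ∧
      (P u ↔ ¬ P v) := by
  classical
  have hex : ∃ n : ℕ, 1 ≤ n ∧ ((π ^ n) u = u ∨ (π ^ n) u = v) :=
    ⟨orderOf π, orderOf_pos π, Or.inl (by rw [pow_orderOf_eq_one]; rfl)⟩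
  set n := Nat.find hex with hn
  have hn1 : 1 ≤ n := (Nat.find_spec hex).1
  have hn2 : (π ^ n) u = u ∨ (π ^ n) u = v := (Nat.find_spec hex).2
  have hmin : ∀ i, 1 ≤ i → i < n → (π ^ i) u ≠ u ∧ (π ^ i) u ≠ v := by
    intro i hi1 hi2
    have := Nat.find_min hex hi2
    push Not at this
    exact this hi1
  have hsucc : ∀ i : ℕ, π ((π ^ i) u) = (π ^ (i + 1)) u := by
    intro i
    rw [pow_succ', Equiv.Perm.mul_apply]
  refine ⟨fun x => ∃ i, 1 ≤ i ∧ i ≤ n ∧ (π ^ i) u = x, ?_, ?_, ?_, ?_⟩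
  · intro x hxu hxv
    constructor
    · rintro ⟨i, hi1, hi2, rfl⟩
      have hin : i ≠ n := by
        rintro rfl
        rcases hn2 with h | h
        · exact hxu h
        · exact hxv h
      exact ⟨i + 1, by omega, by omega, (hsucc i).symm⟩
    · rintro ⟨i, hi1, hi2, hi⟩
      obtain ⟨k, rfl⟩ : ∃ k, i = k + 1 := ⟨i - 1, by omega⟩
      rw [← hsucc k] at hi
      have hk : (π ^ k) u = x := π.injective hi
      rcases Nat.eq_zero_or_pos k with h0 | h0
      · subst h0
        exact absurd hk.symm (by simpa using hxu)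
      · exact ⟨k, h0, by omega, hk⟩
  · exact ⟨1, le_rfl, hn1, by simp⟩
  · rintro ⟨i, hi1, hi2, hi⟩
    obtain ⟨k, rfl⟩ : ∃ k, i = k + 1 := ⟨i - 1, by omega⟩
    rw [← hsucc k] at hi
    have hk : (π ^ k) u = v := π.injective hi
    rcases Nat.eq_zero_or_pos k with h0 | h0
    · subst h0
      exact huv (by simpa using hk)
    · exact (hmin k h0 (by omega)).2 hk
  · have huP : (∃ i, 1 ≤ i ∧ i ≤ n ∧ (π ^ i) u = u) ↔ (π ^ n) u = u := by
      constructor
      · rintro ⟨i, hi1, hi2, hi⟩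
        rcases Nat.lt_or_ge i n with h | h
        · exact absurd hi (hmin i hi1 h).1
        · have : i = n := by omega
          rw [← this]; exact hi
      · intro h; exact ⟨n, hn1, le_rfl, h⟩
    have hvP : (∃ i, 1 ≤ i ∧ i ≤ n ∧ (π ^ i) u = v) ↔ (π ^ n) u = v := by
      constructor
      · rintro ⟨i, hi1, hi2, hi⟩
        rcases Nat.lt_or_ge i n with h | h
        · exact absurd hi (hmin i hi1 h).2
        · have : i = n := by omega
          rw [← this]; exact hi
      · intro h; exact ⟨n, hn1, le_rfl, h⟩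
    refine (show (∃ i, 1 ≤ i ∧ i ≤ n ∧ (π ^ i) u = u) ↔
      ¬ (∃ i, 1 ≤ i ∧ i ≤ n ∧ (π ^ i) u = v) from ?_)
    rw [huP, hvP]
    constructor
    · intro h h'
      exact huv (h.symm.trans h')
    · intro h
      exact hn2.resolve_right h

/-- At fixed permutation the charges at two nodes are negatively correlated. -/
theorem inner_nonpos {θ : X → ℝ} (hθ : ∀ x, 0 ≤ θ x ∧ θ x ≤ 1) (π : Equiv.Perm X) {u v : X}
    (huv : u ≠ v) : ∑ s, wt θ π s * (jj π s u * jj π s v) ≤ 0 := by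
  classical
  set R : (X → Fin 2) → ℝ := fun s =>
    ∏ x ∈ (univ.erase u).erase v, (if s x = s (π x) then 1 else θ x) with hR
  have hw : ∀ s, wt θ π s * (jj π s u * jj π s v) =
      (θ u * θ v / 4) * ((sgn2 (s (π u)) * sgn2 (s (π v))) * R s
        - (sgn2 (s (π u)) * sgn2 (s v)) * R s - (sgn2 (s u) * sgn2 (s (π v))) * R s
        + (sgn2 (s u) * sgn2 (s v)) * R s) := by
    intro s
    have h1 : wt θ π s = (if s u = s (π u) then 1 else θ u) *
        ((if s v = s (π v) then 1 else θ v) * R s) := by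
      rw [wt_eq_mul_erase θ π s u, hR]
      congr 1
      exact (Finset.mul_prod_erase (univ.erase u)
        (fun x => if s x = s (π x) then (1:ℝ) else θ x)
        (Finset.mem_erase.mpr ⟨huv.symm, Finset.mem_univ v⟩)).symm
    have h2 : ∀ x, (if s x = s (π x) then 1 else θ x) * jj π s x = θ x * jj π s x := by
      intro x
      split_ifs with h
      · rw [jj_eq_zero h]; ring
      · rfl
    have h3 : wt θ π s * (jj π s u * jj π s v) =
        ((if s u = s (π u) then 1 else θ u) * jj π s u) *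
        ((if s v = s (π v) then 1 else θ v) * jj π s v) * R s := by
      rw [h1]; ring
    rw [h3, h2, h2, jj_eq_sgn, jj_eq_sgn]
    ring
  obtain ⟨P, hP1, hP2, hP3, hP4⟩ := exists_arc π huv
  have hRflip : ∀ s, R (flipP P s) = R s := by
    intro s
    refine Finset.prod_congr rfl fun x hx => ?_
    have hxv : x ≠ v := Finset.ne_of_mem_erase hx
    have hxu : x ≠ u := Finset.ne_of_mem_erase (Finset.mem_of_mem_erase hx)
    simp only [flipP_eq_iff P s (hP1 x hxu hxv)]
  have z1 : ∑ s, (sgn2 (s (π u)) * sgn2 (s (π v))) * R s = 0 := by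
    refine sum_eq_zero_of_flip P _ fun s => ?_
    simp only [sgn2_flipP, hRflip, if_pos hP2, if_neg hP3]
    ring
  have z2 : ∑ s, (sgn2 (s u) * sgn2 (s v)) * R s = 0 := by
    refine sum_eq_zero_of_flip P _ fun s => ?_
    simp only [sgn2_flipP, hRflip]
    by_cases hu : P u
    · rw [if_pos hu, if_neg (hP4.mp hu)]; ring
    · have hv : P v := by
        by_contra hv
        exact hu (hP4.mpr hv)
      rw [if_neg hu, if_pos hv]; ring
  have g1 := griffiths_two hθ π ((univ.erase u).erase v) (π u) v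
  have g2 := griffiths_two hθ π ((univ.erase u).erase v) u (π v)
  rw [Finset.sum_congr rfl fun s _ => hw s, ← Finset.mul_sum, Finset.sum_add_distrib,
    Finset.sum_sub_distrib, Finset.sum_sub_distrib, z1, z2]
  have h4 : 0 ≤ θ u * θ v / 4 := by
    have := mul_nonneg (hθ u).1 (hθ v).1
    positivity
  have h5 : (0 : ℝ) - ∑ s, (sgn2 (s (π u)) * sgn2 (s v)) * R s
      - ∑ s, (sgn2 (s u) * sgn2 (s (π v))) * R s + 0 ≤ 0 := by
    have e1 : 0 ≤ ∑ s, (sgn2 (s (π u)) * sgn2 (s v)) * R s := g1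
    have e2 : 0 ≤ ∑ s, (sgn2 (s u) * sgn2 (s (π v))) * R s := g2
    linarith
  exact mul_nonpos_of_nonneg_of_nonpos h4 h5

/-- **The conductances are nonnegative.** -/
theorem cc_nonneg {μ : Equiv.Perm X → ℝ} (hμ : ∀ π, 0 ≤ μ π) {θ : X → ℝ}
    (hθ : ∀ x, 0 ≤ θ x ∧ θ x ≤ 1) {u v : X} (huv : u ≠ v) : 0 ≤ cc μ θ u v := by
  unfold cc
  rw [EE_eq, ← neg_div]
  refine div_nonneg ?_ (SS_nonneg hμ (fun x => (hθ x).1) fun _ _ => zero_le_one)
  have : SS μ θ (fun π s => jj π s u * jj π s v) =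
      ∑ π, μ π * ∑ s, wt θ π s * (jj π s u * jj π s v) := by
    unfold SS
    refine Finset.sum_congr rfl fun π _ => ?_
    rw [Finset.mul_sum]
    exact Finset.sum_congr rfl fun s _ => by ring
  rw [this, neg_nonneg]
  exact Finset.sum_nonpos fun π _ => mul_nonpos_of_nonneg_of_nonpos (hμ π) (inner_nonpos hθ π huv)

end

end Vale.Agent.P361.LRO
end

section

/-!
# P361, long range order: every law of random transpositions is good
-/

namespace Vale.Agent.P361.LRO

/-- Block (2)/(3): all the network facts for a charge law. -/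
theorem good_of_isLaw {X : Type} [Fintype X] [DecidableEq X] {μ : Equiv.Perm X → ℝ}
    (hμ : IsLaw μ) : Net.Good μ where
  nn := hμ.nonneg
  pos := by rw [hμ.sum]; exact zero_lt_one
  ccnn := fun θ hθ x y hxy => cc_nonneg hμ.nonneg hθ hxy
  vle := fun θ hθ z => ONI.vv_le hμ (fun x => (hθ x).1) z (SR.stable_of_isLaw hμ (by
    intro x
    by_cases hx : x = z
    · subst hx; simp
    · rw [Function.update_of_ne hx]; exact hθ x))
  one := ONI.oneNode_of_stable hμ (fun θ hθ => SR.stable_of_isLaw hμ hθ)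
    (fun θ hθ u v huv => cc_nonneg hμ.nonneg hθ huv)

end Vale.Agent.P361.LRO
end

section

/-! P361 LRO, dictionary: layers and the trace formula. -/

namespace Vale.Agent.P361.LRO.Dict

open Finset Matrix

noncomputable section

variable {R : Type*} [CommRing R] [Algebra ℝ R]

section B

variable {V : Type} [Fintype V] [DecidableEq V] {N : ℕ}

/-- tensor product over the layers -/
def tens (A : Fin (N + 1) → Matrix (V → Fin 2) (V → Fin 2) R)
    (s t : Fin (N + 1) × V → Fin 2) : R :=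
  ∏ k, A k (fun x => s (k, x)) (fun x => t (k, x))

omit [Algebra ℝ R] in
theorem swapR_mul_apply (x y : V) (A : Matrix (V → Fin 2) (V → Fin 2) R) (σ τ : V → Fin 2) :
    (swapR x y * A : Matrix (V → Fin 2) (V → Fin 2) R) σ τ = A (σ ∘ Equiv.swap x y) τ := by
  rw [Matrix.mul_apply, Finset.sum_eq_single (σ ∘ Equiv.swap x y)]
  · have : σ = (σ ∘ Equiv.swap x y) ∘ Equiv.swap x y := by
      funext z; simp
    rw [swapR, Matrix.of_apply, if_pos this, one_mul]
  · intro ρ _ hρ
    rw [swapR, Matrix.of_apply, if_neg, zero_mul]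
    intro h
    apply hρ
    rw [h]; funext z; simp
  · simp

theorem gateOp_tens (k : Fin (N + 1)) (x y : V) (p : ℝ)
    (A : Fin (N + 1) → Matrix (V → Fin 2) (V → Fin 2) R) :
    gateOp ((k, x), (k, y), p) (tens A) = tens (Function.update A k (gatR x y p * A k)) := by
  funext s t
  have hprod : ∀ (B : Fin (N + 1) → Matrix (V → Fin 2) (V → Fin 2) R)
      (s : Fin (N + 1) × V → Fin 2), tens B s t
      = B k (fun x => s (k, x)) (fun x => t (k, x)) *
        ∏ j ∈ Finset.univ.erase k, B j (fun x => s (j, x)) (fun x => t (j, x)) := by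
    intro B s
    exact (Finset.mul_prod_erase Finset.univ
      (fun j => B j (fun x => s (j, x)) (fun x => t (j, x))) (Finset.mem_univ k)).symm
  have h1 : (fun z => (s ∘ Equiv.swap (k, x) (k, y)) (k, z))
      = (fun z => s (k, z)) ∘ Equiv.swap x y := by
    funext z
    simp only [Function.comp_apply]
    congr 1
    rcases eq_or_ne z x with rfl | hx
    · simp
    · rcases eq_or_ne z y with rfl | hy
      · simp
      · rw [Equiv.swap_apply_of_ne_of_ne hx hy, Equiv.swap_apply_of_ne_of_ne]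
        · simpa using hx
        · simpa using hy
  have h2 : ∀ j ∈ Finset.univ.erase k, (fun z => (s ∘ Equiv.swap (k, x) (k, y)) (j, z))
      = (fun z => s (j, z)) := by
    intro j hj
    have hjk : j ≠ k := Finset.ne_of_mem_erase hj
    funext z
    simp only [Function.comp_apply]
    rw [Equiv.swap_apply_of_ne_of_ne]
    · simp [hjk]
    · simp [hjk]
  have e2 : ∏ j ∈ Finset.univ.erase k, A j (fun x_1 => (s ∘ Equiv.swap (k, x) (k, y)) (j, x_1))
        (fun x => t (j, x)) = ∏ j ∈ Finset.univ.erase k, A j (fun x => s (j, x)) (fun x => t (j, x)) :=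
    Finset.prod_congr rfl fun j hj => by rw [h2 j hj]
  have e3 : ∏ j ∈ Finset.univ.erase k, (Function.update A k (gatR x y p * A k)) j
      (fun x => s (j, x)) (fun x => t (j, x))
      = ∏ j ∈ Finset.univ.erase k, A j (fun x => s (j, x)) (fun x => t (j, x)) :=
    Finset.prod_congr rfl fun j hj => by rw [Function.update_of_ne (Finset.ne_of_mem_erase hj)]
  simp only [gateOp]
  rw [hprod A s, hprod A (s ∘ _), hprod (Function.update A k _) s, h1, e2, e3,
    Function.update_self, gatR, Matrix.add_mul, Matrix.add_apply, Matrix.smul_mul, Matrix.smul_mul,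
    Matrix.smul_apply, Matrix.smul_apply, one_mul, swapR_mul_apply, add_mul, smul_mul_assoc,
    smul_mul_assoc]

/-- the gates of the layer `k` -/
theorem actL_layer (k : Fin (N + 1)) (L : List (V × V)) (p : ℝ)
    (A : Fin (N + 1) → Matrix (V → Fin 2) (V → Fin 2) R) :
    actL (L.map fun e => ((k, e.1), (k, e.2), p)) (tens A)
      = tens (Function.update A k (gatM L p * A k)) := by
  induction L generalizing A with
  | nil =>
    have : gatM (R := R) ([] : List (V × V)) p = 1 := rfl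
    rw [this, one_mul, Function.update_eq_self]
    rfl
  | cons e L ih =>
    have h1 : actL ((e :: L).map fun e => ((k, e.1), (k, e.2), p)) (tens A)
        = actL (L.map fun e => ((k, e.1), (k, e.2), p))
          (gateOp ((k, e.1), (k, e.2), p) (tens A)) := rfl
    have h2 : gatM (R := R) (e :: L) p = gatM L p * gatR e.1 e.2 p := by
      simp [gatM, List.reverse_cons, List.map_append, List.prod_append]
    rw [h1, gateOp_tens, ih, Function.update_self, Function.update_idem, h2, mul_assoc]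

theorem actL_append {X : Type} [Fintype X] [DecidableEq X] (l₁ l₂ : List (X × X × ℝ))
    (T : (X → Fin 2) → (X → Fin 2) → R) : actL (l₁ ++ l₂) T = actL l₂ (actL l₁ T) := by
  simp [actL, List.foldl_append]

theorem actL_layers (ks : List (Fin (N + 1))) (hks : ks.Nodup) (L : List (V × V)) (p : ℝ)
    (A : Fin (N + 1) → Matrix (V → Fin 2) (V → Fin 2) R) :
    actL (ks.flatMap fun k => L.map fun e => ((k, e.1), (k, e.2), p)) (tens A)
      = tens (fun k => if k ∈ ks then gatM L p * A k else A k) := by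
  induction ks generalizing A with
  | nil => simp [actL]
  | cons k ks ih =>
    rw [List.flatMap_cons, actL_append, actL_layer, ih (List.nodup_cons.1 hks).2]
    congr 1
    funext j
    have hk := (List.nodup_cons.1 hks).1
    by_cases hj : j = k
    · subst hj
      simp [hk]
    · simp [hj, Function.update_of_ne hj]

theorem actL_gates (L : List (V × V)) (p : ℝ)
    (A : Fin (N + 1) → Matrix (V → Fin 2) (V → Fin 2) R) :
    actL (gates L N p) (tens A)
      = tens (fun k => if k = Fin.last N then A k else gatM L p * A k) := by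
  have h1 : gates L N p = ((List.finRange N).map Fin.castSucc).flatMap
      fun k => L.map fun e => ((k, e.1), (k, e.2), p) := by
    rw [gates, List.flatMap_map]
  rw [h1, actL_layers _ ((List.nodup_finRange N).map (Fin.castSucc_injective N))]
  congr 1
  funext k
  by_cases hk : k = Fin.last N
  · subst hk
    simp [Fin.castSucc_ne_last]
  · obtain ⟨j, rfl⟩ := Fin.exists_castSucc_eq.2 hk
    simp [hk, List.mem_finRange]

end B

end

end Vale.Agent.P361.LRO.Dict
end

section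

/-! P361 LRO, dictionary (D2): the trace formula of the physical circuit. -/

namespace Vale.Agent.P361.LRO.Dict

open Finset Matrix

noncomputable section

section down

variable {M : Type*} [Monoid M]

theorem reverse_prod_eq_down (n : ℕ) (f : ℕ → M) :
    ((List.ofFn fun k : Fin n => f (k + 1)).reverse).prod = down f n := by
  induction n with
  | zero => simp [down]
  | succ n ih =>
    rw [List.ofFn_succ', List.concat_eq_append, List.reverse_append, List.reverse_singleton,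
      List.singleton_append, List.prod_cons]
    simp only [Fin.val_last, Fin.val_castSucc]
    rw [ih]; rfl

theorem down_swap (G : M) (T : ℕ → M) (n : ℕ) :
    down (fun k => G * T k) n * G = G * down (fun k => T k * G) n := by
  induction n with
  | zero => simp [down]
  | succ n ih =>
    simp only [down]
    rw [mul_assoc (G * T (n + 1)), ih]
    simp only [mul_assoc]

theorem down_congr {f g : ℕ → M} {n : ℕ} (h : ∀ k, 1 ≤ k → k ≤ n → f k = g k) :
    down f n = down g n := by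
  induction n with
  | zero => rfl
  | succ n ih =>
    simp only [down]
    rw [ih fun k h1 h2 => h k h1 (by omega), h (n + 1) (by omega) le_rfl]

theorem down_const (a : M) (n : ℕ) : down (fun _ => a) n = a ^ n := by
  induction n with
  | zero => simp [down]
  | succ n ih => simp only [down]; rw [ih, pow_succ']

theorem down_split (f : ℕ → M) (m n : ℕ) :
    down f (m + n) = down (fun k => f (n + k)) m * down f n := by
  induction m with
  | zero => simp [down]
  | succ m ih =>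
    have : m + 1 + n = (m + n) + 1 := by omega
    rw [this]
    simp only [down]
    rw [ih, mul_assoc]
    congr 2
    omega

end down

variable {R : Type} [CommRing R] [Algebra ℝ R]

section B

variable {V : Type} [Fintype V] [DecidableEq V] {N : ℕ}

omit [Algebra ℝ R] in
theorem sum_tens_base (B : Fin (N + 1) → Matrix (V → Fin 2) (V → Fin 2) R) :
    ∑ s : Fin (N + 1) × V → Fin 2, tens B s (s ∘ base N)
      = Matrix.trace (B 0 * ((List.ofFn fun k : Fin N => B k.succ).reverse).prod) := by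
  classical
  rw [← Br.cyclic, ← (Equiv.curry (Fin (N + 1)) V (Fin 2)).sum_comp]
  rfl

/-- (D2) The trace formula. -/
theorem NZ_phys (L : List (V × V)) (β : ℝ) (N : ℕ)
    (A : Fin (N + 1) × V → Matrix (Fin 2) (Fin 2) R) :
    NZ (phys L β N) A = Matrix.trace
      (down (fun k => layM (fun x => A (Fin.ofNat (N + 1) k, x)) * gatM L (β / (2 * N))) N *
        layM (fun x => A (0, x))) := by
  set p : ℝ := β / (2 * N) with hp
  set T : Fin (N + 1) → Matrix (V → Fin 2) (V → Fin 2) R := fun k => layM fun x => A (k, x)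
    with hT
  have h0 : NZ (phys L β N) A
      = ∑ π, law (gates L N p) (base N) π • ∑ s : Fin (N + 1) × V → Fin 2, tens T s (s ∘ π) := by
    rw [NZ, phys]
    refine Finset.sum_congr rfl fun π _ => ?_
    congr 1
    refine Finset.sum_congr rfl fun s _ => ?_
    rw [tens, Fintype.prod_prod_type]
    rfl
  rw [h0, law_sum, actL_gates, sum_tens_base]
  rcases N with _ | n
  · simp [down, hT]
  · have e0 : (if (0 : Fin (n + 1 + 1)) = Fin.last (n + 1) then T 0 else gatM L p * T 0)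
        = gatM L p * T 0 := by
      rw [if_neg]
      exact (Fin.last_pos).ne
    have e1 : ((List.ofFn fun k : Fin (n + 1) => (fun k : Fin (n + 1 + 1) =>
        if k = Fin.last (n + 1) then T k else gatM L p * T k) k.succ).reverse).prod
        = T (Fin.last (n + 1)) * down (fun k => gatM L p * T (Fin.ofNat (n + 1 + 1) k)) n := by
      rw [List.ofFn_succ', List.concat_eq_append, List.reverse_append, List.reverse_singleton,
        List.singleton_append, List.prod_cons]
      congr 1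
      · simp
      · rw [← reverse_prod_eq_down]
        congr 3
        funext k
        have hk : k.castSucc.succ ≠ Fin.last (n + 1) := by
          intro h
          have := congrArg Fin.val h
          simp at this
          omega
        have hk' : k.castSucc.succ = Fin.ofNat (n + 1 + 1) ((k : ℕ) + 1) := by
          apply Fin.ext
          rw [Fin.val_ofNat, Nat.mod_eq_of_lt (by omega)]
          simp
        simp only [if_neg hk]
        rw [hk']
    have elast : Fin.ofNat (n + 1 + 1) (n + 1) = Fin.last (n + 1) := by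
      apply Fin.ext
      rw [Fin.val_ofNat, Nat.mod_eq_of_lt (by omega)]
      simp
    simp only [e0] at *
    rw [e1]
    rw [Matrix.trace_mul_comm (gatM L p * T 0)]
    have e2 : T (Fin.last (n + 1)) * down (fun k => gatM L p * T (Fin.ofNat (n + 1 + 1) k)) n *
        (gatM L p * T 0)
        = down (fun k => T (Fin.ofNat (n + 1 + 1) k) * gatM L p) (n + 1) * T 0 := by
      rw [← mul_assoc, mul_assoc (T (Fin.last (n + 1))), down_swap, ← mul_assoc, down, elast]
      
    rw [e2]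

end B

end

end Vale.Agent.P361.LRO.Dict
end

section

/-!
P361 LRO, dictionary: the quantities of the charge network as loop sums `NZ`, in the charge picture
and in the `S³`-picture.
-/

namespace Vale.Agent.P361.LRO.Dict

open Finset Matrix

noncomputable section

set_option linter.unusedSectionVars false

/-! ### One-site matrices -/

section mats

variable {R : Type*} [CommRing R]

/-- `σ³`. -/
def m3 : Matrix (Fin 2) (Fin 2) R := !![1, 0; 0, -1]

/-- `σ¹`. -/
def m1 : Matrix (Fin 2) (Fin 2) R := !![0, 1; 1, 0]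

/-- `s - s'`. -/
def mJ : Matrix (Fin 2) (Fin 2) R := !![0, -1; 1, 0]

/-- Slice in the charge picture. -/
def chM (θ : R) : Matrix (Fin 2) (Fin 2) R := !![1, θ; θ, 1]

/-- Slice in the `S³`-picture. -/
def dgM (θ : R) : Matrix (Fin 2) (Fin 2) R := !![1 + θ, 0; 0, 1 - θ]

theorem chM_apply (θ : R) (a b : Fin 2) : chM θ a b = if a = b then 1 else θ := by
  fin_cases a <;> fin_cases b <;> simp [chM]

theorem m1_apply (a b : Fin 2) : (m1 : Matrix (Fin 2) (Fin 2) R) a b = if a = b then 0 else 1 := by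
  fin_cases a <;> fin_cases b <;> simp [m1]

theorem mJ_apply (a b : Fin 2) : (mJ : Matrix (Fin 2) (Fin 2) ℝ) a b = ((a : ℕ) : ℝ) - ((b : ℕ) : ℝ) := by
  fin_cases a <;> fin_cases b <;> simp [mJ]

theorem dgM_ne (θ : R) {a b : Fin 2} (h : a ≠ b) : dgM θ a b = 0 := by
  fin_cases a <;> fin_cases b <;> simp_all [dgM]

/-- Hadamard. -/
def mH : Matrix (Fin 2) (Fin 2) ℝ := !![1, 1; 1, -1]

def mW : Matrix (Fin 2) (Fin 2) ℝ := !![1 / 2, 1 / 2; 1 / 2, -(1 / 2)]

theorem mW_mH : mW * mH = 1 := by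
  ext a b
  fin_cases a <;> fin_cases b <;> simp [mW, mH, Matrix.mul_apply, Fin.sum_univ_two] <;> norm_num

theorem mH_mW : mH * mW = 1 := by
  ext a b
  fin_cases a <;> fin_cases b <;> simp [mW, mH, Matrix.mul_apply, Fin.sum_univ_two] <;> norm_num

theorem conj_chM (θ : ℝ) : mH * chM θ * mW = dgM θ := by
  ext a b
  fin_cases a <;> fin_cases b <;>
    simp [mW, mH, chM, dgM, Matrix.mul_apply, Fin.sum_univ_two] <;> ring

theorem conj_m1 : mH * m1 * mW = m3 := by
  ext a b
  fin_cases a <;> fin_cases b <;>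
    simp [mW, mH, m1, m3, Matrix.mul_apply, Fin.sum_univ_two] <;> norm_num

theorem conj_one : mH * 1 * mW = 1 := by
  rw [Matrix.mul_one, mH_mW]

theorem conj_mJ : mH * mJ * mW = -mJ := by
  ext a b
  fin_cases a <;> fin_cases b <;>
    simp [mW, mH, mJ, Matrix.mul_apply, Fin.sum_univ_two] <;> norm_num

end mats

variable {X : Type} [Fintype X] [DecidableEq X]

section gen

variable {R : Type*} [CommRing R] [Algebra ℝ R]

/-- **Change of basis.** -/
theorem NZ_conj (μ : Equiv.Perm X → ℝ) (A : X → Matrix (Fin 2) (Fin 2) R)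
    {U W : Matrix (Fin 2) (Fin 2) R} (h : W * U = 1) :
    NZ μ (fun x => U * A x * W) = NZ μ A := Br.NZ_conj μ A h

theorem prod_mul_at (A : X → Matrix (Fin 2) (Fin 2) R) (u : X) (ρ M : Matrix (Fin 2) (Fin 2) R)
    (hM : ∀ a b, A u a b * ρ a b = M a b) (s : X → Fin 2) (π : Equiv.Perm X) :
    (∏ z, A z (s z) (s (π z))) * ρ (s u) (s (π u)) =
      ∏ z, (Function.update A u M) z (s z) (s (π z)) := by
  rw [← Finset.mul_prod_erase _ _ (Finset.mem_univ u),
    ← Finset.mul_prod_erase (a := u) Finset.univ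
      (fun z => (Function.update A u M) z (s z) (s (π z))) (Finset.mem_univ u),
    Function.update_self, ← hM, mul_right_comm]
  congr 1
  refine Finset.prod_congr rfl fun z hz => ?_
  rw [Function.update_of_ne (Finset.ne_of_mem_erase hz)]

theorem NZ_update_smul (μ : Equiv.Perm X → ℝ) (A : X → Matrix (Fin 2) (Fin 2) R) (u : X)
    (c : R) (M : Matrix (Fin 2) (Fin 2) R) :
    NZ μ (Function.update A u (c • M)) = c * NZ μ (Function.update A u M) := by
  unfold NZ
  rw [Finset.mul_sum]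
  refine Finset.sum_congr rfl fun π _ => ?_
  rw [mul_smul_comm, Finset.mul_sum]
  congr 1
  refine Finset.sum_congr rfl fun s _ => ?_
  have h : Function.update A u (c • M) =
      Function.update (Function.update A u M) u (c • M) := by
    rw [Function.update_idem]
  rw [h, ← prod_mul_at (Function.update A u M) u (fun _ _ => c) (c • M) (fun a b => by
    rw [Function.update_self, Matrix.smul_apply, smul_eq_mul, mul_comm])]
  rw [mul_comm]

theorem conj_update (A : X → Matrix (Fin 2) (Fin 2) R) (u : X) (M U W : Matrix (Fin 2) (Fin 2) R) :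
    (fun x => U * Function.update A u M x * W) =
      Function.update (fun x => U * A x * W) u (U * M * W) := by
  funext x
  exact Function.apply_update (fun _ (B : Matrix (Fin 2) (Fin 2) R) => U * B * W) A u M x

end gen

/-! ### Charge picture -/

variable (μ : Equiv.Perm X → ℝ) (θ : X → ℝ)

theorem wt_eq (π : Equiv.Perm X) (s : X → Fin 2) :
    wt θ π s = ∏ z, chM (θ z) (s z) (s (π z)) := by
  unfold wt
  exact Finset.prod_congr rfl fun z _ => (chM_apply _ _ _).symm

theorem ZZ_eq : ZZ μ θ = NZ μ fun z => chM (θ z) := by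
  unfold ZZ NZ
  refine Finset.sum_congr rfl fun π _ => ?_
  rw [smul_eq_mul, Finset.mul_sum]
  exact Finset.sum_congr rfl fun s _ => by rw [wt_eq]

/-- General insertion at one node. -/
theorem ins_one (u : X) (ρ M : Matrix (Fin 2) (Fin 2) ℝ)
    (hM : ∀ a b, chM (θ u) a b * ρ a b = M a b) :
    ∑ π, ∑ s, μ π * wt θ π s * ρ (s u) (s (π u)) =
      NZ μ (Function.update (fun z => chM (θ z)) u M) := by
  unfold NZ
  refine Finset.sum_congr rfl fun π _ => ?_
  rw [smul_eq_mul, Finset.mul_sum]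
  refine Finset.sum_congr rfl fun s _ => ?_
  rw [wt_eq, mul_assoc, prod_mul_at _ u ρ M hM]

/-- Insertion at two nodes. -/
theorem ins_two {u v : X} (huv : u ≠ v) (ρ ρ' M M' : Matrix (Fin 2) (Fin 2) ℝ)
    (hM : ∀ a b, chM (θ u) a b * ρ a b = M a b) (hM' : ∀ a b, chM (θ v) a b * ρ' a b = M' a b) :
    ∑ π, ∑ s, μ π * wt θ π s * (ρ (s u) (s (π u)) * ρ' (s v) (s (π v))) =
      NZ μ (Function.update (Function.update (fun z => chM (θ z)) u M) v M') := by
  unfold NZ
  refine Finset.sum_congr rfl fun π _ => ?_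
  rw [smul_eq_mul, Finset.mul_sum]
  refine Finset.sum_congr rfl fun s _ => ?_
  rw [wt_eq, mul_assoc, ← mul_assoc (∏ z, _), prod_mul_at _ u ρ M hM,
    prod_mul_at _ v ρ' M' fun a b => ?_]
  rw [Function.update_of_ne huv.symm]
  exact hM' a b

theorem mag_num (z : X) :
    (∑ π, ∑ s, if s z = s (π z) then 0 else μ π * wt (Function.update θ z 1) π s) =
      NZ μ (Function.update (fun x => chM (θ x)) z m1) := by
  have h := ins_one μ (Function.update θ z 1) z m1 m1 fun a b => by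
    rw [Function.update_self, chM_apply, m1_apply]
    split_ifs <;> simp
  have e : Function.update (fun x => chM (Function.update θ z 1 x)) z m1 =
      Function.update (fun x => chM (θ x)) z m1 := by
    funext x
    by_cases hx : x = z
    · subst hx
      rw [Function.update_self, Function.update_self]
    · rw [Function.update_of_ne hx, Function.update_of_ne hx, Function.update_of_ne hx]
  rw [← e, ← h]
  refine Finset.sum_congr rfl fun π _ => Finset.sum_congr rfl fun s _ => ?_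
  rw [m1_apply]
  split_ifs <;> simp

theorem mag_den (z : X) :
    (∑ π, ∑ s, if s z = s (π z) then μ π * wt θ π s else 0) =
      NZ μ (Function.update (fun x => chM (θ x)) z 1) := by
  have h := ins_one μ θ z 1 1 fun a b => by
    rw [chM_apply, Matrix.one_apply]
    split_ifs <;> simp
  rw [← h]
  refine Finset.sum_congr rfl fun π _ => Finset.sum_congr rfl fun s _ => ?_
  rw [Matrix.one_apply]
  split_ifs <;> simp

theorem jj_jj_num {u v : X} (huv : u ≠ v) :
    ∑ π, ∑ s, μ π * wt θ π s * (jj π s u * jj π s v) =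
      θ u * θ v * NZ μ (Function.update (Function.update (fun x => chM (θ x)) u mJ) v mJ) := by
  have h := ins_two μ θ huv mJ mJ (θ u • mJ) (θ v • mJ)
    (fun a b => by
      rw [chM_apply, Matrix.smul_apply, mJ_apply]
      fin_cases a <;> fin_cases b <;> simp)
    (fun a b => by
      rw [chM_apply, Matrix.smul_apply, mJ_apply]
      fin_cases a <;> fin_cases b <;> simp)
  rw [NZ_update_smul, Function.update_comm huv, NZ_update_smul, Function.update_comm huv.symm,
    ← mul_assoc, mul_comm (θ v)] at h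
  rw [← h]
  refine Finset.sum_congr rfl fun π _ => Finset.sum_congr rfl fun s _ => ?_
  rw [mJ_apply, mJ_apply]
  rfl

/-! ### `S³`-picture -/

theorem ZZ_eq3 : ZZ μ θ = NZ μ fun z => dgM (θ z) := by
  rw [ZZ_eq, ← NZ_conj μ _ mW_mH]
  simp only [conj_chM]

theorem NZ_up1 (u : X) (M : Matrix (Fin 2) (Fin 2) ℝ) :
    NZ μ (Function.update (fun x => chM (θ x)) u M) =
      NZ μ (Function.update (fun x => dgM (θ x)) u (mH * M * mW)) := by
  rw [← NZ_conj μ _ mW_mH, conj_update]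
  simp only [conj_chM]

theorem NZ_up2 (u v : X) (M M' : Matrix (Fin 2) (Fin 2) ℝ) :
    NZ μ (Function.update (Function.update (fun x => chM (θ x)) u M) v M') =
      NZ μ (Function.update (Function.update (fun x => dgM (θ x)) u (mH * M * mW)) v
        (mH * M' * mW)) := by
  rw [← NZ_conj μ _ mW_mH, conj_update, conj_update]
  simp only [conj_chM]

/-- The magnetisation. -/
theorem mag_eq3 (z : X) : mag μ θ z =
    NZ μ (Function.update (fun x => dgM (θ x)) z m3) /
      NZ μ (Function.update (fun x => dgM (θ x)) z 1) := by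
  unfold mag
  rw [mag_num, mag_den, NZ_up1, NZ_up1, conj_m1, conj_one]

/-- Conservation of the magnetisation. -/
theorem flip_two {u v : X} (huv : u ≠ v) :
    NZ μ (Function.update (Function.update (fun x => dgM (θ x)) u (-mJ)) v (-mJ)) =
      - NZ μ (Function.update (Function.update (fun x => dgM (θ x)) u m1) v m1) := by
  unfold NZ
  rw [← Finset.sum_neg_distrib]
  refine Finset.sum_congr rfl fun π _ => ?_
  rw [← smul_neg, ← Finset.sum_neg_distrib]
  congr 1
  refine Finset.sum_congr rfl fun s _ => ?_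
  by_cases h : ∃ z, z ≠ u ∧ z ≠ v ∧ s z ≠ s (π z)
  · obtain ⟨z, hu, hv, hz⟩ := h
    rw [Finset.prod_eq_zero (Finset.mem_univ z), Finset.prod_eq_zero (Finset.mem_univ z), neg_zero]
    · rw [Function.update_of_ne hv, Function.update_of_ne hu, dgM_ne _ hz]
    · rw [Function.update_of_ne hv, Function.update_of_ne hu, dgM_ne _ hz]
  · push Not at h
    set D := fun x => dgM (θ x) with hD
    -- the charges
    have hJ : ∀ a b : Fin 2, (m1 : Matrix (Fin 2) (Fin 2) ℝ) a b *
        (((b : ℕ) : ℝ) - ((a : ℕ) : ℝ)) = (-mJ : Matrix (Fin 2) (Fin 2) ℝ) a b := by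
      intro a b
      rw [m1_apply, Matrix.neg_apply, mJ_apply]
      fin_cases a <;> fin_cases b <;> simp
    have e1 := prod_mul_at (Function.update (Function.update D u m1) v m1) u
      (fun a b => ((b : ℕ) : ℝ) - ((a : ℕ) : ℝ)) (-mJ) (fun a b => by
        rw [Function.update_of_ne huv, Function.update_self]
        exact hJ a b) s π
    have e2 := prod_mul_at (Function.update (Function.update (Function.update D u m1) v m1) u (-mJ))
      v (fun a b => ((b : ℕ) : ℝ) - ((a : ℕ) : ℝ)) (-mJ) (fun a b => by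
        rw [Function.update_of_ne huv.symm, Function.update_self]
        exact hJ a b) s π
    have e3 : Function.update (Function.update (Function.update (Function.update D u m1) v m1) u
        (-mJ)) v (-mJ) = Function.update (Function.update D u (-mJ)) v (-mJ) := by
      funext x
      by_cases hxv : x = v
      · subst hxv
        rw [Function.update_self, Function.update_self]
      · rw [Function.update_of_ne hxv, Function.update_of_ne hxv]
        by_cases hxu : x = u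
        · subst hxu
          rw [Function.update_self, Function.update_self]
        · rw [Function.update_of_ne hxu, Function.update_of_ne hxv, Function.update_of_ne hxu,
            Function.update_of_ne hxu]
    rw [e3] at e2
    rw [← e2, ← e1, mul_assoc]
    set P := ∏ z, Function.update (Function.update D u m1) v m1 z (s z) (s (π z)) with hP
    -- the sum of the charges
    have hs : ∑ z, ((((s z : Fin 2) : ℕ) : ℝ) - (((s (π z) : Fin 2) : ℕ) : ℝ)) = 0 := by
      rw [Finset.sum_sub_distrib, sub_eq_zero]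
      exact (Equiv.sum_comp π fun z => (((s z : Fin 2) : ℕ) : ℝ)).symm
    have hs2 : (((s u : Fin 2) : ℕ) : ℝ) - (((s (π u) : Fin 2) : ℕ) : ℝ) +
        ((((s v : Fin 2) : ℕ) : ℝ) - (((s (π v) : Fin 2) : ℕ) : ℝ)) = 0 := by
      rw [← hs, ← Finset.sum_pair huv
        (f := fun z => ((((s z : Fin 2) : ℕ) : ℝ) - (((s (π z) : Fin 2) : ℕ) : ℝ)))]
      refine Finset.sum_subset (Finset.subset_univ _) fun z _ hz => ?_
      rw [Finset.mem_insert, Finset.mem_singleton, not_or] at hz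
      rw [h z hz.1 hz.2, sub_self]
    by_cases hu : s u = s (π u)
    · have : P = 0 := by
        rw [hP]
        refine Finset.prod_eq_zero (Finset.mem_univ u) ?_
        rw [Function.update_of_ne huv, Function.update_self, m1_apply, if_pos hu]
      rw [this, zero_mul, neg_zero]
    · have h1 : ((((s (π u) : Fin 2) : ℕ) : ℝ) - (((s u : Fin 2) : ℕ) : ℝ)) ^ 2 = 1 := by
        generalize s u = a at hu ⊢
        generalize s (π u) = b at hu ⊢
        fin_cases a <;> fin_cases b <;> simp_all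
      have h2 : (((s (π v) : Fin 2) : ℕ) : ℝ) - (((s v : Fin 2) : ℕ) : ℝ) =
          - ((((s (π u) : Fin 2) : ℕ) : ℝ) - (((s u : Fin 2) : ℕ) : ℝ)) := by linarith
      rw [h2, mul_neg, ← sq, h1]
      ring

/-- **The conductances.** -/
theorem cc_eq3 {u v : X} (huv : u ≠ v) : cc μ θ u v =
    θ u * θ v * NZ μ (Function.update (Function.update (fun x => dgM (θ x)) u m1) v m1) /
      NZ μ fun x => dgM (θ x) := by
  unfold cc EE
  rw [jj_jj_num μ θ huv, NZ_up2, conj_mJ, flip_two μ θ huv, ZZ_eq3]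
  ring

/-! ### The generating polynomial -/

/-! ### Rotated slices -/

end

end Vale.Agent.P361.LRO.Dict
end

section

/-! P361 LRO: uniform Lie-Trotter for products of factors `1 + A / N`, with an inserted factor. -/

namespace Vale.Agent.P361.LRO.Trot

open Filter Topology NormedSpace

variable {𝔸 : Type*} [NormedRing 𝔸] [NormedAlgebra ℝ 𝔸]

omit [NormedAlgebra ℝ 𝔸] in
/-- products of factors `1 + A` -/
theorem prod_lin_bounds (h1 : ‖(1 : 𝔸)‖ ≤ 1) (l : List 𝔸) :
    ‖(l.map fun A => 1 + A).prod‖ ≤ Real.exp (l.map norm).sum ∧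
    ‖(l.map fun A => 1 + A).prod - 1‖ ≤ Real.exp (l.map norm).sum - 1 ∧
    ‖(l.map fun A => 1 + A).prod - 1 - l.sum‖ ≤
      Real.exp (l.map norm).sum - 1 - (l.map norm).sum := by
  induction l with
  | nil => simp [h1]
  | cons A l ih =>
    obtain ⟨i1, i2, i3⟩ := ih
    set P := (l.map fun A => 1 + A).prod with hP
    set s := (l.map norm).sum with hs
    have hs0 : 0 ≤ s := List.sum_nonneg (by
      intro x hx
      obtain ⟨a, _, rfl⟩ := List.mem_map.1 hx
      exact norm_nonneg _)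
    simp only [List.map_cons, List.prod_cons, List.sum_cons, ← hP, ← hs]
    have hA0 := norm_nonneg A
    have ja : 1 + ‖A‖ ≤ Real.exp ‖A‖ := by
      have := Real.add_one_le_exp ‖A‖
      linarith
    have j1 : ‖1 + A‖ ≤ Real.exp ‖A‖ := by
      refine (norm_add_le _ _).trans ?_
      linarith
    have hE0 : 0 ≤ Real.exp s - 1 := (norm_nonneg _).trans i2
    have k : ‖A * (P - 1)‖ ≤ ‖A‖ * (Real.exp s - 1) :=
      (norm_mul_le _ _).trans (mul_le_mul_of_nonneg_left i2 hA0)
    have k2 : ‖A‖ * (Real.exp s - 1) ≤ (Real.exp ‖A‖ - 1) * (Real.exp s - 1) :=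
      mul_le_mul_of_nonneg_right (by linarith) hE0
    refine ⟨?_, ?_, ?_⟩
    · rw [Real.exp_add]
      exact (norm_mul_le _ _).trans (mul_le_mul j1 i1 (norm_nonneg _) (Real.exp_pos _).le)
    · have e : (1 + A) * P - 1 = A * (P - 1) + A + (P - 1) := by noncomm_ring
      rw [e, Real.exp_add]
      refine norm_add₃_le.trans ?_
      nlinarith
    · have e : (1 + A) * P - 1 - (A + l.sum) = A * (P - 1) + (P - 1 - l.sum) := by noncomm_ring
      rw [e, Real.exp_add]
      refine (norm_add_le _ _).trans ?_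
      nlinarith

variable [CompleteSpace 𝔸]

omit [CompleteSpace 𝔸] in
/-- The exponential of `t S`. -/
theorem norm_exp_smul_le (h1 : ‖(1 : 𝔸)‖ ≤ 1) {S : 𝔸} {c t : ℝ} (hS : ‖S‖ ≤ c) (ht : 0 ≤ t)
    (ht1 : t ≤ 1) : ‖exp (t • S)‖ ≤ Real.exp c := by
  refine (norm_exp_le h1 _).trans (Real.exp_le_exp.2 ?_)
  rw [norm_smul, Real.norm_of_nonneg ht]
  have h0 := norm_nonneg S
  nlinarith

/-- Continuity of the exponential in `t`. -/
theorem norm_exp_smul_sub_le (h1 : ‖(1 : 𝔸)‖ ≤ 1) {S : 𝔸} {c t d : ℝ} (hS : ‖S‖ ≤ c) (ht : 0 ≤ t)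
    (ht1 : t ≤ 1) (hd : 0 ≤ d) (hd1 : d ≤ 1) :
    ‖exp ((t + d) • S) - exp (t • S)‖ ≤ d * (c * Real.exp (2 * c)) := by
  have hc : 0 ≤ c := (norm_nonneg S).trans hS
  have e : exp ((t + d) • S) = exp (t • S) * exp (d • S) := by
    let _ : NormedAlgebra ℚ 𝔸 := NormedAlgebra.restrictScalars ℚ ℝ 𝔸
    rw [add_smul]
    exact exp_add_of_commute (Commute.smul_left (Commute.smul_right (Commute.refl S) d) t)
  have e2 : exp ((t + d) • S) - exp (t • S) = exp (t • S) * (exp (d • S) - 1) := by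
    rw [e, mul_sub, mul_one]
  rw [e2]
  refine (norm_mul_le _ _).trans ?_
  have h2 := norm_exp_smul_le h1 hS ht ht1
  have h3 : ‖exp (d • S) - 1‖ ≤ d * (c * Real.exp c) := by
    refine (norm_exp_sub_one_le _).trans ?_
    have h4 : ‖d • S‖ ≤ d * c := by
      rw [norm_smul, Real.norm_of_nonneg hd]
      exact mul_le_mul_of_nonneg_left hS hd
    have h5 : Real.exp ‖d • S‖ ≤ Real.exp (d * c) := Real.exp_le_exp.2 h4
    have h6 : Real.exp (d * c) - 1 ≤ d * c * Real.exp (d * c) := by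
      have h7 := Real.add_one_le_exp (-(d * c))
      have h8 : (1 - d * c) * Real.exp (d * c) ≤ Real.exp (-(d * c)) * Real.exp (d * c) :=
        mul_le_mul_of_nonneg_right (by linarith) (Real.exp_pos _).le
      rw [← Real.exp_add, neg_add_cancel, Real.exp_zero] at h8
      linarith
    have h9 : Real.exp (d * c) ≤ Real.exp c := Real.exp_le_exp.2 (by nlinarith)
    have h10 : d * c * Real.exp (d * c) ≤ d * c * Real.exp c :=
      mul_le_mul_of_nonneg_left h9 (mul_nonneg hd hc)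
    linarith
  calc ‖exp (t • S)‖ * ‖exp (d • S) - 1‖ ≤ Real.exp c * (d * (c * Real.exp c)) :=
        mul_le_mul h2 h3 (norm_nonneg _) (Real.exp_pos _).le
    _ = d * (c * Real.exp (2 * c)) := by rw [two_mul, Real.exp_add]; ring

/-- Uniform Lie-Trotter at every intermediate slice, for factors `1 + A / N`. -/
theorem trotter_lin (h1 : ‖(1 : 𝔸)‖ ≤ 1) (l : List 𝔸) {c : ℝ}
    (hc : (l.map norm).sum ≤ c) {N k : ℕ} (hN : 1 ≤ N) (hk : k ≤ N) :
    ‖((l.map fun A => 1 + (N : ℝ)⁻¹ • A).prod) ^ k - exp (((k : ℝ) / N) • l.sum)‖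
      ≤ 2 * c ^ 2 * Real.exp (2 * c) / N ∧
    ‖((l.map fun A => 1 + (N : ℝ)⁻¹ • A).prod) ^ k‖ ≤ Real.exp c := by
  have hN0 : (0 : ℝ) < N := by exact_mod_cast hN
  have h0 : 0 ≤ (l.map norm).sum := List.sum_nonneg (by
      intro x hx
      obtain ⟨a, _, rfl⟩ := List.mem_map.1 hx
      exact norm_nonneg _)
  have hc0 : 0 ≤ c := h0.trans hc
  set l' := l.map fun A => (N : ℝ)⁻¹ • A with hl'
  have hsum : l'.sum = (N : ℝ)⁻¹ • l.sum := by
    rw [hl', ← List.smul_sum]
  have hnorm : (l'.map norm).sum ≤ c / N := by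
    have e : (l'.map norm) = (l.map norm).map (fun x => (N : ℝ)⁻¹ * x) := by
      rw [hl', List.map_map, List.map_map]
      apply List.map_congr_left
      intro A _
      simp [norm_smul]
    rw [e, List.sum_map_mul_left, List.map_id', div_eq_inv_mul]
    gcongr
  have hmap : (l.map fun A => 1 + (N : ℝ)⁻¹ • A) = l'.map fun A => 1 + A := by
    rw [hl', List.map_map]; rfl
  rw [hmap]
  obtain ⟨i1, -, i3⟩ := prod_lin_bounds h1 l'
  have h0' : 0 ≤ (l'.map norm).sum := List.sum_nonneg (by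
      intro x hx
      obtain ⟨a, _, rfl⟩ := List.mem_map.1 hx
      exact norm_nonneg _)
  have mono : ∀ x : ℝ, 0 ≤ x → x ≤ c / N →
      Real.exp x - 1 - x ≤ (c / N) ^ 2 * Real.exp (c / N) := by
    intro x hx hxs
    refine (exp_rem_le hx).trans ?_
    gcongr
  have hstep : ‖(l'.map fun A => 1 + A).prod - exp l'.sum‖ ≤
      2 * ((c / N) ^ 2 * Real.exp (c / N)) := by
    have j3 := norm_exp_sub_one_sub_le l'.sum
    have e : (l'.map fun A => 1 + A).prod - exp l'.sum
        = ((l'.map fun A => 1 + A).prod - 1 - l'.sum) - (exp l'.sum - 1 - l'.sum) := by abel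
    rw [e]
    refine (norm_sub_le _ _).trans ?_
    have k1 := mono _ h0' hnorm
    have k2 := mono _ (norm_nonneg l'.sum) ((norm_list_sum_le l').trans hnorm)
    linarith
  have hw : ‖(l'.map fun A => 1 + A).prod‖ ≤ Real.exp (c / N) :=
    i1.trans (Real.exp_le_exp.2 hnorm)
  have ha : ‖exp l'.sum‖ ≤ Real.exp (c / N) :=
    (norm_exp_le h1 _).trans (Real.exp_le_exp.2 ((norm_list_sum_le l').trans hnorm))
  have hM : 1 ≤ Real.exp (c / N) := Real.one_le_exp (by positivity)
  have epow : exp (((k : ℝ) / N) • l.sum) = exp l'.sum ^ k := by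
    let _ : NormedAlgebra ℚ 𝔸 := NormedAlgebra.restrictScalars ℚ ℝ 𝔸
    rw [← exp_nsmul, ← Nat.cast_smul_eq_nsmul ℝ, hsum, smul_smul, div_eq_mul_inv]
  have e2 : Real.exp (c / N) ^ k ≤ Real.exp c := by
    rw [← Real.exp_nat_mul]
    apply Real.exp_le_exp.2
    rw [mul_div_assoc', div_le_iff₀ hN0, mul_comm c]
    gcongr
  have e3 : Real.exp (c / N) ≤ Real.exp c := by
    apply Real.exp_le_exp.2
    exact div_le_self hc0 (by exact_mod_cast hN)
  refine ⟨?_, ?_⟩
  · rw [epow]
    refine (norm_pow_sub_pow_le hM hw ha k h1).trans ?_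
    calc (k : ℝ) * Real.exp (c / N) ^ k * ‖(l'.map fun A => 1 + A).prod - exp l'.sum‖
        ≤ (N : ℝ) * Real.exp c * (2 * ((c / N) ^ 2 * Real.exp c)) := by
          gcongr
          refine hstep.trans ?_
          gcongr
      _ = 2 * c ^ 2 * Real.exp (2 * c) / N := by
          rw [two_mul c, Real.exp_add]
          field_simp
  · refine le_trans ?_ e2
    rcases Nat.eq_zero_or_pos k with hk0 | hk0
    · subst hk0
      simpa using h1
    · exact (norm_pow_le' _ hk0).trans (pow_le_pow_left₀ (norm_nonneg _) hw k)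

/-- The constant of `insert_lin`. -/
noncomputable def cI (c C : ℝ) : ℝ :=
  (2 * c ^ 2 * Real.exp (2 * c)) * (1 + C) * Real.exp c + Real.exp c * C * Real.exp c +
    Real.exp c * (2 * c ^ 2 * Real.exp (2 * c) + c * Real.exp (2 * c))

/-- An inserted factor. -/
theorem insert_lin (h1 : ‖(1 : 𝔸)‖ ≤ 1) (l : List 𝔸) {c C : ℝ}
    (hc : (l.map norm).sum ≤ c) (hC : 0 ≤ C) {N k : ℕ} (hk : 1 ≤ k) (hkN : k ≤ N) {M O : 𝔸}
    (hO : ‖O‖ ≤ 1) (hM : ‖M - O‖ ≤ C / N) :
    ‖((l.map fun A => 1 + (N : ℝ)⁻¹ • A).prod) ^ (N - k) * M *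
        ((l.map fun A => 1 + (N : ℝ)⁻¹ • A).prod) ^ (k - 1) -
      exp ((1 - (k : ℝ) / N) • l.sum) * O * exp (((k : ℝ) / N) • l.sum)‖ ≤ cI c C / N := by
  have hN : 1 ≤ N := hk.trans hkN
  have hN0 : (0 : ℝ) < N := by exact_mod_cast hN
  have hN1 : (1 : ℝ) ≤ N := by exact_mod_cast hN
  have h0 : 0 ≤ (l.map norm).sum := List.sum_nonneg (by
      intro x hx
      obtain ⟨a, _, rfl⟩ := List.mem_map.1 hx
      exact norm_nonneg _)
  have hc0 : 0 ≤ c := h0.trans hc
  have hS : ‖l.sum‖ ≤ c := (norm_list_sum_le l).trans hc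
  obtain ⟨a1, -⟩ := trotter_lin h1 l hc hN (show N - k ≤ N by omega)
  obtain ⟨b1, b2⟩ := trotter_lin h1 l hc hN (show k - 1 ≤ N by omega)
  have ec1 : (((N - k : ℕ) : ℝ) / N) = 1 - (k : ℝ) / N := by
    rw [Nat.cast_sub hkN]
    field_simp
  rw [ec1] at a1
  set P := ((l.map fun A => 1 + (N : ℝ)⁻¹ • A).prod) with hP
  set E1 := exp ((1 - (k : ℝ) / N) • l.sum) with hE1
  set E2 := exp (((k : ℝ) / N) • l.sum) with hE2
  have hkN' : (k : ℝ) ≤ N := by exact_mod_cast hkN
  have hk' : (1 : ℝ) ≤ k := by exact_mod_cast hk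
  have hd : (k : ℝ) / N ≤ 1 := (div_le_one hN0).2 hkN'
  have hd0 : 0 ≤ (k : ℝ) / N := by positivity
  have n1 : ‖E1‖ ≤ Real.exp c := norm_exp_smul_le h1 hS (by linarith) (by linarith)
  have hMn : ‖M‖ ≤ 1 + C := by
    have e : M = O + (M - O) := by abel
    have h2 : C / N ≤ C := div_le_self hC hN1
    calc ‖M‖ = ‖O + (M - O)‖ := by rw [← e]
      _ ≤ ‖O‖ + ‖M - O‖ := norm_add_le _ _
      _ ≤ 1 + C := by linarith
  have b3 : ‖P ^ (k - 1) - E2‖ ≤ (2 * c ^ 2 * Real.exp (2 * c) + c * Real.exp (2 * c)) / N := by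
    have ec2 : (((k - 1 : ℕ) : ℝ) / N) + 1 / N = (k : ℝ) / N := by
      rw [Nat.cast_sub hk]
      push_cast
      field_simp
      ring
    have hd1 : (1 : ℝ) / N ≤ 1 := (div_le_one hN0).2 hN1
    have hd10 : (0 : ℝ) ≤ 1 / N := by positivity
    have hd2 : 0 ≤ (((k - 1 : ℕ) : ℝ) / N) := by positivity
    have h3 := norm_exp_smul_sub_le h1 (t := (((k - 1 : ℕ) : ℝ) / N)) (d := 1 / N) hS hd2
      (by linarith) hd10 hd1
    rw [ec2] at h3
    have e : P ^ (k - 1) - E2 = (P ^ (k - 1) - exp ((((k - 1 : ℕ) : ℝ) / N) • l.sum)) -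
        (E2 - exp ((((k - 1 : ℕ) : ℝ) / N) • l.sum)) := by abel
    rw [e]
    refine (norm_sub_le _ _).trans ?_
    refine (add_le_add b1 h3).trans (le_of_eq ?_)
    field_simp
  have e : P ^ (N - k) * M * P ^ (k - 1) - E1 * O * E2 =
      (P ^ (N - k) - E1) * M * P ^ (k - 1) + E1 * (M - O) * P ^ (k - 1) +
        E1 * O * (P ^ (k - 1) - E2) := by noncomm_ring
  rw [e]
  refine norm_add₃_le.trans ?_
  have t1 : ‖(P ^ (N - k) - E1) * M * P ^ (k - 1)‖ ≤
      (2 * c ^ 2 * Real.exp (2 * c) / N) * (1 + C) * Real.exp c := by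
    refine (norm_mul_le _ _).trans (mul_le_mul ?_ b2 (norm_nonneg _) (by positivity))
    exact (norm_mul_le _ _).trans (mul_le_mul a1 hMn (norm_nonneg _) (by positivity))
  have t2 : ‖E1 * (M - O) * P ^ (k - 1)‖ ≤ Real.exp c * (C / N) * Real.exp c := by
    refine (norm_mul_le _ _).trans (mul_le_mul ?_ b2 (norm_nonneg _) (by positivity))
    exact (norm_mul_le _ _).trans (mul_le_mul n1 hM (norm_nonneg _) (by positivity))
  have t3 : ‖E1 * O * (P ^ (k - 1) - E2)‖ ≤
      Real.exp c * 1 * ((2 * c ^ 2 * Real.exp (2 * c) + c * Real.exp (2 * c)) / N) := by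
    refine (norm_mul_le _ _).trans (mul_le_mul ?_ b3 (norm_nonneg _) (by positivity))
    exact (norm_mul_le _ _).trans (mul_le_mul n1 hO (norm_nonneg _) (by positivity))
  refine (add_le_add (add_le_add t1 t2) t3).trans (le_of_eq ?_)
  unfold cI
  field_simp

end Vale.Agent.P361.LRO.Trot
end

section

/-! P361 LRO, dictionary (D3): the limit `N → ∞` of the circuit, uniformly in the fields. -/

namespace Vale.Agent.P361.LRO.Dict

open Finset Matrix

open scoped Matrix.Norms.Operator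

noncomputable section

/-! ### Norms of matrices -/

section norms

variable {Y : Type} [Fintype Y] [DecidableEq Y]

theorem norm_entry_le (A : Matrix Y Y ℝ) (i j : Y) : |A i j| ≤ ‖A‖ := by
  rw [linfty_opNorm_def, ← Real.norm_eq_abs, ← coe_nnnorm, NNReal.coe_le_coe]
  exact (Finset.single_le_sum (f := fun j => ‖A i j‖₊) (fun _ _ => zero_le)
    (Finset.mem_univ j)).trans (Finset.le_sup (f := fun i => ∑ j, ‖A i j‖₊) (Finset.mem_univ i))

theorem norm_le_of_rows (A : Matrix Y Y ℝ) {c : ℝ} (hc : 0 ≤ c) (h : ∀ i, ∑ j, |A i j| ≤ c) :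
    ‖A‖ ≤ c := by
  rw [linfty_opNorm_def]
  have h1 : (Finset.univ.sup fun i => ∑ j, ‖A i j‖₊) ≤ ⟨c, hc⟩ := by
    refine Finset.sup_le fun i _ => NNReal.coe_le_coe.1 ?_
    push_cast
    simp only [Real.norm_eq_abs]
    exact h i
  exact_mod_cast h1

theorem abs_trace_le (A D : Matrix Y Y ℝ) {d : ℝ} (hD : ∀ i j, i ≠ j → D i j = 0)
    (hd : ∀ i, |D i i| ≤ d) : |trace (A * D)| ≤ Fintype.card Y * (‖A‖ * d) := by
  rw [Matrix.trace]
  refine (Finset.abs_sum_le_sum_abs _ _).trans ?_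
  have h1 : ∀ i, |(A * D).diag i| ≤ ‖A‖ * d := by
    intro i
    rw [Matrix.diag_apply, Matrix.mul_apply, Finset.sum_eq_single i]
    · rw [abs_mul]
      exact mul_le_mul (norm_entry_le A i i) (hd i) (abs_nonneg _) (norm_nonneg _)
    · intro j _ hj
      rw [hD j i hj, mul_zero]
    · intro h
      exact absurd (Finset.mem_univ _) h
  refine (Finset.sum_le_sum fun i _ => h1 i).trans (le_of_eq ?_)
  rw [Finset.sum_const, nsmul_eq_mul, Finset.card_univ]

end norms

variable {V : Type} [Fintype V] [DecidableEq V]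

/-- Sign of a spin. -/
def sg (a : Fin 2) : ℝ := if a = 0 then 1 else -1

theorem abs_sg (a : Fin 2) : |sg a| = 1 := by
  unfold sg
  split_ifs <;> simp

theorem norm_one_le : ‖(1 : Matrix (V → Fin 2) (V → Fin 2) ℝ)‖ ≤ 1 := norm_one.le

theorem norm_szM (x : V) : ‖(szM x : Matrix (V → Fin 2) (V → Fin 2) ℝ)‖ ≤ 1 := by
  unfold szM
  rw [linfty_opNorm_diagonal]
  refine (pi_norm_le_iff_of_nonneg zero_le_one).2 fun σ => ?_
  split_ifs <;> simp

theorem norm_swapM (x y : V) : ‖(swapM x y : Matrix (V → Fin 2) (V → Fin 2) ℝ)‖ ≤ 1 := by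
  refine norm_le_of_rows _ zero_le_one fun σ => ?_
  rw [Finset.sum_eq_single (σ ∘ Equiv.swap x y)]
  · simp only [swapM, Matrix.of_apply]
    split_ifs <;> simp
  · intro τ _ hτ
    simp only [swapM, Matrix.of_apply]
    rw [if_neg, abs_zero]
    rintro rfl
    apply hτ
    funext z
    simp
  · intro h
    exact absurd (Finset.mem_univ _) h

/-! ### The layers as products of factors `1 + A / N` -/

/-- The sites. -/
def sites (β : ℝ) (h : V → ℝ) : List (Matrix (V → Fin 2) (V → Fin 2) ℝ) :=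
  (Finset.univ : Finset V).toList.map fun x => (β * h x / 2) • szM x

/-- The edges. -/
def bonds (L : List (V × V)) (β : ℝ) : List (Matrix (V → Fin 2) (V → Fin 2) ℝ) :=
  L.reverse.map fun e => (β / 2) • (swapM e.1 e.2 - 1)

omit [DecidableEq V] in
theorem layM_dgM (θ : V → ℝ) : layM (fun x => dgM (θ x)) =
    Matrix.diagonal fun σ : V → Fin 2 => ∏ x, (1 + θ x * sg (σ x)) := by
  ext σ τ
  rw [layM, Matrix.of_apply]
  by_cases h : σ = τ
  · subst h
    rw [Matrix.diagonal_apply_eq]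
    refine Finset.prod_congr rfl fun x _ => ?_
    unfold dgM sg
    rcases Fin.exists_fin_two.1 ⟨σ x, rfl⟩ with h0 | h0 <;> rw [h0] <;> simp [sub_eq_add_neg]
  · rw [Matrix.diagonal_apply_ne _ h]
    obtain ⟨x, hx⟩ := Function.ne_iff.1 h
    exact Finset.prod_eq_zero (Finset.mem_univ x) (dgM_ne _ hx)

theorem prod_diag (l : List V) (θ : V → ℝ) :
    (l.map fun x => (1 : Matrix (V → Fin 2) (V → Fin 2) ℝ) + θ x • szM x).prod =
      Matrix.diagonal fun σ => (l.map fun x => 1 + θ x * sg (σ x)).prod := by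
  induction l with
  | nil =>
    simp only [List.map_nil, List.prod_nil]
    exact Matrix.diagonal_one.symm
  | cons x l ih =>
    rw [List.map_cons, List.prod_cons, ih]
    have e : (1 : Matrix (V → Fin 2) (V → Fin 2) ℝ) + θ x • szM x =
        Matrix.diagonal fun σ => 1 + θ x * sg (σ x) := by
      rw [← Matrix.diagonal_one, szM, ← Matrix.diagonal_smul, Matrix.diagonal_add]
      rfl
    rw [e, Matrix.diagonal_mul_diagonal]
    simp only [List.map_cons, List.prod_cons]

theorem layM_eq (β : ℝ) {N : ℕ} (h : V → ℝ) : layM (fun x => dgM (β * h x / (2 * N))) =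
    ((sites β h).map fun A => 1 + (N : ℝ)⁻¹ • A).prod := by
  have e : ((sites β h).map fun A => 1 + (N : ℝ)⁻¹ • A) =
      (Finset.univ : Finset V).toList.map fun x =>
        (1 : Matrix (V → Fin 2) (V → Fin 2) ℝ) + (β * h x / (2 * N)) • szM x := by
    unfold sites
    rw [List.map_map]
    refine List.map_congr_left fun x _ => ?_
    show 1 + (N : ℝ)⁻¹ • ((β * h x / 2) • szM x) = _
    rw [smul_smul]
    congr 2
    rw [div_mul_eq_div_div, div_eq_mul_inv, mul_comm]
    ring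
  rw [e, prod_diag, layM_dgM]
  congr 1
  funext σ
  exact (Finset.prod_map_toList _ _).symm

theorem gatM_eq (L : List (V × V)) (β : ℝ) {N : ℕ} : gatM L (β / (2 * N)) =
    ((bonds L β).map fun A => 1 + (N : ℝ)⁻¹ • A).prod := by
  unfold gatM bonds
  rw [List.map_map]
  congr 1
  refine List.map_congr_left fun e _ => ?_
  show (1 - β / (2 * N)) • (1 : Matrix (V → Fin 2) (V → Fin 2) ℝ) + (β / (2 * N)) • swapM e.1 e.2 =
    1 + (N : ℝ)⁻¹ • ((β / 2) • (swapM e.1 e.2 - 1))
  have e1 : (N : ℝ)⁻¹ * (β / 2) = β / (2 * N) := by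
    rw [div_mul_eq_div_div, div_eq_mul_inv (β / 2), mul_comm]
  rw [smul_smul, e1, sub_smul, one_smul, smul_sub]
  abel

/-- The bound of the norms. -/
def cc0 (L : List (V × V)) (β : ℝ) : ℝ := Fintype.card V * (β / 2) + L.length * β

theorem norm_sites {β : ℝ} (hβ : 0 ≤ β) {h : V → ℝ} (hh : ∀ x, 0 ≤ h x ∧ h x ≤ 1) :
    ((sites β h).map norm).sum ≤ Fintype.card V * (β / 2) := by
  unfold sites
  rw [List.map_map]
  have h1 : ∀ x ∈ (Finset.univ : Finset V).toList,
      (norm ∘ fun x => (β * h x / 2) • szM x) x ≤ β / 2 := by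
    intro x _
    show ‖(β * h x / 2) • (szM x : Matrix (V → Fin 2) (V → Fin 2) ℝ)‖ ≤ β / 2
    rw [norm_smul]
    have h2 : ‖β * h x / 2‖ ≤ β / 2 := by
      rw [Real.norm_of_nonneg (by have := (hh x).1; positivity)]
      have := mul_le_mul_of_nonneg_left (hh x).2 hβ
      linarith
    calc ‖β * h x / 2‖ * ‖(szM x : Matrix (V → Fin 2) (V → Fin 2) ℝ)‖ ≤ (β / 2) * 1 :=
          mul_le_mul h2 (norm_szM x) (norm_nonneg _) (by positivity)
      _ = β / 2 := mul_one _
  refine (List.sum_le_card_nsmul _ (β / 2) ?_).trans (le_of_eq ?_)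
  · intro y hy
    obtain ⟨x, hx, rfl⟩ := List.mem_map.1 hy
    exact h1 x hx
  · rw [List.length_map, Finset.length_toList, Finset.card_univ, nsmul_eq_mul]

theorem norm_bonds (L : List (V × V)) {β : ℝ} (hβ : 0 ≤ β) :
    ((bonds L β).map norm).sum ≤ L.length * β := by
  unfold bonds
  rw [List.map_map]
  have h1 : ∀ e ∈ L.reverse,
      (norm ∘ fun e : V × V => (β / 2) • (swapM e.1 e.2 - 1)) e ≤ β := by
    intro e _
    show ‖(β / 2) • ((swapM e.1 e.2 : Matrix (V → Fin 2) (V → Fin 2) ℝ) - 1)‖ ≤ β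
    rw [norm_smul, Real.norm_of_nonneg (by positivity)]
    have h2 : ‖(swapM e.1 e.2 : Matrix (V → Fin 2) (V → Fin 2) ℝ) - 1‖ ≤ 2 := by
      refine (norm_sub_le _ _).trans ?_
      have := norm_swapM e.1 e.2
      have := norm_one_le (V := V)
      linarith
    nlinarith
  refine (List.sum_le_card_nsmul _ β ?_).trans (le_of_eq ?_)
  · intro y hy
    obtain ⟨x, hx, rfl⟩ := List.mem_map.1 hy
    exact h1 x hx
  · rw [List.length_map, List.length_reverse, nsmul_eq_mul]

/-- The generator. -/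
def gen0 (L : List (V × V)) (β : ℝ) (h : V → ℝ) : List (Matrix (V → Fin 2) (V → Fin 2) ℝ) :=
  sites β h ++ bonds L β

theorem norm_gen0 (L : List (V × V)) {β : ℝ} (hβ : 0 ≤ β) {h : V → ℝ}
    (hh : ∀ x, 0 ≤ h x ∧ h x ≤ 1) : ((gen0 L β h).map norm).sum ≤ cc0 L β := by
  unfold gen0 cc0
  rw [List.map_append, List.sum_append]
  exact add_le_add (norm_sites hβ hh) (norm_bonds L hβ)

theorem gen0_sum (L : List (V × V)) (β : ℝ) (h : V → ℝ) : (gen0 L β h).sum = -β • ham L h := by
  have e1 : (sites β h).sum = β • ∑ x, (h x / 2) • szM x := by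
    unfold sites
    rw [Finset.sum_map_toList, Finset.smul_sum]
    refine Finset.sum_congr rfl fun x _ => ?_
    rw [smul_smul, mul_div_assoc]
  have e2 : (bonds L β).sum = -β • (L.map fun e => hM e.1 e.2).sum := by
    unfold bonds
    rw [List.map_reverse, List.sum_reverse, List.smul_sum, List.map_map]
    congr 1
    refine List.map_congr_left fun e _ => ?_
    show (β / 2) • ((swapM e.1 e.2 : Matrix (V → Fin 2) (V → Fin 2) ℝ) - 1) = -β • hM e.1 e.2
    unfold hM
    rw [smul_smul, ← neg_sub, smul_neg, ← neg_smul]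
    congr 1
    ring
  unfold gen0 ham
  rw [List.sum_append, e1, e2, smul_sub]
  simp only [neg_smul]
  abel

/-- One layer with its gates. -/
theorem layer_eq (L : List (V × V)) (β : ℝ) {N : ℕ} (h : V → ℝ) :
    layM (fun x => dgM (β * h x / (2 * N))) * gatM L (β / (2 * N)) =
      ((gen0 L β h).map fun A => 1 + (N : ℝ)⁻¹ • A).prod := by
  unfold gen0
  rw [List.map_append, List.prod_append, layM_eq, gatM_eq]

/-! ### Positivity -/

/-- Nonnegative entries, and the entry of the configuration with all spins up is at least one. -/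
def PU (A : Matrix (V → Fin 2) (V → Fin 2) ℝ) : Prop :=
  (∀ i j, 0 ≤ A i j) ∧ 1 ≤ A (fun _ => 0) (fun _ => 0)

theorem PU.mul {A B : Matrix (V → Fin 2) (V → Fin 2) ℝ} (hA : PU A) (hB : PU B) : PU (A * B) := by
  refine ⟨fun i j => ?_, ?_⟩
  · rw [Matrix.mul_apply]
    exact Finset.sum_nonneg fun k _ => mul_nonneg (hA.1 _ _) (hB.1 _ _)
  · rw [Matrix.mul_apply]
    have h1 : A (fun _ => 0) (fun _ => 0) * B (fun _ => 0) (fun _ => 0) ≤
        ∑ k, A (fun _ => 0) k * B k (fun _ => 0) :=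
      Finset.single_le_sum (f := fun k => A (fun _ => 0) k * B k (fun _ => 0))
        (fun k _ => mul_nonneg (hA.1 _ _) (hB.1 _ _)) (Finset.mem_univ _)
    have h2 := one_le_mul_of_one_le_of_one_le hA.2 hB.2
    linarith

omit [DecidableEq V] in
theorem PU.one : PU (1 : Matrix (V → Fin 2) (V → Fin 2) ℝ) := by
  refine ⟨fun i j => ?_, ?_⟩
  · rw [Matrix.one_apply]
    split_ifs <;> norm_num
  · rw [Matrix.one_apply_eq]

theorem PU.pow {A : Matrix (V → Fin 2) (V → Fin 2) ℝ} (hA : PU A) (k : ℕ) : PU (A ^ k) := by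
  induction k with
  | zero => rw [pow_zero]; exact PU.one
  | succ k ih => rw [pow_succ]; exact ih.mul hA

theorem PU.list {l : List (Matrix (V → Fin 2) (V → Fin 2) ℝ)} (hl : ∀ A ∈ l, PU A) :
    PU l.prod := by
  induction l with
  | nil => exact PU.one
  | cons A l ih =>
    rw [List.prod_cons]
    exact (hl A List.mem_cons_self).mul (ih fun B hB => hl B (List.mem_cons_of_mem _ hB))

theorem PU.trace {A : Matrix (V → Fin 2) (V → Fin 2) ℝ} (hA : PU A) : 1 ≤ trace A := by
  rw [Matrix.trace]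
  have h1 : A.diag (fun _ => 0) ≤ ∑ i, A.diag i :=
    Finset.single_le_sum (f := fun i => A.diag i) (fun i _ => hA.1 _ _) (Finset.mem_univ _)
  exact hA.2.trans h1

theorem PU.gatM (L : List (V × V)) {p : ℝ} (hp : 0 ≤ p) (hp1 : p ≤ 1) :
    PU (gatM L p : Matrix (V → Fin 2) (V → Fin 2) ℝ) := by
  refine PU.list fun A hA => ?_
  obtain ⟨e, _, rfl⟩ := List.mem_map.1 hA
  refine ⟨fun i j => ?_, ?_⟩
  · simp only [gatR, swapR, Matrix.add_apply, Matrix.smul_apply, Matrix.one_apply, Matrix.of_apply,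
      smul_eq_mul]
    split_ifs <;> linarith
  · simp only [gatR, swapR, Matrix.add_apply, Matrix.smul_apply, Matrix.one_apply, Matrix.of_apply,
      smul_eq_mul]
    have e1 : (fun _ : V => (0 : Fin 2)) = (fun _ => 0) ∘ Equiv.swap e.1 e.2 := rfl
    rw [if_pos trivial, if_pos e1]
    linarith

omit [DecidableEq V] in
theorem PU.layM {θ : V → ℝ} (hθ : ∀ x, 0 ≤ θ x ∧ θ x ≤ 1) :
    PU (layM (fun x => dgM (θ x)) : Matrix (V → Fin 2) (V → Fin 2) ℝ) := by
  rw [layM_dgM]
  refine ⟨fun i j => ?_, ?_⟩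
  · rw [Matrix.diagonal_apply]
    split_ifs
    · refine Finset.prod_nonneg fun x _ => ?_
      have h1 := abs_sg (i x)
      have h2 := neg_abs_le (sg (i x))
      have h3 := hθ x
      rw [h1] at h2
      nlinarith
    · exact le_rfl
  · rw [Matrix.diagonal_apply_eq]
    have h1 : ∀ x : V, (1 : ℝ) ≤ 1 + θ x * sg 0 := fun x => by
      unfold sg
      rw [if_pos rfl]
      linarith [(hθ x).1]
    have h2 := Finset.prod_le_prod (s := (Finset.univ : Finset V)) (f := fun _ => (1 : ℝ))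
      (g := fun x : V => 1 + θ x * sg 0) (fun _ _ => zero_le_one) (fun x _ => h1 x)
    rwa [Finset.prod_const_one] at h2

/-! ### The layers with an inserted matrix -/

omit [DecidableEq V] in
theorem layT_eq (T : V → ℝ) : layT T = layM fun x => dgM (T x) := by
  rw [layM_dgM]
  rfl

theorem dgM_zero : (dgM (0 : ℝ) : Matrix (Fin 2) (Fin 2) ℝ) = 1 := by
  unfold dgM
  rw [add_zero, sub_zero, Matrix.one_fin_two]

theorem layM_up1 (θ : V → ℝ) (x : V) : layM (Function.update (fun y => dgM (θ y)) x 1) =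
    layM fun y => dgM (Function.update θ x 0 y) := by
  congr 1
  funext y
  by_cases h : y = x
  · subst h
    rw [Function.update_self, Function.update_self, dgM_zero]
  · rw [Function.update_of_ne h, Function.update_of_ne h]

theorem layM_up3 (θ : V → ℝ) (x : V) : layM (Function.update (fun y => dgM (θ y)) x m3) =
    (layM fun y => dgM (Function.update θ x 0 y)) * szM x := by
  rw [layM_dgM, szM, Matrix.diagonal_mul_diagonal]
  ext σ τ
  rw [layM, Matrix.of_apply]
  by_cases h : σ = τ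
  · subst h
    rw [Matrix.diagonal_apply_eq, ← Finset.mul_prod_erase Finset.univ _ (Finset.mem_univ x),
      ← Finset.mul_prod_erase Finset.univ (fun y => 1 + Function.update θ x 0 y * sg (σ y))
        (Finset.mem_univ x), Function.update_self, Function.update_self, zero_mul, add_zero, one_mul,
      mul_comm]
    congr 1
    · refine Finset.prod_congr rfl fun y hy => ?_
      rw [Function.update_of_ne (Finset.ne_of_mem_erase hy),
        Function.update_of_ne (Finset.ne_of_mem_erase hy)]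
      unfold dgM sg
      rcases Fin.exists_fin_two.1 ⟨σ y, rfl⟩ with h0 | h0 <;> rw [h0] <;> simp [sub_eq_add_neg]
    · unfold m3
      rcases Fin.exists_fin_two.1 ⟨σ x, rfl⟩ with h0 | h0 <;> rw [h0] <;> simp
  · rw [Matrix.diagonal_apply_ne _ h]
    obtain ⟨y, hy⟩ := Function.ne_iff.1 h
    refine Finset.prod_eq_zero (Finset.mem_univ y) ?_
    by_cases hyx : y = x
    · subst hyx
      rw [Function.update_self]
      unfold m3
      revert hy
      generalize σ y = a
      generalize τ y = b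
      intro hab
      fin_cases a <;> fin_cases b <;> simp_all
    · rw [Function.update_of_ne hyx]
      exact dgM_ne _ hy

/-- The word with one layer changed. -/
theorem word_eq (L : List (V × V)) (β : ℝ) {N : ℕ} (h T : V → ℝ) {k : Fin (N + 1)} (hk : k ≠ 0)
    (x : V) (O : Matrix (Fin 2) (Fin 2) ℝ) :
    NZ (phys L β N) (Function.update (fun z => dgM (th β N h T z)) (k, x) O) =
      trace ((((gen0 L β h).map fun A => 1 + (N : ℝ)⁻¹ • A).prod ^ (N - (k : ℕ)) *
        (layM (Function.update (fun y => dgM (β * h y / (2 * N))) x O) * gatM L (β / (2 * N))) *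
        ((gen0 L β h).map fun A => 1 + (N : ℝ)⁻¹ • A).prod ^ ((k : ℕ) - 1)) * layT T) := by
  have hk1 : 1 ≤ (k : ℕ) := Nat.one_le_iff_ne_zero.2 fun h0 => hk (Fin.ext h0)
  have hkN : (k : ℕ) ≤ N := Nat.lt_succ_iff.1 k.2
  rw [NZ_phys]
  set f : ℕ → Matrix (V → Fin 2) (V → Fin 2) ℝ := fun j => layM (fun y =>
    Function.update (fun z => dgM (th β N h T z)) (k, x) O (Fin.ofNat (N + 1) j, y)) *
      gatM L (β / (2 * N)) with hf
  have hval : ∀ j, j ≤ N → ((Fin.ofNat (N + 1) j : Fin (N + 1)) : ℕ) = j := fun j hj => by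
    rw [Fin.val_ofNat, Nat.mod_eq_of_lt (by omega)]
  have f1 : ∀ j, 1 ≤ j → j ≤ N → j ≠ (k : ℕ) →
      f j = ((gen0 L β h).map fun A => 1 + (N : ℝ)⁻¹ • A).prod := by
    intro j h1 h2 h3
    rw [← layer_eq, hf]
    simp only
    congr 2
    funext y
    have hne : (Fin.ofNat (N + 1) j, y) ≠ (k, x) := fun he => h3 (by
      rw [← hval j h2, (Prod.mk.inj he).1])
    rw [Function.update_of_ne hne]
    unfold th
    have h0 : (Fin.ofNat (N + 1) j : Fin (N + 1)) ≠ 0 := fun he => by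
      have := congrArg Fin.val he
      rw [hval j h2] at this
      simp at this
      omega
    simp only
    rw [if_neg h0]
  have fk : f k = layM (Function.update (fun y => dgM (β * h y / (2 * N))) x O) *
      gatM L (β / (2 * N)) := by
    rw [hf]
    simp only
    congr 2
    funext y
    have hkk : (Fin.ofNat (N + 1) (k : ℕ) : Fin (N + 1)) = k := Fin.ext (hval k hkN)
    rw [hkk]
    by_cases hy : y = x
    · subst hy
      rw [Function.update_self, Function.update_self]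
    · rw [Function.update_of_ne hy, Function.update_of_ne fun he => hy (Prod.mk.inj he).2]
      unfold th
      simp only
      rw [if_neg hk]
  have hs1 : down f N = down (fun j => f ((k : ℕ) + j)) (N - k) * down f k := by
    conv_lhs => rw [show N = (N - (k : ℕ)) + k by omega]
    rw [down_split]
  have hs2 : down f (k : ℕ) = f k * down f ((k : ℕ) - 1) := by
    conv_lhs => rw [show (k : ℕ) = ((k : ℕ) - 1) + 1 by omega]
    show f ((k : ℕ) - 1 + 1) * _ = _
    rw [show (k : ℕ) - 1 + 1 = k by omega]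
  rw [hs1, hs2, down_congr (g := fun _ => ((gen0 L β h).map fun A => 1 + (N : ℝ)⁻¹ • A).prod)
      (fun j h1 h2 => f1 _ (by omega) (by omega) (by omega)), down_const,
    down_congr (f := f) (g := fun _ => ((gen0 L β h).map fun A => 1 + (N : ℝ)⁻¹ • A).prod)
      (fun j h1 h2 => f1 _ (by omega) (by omega) (by omega)), down_const, fk, ← mul_assoc]
  congr 2
  rw [layT_eq]
  congr 1
  funext y
  rw [Function.update_of_ne fun he => hk (Prod.mk.inj he).1.symm]
  rfl

/-! ### The limit -/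

section small

variable {𝔸 : Type*} [NormedRing 𝔸] [NormedAlgebra ℝ 𝔸]

theorem lin_small (h1 : ‖(1 : 𝔸)‖ ≤ 1) (l : List 𝔸) {c : ℝ} (hc : (l.map norm).sum ≤ c) {N : ℕ}
    (hN : 1 ≤ N) : ‖(l.map fun A => 1 + (N : ℝ)⁻¹ • A).prod - 1‖ ≤ c * Real.exp c / N ∧
      ‖(l.map fun A => 1 + (N : ℝ)⁻¹ • A).prod‖ ≤ Real.exp c := by
  have hN0 : (0 : ℝ) < N := by exact_mod_cast hN
  have h0 : 0 ≤ (l.map norm).sum := List.sum_nonneg (by
      intro x hx
      obtain ⟨a, _, rfl⟩ := List.mem_map.1 hx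
      exact norm_nonneg _)
  have hc0 : 0 ≤ c := h0.trans hc
  set l' := l.map fun A => (N : ℝ)⁻¹ • A with hl'
  have hnorm : (l'.map norm).sum ≤ c / N := by
    have e : (l'.map norm) = (l.map norm).map (fun x => (N : ℝ)⁻¹ * x) := by
      rw [hl', List.map_map, List.map_map]
      apply List.map_congr_left
      intro A _
      simp [norm_smul]
    rw [e, List.sum_map_mul_left, List.map_id', div_eq_inv_mul]
    gcongr
  have hmap : (l.map fun A => 1 + (N : ℝ)⁻¹ • A) = l'.map fun A => 1 + A := by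
    rw [hl', List.map_map]; rfl
  rw [hmap]
  obtain ⟨i1, i2, -⟩ := Trot.prod_lin_bounds h1 l'
  have hd : c / N ≤ c := div_le_self hc0 (by exact_mod_cast hN)
  have hd0 : 0 ≤ c / N := by positivity
  have e1 : Real.exp (l'.map norm).sum ≤ Real.exp (c / N) := Real.exp_le_exp.2 hnorm
  have e2 : Real.exp (c / N) ≤ Real.exp c := Real.exp_le_exp.2 hd
  refine ⟨i2.trans ?_, i1.trans (e1.trans e2)⟩
  have h7 := Real.add_one_le_exp (-(c / N))
  have h8 : (1 - c / N) * Real.exp (c / N) ≤ Real.exp (-(c / N)) * Real.exp (c / N) :=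
    mul_le_mul_of_nonneg_right (by linarith) (Real.exp_pos _).le
  rw [← Real.exp_add, neg_add_cancel, Real.exp_zero] at h8
  have h9 : c / N * Real.exp (c / N) ≤ c / N * Real.exp c := mul_le_mul_of_nonneg_left e2 hd0
  have h10 : c * Real.exp c / N = c / N * Real.exp c := by ring
  rw [h10]
  linarith

end small

/-- An inserted matrix. -/
theorem ins_bound (L : List (V × V)) {β : ℝ} (hβ : 0 ≤ β) {N : ℕ} (hN : 1 ≤ N) {h : V → ℝ}
    (hh : ∀ x, 0 ≤ h x ∧ h x ≤ 1) (x : V) {O : Matrix (V → Fin 2) (V → Fin 2) ℝ} (hO : ‖O‖ ≤ 1) :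
    ‖(layM fun y => dgM (Function.update (fun y => β * h y / (2 * N)) x 0 y)) * O *
      gatM L (β / (2 * N)) - O‖ ≤ 2 * cc0 L β * Real.exp (2 * cc0 L β) / N := by
  have hc : 0 ≤ cc0 L β := by unfold cc0; positivity
  have e1 : (layM fun y => dgM (Function.update (fun y => β * h y / (2 * N)) x 0 y) :
      Matrix (V → Fin 2) (V → Fin 2) ℝ) =
      ((sites β (Function.update h x 0)).map fun A => 1 + (N : ℝ)⁻¹ • A).prod := by
    rw [← layM_eq]
    congr 1
    funext y
    by_cases hy : y = x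
    · subst hy
      rw [Function.update_self, Function.update_self, mul_zero, zero_div]
    · rw [Function.update_of_ne hy, Function.update_of_ne hy]
  have hh' : ∀ y, 0 ≤ Function.update h x 0 y ∧ Function.update h x 0 y ≤ 1 := by
    intro y
    by_cases hy : y = x
    · subst hy
      rw [Function.update_self]
      exact ⟨le_rfl, zero_le_one⟩
    · rw [Function.update_of_ne hy]
      exact hh y
  have b1 : ((sites β (Function.update h x 0)).map norm).sum ≤ cc0 L β :=
    (norm_sites hβ hh').trans (by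
      unfold cc0
      exact le_add_of_nonneg_right (mul_nonneg (Nat.cast_nonneg _) hβ))
  have b2 : ((bonds L β).map norm).sum ≤ cc0 L β :=
    (norm_bonds L hβ).trans (by
      unfold cc0
      exact le_add_of_nonneg_left (mul_nonneg (Nat.cast_nonneg _) (div_nonneg hβ zero_le_two)))
  obtain ⟨p1, p2⟩ := lin_small norm_one_le _ b1 hN
  obtain ⟨q1, q2⟩ := lin_small norm_one_le _ b2 hN
  rw [e1, gatM_eq]
  set D := ((sites β (Function.update h x 0)).map fun A => 1 + (N : ℝ)⁻¹ • A).prod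
  set G := ((bonds L β).map fun A => 1 + (N : ℝ)⁻¹ • A).prod
  set c := cc0 L β
  have e : D * O * G - O = (D - 1) * O * G + O * (G - 1) := by noncomm_ring
  rw [e]
  have hN0 : (0 : ℝ) < N := by exact_mod_cast hN
  have t1 : ‖(D - 1) * O * G‖ ≤ c * Real.exp c / N * 1 * Real.exp c :=
    (norm_mul_le _ _).trans (mul_le_mul ((norm_mul_le _ _).trans
      (mul_le_mul p1 hO (norm_nonneg _) (by positivity))) q2 (norm_nonneg _) (by positivity))
  have t2 : ‖O * (G - 1)‖ ≤ 1 * (c * Real.exp c / N) :=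
    (norm_mul_le _ _).trans (mul_le_mul hO q1 (norm_nonneg _) zero_le_one)
  refine (norm_add_le _ _).trans ((add_le_add t1 t2).trans ?_)
  have e3 : Real.exp (2 * c) = Real.exp c * Real.exp c := by rw [two_mul, Real.exp_add]
  have e4 : 1 ≤ Real.exp c := Real.one_le_exp hc
  rw [e3]
  have h5 : c * Real.exp c / N * 1 * Real.exp c + 1 * (c * Real.exp c / N) =
      (c * Real.exp c * (Real.exp c + 1)) / N := by ring
  rw [h5]
  refine div_le_div_of_nonneg_right ?_ hN0.le
  have h6 : 0 ≤ c * Real.exp c := mul_nonneg hc (Real.exp_pos c).le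
  have h7 := mul_le_mul_of_nonneg_left e4 h6
  linarith only [h7]

theorem abs_layT_le {T : V → ℝ} (hT : ∀ x, 0 ≤ T x ∧ T x ≤ 1) (σ : V → Fin 2) :
    |layT T σ σ| ≤ 2 ^ Fintype.card V := by
  rw [layT, Matrix.diagonal_apply_eq, Finset.abs_prod]
  refine (Finset.prod_le_prod (fun _ _ => abs_nonneg _)
    (g := fun _ => (2 : ℝ)) fun x _ => ?_).trans (le_of_eq ?_)
  · have h1 := hT x
    rw [abs_le]
    split_ifs <;> constructor <;> linarith
  · rw [Finset.prod_const, Finset.card_univ]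

theorem layT_ne {T : V → ℝ} (σ τ : V → Fin 2) (h : σ ≠ τ) : layT T σ τ = 0 :=
  Matrix.diagonal_apply_ne _ h

/-- The constant of the traces. -/
def kT (V : Type) [Fintype V] [DecidableEq V] : ℝ :=
  Fintype.card (V → Fin 2) * 2 ^ Fintype.card V

theorem trace_layT_le {T : V → ℝ} (hT : ∀ x, 0 ≤ T x ∧ T x ≤ 1)
    (A : Matrix (V → Fin 2) (V → Fin 2) ℝ) : |trace (A * layT T)| ≤ kT V * ‖A‖ := by
  refine (abs_trace_le A (layT T) layT_ne (abs_layT_le hT)).trans (le_of_eq ?_)
  unfold kT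
  ring

/-- (D3) -/
theorem magLim (L : List (V × V)) {β : ℝ} (hβ : 0 < β) : MagLim L β := by
  set c := cc0 L β with hcdef
  have hc : 0 ≤ c := by rw [hcdef]; unfold cc0; positivity
  set C := 2 * c * Real.exp (2 * c) with hC
  have hC0 : 0 ≤ C := by positivity
  have hk0 : 0 ≤ kT V := by unfold kT; positivity
  have hI0 : 0 ≤ Trot.cI c C := by unfold Trot.cI; positivity
  set a := kT V * Trot.cI c C with ha
  have ha0 : 0 ≤ a := mul_nonneg hk0 hI0
  set b := kT V * Real.exp (2 * c) with hb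
  have hb0 : 0 ≤ b := by positivity
  refine ⟨a + 2 * a * b, max 1 (max ⌈β⌉₊ ⌈2 * a⌉₊), fun N hN h T hh hT z hz => ?_⟩
  obtain ⟨k, x⟩ := z
  simp only at hz ⊢
  have hN1 : 1 ≤ N := (le_max_left _ _).trans hN
  have hNβ : β ≤ N := Nat.ceil_le.1 (((le_max_left _ _).trans (le_max_right _ _)).trans hN)
  have hNa : 2 * a ≤ N := Nat.ceil_le.1 (((le_max_right _ _).trans (le_max_right _ _)).trans hN)
  have hN0 : (0 : ℝ) < N := by exact_mod_cast hN1
  have hk1 : 1 ≤ (k : ℕ) := Nat.one_le_iff_ne_zero.2 fun h0 => hz (Fin.ext h0)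
  have hkN : (k : ℕ) ≤ N := Nat.lt_succ_iff.1 k.2
  set l := gen0 L β h with hl
  have hlc : (l.map norm).sum ≤ c := norm_gen0 L hβ.le hh
  have hS : ‖l.sum‖ ≤ c := (Trot.norm_list_sum_le l).trans hlc
  have hd : ((k : ℕ) : ℝ) / N ≤ 1 := (div_le_one hN0).2 (by exact_mod_cast hkN)
  have hd0 : 0 ≤ ((k : ℕ) : ℝ) / N := by positivity
  set P := (l.map fun A => 1 + (N : ℝ)⁻¹ • A).prod with hP
  set E1 := NormedSpace.exp ((1 - ((k : ℕ) : ℝ) / N) • l.sum) with hE1
  set E2 := NormedSpace.exp ((((k : ℕ) : ℝ) / N) • l.sum) with hE2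
  have n1 : ‖E1‖ ≤ Real.exp c :=
    Trot.norm_exp_smul_le norm_one_le hS (sub_nonneg.2 hd) (sub_le_self 1 hd0)
  have n2 : ‖E2‖ ≤ Real.exp c := Trot.norm_exp_smul_le norm_one_le hS hd0 hd
  set D := (layM fun y => dgM (Function.update (fun y => β * h y / (2 * N)) x 0 y) :
    Matrix (V → Fin 2) (V → Fin 2) ℝ) with hD
  set G := (gatM L (β / (2 * N)) : Matrix (V → Fin 2) (V → Fin 2) ℝ) with hG
  -- the numerator and the denominator
  have w3 : NZ (phys L β N) (Function.update (fun z => dgM (th β N h T z)) (k, x) m3) =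
      trace (P ^ (N - (k : ℕ)) * (D * szM x * G) * P ^ ((k : ℕ) - 1) * layT T) := by
    rw [word_eq L β h T hz x m3, layM_up3]
  have w1 : NZ (phys L β N) (Function.update (fun z => dgM (th β N h T z)) (k, x) 1) =
      trace (P ^ (N - (k : ℕ)) * (D * 1 * G) * P ^ ((k : ℕ) - 1) * layT T) := by
    rw [word_eq L β h T hz x 1, layM_up1, mul_one]
  have key : ∀ O : Matrix (V → Fin 2) (V → Fin 2) ℝ, ‖O‖ ≤ 1 →
      |trace (P ^ (N - (k : ℕ)) * (D * O * G) * P ^ ((k : ℕ) - 1) * layT T) -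
        trace (E1 * O * E2 * layT T)| ≤ a / N := by
    intro O hO
    have h1 := Trot.insert_lin norm_one_le l hlc hC0 hk1 hkN hO (ins_bound L hβ.le hN1 hh x hO)
    rw [← Matrix.trace_sub, ← sub_mul]
    refine (trace_layT_le hT _).trans ?_
    rw [ha, mul_div_assoc]
    exact mul_le_mul_of_nonneg_left h1 hk0
  have k3 := key (szM x) (norm_szM x)
  have k1 := key 1 norm_one_le
  have hden : 1 ≤ trace (P ^ (N - (k : ℕ)) * (D * 1 * G) * P ^ ((k : ℕ) - 1) * layT T) := by
    have hp : 0 ≤ β / (2 * N) ∧ β / (2 * N) ≤ 1 := by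
      refine ⟨div_nonneg hβ.le (mul_pos two_pos hN0).le,
        (div_le_one (mul_pos two_pos hN0)).2 ?_⟩
      linarith only [hNβ, hN0]
    have hθ : ∀ y, 0 ≤ β * h y / (2 * N) ∧ β * h y / (2 * N) ≤ 1 := by
      intro y
      have h2 := hh y
      refine ⟨div_nonneg (mul_nonneg hβ.le h2.1) (mul_pos two_pos hN0).le,
        (div_le_one (mul_pos two_pos hN0)).2 ?_⟩
      have h2' := mul_le_mul_of_nonneg_left h2.2 hβ.le
      linarith only [h2', hNβ, hN0]
    have pG : PU G := PU.gatM L hp.1 hp.2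
    have pP : PU P := by
      rw [hP, hl, ← layer_eq]
      exact (PU.layM hθ).mul pG
    have pD : PU D := by
      refine PU.layM fun y => ?_
      by_cases hy : y = x
      · subst hy
        rw [Function.update_self]
        exact ⟨le_rfl, zero_le_one⟩
      · rw [Function.update_of_ne hy]
        exact hθ y
    have pT : PU (layT T) := by
      rw [layT_eq]
      exact PU.layM hT
    rw [mul_one]
    exact PU.trace ((((pP.pow _).mul (pD.mul pG)).mul (pP.pow _)).mul pT)
  have hnum : |trace (E1 * szM x * E2 * layT T)| ≤ b := by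
    refine (trace_layT_le hT _).trans ?_
    rw [hb, two_mul, Real.exp_add]
    refine mul_le_mul_of_nonneg_left ?_ hk0
    have h3 : ‖E1 * szM x‖ ≤ Real.exp c * 1 :=
      (norm_mul_le _ _).trans (mul_le_mul n1 (norm_szM x) (norm_nonneg _) (Real.exp_pos _).le)
    rw [mul_one] at h3
    exact (norm_mul_le _ _).trans (mul_le_mul h3 n2 (norm_nonneg _) (Real.exp_pos _).le)
  have eT : mT L h T (β * (1 - ((k : ℕ) : ℝ) / N)) (β * (((k : ℕ) : ℝ) / N)) x =
      trace (E1 * szM x * E2 * layT T) / trace (E1 * 1 * E2 * layT T) := by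
    have e1 : E1 = NormedSpace.exp (-(β * (1 - ((k : ℕ) : ℝ) / N)) • ham L h) := by
      rw [hE1, hl, gen0_sum, smul_smul]
      congr 2
      ring
    have e2 : E2 = NormedSpace.exp (-(β * (((k : ℕ) : ℝ) / N)) • ham L h) := by
      rw [hE2, hl, gen0_sum, smul_smul]
      congr 2
      ring
    unfold mT
    rw [Matrix.trace_mul_comm (E1 * szM x * E2), Matrix.trace_mul_comm (E1 * 1 * E2), e1, e2,
      mul_one]
    simp only [mul_assoc]
  rw [mag_eq3, w3, w1, eT]
  set u := trace (P ^ (N - (k : ℕ)) * (D * szM x * G) * P ^ ((k : ℕ) - 1) * layT T)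
  set v := trace (P ^ (N - (k : ℕ)) * (D * 1 * G) * P ^ ((k : ℕ) - 1) * layT T)
  set u' := trace (E1 * szM x * E2 * layT T)
  set v' := trace (E1 * 1 * E2 * layT T)
  have haN : a / N ≤ 1 / 2 := by
    rw [div_le_iff₀ hN0]
    linarith only [hNa]
  have hv' : 1 / 2 ≤ v' := by
    have hk := (abs_le.1 k1).2
    linarith only [hk, haN, hden]
  have hv0 : 0 < v := by linarith only [hden]
  have hv0' : 0 < v' := by linarith only [hv']
  have e : u / v - u' / v' = (u - u') / v + u' * ((v' - v) / (v * v')) := by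
    field_simp
    ring
  rw [e]
  have haN0 : 0 ≤ a / N := div_nonneg ha0 hN0.le
  have s1 : |(u - u') / v| ≤ a / N := by
    rw [abs_div, abs_of_pos hv0]
    exact (div_le_self (abs_nonneg _) hden).trans k3
  have s2 : |u' * ((v' - v) / (v * v'))| ≤ b * (2 * (a / N)) := by
    rw [abs_mul]
    refine mul_le_mul hnum ?_ (abs_nonneg _) hb0
    rw [abs_div, abs_of_pos (mul_pos hv0 hv0'), div_le_iff₀ (mul_pos hv0 hv0'), abs_sub_comm]
    refine k1.trans ?_
    have h4 : 1 / 2 ≤ v * v' := hv'.trans (le_mul_of_one_le_left hv0'.le hden)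
    have h5 := mul_le_mul_of_nonneg_left h4 (mul_nonneg zero_le_two haN0)
    linarith only [h5]
  refine (abs_add_le _ _).trans ((add_le_add s1 s2).trans (le_of_eq ?_))
  ring

end

end Vale.Agent.P361.LRO.Dict
end

section

/-!
P361 LRO, block (6), all spins: the structure `Low` for electrodes which contain the extra slice
over `b`.  (In the slots encoding the copies of a node of the extra slice are merged; a potential
on the unmerged network is constant on them only if the electrode contains them.)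
-/

namespace Vale.Agent.P361.LRO.Ind

open Finset Vale.Agent.P361.LRO _root_.P361.LRO

noncomputable section

/-- Lowering the field, for electrodes `E ⊇ hatb N b`. -/
structure LowE (n N : ℕ) [NeZero n] (b : Finset (Tor n)) (β h0 lam ε : ℝ)
    (c : (Tor n → ℝ) → Nd n N → Nd n N → ℝ) : Prop where
  prim : ∀ h h' : Tor n → ℝ, Fam n h0 lam h → Fam n h0 lam h' → (∀ x, h' x ≤ h x) →
    ∀ E G : Finset (Nd n N), Disjoint E G → hatb N b ⊆ E →
    (∀ z ∈ E ∪ G, z.1 ≠ 0 → h' z.2 = h z.2) →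
    ∀ S : ℝ, 1 ≤ β * S → ∑ x, (if h' x = h x then 0 else h x) ≤ S →
    ∀ A : ℝ, 0 ≤ A → LBn (c h) E G A →
      LBn (c h') E G ((β * S) ^ (-(4 * ε)) * A - 2 * ε)
  dual : 0 < h0 → h0 ≤ 1 → ∀ h' : Tor n → ℝ, Fam n h0 lam h' →
    ∀ (E : Finset (Nd n N)) (q : Nd n N → ℝ), hatb N b ⊆ E →
    (∀ z ∈ E, z.1 ≠ 0 → h' z.2 = 1) → (∀ z ∈ E, q z = 0) → (∀ x, q (0, x) = 0) →
    (∀ z, 0 ≤ q z) → ∑ z, q z = 1 →
    ∀ R : ℝ, 0 ≤ R → RBn (c fun _ => 1) E q R →
      RBn (c h') E q (h0 ^ (-(4 * ε)) * (R + 8 * N / (β * h0) * ∑ z, (q z) ^ 2))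

end

end Vale.Agent.P361.LRO.Ind
end

section

/-!
P361, stage R2/R3: long windows, lower bound for the conductance `cc` of the physical circuit.
-/

namespace Vale.Agent.P361.LRO.Bloch

open Finset Matrix Vale.Agent.P361.LRO.Dict

set_option linter.unusedSectionVars false

noncomputable section

variable {V : Type} [Fintype V] [DecidableEq V]

/-! ### Words -/

/-- gates of one layer, in the order of `Dict.gatM` -/
def gl (L : List (V × V)) (p : ℝ) : List (Lt V) := L.reverse.map fun e => Lt.gate e.1 e.2 p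

/-- slices of one layer -/
def nl (t : V → ℝ) : List (Lt V) := (Finset.univ : Finset V).toList.map fun z => Lt.node z (t z)

theorem wd_append (w w' : List (Lt V)) : wd (w ++ w') = wd w * wd w' := by
  unfold wd
  rw [List.map_append, List.prod_append]

theorem wd_gl (L : List (V × V)) (p : ℝ) : wd (gl L p) = gatM L p := by
  unfold wd gl gatM
  rw [List.map_map]
  rfl

theorem wd_nl (t : V → ℝ) : wd (nl t) = layM fun x => dgM (t x) := by
  unfold wd nl
  rw [List.map_map, layM_dgM]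
  have h := prod_diag (Finset.univ : Finset V).toList t
  have e : (List.map (mt ∘ fun z => Lt.node z (t z)) (Finset.univ : Finset V).toList) =
      (Finset.univ : Finset V).toList.map fun x =>
        (1 : Matrix (V → Fin 2) (V → Fin 2) ℝ) + t x • szM x := rfl
  rw [e, h]
  congr 1
  funext σ
  exact Finset.prod_map_toList _ _

/-- The letters strictly between the layers `k + m + 1` and `k` (`t j` = slices of the layer
`k + j`). -/
def mid (L : List (V × V)) (p : ℝ) (t : ℕ → V → ℝ) : ℕ → List (Lt V)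
  | 0 => gl L p
  | m + 1 => gl L p ++ (nl (t (m + 1)) ++ mid L p t m)

theorem wd_mid (L : List (V × V)) (p : ℝ) (t : ℕ → V → ℝ) (m : ℕ) :
    wd (mid L p t m) = gatM L p * down (fun j => layM (fun x => dgM (t j x)) * gatM L p) m := by
  induction m with
  | zero => simp only [mid, down, wd_gl, mul_one]
  | succ m ih =>
    simp only [mid, down]
    rw [wd_append, wd_append, wd_gl, wd_nl, ih]
    simp only [Matrix.mul_assoc]

theorem ok_gl (L : List (V × V)) {p : ℝ} (h0 : 0 ≤ p) (h1 : p ≤ 1) : ∀ l ∈ gl L p, Ok l := by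
  intro l hl
  unfold gl at hl
  rw [List.mem_map] at hl
  obtain ⟨e, _, rfl⟩ := hl
  exact ⟨h0, h1⟩

theorem ok_nl {t : V → ℝ} (ht : ∀ x, 0 ≤ t x ∧ t x ≤ 1) : ∀ l ∈ nl t, Ok l := by
  intro l hl
  unfold nl at hl
  rw [List.mem_map] at hl
  obtain ⟨z, _, rfl⟩ := hl
  exact ht z

theorem ok_mid (L : List (V × V)) {p : ℝ} (h0 : 0 ≤ p) (h1 : p ≤ 1) {t : ℕ → V → ℝ}
    (ht : ∀ j x, 0 ≤ t j x ∧ t j x ≤ 1) (m : ℕ) : ∀ l ∈ mid L p t m, Ok l := by
  induction m with
  | zero => exact ok_gl L h0 h1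
  | succ m ih =>
    intro l hl
    simp only [mid, List.mem_append] at hl
    rcases hl with hl | hl | hl
    · exact ok_gl L h0 h1 l hl
    · exact ok_nl (ht _) l hl
    · exact ih l hl

/-! ### The walk without the slices -/

/-! ### The potential -/

/-- number of entries touching `v` -/
def tch (l : List (V × V)) (v : V) : ℕ := l.countP fun e => v = e.1 ∨ v = e.2

/-! ### The defects -/

/-! ### The circuit -/

/-- The slices of the layer `j`. -/
def FM (N : ℕ) (θ : Fin (N + 1) × V → ℝ) (j : ℕ) : MM V :=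
  layM fun x => dgM (θ (Fin.ofNat (N + 1) j, x))

/-- Everything to the left of the layer `k'`. -/
def preM (L : List (V × V)) (p : ℝ) (N : ℕ) (θ : Fin (N + 1) × V → ℝ) (k' : ℕ) : MM V :=
  down (fun j => FM N θ (k' + j) * gatM L p) (N - k')

/-- Everything to the right of the layer `k`. -/
def restM (L : List (V × V)) (p : ℝ) (N : ℕ) (θ : Fin (N + 1) × V → ℝ) (k : ℕ) : MM V :=
  if k = 0 then 1 else gatM L p * down (fun j => FM N θ j * gatM L p) (k - 1) * FM N θ 0

/-- The slices of a layer, the one at `x` removed. -/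
def rmM (t : V → ℝ) (x : V) : MM V := layM (Function.update (fun y => dgM (t y)) x 1)

theorem split_gen {M : Type*} [Monoid M] (F : ℕ → M) (G : M) {N k m : ℕ} (h : k + m + 1 ≤ N) :
    down (fun j => F j * G) N * F 0 =
      down (fun j => F (k + m + 1 + j) * G) (N - (k + m + 1)) * (F (k + m + 1) *
        ((G * down (fun j => F (k + j) * G) m) * (F k *
          (if k = 0 then 1 else G * down (fun j => F j * G) (k - 1) * F 0)))) := by
  have h1 : down (fun j => F j * G) N =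
      down (fun j => F (k + m + 1 + j) * G) (N - (k + m + 1)) *
        down (fun j => F j * G) (k + m + 1) := by
    conv_lhs => rw [show N = (N - (k + m + 1)) + (k + m + 1) by omega]
    rw [down_split]
  have h2 : down (fun j => F j * G) (k + m + 1) =
      F (k + m + 1) * G * down (fun j => F j * G) (k + m) := rfl
  have h3 : down (fun j => F j * G) (k + m) =
      down (fun j => F (k + j) * G) m * down (fun j => F j * G) k := by
    rw [show k + m = m + k by omega, down_split]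
  have h4 : down (fun j => F j * G) k * F 0 =
      F k * (if k = 0 then 1 else G * down (fun j => F j * G) (k - 1) * F 0) := by
    by_cases hk : k = 0
    · subst hk
      simp [down]
    · rw [if_neg hk]
      obtain ⟨k', rfl⟩ := Nat.exists_eq_succ_of_ne_zero hk
      show F (k' + 1) * G * down (fun j => F j * G) k' * F 0 = _
      simp only [mul_assoc]
      rfl
  rw [h1, h2, h3]
  simp only [mul_assoc] at h4 ⊢
  rw [h4]

theorem ofNat_inj {N i j : ℕ} (hi : i ≤ N) (hj : j ≤ N)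
    (h : Fin.ofNat (N + 1) i = Fin.ofNat (N + 1) j) : i = j := by
  have := congrArg Fin.val h
  rwa [Fin.val_ofNat, Fin.val_ofNat, Nat.mod_eq_of_lt (by omega), Nat.mod_eq_of_lt (by omega)]
    at this

theorem rmM_mul_sxM (t : V → ℝ) (x : V) :
    rmM t x * sxM x = layM (Function.update (fun y => dgM (t y)) x m1) := by
  unfold rmM
  rw [layM_up1, layM_dgM]
  ext σ τ
  rw [Matrix.diagonal_mul, layM, Matrix.of_apply,
    ← Finset.mul_prod_erase Finset.univ _ (Finset.mem_univ x),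
    ← Finset.mul_prod_erase Finset.univ (fun y => Function.update (fun y => dgM (t y)) x m1 y
      (σ y) (τ y)) (Finset.mem_univ x)]
  rw [Function.update_self, Function.update_self, zero_mul, add_zero, one_mul]
  by_cases hστ : σ = Function.update τ x (1 - τ x)
  · have h1 : (sxM x : MM V) σ τ = 1 := by simp [sxM, hστ]
    have h2 : (m1 : Matrix (Fin 2) (Fin 2) ℝ) (σ x) (τ x) = 1 := by
      rw [m1_apply, if_neg]
      rw [hστ, Function.update_self]
      generalize τ x = b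
      fin_cases b <;> simp
    rw [h1, h2, mul_one, one_mul]
    refine Finset.prod_congr rfl fun y hy => ?_
    have hyx := Finset.ne_of_mem_erase hy
    rw [Function.update_of_ne hyx, Function.update_of_ne hyx]
    have : τ y = σ y := by rw [hστ, Function.update_of_ne hyx]
    rw [this]
    unfold dgM Dict.sg
    rcases Fin.exists_fin_two.1 ⟨σ y, rfl⟩ with h0 | h0 <;> rw [h0] <;> simp [sub_eq_add_neg]
  · have h1 : (sxM x : MM V) σ τ = 0 := by simp [sxM, hστ]
    rw [h1, mul_zero]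
    symm
    by_cases hx : σ x = τ x
    · have : (m1 : Matrix (Fin 2) (Fin 2) ℝ) (σ x) (τ x) = 0 := by rw [m1_apply, if_pos hx]
      rw [this, zero_mul]
    · have : ∃ y, y ≠ x ∧ σ y ≠ τ y := by
        by_contra hcon
        push Not at hcon
        apply hστ
        funext y
        by_cases hy : y = x
        · subst hy
          rw [Function.update_self]
          revert hx
          generalize σ y = a
          generalize τ y = b
          fin_cases a <;> fin_cases b <;> simp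
        · rw [Function.update_of_ne hy]
          exact hcon y hy
      obtain ⟨y, hyx, hy⟩ := this
      rw [Finset.prod_eq_zero (Finset.mem_erase.2 ⟨hyx, Finset.mem_univ y⟩), mul_zero]
      rw [Function.update_of_ne hyx]
      exact dgM_ne _ hy

theorem sxM_mul_rmM (t : V → ℝ) (x : V) :
    sxM x * rmM t x = layM (Function.update (fun y => dgM (t y)) x m1) := by
  rw [← rmM_mul_sxM]
  unfold rmM
  rw [layM_up1, layM_dgM]
  ext σ τ
  rw [Matrix.diagonal_mul, Matrix.mul_diagonal]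
  by_cases hστ : σ = Function.update τ x (1 - τ x)
  · have h1 : (sxM x : MM V) σ τ = 1 := by simp [sxM, hστ]
    rw [h1, mul_one, one_mul]
    refine Finset.prod_congr rfl fun y _ => ?_
    by_cases hy : y = x
    · subst hy
      rw [Function.update_self, zero_mul, zero_mul]
    · have : τ y = σ y := by rw [hστ, Function.update_of_ne hy]
      rw [this]
  · have h1 : (sxM x : MM V) σ τ = 0 := by simp [sxM, hστ]
    rw [h1, mul_zero, zero_mul]

theorem rmM_nonneg {t : V → ℝ} (ht : ∀ x, 0 ≤ t x ∧ t x ≤ 1) (x : V) : Le 0 (rmM t x) := by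
  unfold rmM
  rw [layM_up1, layM_dgM]
  intro σ τ
  rw [Matrix.zero_apply, Matrix.diagonal_apply]
  split_ifs
  · refine Finset.prod_nonneg fun y _ => ?_
    have h1 : 0 ≤ Function.update t x 0 y ∧ Function.update t x 0 y ≤ 1 := by
      by_cases hy : y = x
      · subst hy; rw [Function.update_self]; norm_num
      · rw [Function.update_of_ne hy]; exact ht y
    unfold Dict.sg
    split_ifs <;> linarith [h1.1, h1.2]
  · exact le_rfl

theorem layM_le_rmM {t : V → ℝ} (ht : ∀ x, 0 ≤ t x ∧ t x ≤ 1) (x : V) :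
    Le (layM fun y => dgM (t y)) ((1 + t x) • rmM t x) := by
  unfold rmM
  rw [layM_up1, layM_dgM, layM_dgM]
  intro σ τ
  rw [Matrix.smul_apply, Matrix.diagonal_apply, Matrix.diagonal_apply]
  split_ifs
  · rw [smul_eq_mul, ← Finset.mul_prod_erase Finset.univ _ (Finset.mem_univ x),
      ← Finset.mul_prod_erase Finset.univ (fun y => 1 + Function.update t x 0 y * Dict.sg (σ y))
      (Finset.mem_univ x), Function.update_self, zero_mul, add_zero, one_mul]
    have h1 : ∏ y ∈ univ.erase x, (1 + Function.update t x 0 y * Dict.sg (σ y)) =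
        ∏ y ∈ univ.erase x, (1 + t y * Dict.sg (σ y)) := by
      refine Finset.prod_congr rfl fun y hy => ?_
      rw [Function.update_of_ne (Finset.ne_of_mem_erase hy)]
    rw [h1]
    refine mul_le_mul_of_nonneg_right ?_ (Finset.prod_nonneg fun y _ => ?_)
    · unfold Dict.sg
      split_ifs <;> linarith [(ht x).1]
    · unfold Dict.sg
      split_ifs <;> linarith [(ht y).1, (ht y).2]
  · simp

theorem layM_nonneg' {t : V → ℝ} (ht : ∀ x, 0 ≤ t x ∧ t x ≤ 1) :
    Le (0 : MM V) (layM fun y => dgM (t y)) := by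
  rw [← wd_nl]
  exact wd_nonneg (ok_nl ht)

theorem gatM_nonneg' (L : List (V × V)) {p : ℝ} (h0 : 0 ≤ p) (h1 : p ≤ 1) :
    Le (0 : MM V) (gatM L p) := by
  rw [← wd_gl]
  exact wd_nonneg (ok_gl L h0 h1)

theorem down_nonneg {f : ℕ → MM V} (h : ∀ j, Le 0 (f j)) (n : ℕ) : Le 0 (down f n) := by
  induction n with
  | zero => exact one_nonneg
  | succ n ih => exact (h _).zero_mul ih

theorem preM_nonneg (L : List (V × V)) {p : ℝ} (h0 : 0 ≤ p) (h1 : p ≤ 1) {N : ℕ}
    {θ : Fin (N + 1) × V → ℝ} (hθ : ∀ z, 0 ≤ θ z ∧ θ z ≤ 1) (k : ℕ) :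
    Le 0 (preM L p N θ k) :=
  down_nonneg (fun _ => (layM_nonneg' fun _ => hθ _).zero_mul (gatM_nonneg' L h0 h1)) _

theorem restM_nonneg (L : List (V × V)) {p : ℝ} (h0 : 0 ≤ p) (h1 : p ≤ 1) {N : ℕ}
    {θ : Fin (N + 1) × V → ℝ} (hθ : ∀ z, 0 ≤ θ z ∧ θ z ≤ 1) (k : ℕ) :
    Le 0 (restM L p N θ k) := by
  unfold restM
  split_ifs
  · exact one_nonneg
  · exact ((gatM_nonneg' L h0 h1).zero_mul (down_nonneg (fun _ =>
      (layM_nonneg' fun _ => hθ _).zero_mul (gatM_nonneg' L h0 h1)) _)).zero_mul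
      (layM_nonneg' fun _ => hθ _)

/-- The left context of the pair `(k + m + 1, x), (k, y)`. -/
def lctx (L : List (V × V)) (β : ℝ) (N : ℕ) (θ : Fin (N + 1) × V → ℝ) (k' : ℕ) (x : V) : MM V :=
  preM L (β / (2 * N)) N θ k' * rmM (fun z => θ (Fin.ofNat (N + 1) k', z)) x

/-- The right context. -/
def rctx (L : List (V × V)) (β : ℝ) (N : ℕ) (θ : Fin (N + 1) × V → ℝ) (k : ℕ) (y : V) : MM V :=
  rmM (fun z => θ (Fin.ofNat (N + 1) k, z)) y * restM L (β / (2 * N)) N θ k

/-- The word between the layers `k + m + 1` and `k`. -/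
def mword (L : List (V × V)) (β : ℝ) (N : ℕ) (θ : Fin (N + 1) × V → ℝ) (k m : ℕ) : List (Lt V) :=
  mid L (β / (2 * N)) (fun j z => θ (Fin.ofNat (N + 1) (k + j), z)) m

end

end Vale.Agent.P361.LRO.Bloch
end

section

/-!
P361, stage R2/R3: the one-particle walk through `r` layers of gates against the continuous time
walk: `T ^ r` and `exp (r p G)`, `T = ∏_{e ∈ L} (1 + p G_e)`, uniformly in `r ≤ N`; and the total
mass with weight `s` for every move.
-/

namespace Vale.Agent.P361.LRO.Bloch.Disc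

open Finset Matrix NormedSpace

attribute [local instance] Matrix.linftyOpNormedRing Matrix.linftyOpNormedAlgebra

noncomputable section

section ring

variable {𝔸 : Type*} [NormedRing 𝔸]

lemma prod_one_add_bounds (h1 : ‖(1 : 𝔸)‖ ≤ 1) (l : List 𝔸) :
    ‖(l.map fun x => 1 + x).prod‖ ≤ Real.exp (l.map norm).sum ∧
    ‖(l.map fun x => 1 + x).prod - 1‖ ≤ Real.exp (l.map norm).sum - 1 ∧
    ‖(l.map fun x => 1 + x).prod - 1 - l.sum‖ ≤
      Real.exp (l.map norm).sum - 1 - (l.map norm).sum := by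
  induction l with
  | nil => simp [h1]
  | cons x l ih =>
    obtain ⟨ih1, ih2, ih3⟩ := ih
    simp only [List.map_cons, List.prod_cons, List.sum_cons]
    set P := (l.map fun x => 1 + x).prod with hP
    set σ := (l.map norm).sum with hσ
    set S := l.sum with hS
    have hσ0 : 0 ≤ σ := by
      rw [hσ]
      apply List.sum_nonneg
      intro r hr
      rw [List.mem_map] at hr
      obtain ⟨y, _, rfl⟩ := hr
      exact norm_nonneg _
    have hx := norm_nonneg x
    have he : (1 + ‖x‖) * Real.exp σ ≤ Real.exp (‖x‖ + σ) := by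
      rw [Real.exp_add]
      exact mul_le_mul_of_nonneg_right (by linarith [Real.add_one_le_exp ‖x‖])
        (Real.exp_pos _).le
    refine ⟨?_, ?_, ?_⟩
    · calc ‖(1 + x) * P‖ = ‖P + x * P‖ := by rw [add_mul, one_mul]
        _ ≤ ‖P‖ + ‖x‖ * ‖P‖ := (norm_add_le _ _).trans (by gcongr; exact norm_mul_le _ _)
        _ ≤ Real.exp σ + ‖x‖ * Real.exp σ := by gcongr
        _ = (1 + ‖x‖) * Real.exp σ := by ring
        _ ≤ _ := he
    · calc ‖(1 + x) * P - 1‖ = ‖(P - 1) + x * P‖ := by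
            congr 1; noncomm_ring
        _ ≤ ‖P - 1‖ + ‖x‖ * ‖P‖ := (norm_add_le _ _).trans (by gcongr; exact norm_mul_le _ _)
        _ ≤ (Real.exp σ - 1) + ‖x‖ * Real.exp σ := by gcongr
        _ = (1 + ‖x‖) * Real.exp σ - 1 := by ring
        _ ≤ _ := by linarith
    · calc ‖(1 + x) * P - 1 - (x + S)‖ = ‖(P - 1 - S) + x * (P - 1)‖ := by
            congr 1; noncomm_ring
        _ ≤ ‖P - 1 - S‖ + ‖x‖ * ‖P - 1‖ :=
            (norm_add_le _ _).trans (by gcongr; exact norm_mul_le _ _)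
        _ ≤ (Real.exp σ - 1 - σ) + ‖x‖ * (Real.exp σ - 1) := by gcongr
        _ = (1 + ‖x‖) * Real.exp σ - 1 - (‖x‖ + σ) := by ring
        _ ≤ _ := by linarith

lemma norm_sum_le (l : List 𝔸) : ‖l.sum‖ ≤ (l.map norm).sum := by
  induction l with
  | nil => simp
  | cons x l ih =>
    simp only [List.map_cons, List.sum_cons]
    exact (norm_add_le _ _).trans (by gcongr)

variable [NormedAlgebra ℝ 𝔸] [CompleteSpace 𝔸]

/-- Powers of a product of `1 + p B` against the exponential. -/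
theorem disc_bound (h1 : ‖(1 : 𝔸)‖ ≤ 1) (l : List 𝔸) {c p : ℝ} (hp : 0 ≤ p)
    (hc : (l.map norm).sum ≤ c) (r : ℕ) :
    ‖(l.map fun x => 1 + p • x).prod ^ r - exp ((r * p : ℝ) • l.sum)‖ ≤
      2 * r * (p * c) ^ 2 * Real.exp ((r + 1) * (p * c)) := by
  set T := (l.map fun x => 1 + p • x).prod with hT
  have hmap : (l.map fun x => 1 + p • x) = ((l.map fun x => p • x).map fun x => 1 + x) := by
    rw [List.map_map]; rfl
  have hsum : (l.map fun x => p • x).sum = p • l.sum := by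
    rw [List.smul_sum]
  have hnorm : ((l.map fun x => p • x).map norm).sum = p * (l.map norm).sum := by
    rw [List.map_map, ← List.sum_map_mul_left]
    congr 1
    refine List.map_congr_left fun x _ => ?_
    simp only [Function.comp]
    rw [norm_smul, Real.norm_eq_abs, abs_of_nonneg hp]
  set σ := p * (l.map norm).sum with hσ
  have hσ0 : 0 ≤ σ := by
    refine mul_nonneg hp (List.sum_nonneg ?_)
    intro r hr
    rw [List.mem_map] at hr
    obtain ⟨y, _, rfl⟩ := hr
    exact norm_nonneg _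
  have hσc : σ ≤ p * c := mul_le_mul_of_nonneg_left hc hp
  have hb := prod_one_add_bounds h1 (l.map fun x => p • x)
  rw [← hmap, hnorm, hsum] at hb
  obtain ⟨b1, _, b3⟩ := hb
  have hE : ‖p • l.sum‖ ≤ σ := by
    rw [norm_smul, Real.norm_eq_abs, abs_of_nonneg hp]
    exact mul_le_mul_of_nonneg_left (norm_sum_le l) hp
  have hmono : Real.exp ‖p • l.sum‖ - 1 - ‖p • l.sum‖ ≤ σ ^ 2 * Real.exp σ := by
    refine (Trot.exp_rem_le (norm_nonneg _)).trans ?_
    have := norm_nonneg (p • l.sum)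
    gcongr
  have h2 : ‖exp (p • l.sum) - 1 - p • l.sum‖ ≤ σ ^ 2 * Real.exp σ :=
    (Trot.norm_exp_sub_one_sub_le _).trans hmono
  have h3 : ‖T - exp (p • l.sum)‖ ≤ 2 * (σ ^ 2 * Real.exp σ) := by
    have e : T - exp (p • l.sum) = (T - 1 - p • l.sum) - (exp (p • l.sum) - 1 - p • l.sum) := by
      noncomm_ring
    rw [e]
    have b4 := b3.trans (Trot.exp_rem_le hσ0)
    calc _ ≤ ‖T - 1 - p • l.sum‖ + ‖exp (p • l.sum) - 1 - p • l.sum‖ := norm_sub_le _ _
      _ ≤ _ := by linarith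
  have hM : 1 ≤ Real.exp (p * c) := Real.one_le_exp (hσ0.trans hσc)
  have hTn : ‖T‖ ≤ Real.exp (p * c) := b1.trans (Real.exp_le_exp.2 hσc)
  have hEn : ‖exp (p • l.sum)‖ ≤ Real.exp (p * c) :=
    (Trot.norm_exp_le h1 _).trans (Real.exp_le_exp.2 (hE.trans hσc))
  have h4 := Trot.norm_pow_sub_pow_le hM hTn hEn r h1
  have e5 : exp ((r * p : ℝ) • l.sum) = exp (p • l.sum) ^ r := by
    let _ : NormedAlgebra ℚ 𝔸 := NormedAlgebra.restrictScalars ℚ ℝ 𝔸
    rw [← NormedSpace.exp_nsmul, ← smul_assoc, nsmul_eq_mul]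
  rw [e5]
  refine h4.trans ?_
  have h6 : 2 * (σ ^ 2 * Real.exp σ) ≤ 2 * ((p * c) ^ 2 * Real.exp (p * c)) := by gcongr
  calc (r : ℝ) * Real.exp (p * c) ^ r * ‖T - exp (p • l.sum)‖
      ≤ r * Real.exp (p * c) ^ r * (2 * ((p * c) ^ 2 * Real.exp (p * c))) := by
        gcongr; exact h3.trans h6
    _ = 2 * r * (p * c) ^ 2 * (Real.exp (p * c) ^ r * Real.exp (p * c)) := by ring
    _ = _ := by
      rw [← Real.exp_nat_mul, ← Real.exp_add]
      ring_nf

end ring

section mat

variable {V : Type} [Fintype V] [DecidableEq V]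

lemma entry_le_norm (A : Matrix V V ℝ) (x y : V) : |A x y| ≤ ‖A‖ := by
  rw [Matrix.linfty_opNorm_def]
  have h1 : ‖A x y‖₊ ≤ ∑ j, ‖A x j‖₊ :=
    Finset.single_le_sum (f := fun j => ‖A x j‖₊) (fun _ _ => zero_le) (mem_univ y)
  have h2 : ∑ j, ‖A x j‖₊ ≤ (Finset.univ : Finset V).sup fun i => ∑ j, ‖A i j‖₊ :=
    Finset.le_sup (f := fun i => ∑ j, ‖A i j‖₊) (mem_univ x)
  have h3 := h1.trans h2
  rw [← Real.norm_eq_abs]
  exact_mod_cast h3

lemma norm_one_le : ‖(1 : Matrix V V ℝ)‖ ≤ 1 := by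
  rw [Matrix.linfty_opNorm_def]
  have : ((Finset.univ : Finset V).sup fun i => ∑ j, ‖(1 : Matrix V V ℝ) i j‖₊) ≤ 1 := by
    refine Finset.sup_le fun i _ => ?_
    rw [Finset.sum_eq_single i]
    · simp
    · intro j _ hj; simp [Ne.symm hj]
    · simp
  exact_mod_cast this

end mat

end

end Vale.Agent.P361.LRO.Bloch.Disc
end

section

/-!
# P361, stage R3: lower bound for the walk weights `qq` of `LongLoc` (gates only)
-/

namespace Vale.Agent.P361.LRO.Bloch.Ker

open Finset NormedSpace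

noncomputable section

section Walk

variable {V : Type} [DecidableEq V]

variable [Fintype V]

end Walk

theorem cK_le_one {A : ℝ} : cK A ≤ 1 := by
  unfold cK
  rw [← Real.exp_zero]
  refine Real.exp_le_exp.2 ?_
  nlinarith [sq_nonneg (A + 1)]

/-- the constant for the number of moves -/
def cJ (A : ℝ) : ℝ := (9 + Real.log (4 / cK A ^ 3)) / Real.log 2

theorem half_pow_le {A s : ℝ} (hs : 1 ≤ s) {J : ℕ} (hJ : cJ A * s ≤ J) :
    (1 / 2 : ℝ) ^ J * Real.exp (6 * s) ≤ (cK A / √s) ^ 3 / 4 := by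
  have hc := cK_pos A
  have hc3 : 0 < cK A ^ 3 := by positivity
  have hs0 : 0 < s := by linarith
  have hsq : 0 < √s := Real.sqrt_pos.2 hs0
  have hl2 : 0 < Real.log 2 := Real.log_pos (by norm_num)
  set l := Real.log (4 / cK A ^ 3) with hl
  have hl0 : 0 ≤ l := by
    refine Real.log_nonneg ?_
    rw [le_div_iff₀ hc3]
    have : cK A ^ 3 ≤ 1 := pow_le_one₀ hc.le cK_le_one
    linarith
  have h1 : (9 + l) * s ≤ J * Real.log 2 := by
    have h := mul_le_mul_of_nonneg_right hJ hl2.le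
    have e : cJ A * s * Real.log 2 = (9 + l) * s := by
      unfold cJ
      rw [← hl]
      field_simp
    rw [e] at h
    exact h
  have h2 : (1 / 2 : ℝ) ^ J = Real.exp (-(J * Real.log 2)) := by
    rw [Real.exp_neg, Real.exp_nat_mul, Real.exp_log (by norm_num), one_div, inv_pow]
  have h3 : √s ≤ Real.exp s := by
    have a1 : √s ≤ s := by
      rw [Real.sqrt_le_left (by linarith)]
      exact le_self_pow₀ hs (by norm_num)
    linarith [Real.add_one_le_exp s]
  have h4 : √s ^ 3 ≤ Real.exp (3 * s) := by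
    have := pow_le_pow_left₀ hsq.le h3 3
    rwa [← Real.exp_nat_mul] at this
  have h5 : Real.exp (-l) = cK A ^ 3 / 4 := by
    rw [hl, Real.exp_neg, Real.exp_log (by positivity), inv_div]
  rw [h2, ← Real.exp_add, div_pow, div_div, le_div_iff₀ (by positivity)]
  calc Real.exp (-(J * Real.log 2) + 6 * s) * (√s ^ 3 * 4) ≤
      Real.exp (-((9 + l) * s) + 6 * s) * (Real.exp (3 * s) * 4) := by
        gcongr
    _ = Real.exp (-(l * s)) * 4 := by
        rw [← mul_assoc, ← Real.exp_add]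
        congr 2
        ring
    _ ≤ Real.exp (-l) * 4 := by
        have : -(l * s) ≤ -l := neg_le_neg (le_mul_of_one_le_right hl0 hs)
        gcongr
    _ = cK A ^ 3 := by
        rw [h5]
        ring

end

end Vale.Agent.P361.LRO.Bloch.Ker
end

section

/-!
# P361 LRO stage 3, E3: contact energy on cells (helper683)
-/

namespace Vale.Agent.P361.LRO.Ind3

open Finset Vale.Agent.P361.LRO _root_.P361.LRO Vale.Agent.P361.LRO.Ind

namespace EC

/-- index box -/
def box3 (S : ℕ) : Finset (ℕ × ℕ × ℕ) := range S ×ˢ (range S ×ˢ range S)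

lemma mem_box3 {S : ℕ} {q : ℕ × ℕ × ℕ} : q ∈ box3 S ↔ q.1 < S ∧ q.2.1 < S ∧ q.2.2 < S := by
  simp [box3]

lemma card_box3 (S : ℕ) : (box3 S).card = S ^ 3 := by
  simp [box3]; ring

lemma sum_box3 (S : ℕ) (f : ℕ → ℕ → ℕ → ℝ) :
    ∑ x ∈ range S, ∑ y ∈ range S, ∑ z ∈ range S, f x y z =
      ∑ q ∈ box3 S, f q.1 q.2.1 q.2.2 := by
  unfold box3
  rw [Finset.sum_product]
  refine Finset.sum_congr rfl fun x _ => ?_
  rw [Finset.sum_product]

/-- the site `m` of the cell `q` -/
def site (n e : ℕ) (o : Tor n) (q m : ℕ × ℕ × ℕ) : Tor n :=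
  pt n o (3 ^ e * q.1 + m.1) (3 ^ e * q.2.1 + m.2.1) (3 ^ e * q.2.2 + m.2.2)

private lemma div_inj {M q q' m m' : ℕ} (hm : m < M) (hm' : m' < M)
    (h : M * q + m = M * q' + m') : q = q' ∧ m = m' := by
  have hM : 0 < M := by omega
  have h1 : (M * q + m) / M = q := by
    rw [Nat.mul_add_div hM, Nat.div_eq_of_lt hm, add_zero]
  have h2 : (M * q' + m') / M = q' := by
    rw [Nat.mul_add_div hM, Nat.div_eq_of_lt hm', add_zero]
  have h3 : q = q' := by rw [← h1, ← h2, h]
  subst h3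
  exact ⟨rfl, by omega⟩

private lemma idx_lt {M S q m n : ℕ} (hq : q < S) (hm : m < M) (h : M * S ≤ n) :
    M * q + m < n := by
  have : M * (q + 1) ≤ M * S := Nat.mul_le_mul_left _ hq
  have h2 : M * (q + 1) = M * q + M := by ring
  omega

lemma site_inj {n e : ℕ} [NeZero n] (o : Tor n) {S : ℕ} (hS : 3 ^ e * S ≤ n)
    {q q' m m' : ℕ × ℕ × ℕ} (hq : q ∈ box3 S) (hq' : q' ∈ box3 S)
    (hm : m ∈ box3 (3 ^ e)) (hm' : m' ∈ box3 (3 ^ e))
    (h : site n e o q m = site n e o q' m') : q = q' ∧ m = m' := by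
  rw [mem_box3] at hq hq' hm hm'
  obtain ⟨h1, h2, h3⟩ := pt_inj o (idx_lt hq.1 hm.1 hS) (idx_lt hq.2.1 hm.2.1 hS)
    (idx_lt hq.2.2 hm.2.2 hS) (idx_lt hq'.1 hm'.1 hS) (idx_lt hq'.2.1 hm'.2.1 hS)
    (idx_lt hq'.2.2 hm'.2.2 hS) h
  obtain ⟨a1, b1⟩ := div_inj hm.1 hm'.1 h1
  obtain ⟨a2, b2⟩ := div_inj hm.2.1 hm'.2.1 h2
  obtain ⟨a3, b3⟩ := div_inj hm.2.2 hm'.2.2 h3
  exact ⟨Prod.ext a1 (Prod.ext a2 a3), Prod.ext b1 (Prod.ext b2 b3)⟩

lemma site_mem_big {n e : ℕ} [NeZero n] (o : Tor n) {S : ℕ} {q m : ℕ × ℕ × ℕ} (hq : q ∈ box3 S)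
    (hm : m ∈ box3 (3 ^ e)) : site n e o q m ∈ cube n o (3 ^ e * S) := by
  rw [mem_box3] at hq hm
  rw [mem_cube_iff]
  exact ⟨_, idx_lt hq.1 hm.1 le_rfl, _, idx_lt hq.2.1 hm.2.1 le_rfl, _,
    idx_lt hq.2.2 hm.2.2 le_rfl, rfl⟩

lemma site_mem_cell {n e : ℕ} [NeZero n] (o : Tor n) {q m : ℕ × ℕ × ℕ}
    (hm : m ∈ box3 (3 ^ e)) :
    site n e o q m ∈ cube n (pt n o (3 ^ e * q.1) (3 ^ e * q.2.1) (3 ^ e * q.2.2))
      (2 * 3 ^ e) := by
  rw [mem_box3] at hm
  rw [mem_cube_iff]
  refine ⟨m.1, by omega, m.2.1, by omega, m.2.2, by omega, ?_⟩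
  rw [pt_pt]
  rfl

lemma lay_val {N t : ℕ} (ht : t < N) : ((lay N N 0 t : Fin (N + 1)) : ℕ) = 1 + t := by
  have h2 : 1 + 0 * N + t < N + 1 := by omega
  unfold lay
  rw [dif_pos h2]
  show 1 + 0 * N + t = 1 + t
  omega

/-- the node `(m, t)` of the cell `q` in the quarter `i` -/
def nd (n N W e : ℕ) (o : Tor n) (q : ℕ × ℕ × ℕ) (i : ℕ) (m : (ℕ × ℕ × ℕ) × ℕ) : Nd n N :=
  (lay N N 0 (i * W + m.2), site n e o q m.1)

/-- indices of the nodes of a cell in one quarter -/
def cb (W e : ℕ) : Finset ((ℕ × ℕ × ℕ) × ℕ) := box3 (3 ^ e) ×ˢ range W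

lemma card_cb (W e : ℕ) : (cb W e).card = 27 ^ e * W := by
  unfold cb
  rw [Finset.card_product, card_box3, Finset.card_range]
  congr 1
  rw [← pow_mul, mul_comm, pow_mul]
  norm_num

/-- average of `a` over the cell `q` and the quarter `i` -/
noncomputable def qa (n N W e : ℕ) (o : Tor n) (a : Nd n N → ℝ) (q : ℕ × ℕ × ℕ) (i : ℕ) : ℝ :=
  (1 / ((27 : ℝ) ^ e * W)) * ∑ m ∈ cb W e, a (nd n N W e o q i m)

lemma nd_val {n N W e : ℕ} (hN : N = 4 * W) (o : Tor n) (q : ℕ × ℕ × ℕ) {i : ℕ} (hi : i < 4)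
    {m : (ℕ × ℕ × ℕ) × ℕ} (hm : m ∈ cb W e) :
    (((nd n N W e o q i m).1 : Fin (N + 1)) : ℕ) = 1 + (i * W + m.2) := by
  have h1 : m.2 < W := by
    unfold cb at hm
    exact Finset.mem_range.1 (Finset.mem_product.1 hm).2
  have h2 : i * W + m.2 < N := by
    have : (i + 1) * W ≤ 4 * W := Nat.mul_le_mul_right _ hi
    have h3 : (i + 1) * W = i * W + W := by ring
    omega
  exact lay_val h2

lemma nd_inj {n N W e : ℕ} [NeZero n] (hN : N = 4 * W) (o : Tor n) {S : ℕ} (hS : 3 ^ e * S ≤ n)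
    {q q' : ℕ × ℕ × ℕ} (hq : q ∈ box3 S) (hq' : q' ∈ box3 S) {i : ℕ} (hi : i < 4)
    {m m' : (ℕ × ℕ × ℕ) × ℕ} (hm : m ∈ cb W e) (hm' : m' ∈ cb W e)
    (h : nd n N W e o q i m = nd n N W e o q' i m') : q = q' ∧ m = m' := by
  have h1 := nd_val (n := n) hN o q hi hm
  have h2 := nd_val (n := n) hN o q' hi hm'
  rw [h, h2] at h1
  unfold cb at hm hm'
  obtain ⟨e1, e2⟩ := site_inj o hS hq hq' (Finset.mem_product.1 hm).1
    (Finset.mem_product.1 hm').1 (congrArg Prod.snd h)
  exact ⟨e1, Prod.ext e2 (by omega)⟩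

/-- `U` is the mean of the four quarter averages. -/
lemma UC_eq {n N W e : ℕ} (hW : 0 < W) (hN : N = 4 * W) (o : Tor n) (a : Nd n N → ℝ)
    (q : ℕ × ℕ × ℕ) :
    UC n N e o a q.1 q.2.1 q.2.2 = (1 / 4) * (qa n N W e o a q 0 + qa n N W e o a q 1 +
      qa n N W e o a q 2 + qa n N W e o a q 3) := by
  have hWR : (0 : ℝ) < W := by exact_mod_cast hW
  have h1 : ∀ m : ℕ × ℕ × ℕ, ∑ t ∈ range N, a (lay N N 0 t, site n e o q m) =
      ∑ t ∈ range W, a (lay N N 0 (0 * W + t), site n e o q m) +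
      ∑ t ∈ range W, a (lay N N 0 (1 * W + t), site n e o q m) +
      ∑ t ∈ range W, a (lay N N 0 (2 * W + t), site n e o q m) +
      ∑ t ∈ range W, a (lay N N 0 (3 * W + t), site n e o q m) := by
    intro m
    have h2 : range N = range (W + W + W + W) := by congr 1; omega
    rw [h2, Finset.sum_range_add, Finset.sum_range_add, Finset.sum_range_add]
    have e0 : ∀ t, 0 * W + t = t := by intro t; omega
    have e1 : ∀ t, 1 * W + t = W + t := by intro t; omega
    have e2 : ∀ t, 2 * W + t = W + W + t := by intro t; omega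
    have e3 : ∀ t, 3 * W + t = W + W + W + t := by intro t; omega
    simp only [e0, e1, e2, e3]
  unfold UC
  rw [sum_box3 (3 ^ e) (fun i j k => ∑ t ∈ range N, a (lay N N 0 t,
    pt n o (3 ^ e * q.1 + i) (3 ^ e * q.2.1 + j) (3 ^ e * q.2.2 + k)))]
  have h3 : ∑ m ∈ box3 (3 ^ e), ∑ t ∈ range N, a (lay N N 0 t,
      pt n o (3 ^ e * q.1 + m.1) (3 ^ e * q.2.1 + m.2.1) (3 ^ e * q.2.2 + m.2.2)) =
      ∑ m ∈ cb W e, a (nd n N W e o q 0 m) + ∑ m ∈ cb W e, a (nd n N W e o q 1 m) +
      ∑ m ∈ cb W e, a (nd n N W e o q 2 m) + ∑ m ∈ cb W e, a (nd n N W e o q 3 m) := by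
    unfold cb nd
    rw [Finset.sum_product, Finset.sum_product, Finset.sum_product, Finset.sum_product,
      ← Finset.sum_add_distrib, ← Finset.sum_add_distrib, ← Finset.sum_add_distrib]
    exact Finset.sum_congr rfl fun m _ => h1 m
  rw [h3]
  unfold qa
  have hN' : (N : ℝ) = 4 * W := by rw [hN]; push_cast; ring
  rw [hN']
  field_simp

/-- Jensen for pairs. -/
lemma jensen_pairs {ι : Type} (s : Finset ι) (A B : ι → ℝ) :
    (∑ i ∈ s, A i - ∑ j ∈ s, B j) ^ 2 ≤ ∑ i ∈ s, ∑ j ∈ s, (A i - B j) ^ 2 := by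
  rcases s.eq_empty_or_nonempty with rfl | hs
  · simp
  have hc : (0 : ℝ) < s.card := by exact_mod_cast hs.card_pos
  have h1 : ∑ q ∈ s ×ˢ s, (A q.1 - B q.2) = s.card * (∑ j ∈ s, A j - ∑ i ∈ s, B i) := by
    rw [Finset.sum_product]
    simp only [Finset.sum_sub_distrib, Finset.sum_const, nsmul_eq_mul]
    rw [← Finset.mul_sum]
    ring
  have h2 := sq_sum_le_card_mul_sum_sq (s := s ×ˢ s) (f := fun q : ι × ι => A q.1 - B q.2)
  rw [h1, Finset.card_product, Finset.sum_product] at h2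
  push_cast at h2
  have h4 : ((s.card : ℝ) * s.card) * (∑ j ∈ s, A j - ∑ i ∈ s, B i) ^ 2 ≤
      (s.card * s.card) * ∑ j ∈ s, ∑ i ∈ s, (A j - B i) ^ 2 := by
    calc ((s.card : ℝ) * s.card) * (∑ j ∈ s, A j - ∑ i ∈ s, B i) ^ 2
        = (s.card * (∑ j ∈ s, A j - ∑ i ∈ s, B i)) ^ 2 := by ring
      _ ≤ _ := h2
  exact le_of_mul_le_mul_left h4 (by positivity)

/-- two quarters of the same cell. -/
theorem quarter_le {n N W e : ℕ} [NeZero n] {K c1 : ℝ} {b : Finset (Tor n)} {h : Tor n → ℝ}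
    {c : Nd n N → Nd n N → ℝ} (hW : 0 < W) (hN : N = 4 * W) (hc1 : 0 < c1)
    (hc : Local3 n N W e K c1 b h c) (o : Tor n) {S : ℕ} (hS : 3 ^ e * S ≤ n)
    (h1 : ∀ x ∈ cube n o (3 ^ e * S), h x = 1) (a : Nd n N → ℝ) {i j : ℕ} (hij : i + 2 ≤ j)
    (hj : j < 4) :
    c1 * 27 ^ e / 16 * ∑ q ∈ box3 S, (qa n N W e o a q i - qa n N W e o a q j) ^ 2 ≤
      netK c a := by
  classical
  have hWR : (0 : ℝ) < W := by exact_mod_cast hW
  have hi : i < 4 := by omega
  have key := contact_pairs hc.symm hc.nonneg a (box3 S ×ˢ (cb W e ×ˢ cb W e))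
    (fun z => nd n N W e o z.1 i z.2.1) (fun z => nd n N W e o z.1 j z.2.2)
    (fun z hz z' hz' e1 e2 => by
      obtain ⟨hq, hm⟩ := Finset.mem_product.1 hz
      obtain ⟨hq', hm'⟩ := Finset.mem_product.1 hz'
      obtain ⟨hm1, hm2⟩ := Finset.mem_product.1 hm
      obtain ⟨hm1', hm2'⟩ := Finset.mem_product.1 hm'
      obtain ⟨a1, a2⟩ := nd_inj hN o hS hq hq' hi hm1 hm1' e1
      obtain ⟨-, a3⟩ := nd_inj hN o hS hq hq' hj hm2 hm2' e2
      exact Prod.ext a1 (Prod.ext a2 a3))
    (fun z hz z' hz' e1 => by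
      obtain ⟨hq, hm⟩ := Finset.mem_product.1 hz
      obtain ⟨hq', hm'⟩ := Finset.mem_product.1 hz'
      have h2 := nd_val (n := n) hN o z.1 hi (Finset.mem_product.1 hm).1
      have h3 := nd_val (n := n) hN o z'.1 hj (Finset.mem_product.1 hm').2
      have e1' : nd n N W e o z.1 i z.2.1 = nd n N W e o z'.1 j z'.2.2 := e1
      have h4 : (((nd n N W e o z.1 i z.2.1).1 : Fin (N + 1)) : ℕ) =
        (((nd n N W e o z'.1 j z'.2.2).1 : Fin (N + 1)) : ℕ) := by rw [e1']
      rw [h2, h3] at h4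
      have h5 : z.2.1.2 < W := Finset.mem_range.1
        (Finset.mem_product.1 (Finset.mem_product.1 hm).1).2
      have h6 : (i + 2) * W ≤ j * W := Nat.mul_le_mul_right _ hij
      have h7 : (i + 2) * W = i * W + W + W := by ring
      omega)
  refine le_trans ?_ key
  rw [Finset.sum_product, Finset.mul_sum]
  refine Finset.sum_le_sum fun q hq => ?_
  rw [Finset.sum_product]
  have h2 : c1 / ((N : ℝ) ^ 2 * 27 ^ e) * ∑ m ∈ cb W e, ∑ m' ∈ cb W e,
      (a (nd n N W e o q i m) - a (nd n N W e o q j m')) ^ 2 ≤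
      ∑ m ∈ cb W e, ∑ m' ∈ cb W e, c (nd n N W e o q i m) (nd n N W e o q j m') *
        (a (nd n N W e o q i m) - a (nd n N W e o q j m')) ^ 2 := by
    rw [Finset.mul_sum]
    refine Finset.sum_le_sum fun m hm => ?_
    rw [Finset.mul_sum]
    refine Finset.sum_le_sum fun m' hm' => ?_
    refine mul_le_mul_of_nonneg_right ?_ (sq_nonneg _)
    have hm1 := (Finset.mem_product.1 hm).1
    have hm1' := (Finset.mem_product.1 hm').1
    have v1 := nd_val (n := n) hN o q hi hm
    have v2 := nd_val (n := n) hN o q hj hm'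
    refine hc.long _ _ (pt n o (3 ^ e * q.1) (3 ^ e * q.2.1) (3 ^ e * q.2.2)) _ _ ?_ ?_
      (site_mem_cell o hm1) (site_mem_cell o hm1') (h1 _ (site_mem_big o hq hm1))
      (h1 _ (site_mem_big o hq hm1'))
    · intro h0
      have : (((nd n N W e o q i m).1 : Fin (N + 1)) : ℕ) = 0 := by
        show ((lay N N 0 (i * W + m.2) : Fin (N + 1)) : ℕ) = 0
        rw [h0]; rfl
      omega
    · show (((nd n N W e o q i m).1 : Fin (N + 1)) : ℕ) + W ≤
        (((nd n N W e o q j m').1 : Fin (N + 1)) : ℕ)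
      rw [v1, v2]
      have h5 : m.2 < W := Finset.mem_range.1 (Finset.mem_product.1 hm).2
      have h6 : (i + 2) * W ≤ j * W := Nat.mul_le_mul_right _ hij
      have h7 : (i + 2) * W = i * W + W + W := by ring
      omega
  refine le_trans ?_ h2
  have h3 := jensen_pairs (cb W e) (fun m => a (nd n N W e o q i m))
    (fun m => a (nd n N W e o q j m))
  have h4 : c1 * 27 ^ e / 16 * (qa n N W e o a q i - qa n N W e o a q j) ^ 2 =
      c1 / ((N : ℝ) ^ 2 * 27 ^ e) * (∑ m ∈ cb W e, a (nd n N W e o q i m) -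
        ∑ m ∈ cb W e, a (nd n N W e o q j m)) ^ 2 := by
    unfold qa
    have hN' : (N : ℝ) = 4 * W := by rw [hN]; push_cast; ring
    rw [hN']
    field_simp
    ring
  rw [h4]
  exact mul_le_mul_of_nonneg_left h3 (by rw [hN]; positivity)

end EC

open EC in
/-- contact energy: `b` = cube of `3 ^ r` cells per side. -/
theorem contact_le3 {n N W e r : ℕ} [NeZero n] {K c1 : ℝ} {o : Tor n} {h : Tor n → ℝ}
    {c : Nd n N → Nd n N → ℝ} (hW : 0 < W) (hN : N = 4 * W) (hK : 0 < K) (hc1 : 0 < c1)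
    (hc : Local3 n N W e K c1 (cube n o (3 ^ (e + r))) h c) (hn : 3 ^ (e + r) < n)
    (h1 : ∀ x ∈ cube n o (3 ^ (e + r)), h x = 1) (a : Nd n N → ℝ)
    (ha : ∀ x ∈ cube n o (3 ^ (e + r)), a (0, x) = 1) :
    c1 * K * (1 / 27 ^ r) * (∑ x ∈ range (3 ^ r), ∑ y ∈ range (3 ^ r), ∑ z ∈ range (3 ^ r),
      (1 - UC n N e o a x y z) ^ 2) ≤ 1000 * (1 + K / 27 ^ (e + r)) * netK c a := by
  classical
  have hWR : (0 : ℝ) < W := by exact_mod_cast hW
  have hpow : 3 ^ (e + r) = 3 ^ e * 3 ^ r := pow_add 3 e r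
  have hS : 3 ^ e * 3 ^ r ≤ n := by rw [← hpow]; exact hn.le
  have hb1 : ∀ x ∈ cube n o (3 ^ e * 3 ^ r), h x = 1 := by rw [← hpow]; exact h1
  have q13 := quarter_le hW hN hc1 hc o hS hb1 a (i := 1) (j := 3) (by norm_num) (by norm_num)
  have q03 := quarter_le hW hN hc1 hc o hS hb1 a (i := 0) (j := 3) (by norm_num) (by norm_num)
  have q02 := quarter_le hW hN hc1 hc o hS hb1 a (i := 0) (j := 2) (by norm_num) (by norm_num)
  -- contact
  have hcard : ((cube n o (3 ^ (e + r))).card : ℝ) = 27 ^ (e + r) := by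
    rw [Vale.Agent.P361.LRO.Ind.card_cube o _ hn.le]
    push_cast
    rw [← pow_mul, mul_comm, pow_mul]
    norm_num
  have hcon : c1 * K / (4 * 27 ^ r) * ∑ q ∈ box3 (3 ^ r), (1 - qa n N W e o a q 1) ^ 2 ≤
      netK c a := by
    have key := contact_pairs hc.symm hc.nonneg a (box3 (3 ^ r) ×ˢ (box3 (3 ^ e) ×ˢ cb W e))
      (fun z => ((0 : Fin (N + 1)), site n e o z.1 z.2.1)) (fun z => nd n N W e o z.1 1 z.2.2)
      (fun z hz z' hz' e1 e2 => by
        obtain ⟨hq, hm⟩ := Finset.mem_product.1 hz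
        obtain ⟨hq', hm'⟩ := Finset.mem_product.1 hz'
        obtain ⟨hm1, hm2⟩ := Finset.mem_product.1 hm
        obtain ⟨hm1', hm2'⟩ := Finset.mem_product.1 hm'
        obtain ⟨a1, a2⟩ := site_inj o hS hq hq' hm1 hm1' (congrArg Prod.snd e1)
        obtain ⟨-, a3⟩ := nd_inj hN o hS hq hq' (by norm_num) hm2 hm2' e2
        exact Prod.ext a1 (Prod.ext a2 a3))
      (fun z hz z' hz' e1 => by
        obtain ⟨hq', hm'⟩ := Finset.mem_product.1 hz'
        have h3 := nd_val (n := n) hN o z'.1 (i := 1) (by norm_num) (Finset.mem_product.1 hm').2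
        have e1' : ((0 : Fin (N + 1)), site n e o z.1 z.2.1) = nd n N W e o z'.1 1 z'.2.2 := e1
        rw [← e1'] at h3
        have h4 : (((0 : Fin (N + 1))) : ℕ) = 1 + (1 * W + z'.2.2.2) := h3
        rw [Fin.val_zero] at h4
        omega)
    refine le_trans ?_ key
    rw [Finset.sum_product, Finset.mul_sum]
    refine Finset.sum_le_sum fun q hq => ?_
    rw [Finset.sum_product]
    have h2 : ∑ m ∈ box3 (3 ^ e), ∑ m' ∈ cb W e, c1 * (K / 27 ^ (e + r)) / ((N : ℝ) * 27 ^ e) *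
        (1 - a (nd n N W e o q 1 m')) ^ 2 ≤
        ∑ m ∈ box3 (3 ^ e), ∑ m' ∈ cb W e,
          c ((0 : Fin (N + 1)), site n e o q m) (nd n N W e o q 1 m') *
          (a ((0 : Fin (N + 1)), site n e o q m) - a (nd n N W e o q 1 m')) ^ 2 := by
      refine Finset.sum_le_sum fun m hm => Finset.sum_le_sum fun m' hm' => ?_
      have hb := site_mem_big o hq hm
      have hm1' := (Finset.mem_product.1 hm').1
      rw [ha _ (by rw [hpow]; exact hb)]
      refine mul_le_mul_of_nonneg_right ?_ (sq_nonneg _)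
      have v2 := nd_val (n := n) hN o q (i := 1) (by norm_num) hm'
      have := hc.contact (nd n N W e o q 1 m').1
        (pt n o (3 ^ e * q.1) (3 ^ e * q.2.1) (3 ^ e * q.2.2)) (site n e o q m)
        (site n e o q m'.1) (by omega) (by rw [hpow]; exact hb) (site_mem_cell o hm)
        (site_mem_cell o hm1') (hb1 _ (site_mem_big o hq hm1'))
      rw [hcard] at this
      exact this
    refine le_trans ?_ h2
    rw [Finset.sum_const, card_box3, nsmul_eq_mul, ← Finset.mul_sum]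
    have h3 := sq_sum_le_card_mul_sum_sq (s := cb W e)
      (f := fun m => 1 - a (nd n N W e o q 1 m))
    rw [card_cb] at h3
    have h4 : ∑ m ∈ cb W e, (1 - a (nd n N W e o q 1 m)) =
        (27 ^ e * W) * (1 - qa n N W e o a q 1) := by
      rw [Finset.sum_sub_distrib, Finset.sum_const, card_cb, nsmul_eq_mul, qa]
      push_cast
      field_simp
    rw [h4] at h3
    push_cast at h3
    have h5 : ((27 : ℝ) ^ e * W) * (1 - qa n N W e o a q 1) ^ 2 ≤
        ∑ m ∈ cb W e, (1 - a (nd n N W e o q 1 m)) ^ 2 := by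
      have h6 : (0 : ℝ) < 27 ^ e * W := by positivity
      have h7 : ((27 : ℝ) ^ e * W) * (((27 : ℝ) ^ e * W) * (1 - qa n N W e o a q 1) ^ 2) ≤
          ((27 : ℝ) ^ e * W) * ∑ m ∈ cb W e, (1 - a (nd n N W e o q 1 m)) ^ 2 := by
        calc _ = ((27 : ℝ) ^ e * W * (1 - qa n N W e o a q 1)) ^ 2 := by ring
          _ ≤ _ := h3
      exact le_of_mul_le_mul_left h7 h6
    have h8 : (((3 ^ e) ^ 3 : ℕ) : ℝ) = 27 ^ e := by
      push_cast
      rw [← pow_mul, mul_comm, pow_mul]
      norm_num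
    rw [h8]
    have hN' : (N : ℝ) = 4 * W := by rw [hN]; push_cast; ring
    calc c1 * K / (4 * 27 ^ r) * (1 - qa n N W e o a q 1) ^ 2 =
        27 ^ e * (c1 * (K / 27 ^ (e + r)) / ((N : ℝ) * 27 ^ e) *
          (((27 : ℝ) ^ e * W) * (1 - qa n N W e o a q 1) ^ 2)) := by
          rw [hN', pow_add]
          field_simp
      _ ≤ _ := by
          refine mul_le_mul_of_nonneg_left (mul_le_mul_of_nonneg_left h5 ?_) (by positivity)
          rw [hN']
          positivity
  -- combination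
  rw [sum_box3 (3 ^ r) (fun x y z => (1 - UC n N e o a x y z) ^ 2)]
  have hU : ∀ q ∈ box3 (3 ^ r), (1 - UC n N e o a q.1 q.2.1 q.2.2) ^ 2 ≤
      2 * (1 - qa n N W e o a q 1) ^ 2 + 2 * ((qa n N W e o a q 1 - qa n N W e o a q 3) ^ 2 +
        (qa n N W e o a q 0 - qa n N W e o a q 3) ^ 2 +
        (qa n N W e o a q 0 - qa n N W e o a q 2) ^ 2) := by
    intro q _
    rw [UC_eq hW hN o a q]
    set A0 := qa n N W e o a q 0
    set A1 := qa n N W e o a q 1
    set A2 := qa n N W e o a q 2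
    set A3 := qa n N W e o a q 3
    have e1 : 1 - 1 / 4 * (A0 + A1 + A2 + A3) =
        (1 - A1) + (1 / 4) * (3 * (A1 - A3) + 2 * (A3 - A0) + (A0 - A2)) := by ring
    rw [e1]
    linarith [sq_nonneg ((1 - A1) - (1 / 4) * (3 * (A1 - A3) + 2 * (A3 - A0) + (A0 - A2))),
      sq_nonneg (2 * (A1 - A3) - 3 * (A3 - A0)), sq_nonneg ((A1 - A3) - 3 * (A0 - A2)),
      sq_nonneg ((A3 - A0) - 2 * (A0 - A2)), sq_nonneg (A1 - A3), sq_nonneg (A3 - A0),
      sq_nonneg (A0 - A2)]
  have hsum := Finset.sum_le_sum hU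
  rw [Finset.sum_add_distrib, ← Finset.mul_sum, ← Finset.mul_sum, Finset.sum_add_distrib,
    Finset.sum_add_distrib] at hsum
  set s1 := ∑ q ∈ box3 (3 ^ r), (1 - qa n N W e o a q 1) ^ 2
  set s2 := ∑ q ∈ box3 (3 ^ r), (qa n N W e o a q 1 - qa n N W e o a q 3) ^ 2
  set s3 := ∑ q ∈ box3 (3 ^ r), (qa n N W e o a q 0 - qa n N W e o a q 3) ^ 2
  set s4 := ∑ q ∈ box3 (3 ^ r), (qa n N W e o a q 0 - qa n N W e o a q 2) ^ 2
  have hnet : 0 ≤ netK c a := le_trans (by positivity) hcon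
  have hκ : 0 ≤ c1 * K * (1 / 27 ^ r) := by positivity
  refine (mul_le_mul_of_nonneg_left hsum hκ).trans ?_
  have t1 : c1 * K * (1 / 27 ^ r) * (2 * s1) ≤ 8 * netK c a := by
    have : c1 * K * (1 / 27 ^ r) * (2 * s1) = 8 * (c1 * K / (4 * 27 ^ r) * s1) := by
      field_simp; ring
    rw [this]
    linarith
  have t2 : ∀ s : ℝ, c1 * 27 ^ e / 16 * s ≤ netK c a →
      c1 * K * (1 / 27 ^ r) * (2 * s) ≤ 32 * (K / 27 ^ (e + r)) * netK c a := by
    intro s hs
    have : c1 * K * (1 / 27 ^ r) * (2 * s) =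
        32 * (K / 27 ^ (e + r)) * (c1 * 27 ^ e / 16 * s) := by
      rw [pow_add]
      field_simp
      ring
    rw [this]
    exact mul_le_mul_of_nonneg_left hs (by positivity)
  have t3 := t2 s2 q13
  have t4 := t2 s3 q03
  have t5 := t2 s4 q02
  have t6 : 0 ≤ K / 27 ^ (e + r) * netK c a := by positivity
  linarith

end Vale.Agent.P361.LRO.Ind3
end

section

/-!
P361, stage 3, K2: the bound `δ` of the defects in `LongLoc` (hypothesis `hX` of `long_trace`), for
`N ≥ N0`, from the bound for `N = ∞` (`TX`) and the uniform Trotter estimate.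
-/

namespace Vale.Agent.P361.LRO.Bloch.Delta

open Finset Matrix NormedSpace Vale.Agent.P361.LRO Vale.Agent.P361.LRO.Bloch

attribute [local instance] Matrix.linftyOpNormedRing Matrix.linftyOpNormedAlgebra

noncomputable section

set_option linter.unusedSectionVars false

variable {V : Type} [Fintype V] [DecidableEq V]

/-- `mt l - 1`. -/
def lg (l : Lt V) : MM V := mt l - 1

lemma wd_eq (w : List (Lt V)) : wd w = ((w.map lg).map fun x => 1 + x).prod := by
  unfold wd
  rw [List.map_map]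
  congr 1
  refine List.map_congr_left fun l _ => ?_
  simp [lg]

lemma wd_append (w w' : List (Lt V)) : wd (w ++ w') = wd w * wd w' := by
  unfold wd
  rw [List.map_append, List.prod_append]

lemma one_norm : ‖(1 : MM V)‖ ≤ 1 := Disc.norm_one_le

/-- Total size of the letters. -/
def sz (w : List (Lt V)) : ℝ := ((w.map lg).map norm).sum

lemma sz_append (w w' : List (Lt V)) : sz (w ++ w') = sz w + sz w' := by
  unfold sz
  simp

lemma sz_nonneg (w : List (Lt V)) : 0 ≤ sz w := by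
  unfold sz
  apply List.sum_nonneg
  intro r hr
  rw [List.mem_map] at hr
  obtain ⟨y, _, rfl⟩ := hr
  exact norm_nonneg _

lemma wd_bounds (w : List (Lt V)) :
    ‖wd w‖ ≤ Real.exp (sz w) ∧ ‖wd w - 1‖ ≤ Real.exp (sz w) - 1 := by
  have h := Disc.prod_one_add_bounds (one_norm (V := V)) (w.map lg)
  rw [← wd_eq] at h
  exact ⟨h.1, h.2.1⟩

lemma exp_sub_one_le {x : ℝ} (_h0 : 0 ≤ x) : Real.exp x - 1 ≤ x * Real.exp x := by
  have h1 := Real.add_one_le_exp (-x)
  have h2 := Real.exp_pos x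
  have h3 : Real.exp (-x) * Real.exp x = 1 := by rw [← Real.exp_add]; simp
  nlinarith

/-! ### Near -/

/-- `M` is close to `exp (-s H)`. -/
def Near (H : MM V) (C : ℝ) (N : ℕ) (M : MM V) (s : ℝ) : Prop :=
  ‖M‖ ≤ C ∧ ‖exp (-s • H)‖ ≤ C ∧ ‖M - exp (-s • H)‖ ≤ C / N

lemma Near.pos {H : MM V} {C : ℝ} {N : ℕ} {M : MM V} {s : ℝ} (h : Near H C N M s) : 0 ≤ C :=
  (norm_nonneg _).trans h.1

lemma exp_add_H (H : MM V) (s t : ℝ) :
    exp (-(s + t) • H) = exp (-s • H) * exp (-t • H) := by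
  rw [← Matrix.exp_add_of_commute, ← add_smul]
  · congr 2; ring
  · exact ((Commute.refl H).smul_left _).smul_right _

lemma Near.mul {H : MM V} {C C' : ℝ} {N : ℕ} {M M' : MM V} {s s' : ℝ} (h : Near H C N M s)
    (h' : Near H C' N M' s') : Near H (2 * (C * C')) N (M * M') (s + s') := by
  have hC := h.pos
  have hC' := h'.pos
  have hCC : 0 ≤ C * C' := mul_nonneg hC hC'
  refine ⟨?_, ?_, ?_⟩
  · have := (norm_mul_le M M').trans (mul_le_mul h.1 h'.1 (norm_nonneg _) hC)
    linarith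
  · rw [exp_add_H]
    have := (norm_mul_le (exp (-s • H)) (exp (-s' • H))).trans
      (mul_le_mul h.2.1 h'.2.1 (norm_nonneg _) hC)
    linarith
  · rw [exp_add_H]
    have e : M * M' - exp (-s • H) * exp (-s' • H) =
        (M - exp (-s • H)) * M' + exp (-s • H) * (M' - exp (-s' • H)) := by noncomm_ring
    rw [e]
    have h1 : ‖(M - exp (-s • H)) * M'‖ ≤ C / N * C' :=
      (norm_mul_le _ _).trans (mul_le_mul h.2.2 h'.1 (norm_nonneg _) (by positivity))
    have h2 : ‖exp (-s • H) * (M' - exp (-s' • H))‖ ≤ C * (C' / N) :=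
      (norm_mul_le _ _).trans (mul_le_mul h.2.1 h'.2.2 (norm_nonneg _) hC)
    calc _ ≤ C / N * C' + C * (C' / N) := (norm_add_le _ _).trans (add_le_add h1 h2)
      _ = _ := by ring

lemma Near.mono {H : MM V} {C C' : ℝ} {N : ℕ} {M : MM V} {s : ℝ} (h : Near H C N M s)
    (hC : C ≤ C') : Near H C' N M s :=
  ⟨h.1.trans hC, h.2.1.trans hC, h.2.2.trans (by gcongr)⟩

lemma near_small {H : MM V} {c : ℝ} (hc : 0 ≤ c) {N : ℕ} (hN : 1 ≤ N) {X : MM V}
    (hX : ‖X - 1‖ ≤ c / N) : Near H (1 + c) N X 0 := by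
  have hN' : (1 : ℝ) ≤ N := by exact_mod_cast hN
  have h0 : exp (-(0 : ℝ) • H) = 1 := by simp
  have hcN : c / N ≤ c := div_le_self hc hN'
  refine ⟨?_, ?_, ?_⟩
  · calc ‖X‖ = ‖1 + (X - 1)‖ := by congr 1; abel
      _ ≤ 1 + c := (norm_add_le _ _).trans (add_le_add one_norm (hX.trans hcN))
  · rw [h0]; exact one_norm.trans (by linarith)
  · rw [h0]
    refine hX.trans ?_
    gcongr
    linarith

lemma near_wd {H : MM V} {c : ℝ} (hc : 0 ≤ c) {N : ℕ} (hN : 1 ≤ N) {w : List (Lt V)}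
    (hw : sz w ≤ c / N) : Near H (1 + c * Real.exp c) N (wd w) 0 := by
  have hN' : (1 : ℝ) ≤ N := by exact_mod_cast hN
  have hcN : c / N ≤ c := div_le_self hc hN'
  refine near_small (by positivity) hN ?_
  refine (wd_bounds w).2.trans ((exp_sub_one_le (sz_nonneg w)).trans ?_)
  calc sz w * Real.exp (sz w) ≤ c / N * Real.exp c := by
        gcongr
        exact hw.trans hcN
    _ = _ := by ring

/-- The layer hypothesis. -/
structure Lay (H : MM V) (β c : ℝ) (N : ℕ) (l : List (Lt V)) : Prop where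
  sum : (l.map lg).sum = -((β / N : ℝ) • H)
  size : sz l ≤ c / N

lemma Lay.norm {H : MM V} {β c : ℝ} {N : ℕ} {l : List (Lt V)} (h : Lay H β c N l) (hN : 1 ≤ N) :
    ‖β • H‖ ≤ c := by
  have hN' : (0 : ℝ) < N := by exact_mod_cast hN
  have h1 : ‖(β / N : ℝ) • H‖ ≤ c / N := by
    rw [← norm_neg, ← h.sum]
    exact (Disc.norm_sum_le _).trans h.size
  have h2 : β • H = (N : ℝ) • ((β / N : ℝ) • H) := by
    rw [smul_smul]; congr 1; field_simp
  rw [h2, norm_smul, Real.norm_natCast]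
  calc (N : ℝ) * ‖(β / N : ℝ) • H‖ ≤ N * (c / N) := by gcongr
    _ = c := by field_simp

lemma norm_expH {H : MM V} {β c s : ℝ} (hβ : 0 < β) (hc : ‖β • H‖ ≤ c) (hs : |s| ≤ β) :
    ‖exp (-s • H)‖ ≤ Real.exp c := by
  refine (Trot.norm_exp_le one_norm _).trans (Real.exp_le_exp.2 ?_)
  have h2 : -s • H = (-s / β) • (β • H) := by
    rw [smul_smul]; congr 1; field_simp
  rw [h2, norm_smul, Real.norm_eq_abs, abs_div, abs_neg, abs_of_pos hβ]
  have h3 : |s| / β ≤ 1 := by rw [div_le_one hβ]; exact hs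
  calc |s| / β * ‖β • H‖ ≤ 1 * c := mul_le_mul h3 hc (norm_nonneg _) zero_le_one
    _ = c := one_mul c

lemma near_pow {H : MM V} {β c : ℝ} (hβ : 0 < β) (hc0 : 0 ≤ c) {N : ℕ} (hN : 1 ≤ N)
    {l : List (Lt V)} (h : Lay H β c N l) {r : ℕ} (hr : r ≤ N) :
    Near H ((1 + 2 * c ^ 2) * Real.exp (2 * c)) N (wd l ^ r) (r * (β / N)) := by
  have hN' : (0 : ℝ) < N := by exact_mod_cast hN
  have hN1 : (1 : ℝ) ≤ N := by exact_mod_cast hN
  have hr' : (r : ℝ) ≤ N := by exact_mod_cast hr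
  have hcN : c / N ≤ c := div_le_self hc0 hN1
  have hec : Real.exp c ≤ Real.exp (2 * c) := Real.exp_le_exp.2 (by linarith)
  have he1 : 0 < Real.exp (2 * c) := Real.exp_pos _
  refine ⟨?_, ?_, ?_⟩
  · have h1 : ‖wd l ^ r‖ ≤ Real.exp c := by
      have hM := (wd_bounds l).1.trans (Real.exp_le_exp.2 h.size)
      have : ‖wd l ^ r‖ ≤ Real.exp (c / N) ^ r := by
        clear hr hr'
        induction r with
        | zero => rw [pow_zero, pow_zero]; exact one_norm
        | succ r ih =>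
          rw [pow_succ, pow_succ]
          exact (norm_mul_le _ _).trans (mul_le_mul ih hM (norm_nonneg _) (by positivity))
      refine this.trans ?_
      rw [← Real.exp_nat_mul]
      apply Real.exp_le_exp.2
      calc (r : ℝ) * (c / N) ≤ N * (c / N) := by gcongr
        _ = c := by field_simp
    nlinarith [sq_nonneg c]
  · have h1 := norm_expH (s := r * (β / N)) hβ (h.norm hN) (by
      rw [abs_of_nonneg (by positivity)]
      calc (r : ℝ) * (β / N) ≤ N * (β / N) := by gcongr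
        _ = β := by field_simp)
    nlinarith [sq_nonneg c]
  · have hd := Disc.disc_bound (one_norm (V := V)) (l.map lg) (p := 1) (c := c / N) zero_le_one
      (by exact h.size) r
    have e1 : ((l.map lg).map fun x => 1 + (1 : ℝ) • x).prod = wd l := by
      rw [wd_eq]; congr 1
      refine List.map_congr_left fun x _ => ?_
      rw [one_smul]
    have e2 : ((r : ℝ) * 1) • (l.map lg).sum = -((r : ℝ) * (β / N)) • H := by
      rw [h.sum, mul_one, smul_neg, smul_smul, neg_smul]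
    rw [e1, e2, one_mul] at hd
    refine hd.trans ?_
    have e3 : ((r : ℝ) + 1) * (c / N) ≤ 2 * c := by
      have : ((r : ℝ) + 1) * (c / N) ≤ (N + N) * (c / N) := by gcongr
      have e4 : ((N : ℝ) + N) * (c / N) = 2 * c := by field_simp; ring
      linarith
    calc 2 * (r : ℝ) * (c / N) ^ 2 * Real.exp ((r + 1) * (c / N))
        ≤ 2 * N * (c / N) ^ 2 * Real.exp (2 * c) := by gcongr
      _ = 2 * c ^ 2 * Real.exp (2 * c) / N := by field_simp
      _ ≤ (1 + 2 * c ^ 2) * Real.exp (2 * c) / N := by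
        gcongr
        linarith

lemma near_shift {H : MM V} {β c : ℝ} (hβ : 0 < β) (hc0 : 0 ≤ c) (hH : ‖β • H‖ ≤ c) {N : ℕ}
    (hN : 1 ≤ N) {C s s' : ℝ} {M : MM V} (h : Near H C N M s) (hs' : |s'| ≤ β) {k : ℝ}
    (hk : 0 ≤ k) (hss : |s' - s| ≤ k * (β / N)) (hkN : k ≤ N) :
    Near H (C + C * (k * c * Real.exp c) + Real.exp c) N M s' := by
  have hN' : (0 : ℝ) < N := by exact_mod_cast hN
  have hC := h.pos
  have hec := Real.exp_pos c
  have hX : 0 ≤ C * (k * c * Real.exp c) := by positivity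
  refine ⟨h.1.trans (by linarith), (norm_expH hβ hH hs').trans (by linarith), ?_⟩
  have e0 : s' = s + (s' - s) := by ring
  have e1 : M - exp (-s' • H) = (M - exp (-s • H)) -
      exp (-s • H) * (exp (-(s' - s) • H) - 1) := by
    conv_lhs => rw [e0, exp_add_H]
    noncomm_ring
  have h1 : ‖exp (-(s' - s) • H) - 1‖ ≤ k * c * Real.exp c / N := by
    refine (Trot.norm_exp_sub_one_le _).trans ((exp_sub_one_le (norm_nonneg _)).trans ?_)
    have h2 : -(s' - s) • H = (-(s' - s) / β) • (β • H) := by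
      rw [smul_smul]; congr 1; field_simp
    have h3 : ‖-(s' - s) • H‖ ≤ k * c / N := by
      rw [h2, norm_smul, Real.norm_eq_abs, abs_div, abs_neg, abs_of_pos hβ]
      have h4 : |s' - s| / β ≤ k / N := by
        rw [div_le_iff₀ hβ]
        calc |s' - s| ≤ k * (β / N) := hss
          _ = k / N * β := by ring
      calc |s' - s| / β * ‖β • H‖ ≤ k / N * c :=
            mul_le_mul h4 hH (norm_nonneg _) (by positivity)
        _ = _ := by ring
    have h5 : k * c / N ≤ c := by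
      rw [div_le_iff₀ hN']
      nlinarith
    calc ‖-(s' - s) • H‖ * Real.exp ‖-(s' - s) • H‖ ≤ k * c / N * Real.exp c := by
          gcongr
          exact h3.trans h5
      _ = _ := by ring
  rw [e1]
  have h6 : ‖exp (-s • H) * (exp (-(s' - s) • H) - 1)‖ ≤ C * (k * c * Real.exp c / N) :=
    (norm_mul_le _ _).trans (mul_le_mul h.2.1 h1 (norm_nonneg _) hC)
  calc _ ≤ C / N + C * (k * c * Real.exp c / N) :=
        (norm_sub_le _ _).trans (add_le_add h.2.2 h6)
    _ = (C + C * (k * c * Real.exp c)) / N := by ring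
    _ ≤ _ := div_le_div_of_nonneg_right (by linarith) hN'.le

/-! ### Traces -/

/-- Entry `(0, 0)` (all up) of a product. -/
lemma entry_zero_mul {A B : MM V} (hA : Le 0 A) (hB : Le 0 B) (h1 : 1 ≤ A 0 0)
    (h2 : 1 ≤ B 0 0) : 1 ≤ (A * B) 0 0 := by
  rw [Matrix.mul_apply]
  have h3 : A 0 0 * B 0 0 ≤ ∑ j, A 0 j * B j 0 :=
    Finset.single_le_sum (f := fun j => A 0 j * B j 0)
      (fun j _ => mul_nonneg (hA 0 j) (hB j 0)) (mem_univ 0)
  nlinarith

lemma mt_zero {l : Lt V} (h : Ok l) : 1 ≤ mt l 0 0 := by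
  cases l with
  | gate a b p =>
    have : swapM a b (0 : V → Fin 2) 0 = 1 := by simp [swapM]
    change 1 ≤ ((1 - p) • (1 : MM V) + p • swapM a b) 0 0
    simp only [Matrix.add_apply, Matrix.smul_apply, Matrix.one_apply_eq, this, smul_eq_mul]
    linarith
  | node z t =>
    have h' : 0 ≤ t ∧ t ≤ 1 := h
    have : szM z (0 : V → Fin 2) 0 = 1 := by simp [szM]
    change 1 ≤ ((1 : MM V) + t • szM z) 0 0
    simp only [Matrix.add_apply, Matrix.smul_apply, Matrix.one_apply_eq, this, smul_eq_mul]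
    linarith [h'.1]

lemma wd_zero {w : List (Lt V)} (h : ∀ l ∈ w, Ok l) : 1 ≤ wd w 0 0 := by
  induction w with
  | nil => simp [wd]
  | cons l w ih =>
    rw [wd_cons]
    exact entry_zero_mul (mt_nonneg (h l (by simp))) (wd_nonneg fun l' hl' => h l' (by simp [hl']))
      (mt_zero (h l (by simp))) (ih fun l' hl' => h l' (by simp [hl']))

lemma trace_ge_entry {A : MM V} (hA : Le 0 A) : A 0 0 ≤ trace A := by
  unfold Matrix.trace
  exact Finset.single_le_sum (f := fun i => A.diag i) (fun i _ => hA i i) (mem_univ 0)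

lemma abs_trace_le (A : MM V) : |trace A| ≤ Fintype.card (V → Fin 2) * ‖A‖ := by
  unfold Matrix.trace
  calc |∑ i, A.diag i| ≤ ∑ i, |A.diag i| := Finset.abs_sum_le_sum_abs _ _
    _ ≤ ∑ _i : V → Fin 2, ‖A‖ := Finset.sum_le_sum fun i _ => Disc.entry_le_norm A i i
    _ = _ := by rw [Finset.sum_const, Finset.card_univ, nsmul_eq_mul]


/-- Comparison of the traces with an insertion. -/
lemma insert_le {H T X : MM V} {C : ℝ} {N : ℕ} (hN : 1 ≤ N) {Lf Rt Fu : MM V} {s t β δ : ℝ}
    (hst : s + t = β) (hL : Near H C N Lf s) (hR : Near H C N Rt t) (hF : Near H C N Fu β)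
    (hX : ‖X‖ ≤ 2) (hδ : 0 < δ)
    (hTX : trace (T * exp (-s • H) * X * exp (-t • H)) ≤
      δ * trace (T * exp (-s • H) * exp (-t • H)))
    (hF1 : 1 ≤ trace (Fu * T))
    (hNN : Fintype.card (V → Fin 2) * ‖T‖ * (δ * C + 4 * C ^ 2) ≤ δ * N) :
    trace (Lf * X * Rt * T) ≤ 2 * δ * trace (Fu * T) := by
  have hN' : (0 : ℝ) < N := by exact_mod_cast hN
  have hC := hL.pos
  set κ : ℝ := (Fintype.card (V → Fin 2) : ℝ) with hκ
  have hκ0 : 0 ≤ κ := Nat.cast_nonneg _
  have hT := norm_nonneg T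
  have e1 : trace (T * exp (-s • H) * X * exp (-t • H)) =
      trace (exp (-s • H) * X * exp (-t • H) * T) := by
    rw [Matrix.mul_assoc, Matrix.mul_assoc, Matrix.trace_mul_comm]
    congr 1
    simp only [Matrix.mul_assoc]
  have e2 : trace (T * exp (-s • H) * exp (-t • H)) = trace (exp (-β • H) * T) := by
    rw [Matrix.mul_assoc, Matrix.trace_mul_comm, ← exp_add_H, hst]
  rw [e1, e2] at hTX
  have h1 : |trace (Lf * X * Rt * T) - trace (exp (-s • H) * X * exp (-t • H) * T)| ≤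
      κ * ‖T‖ * (4 * C ^ 2) / N := by
    rw [← Matrix.trace_sub]
    refine (abs_trace_le _).trans ?_
    have e3 : Lf * X * Rt * T - exp (-s • H) * X * exp (-t • H) * T =
        ((Lf - exp (-s • H)) * X * Rt + exp (-s • H) * X * (Rt - exp (-t • H))) * T := by
      noncomm_ring
    have h2 : ‖(Lf - exp (-s • H)) * X * Rt‖ ≤ C / N * 2 * C := by
      refine (norm_mul_le _ _).trans (mul_le_mul ?_ hR.1 (norm_nonneg _) (by positivity))
      exact (norm_mul_le _ _).trans (mul_le_mul hL.2.2 hX (norm_nonneg _) (by positivity))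
    have h3 : ‖exp (-s • H) * X * (Rt - exp (-t • H))‖ ≤ C * 2 * (C / N) := by
      refine (norm_mul_le _ _).trans (mul_le_mul ?_ hR.2.2 (norm_nonneg _) (by positivity))
      exact (norm_mul_le _ _).trans (mul_le_mul hL.2.1 hX (norm_nonneg _) hC)
    have h4 : ‖Lf * X * Rt * T - exp (-s • H) * X * exp (-t • H) * T‖ ≤
        (C / N * 2 * C + C * 2 * (C / N)) * ‖T‖ := by
      rw [e3]
      refine (norm_mul_le _ _).trans (mul_le_mul_of_nonneg_right ?_ hT)
      exact (norm_add_le _ _).trans (add_le_add h2 h3)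
    calc κ * ‖Lf * X * Rt * T - exp (-s • H) * X * exp (-t • H) * T‖
        ≤ κ * ((C / N * 2 * C + C * 2 * (C / N)) * ‖T‖) := mul_le_mul_of_nonneg_left h4 hκ0
      _ = _ := by ring
  have h5 : |trace (Fu * T) - trace (exp (-β • H) * T)| ≤ κ * ‖T‖ * C / N := by
    rw [← Matrix.trace_sub, ← Matrix.sub_mul]
    refine (abs_trace_le _).trans ?_
    calc κ * ‖(Fu - exp (-β • H)) * T‖ ≤ κ * (C / N * ‖T‖) :=
          mul_le_mul_of_nonneg_left ((norm_mul_le _ _).trans
            (mul_le_mul_of_nonneg_right hF.2.2 hT)) hκ0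
      _ = _ := by ring
  have h6 := (abs_le.1 h1).2
  have h7 := (abs_le.1 h5).1
  have h8 : δ * (κ * ‖T‖ * C / N) + κ * ‖T‖ * (4 * C ^ 2) / N ≤ δ := by
    have e4 : δ * (κ * ‖T‖ * C / N) + κ * ‖T‖ * (4 * C ^ 2) / N =
        κ * ‖T‖ * (δ * C + 4 * C ^ 2) / N := by ring
    rw [e4, div_le_iff₀ hN']
    exact hNN
  have h9 : δ * trace (exp (-β • H) * T) ≤ δ * (trace (Fu * T) + κ * ‖T‖ * C / N) :=
    mul_le_mul_of_nonneg_left (by linarith) hδ.le
  have h10 : δ * 1 ≤ δ * trace (Fu * T) := mul_le_mul_of_nonneg_left hF1 hδ.le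
  linarith

/-! ### Splittings of the word -/

lemma split_rep {α : Type*} (lay : List α) (g : α) : ∀ (r : ℕ) (pre post : List α),
    (List.replicate r lay).flatten = pre ++ g :: post →
    ∃ (j : ℕ) (u v : List α), j < r ∧ lay = u ++ g :: v ∧
      pre = (List.replicate j lay).flatten ++ u ∧
      post = v ++ (List.replicate (r - 1 - j) lay).flatten := by
  intro r
  induction r with
  | zero =>
    intro pre post h
    simp at h
  | succ r ih =>
    intro pre post h
    rw [List.replicate_succ, List.flatten_cons, List.append_eq_append_iff] at h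
    rcases h with ⟨a', h1, h2⟩ | ⟨c', h1, h2⟩
    · obtain ⟨j, u, v, hj, h3, h4, h5⟩ := ih a' post h2
      refine ⟨j + 1, u, v, by omega, h3, ?_, ?_⟩
      · rw [h1, h4, List.replicate_succ, List.flatten_cons, List.append_assoc]
      · have e : r + 1 - 1 - (j + 1) = r - 1 - j := by omega
        rw [h5, e]
    · cases c' with
      | nil =>
        rw [List.nil_append] at h2
        obtain ⟨j, u, v, hj, h3, h4, h5⟩ := ih [] post (by rw [List.nil_append]; exact h2.symm)
        have h6 := List.append_eq_nil_iff.1 h4.symm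
        refine ⟨j + 1, u, v, by omega, h3, ?_, ?_⟩
        · rw [List.append_nil] at h1
          rw [List.replicate_succ, List.flatten_cons, h6.1, h6.2, List.append_nil,
            List.append_nil]
          exact h1.symm
        · have e : r + 1 - 1 - (j + 1) = r - 1 - j := by omega
          rw [h5, e]
      | cons x c' =>
        rw [List.cons_append, List.cons.injEq] at h2
        obtain ⟨h3, h4⟩ := h2
        subst h3
        refine ⟨0, pre, c', by omega, h1, by simp, ?_⟩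
        rw [h4]; congr 4

lemma wd_rep (l : List (Lt V)) (r : ℕ) : wd (List.replicate r l).flatten = wd l ^ r := by
  induction r with
  | zero => simp [wd]
  | succ r ih => rw [List.replicate_succ, List.flatten_cons, wd_append, ih, pow_succ']


/-! ### The theorem -/

lemma norm_swapM (a b : V) : ‖(swapM a b : MM V)‖ ≤ 1 := by
  rw [Matrix.linfty_opNorm_def]
  have : ((Finset.univ : Finset (V → Fin 2)).sup fun i => ∑ j, ‖(swapM a b : MM V) i j‖₊) ≤ 1 := by
    refine Finset.sup_le fun i _ => ?_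
    rw [Finset.sum_eq_single (i ∘ Equiv.swap a b)]
    · simp only [swapM, Matrix.of_apply]
      split_ifs <;> simp
    · intro j _ hj
      have : ¬ i = j ∘ Equiv.swap a b := by
        intro h
        apply hj
        rw [h]
        funext z
        simp
      simp [swapM, this]
    · simp
  exact_mod_cast this

lemma norm_diag_le (d : (V → Fin 2) → ℝ) (hd : ∀ i, |d i| ≤ 1) :
    ‖(Matrix.diagonal d : MM V)‖ ≤ 1 := by
  rw [Matrix.linfty_opNorm_diagonal]
  exact (pi_norm_le_iff_of_nonneg zero_le_one).2 fun i => by rw [Real.norm_eq_abs]; exact hd i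

lemma norm_eqM (a b : V) : ‖(eqM a b : MM V)‖ ≤ 1 :=
  norm_diag_le _ fun σ => by split_ifs <;> simp

lemma norm_exM (a b : V) : ‖(exM a b : MM V)‖ ≤ 2 := by
  unfold exM
  have := (norm_sub_le (swapM a b : MM V) (eqM a b)).trans
    (add_le_add (norm_swapM a b) (norm_eqM a b))
  linarith

lemma norm_neM (a b : V) : ‖(neM a b : MM V)‖ ≤ 2 := by
  unfold neM
  have := (norm_sub_le (1 : MM V) (eqM a b)).trans (add_le_add one_norm (norm_eqM a b))
  linarith

/-- constants -/
def cA (c : ℝ) : ℝ := 1 + c + c * Real.exp c + (1 + 2 * c ^ 2) * Real.exp (2 * c)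

lemma cA_bounds {c : ℝ} (hc : 0 ≤ c) : 1 ≤ cA c ∧ 1 + c ≤ cA c ∧ 1 + c * Real.exp c ≤ cA c ∧
    (1 + 2 * c ^ 2) * Real.exp (2 * c) ≤ cA c := by
  have h1 : 0 ≤ c * Real.exp c := by positivity
  have h2 : 0 ≤ (1 + 2 * c ^ 2) * Real.exp (2 * c) := by positivity
  unfold cA
  exact ⟨by linarith, by linarith, by linarith, by linarith⟩

/-- the common constant -/
def cK (c : ℝ) : ℝ := 64 * cA c ^ 7 + 64 * cA c ^ 7 * (4 * c * Real.exp c) + Real.exp c

section shapes

variable {H : MM V} {β c : ℝ} {N : ℕ} {lay : List (Lt V)}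

lemma near_left (hβ : 0 < β) (hc : 0 ≤ c) (hN : 1 ≤ N) (hl : Lay H β c N lay) {D1 : MM V}
    (hD1 : ‖D1 - 1‖ ≤ c / N) {g1 u : List (Lt V)} (hg1 : sz g1 ≤ c / N) (hu : sz u ≤ c / N)
    {a j : ℕ} (ha : a ≤ N) (hj : j ≤ N) :
    Near H (16 * cA c ^ 5) N (wd lay ^ a * D1 * wd g1 * wd lay ^ j * wd u)
      ((a + j : ℕ) * (β / N)) := by
  obtain ⟨b1, b2, b3, b4⟩ := cA_bounds hc
  have h1 := ((((near_pow hβ hc hN hl ha).mono b4).mul ((near_small hc hN hD1).mono b2)).mul
    ((near_wd hc hN hg1).mono b3)).mul ((near_pow hβ hc hN hl hj).mono b4)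
  have h2 := h1.mul ((near_wd hc hN hu).mono b3)
  have e1 : (a : ℝ) * (β / N) + 0 + 0 + j * (β / N) + 0 = ((a + j : ℕ) : ℝ) * (β / N) := by
    push_cast; ring
  have e2 : 2 * (2 * (2 * (2 * (cA c * cA c) * cA c) * cA c) * cA c) = 16 * cA c ^ 5 := by ring
  rw [e1, e2] at h2
  exact h2

lemma near_right (hβ : 0 < β) (hc : 0 ≤ c) (hN : 1 ≤ N) (hl : Lay H β c N lay) {D2 : MM V}
    (hD2 : ‖D2 - 1‖ ≤ c / N) {v : List (Lt V)} (hv : sz v ≤ c / N)
    {r b : ℕ} (hr : r ≤ N) (hb : b ≤ N) :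
    Near H (8 * cA c ^ 4) N (wd v * wd lay ^ r * D2 * wd lay ^ b) ((r + b : ℕ) * (β / N)) := by
  obtain ⟨b1, b2, b3, b4⟩ := cA_bounds hc
  have h2 := ((((near_wd hc hN hv).mono b3).mul ((near_pow hβ hc hN hl hr).mono b4)).mul
    ((near_small hc hN hD2).mono b2)).mul ((near_pow hβ hc hN hl hb).mono b4)
  have e1 : 0 + (r : ℝ) * (β / N) + 0 + b * (β / N) = ((r + b : ℕ) : ℝ) * (β / N) := by
    push_cast; ring
  have e2 : 2 * (2 * (2 * (cA c * cA c) * cA c) * cA c) = 8 * cA c ^ 4 := by ring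
  rw [e1, e2] at h2
  exact h2

lemma near_full (hβ : 0 < β) (hc : 0 ≤ c) (hN : 1 ≤ N) (hl : Lay H β c N lay) {D1 D2 : MM V}
    (hD1 : ‖D1 - 1‖ ≤ c / N) (hD2 : ‖D2 - 1‖ ≤ c / N) {g1 : List (Lt V)} (hg1 : sz g1 ≤ c / N)
    {a r b : ℕ} (ha : a ≤ N) (hr : r ≤ N) (hb : b ≤ N) :
    Near H (32 * cA c ^ 6) N (wd lay ^ a * D1 * wd g1 * wd lay ^ r * D2 * wd lay ^ b)
      ((a + r + b : ℕ) * (β / N)) := by
  obtain ⟨b1, b2, b3, b4⟩ := cA_bounds hc
  have h1 := ((((near_pow hβ hc hN hl ha).mono b4).mul ((near_small hc hN hD1).mono b2)).mul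
    ((near_wd hc hN hg1).mono b3)).mul ((near_pow hβ hc hN hl hr).mono b4)
  have h2 := (h1.mul ((near_small hc hN hD2).mono b2)).mul ((near_pow hβ hc hN hl hb).mono b4)
  have e1 : (a : ℝ) * (β / N) + 0 + 0 + r * (β / N) + 0 + b * (β / N) =
      ((a + r + b : ℕ) : ℝ) * (β / N) := by
    push_cast; ring
  have e2 : 2 * (2 * (2 * (2 * (2 * (cA c * cA c) * cA c) * cA c) * cA c) * cA c) =
      32 * cA c ^ 6 := by ring
  rw [e1, e2] at h2
  exact h2

end shapes


lemma cK_bounds {c : ℝ} (hc : 0 ≤ c) {C : ℝ} (_hC0 : 0 ≤ C) (hC : C ≤ 64 * cA c ^ 7) {k : ℝ}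
    (hk : 0 ≤ k) (hk4 : k ≤ 4) :
    C + C * (k * c * Real.exp c) + Real.exp c ≤ cK c := by
  unfold cK
  have h1 : 0 ≤ c * Real.exp c := by positivity
  have h2 : k * c * Real.exp c ≤ 4 * c * Real.exp c := by nlinarith
  have h3 : 0 ≤ 4 * c * Real.exp c := by positivity
  have h4 : C * (k * c * Real.exp c) ≤ 64 * cA c ^ 7 * (4 * c * Real.exp c) :=
    mul_le_mul hC h2 (by positivity) (_hC0.trans hC)
  linarith

lemma core {H T X : MM V} {β c δ : ℝ} (hβ : 0 < β) (hc : 0 ≤ c) (hδ : 0 < δ) {N : ℕ}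
    (hN : 4 ≤ N) (hX : ‖X‖ ≤ 2) (hT0 : Le 0 T) (hT1 : 1 ≤ T 0 0)
    (hTX : ∀ s t : ℝ, 0 ≤ s → 0 ≤ t → s + t = β →
      trace (T * exp (-s • H) * X * exp (-t • H)) ≤ δ * trace (T * exp (-s • H) * exp (-t • H)))
    {lay : List (Lt V)} (hl : Lay H β c N lay) (hok : ∀ l ∈ lay, Ok l) {D1 D2 : MM V}
    (hD1 : ‖D1 - 1‖ ≤ c / N) (hD2 : ‖D2 - 1‖ ≤ c / N) (hD10 : Le 0 D1) (hD20 : Le 0 D2)
    (hD11 : 1 ≤ D1 0 0) (hD21 : 1 ≤ D2 0 0) {g0 g1 u v : List (Lt V)} (hg0 : sz g0 ≤ c / N)
    (hg1 : sz g1 ≤ c / N) (hu : sz u ≤ c / N) (hv : sz v ≤ c / N) (hok0 : ∀ l ∈ g0, Ok l)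
    {a j r r' b : ℕ} (h1 : a + j + r' + b ≤ N) (h2 : N ≤ a + j + r' + b + 4)
    (h3 : a + r + b ≤ N) (h4 : N ≤ a + r + b + 3)
    (hNN : Fintype.card (V → Fin 2) * ‖T‖ * (δ * cK c + 4 * cK c ^ 2) ≤ δ * N) :
    trace ((wd lay ^ a * D1 * wd g1 * wd lay ^ j * wd u) * X *
      (wd v * wd lay ^ r' * D2 * wd lay ^ b) * T) ≤
      2 * δ * trace ((wd lay ^ a * D1 * wd g0 * wd lay ^ r * D2 * wd lay ^ b) * T) := by
  have hN1 : 1 ≤ N := by omega
  have hN' : (0 : ℝ) < N := by exact_mod_cast (by omega : 0 < N)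
  have hN4 : (4 : ℝ) ≤ N := by exact_mod_cast hN
  have hβN : 0 < β / N := by positivity
  have hH := hl.norm hN1
  obtain ⟨cb, _, _, _⟩ := cA_bounds hc
  have hp : ∀ m : ℕ, m ≤ 7 → cA c ^ m ≤ cA c ^ 7 := fun m hm => pow_le_pow_right₀ cb hm
  have hp0 : ∀ m : ℕ, 0 ≤ cA c ^ m := fun m => pow_nonneg (by linarith) m
  have hL := near_left hβ hc hN1 hl hD1 hg1 hu (a := a) (j := j) (by omega) (by omega)
  have hR := near_right hβ hc hN1 hl hD2 hv (r := r') (b := b) (by omega) (by omega)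
  have hF := near_full hβ hc hN1 hl hD1 hD2 hg0 (a := a) (r := r) (b := b) (by omega) (by omega)
    (by omega)
  set s : ℝ := ((a + j : ℕ) : ℝ) * (β / N) with hs
  have hs0 : 0 ≤ s := by positivity
  have haj : ((a + j : ℕ) : ℝ) ≤ N := by exact_mod_cast (by omega : a + j ≤ N)
  have eNβ : (N : ℝ) * (β / N) = β := by field_simp
  have hsβ : s ≤ β := by
    calc s ≤ N * (β / N) := mul_le_mul_of_nonneg_right haj hβN.le
      _ = β := eNβ
  have hR' : Near H (cK c) N (wd v * wd lay ^ r' * D2 * wd lay ^ b) (β - s) := by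
    refine (near_shift hβ hc hH hN1 hR (s' := β - s) (k := 4) ?_ (by norm_num) ?_ hN4).mono
      (cK_bounds hc (by have := hp0 4; positivity) ?_ (by norm_num) le_rfl)
    · rw [abs_of_nonneg (by linarith)]; linarith
    · have e1 : β - s - ((r' + b : ℕ) : ℝ) * (β / N) =
          ((N : ℝ) - ((a + j + r' + b : ℕ) : ℝ)) * (β / N) := by
        rw [hs]; push_cast; linarith [eNβ]
      rw [e1, abs_mul, abs_of_pos hβN]
      refine mul_le_mul_of_nonneg_right ?_ hβN.le
      have q1 : ((a + j + r' + b : ℕ) : ℝ) ≤ N := by exact_mod_cast h1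
      have q2 : (N : ℝ) ≤ ((a + j + r' + b : ℕ) : ℝ) + 4 := by exact_mod_cast h2
      rw [abs_of_nonneg (by linarith)]
      linarith
    · have := hp 4 (by norm_num); have := hp0 4; linarith
  have hF' : Near H (cK c) N (wd lay ^ a * D1 * wd g0 * wd lay ^ r * D2 * wd lay ^ b) β := by
    refine (near_shift hβ hc hH hN1 hF (s' := β) (k := 4) ?_ (by norm_num) ?_ hN4).mono
      (cK_bounds hc (by have := hp0 6; positivity) ?_ (by norm_num) le_rfl)
    · rw [abs_of_pos hβ]
    · have e1 : β - ((a + r + b : ℕ) : ℝ) * (β / N) =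
          ((N : ℝ) - ((a + r + b : ℕ) : ℝ)) * (β / N) := by
        rw [sub_mul, eNβ]
      rw [e1, abs_mul, abs_of_pos hβN]
      refine mul_le_mul_of_nonneg_right ?_ hβN.le
      have q1 : ((a + r + b : ℕ) : ℝ) ≤ N := by exact_mod_cast h3
      have q2 : (N : ℝ) ≤ ((a + r + b : ℕ) : ℝ) + 3 := by exact_mod_cast h4
      rw [abs_of_nonneg (by linarith)]
      linarith
    · have := hp 6 (by norm_num); have := hp0 6; linarith
  have hL' : Near H (cK c) N (wd lay ^ a * D1 * wd g1 * wd lay ^ j * wd u) s := by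
    refine hL.mono ?_
    have h5 := cK_bounds hc (C := 16 * cA c ^ 5) (by have := hp0 5; positivity)
      (by have := hp 5 (by norm_num); have := hp0 5; linarith) (k := 0) le_rfl (by norm_num)
    have h6 := Real.exp_pos c
    have h7 := hp0 5
    nlinarith
  -- positivity
  have wpow : ∀ n : ℕ, Le 0 (wd lay ^ n) ∧ 1 ≤ (wd lay ^ n) 0 0 := by
    intro n
    have : ∀ l ∈ (List.replicate n lay).flatten, Ok l := by
      intro l hl'
      rw [List.mem_flatten] at hl'
      obtain ⟨l', hl1, hl2⟩ := hl'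
      rw [List.mem_replicate] at hl1
      rw [hl1.2] at hl2
      exact hok l hl2
    rw [← wd_rep]
    exact ⟨wd_nonneg this, wd_zero this⟩
  have hg : Le 0 (wd g0) ∧ 1 ≤ wd g0 0 0 := ⟨wd_nonneg hok0, wd_zero hok0⟩
  have p1 : Le 0 (wd lay ^ a * D1) ∧ 1 ≤ (wd lay ^ a * D1) 0 0 :=
    ⟨(wpow a).1.zero_mul hD10, entry_zero_mul (wpow a).1 hD10 (wpow a).2 hD11⟩
  have p2 : Le 0 (wd lay ^ a * D1 * wd g0) ∧ 1 ≤ (wd lay ^ a * D1 * wd g0) 0 0 :=
    ⟨p1.1.zero_mul hg.1, entry_zero_mul p1.1 hg.1 p1.2 hg.2⟩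
  have p3 : Le 0 (wd lay ^ a * D1 * wd g0 * wd lay ^ r) ∧
      1 ≤ (wd lay ^ a * D1 * wd g0 * wd lay ^ r) 0 0 :=
    ⟨p2.1.zero_mul (wpow r).1, entry_zero_mul p2.1 (wpow r).1 p2.2 (wpow r).2⟩
  have p4 : Le 0 (wd lay ^ a * D1 * wd g0 * wd lay ^ r * D2) ∧
      1 ≤ (wd lay ^ a * D1 * wd g0 * wd lay ^ r * D2) 0 0 :=
    ⟨p3.1.zero_mul hD20, entry_zero_mul p3.1 hD20 p3.2 hD21⟩
  have p5 : Le 0 (wd lay ^ a * D1 * wd g0 * wd lay ^ r * D2 * wd lay ^ b) ∧
      1 ≤ (wd lay ^ a * D1 * wd g0 * wd lay ^ r * D2 * wd lay ^ b) 0 0 :=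
    ⟨p4.1.zero_mul (wpow b).1, entry_zero_mul p4.1 (wpow b).1 p4.2 (wpow b).2⟩
  have hF1 : 1 ≤ trace ((wd lay ^ a * D1 * wd g0 * wd lay ^ r * D2 * wd lay ^ b) * T) :=
    (entry_zero_mul p5.1 hT0 p5.2 hT1).trans (trace_ge_entry (p5.1.zero_mul hT0))
  exact insert_le hN1 (s := s) (t := β - s) (β := β) (by ring) hL' hR' hF' hX hδ
    (hTX s (β - s) hs0 (by linarith) (by ring)) hF1 hNN

/-- **General form.** -/
theorem gen {β c CT δ : ℝ} (hβ : 0 < β) (hc : 0 ≤ c) (hδ : 0 < δ) :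
    ∃ N0 : ℕ, ∀ N : ℕ, N0 ≤ N → ∀ H T X : MM V, ‖X‖ ≤ 2 → ‖T‖ ≤ CT → Le 0 T → 1 ≤ T 0 0 →
      (∀ s t : ℝ, 0 ≤ s → 0 ≤ t → s + t = β →
        trace (T * exp (-s • H) * X * exp (-t • H)) ≤
          δ * trace (T * exp (-s • H) * exp (-t • H))) →
      ∀ lay gt : List (Lt V), Lay H β c N lay → sz gt ≤ c / N → (∀ l ∈ lay, Ok l) →
      (∀ l ∈ gt, Ok l) →
      ∀ D1 D2 : MM V, ‖D1 - 1‖ ≤ c / N → ‖D2 - 1‖ ≤ c / N → Le 0 D1 → Le 0 D2 →
      1 ≤ D1 0 0 → 1 ≤ D2 0 0 → ∀ a r b : ℕ, a + r + b ≤ N → N ≤ a + r + b + 3 →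
      ∀ (w1 : List (Lt V)) (g : Lt V) (w2 : List (Lt V)),
      gt ++ (List.replicate r lay).flatten = w1 ++ g :: w2 →
      trace (wd lay ^ a * D1 * wd w1 * X * wd w2 * (D2 * wd lay ^ b * T)) ≤
        2 * δ * trace (wd lay ^ a * D1 *
          wd (gt ++ (List.replicate r lay).flatten) * (D2 * wd lay ^ b * T)) := by
  obtain ⟨N1, hN1⟩ := exists_nat_gt
    ((Fintype.card (V → Fin 2) : ℝ) * CT * (δ * cK c + 4 * cK c ^ 2) / δ)
  refine ⟨N1 + 4, ?_⟩
  intro N hN H T X hX hT hT0 hT1 hTX lay gt hl hgt hok hokg D1 D2 hD1 hD2 hD10 hD20 hD11 hD21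
    a r b h1 h2 w1 g w2 hw
  have hcK : 0 ≤ cK c := by
    obtain ⟨cb, _, _, _⟩ := cA_bounds hc
    unfold cK
    have := pow_nonneg (by linarith : 0 ≤ cA c) 7
    positivity
  have hNN : (Fintype.card (V → Fin 2) : ℝ) * ‖T‖ * (δ * cK c + 4 * cK c ^ 2) ≤ δ * N := by
    have h3 : (Fintype.card (V → Fin 2) : ℝ) * CT * (δ * cK c + 4 * cK c ^ 2) ≤ δ * N1 := by
      rw [div_lt_iff₀ hδ] at hN1
      linarith
    have h4 : (N1 : ℝ) ≤ N := by exact_mod_cast (by omega : N1 ≤ N)
    have h5 : (Fintype.card (V → Fin 2) : ℝ) * ‖T‖ * (δ * cK c + 4 * cK c ^ 2) ≤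
        (Fintype.card (V → Fin 2) : ℝ) * CT * (δ * cK c + 4 * cK c ^ 2) := by
      gcongr
    have h6 : δ * (N1 : ℝ) ≤ δ * N := mul_le_mul_of_nonneg_left h4 hδ.le
    linarith
  have hsz : sz lay ≤ c / N := hl.size
  have hfull : wd lay ^ a * D1 * wd (gt ++ (List.replicate r lay).flatten) *
      (D2 * wd lay ^ b * T) =
      (wd lay ^ a * D1 * wd gt * wd lay ^ r * D2 * wd lay ^ b) * T := by
    rw [wd_append, wd_rep]
    simp only [Matrix.mul_assoc]
  rw [hfull]
  have hnil : sz ([] : List (Lt V)) ≤ c / N := by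
    have : sz ([] : List (Lt V)) = 0 := by simp [sz]
    rw [this]
    positivity
  have hwnil : wd ([] : List (Lt V)) = 1 := by simp [wd]
  -- the case inside a later layer
  have later : ∀ a' : List (Lt V), w1 = gt ++ a' →
      (List.replicate r lay).flatten = a' ++ g :: w2 →
      trace (wd lay ^ a * D1 * wd w1 * X * wd w2 * (D2 * wd lay ^ b * T)) ≤
        2 * δ * trace ((wd lay ^ a * D1 * wd gt * wd lay ^ r * D2 * wd lay ^ b) * T) := by
    intro a' e1 e2
    obtain ⟨j, u, v, hj, h3, h4, h5⟩ := split_rep lay g r a' w2 e2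
    have hsp : sz lay = sz u + (sz [g] + sz v) := by
      rw [h3, show u ++ g :: v = u ++ ([g] ++ v) from rfl, sz_append, sz_append]
    have hu0 := sz_nonneg u
    have hv0 := sz_nonneg v
    have hg0 := sz_nonneg [g]
    have key := core hβ hc hδ (N := N) (by omega) hX hT0 hT1 hTX hl hok hD1 hD2 hD10 hD20 hD11
      hD21 (g0 := gt) (g1 := gt) (u := u) (v := v) hgt hgt (by linarith) (by linarith) hokg
      (a := a) (j := j) (r := r) (r' := r - 1 - j) (b := b) (by omega) (by omega) h1 h2 hNN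
    have e3 : wd lay ^ a * D1 * wd w1 * X * wd w2 * (D2 * wd lay ^ b * T) =
        (wd lay ^ a * D1 * wd gt * wd lay ^ j * wd u) * X *
          (wd v * wd lay ^ (r - 1 - j) * D2 * wd lay ^ b) * T := by
      rw [e1, h4, h5, wd_append, wd_append, wd_append, wd_rep, wd_rep]
      simp only [Matrix.mul_assoc]
    rw [e3]
    exact key
  rw [List.append_eq_append_iff] at hw
  rcases hw with ⟨a', e1, e2⟩ | ⟨c', e1, e2⟩
  · exact later a' e1 e2
  · cases c' with
    | nil =>
      rw [List.nil_append] at e2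
      rw [List.append_nil] at e1
      exact later [] (by rw [List.append_nil]; exact e1.symm)
        (by rw [List.nil_append]; exact e2.symm)
    | cons x c' =>
      rw [List.cons_append, List.cons.injEq] at e2
      obtain ⟨e3, e4⟩ := e2
      have hsp : sz gt = sz w1 + (sz [x] + sz c') := by
        rw [e1, show w1 ++ x :: c' = w1 ++ ([x] ++ c') from rfl, sz_append, sz_append]
      have hu0 := sz_nonneg w1
      have hv0 := sz_nonneg c'
      have hg0 := sz_nonneg [x]
      have key := core hβ hc hδ (N := N) (by omega) hX hT0 hT1 hTX hl hok hD1 hD2 hD10 hD20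
        hD11 hD21 (g0 := gt) (g1 := w1) (u := []) (v := c') hgt (by linarith) hnil
        (by linarith) hokg (a := a) (j := 0) (r := r) (r' := r) (b := b) (by omega) (by omega)
        h1 h2 hNN
      have e5 : wd lay ^ a * D1 * wd w1 * X * wd w2 * (D2 * wd lay ^ b * T) =
          (wd lay ^ a * D1 * wd w1 * wd lay ^ 0 * wd []) * X *
            (wd c' * wd lay ^ r * D2 * wd lay ^ b) * T := by
        rw [e4, wd_append, wd_rep, hwnil, pow_zero]
        simp only [Matrix.mul_assoc, Matrix.mul_one, Matrix.one_mul]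
      rw [e5]
      exact key

end

end Vale.Agent.P361.LRO.Bloch.Delta
end

section

/-!
# P361, stage 3, all spins: the lumped walk on the torus and its lower bound
-/

namespace Vale.Agent.P361.LRO.S3S.KerS

open Finset NormedSpace Vale.Agent.P361.LRO.Bloch Vale.Agent.P361.LRO.Bloch.Ker

noncomputable section

variable {n : ℕ}

/-- sum over the six neighbours -/
def nb (f : Tor n → ℝ) (y : Tor n) : ℝ :=
  ∑ i : Fin 3, (f (y + Pi.single i 1) + f (y - Pi.single i 1))

theorem nb_mono {f g : Tor n → ℝ} (h : ∀ y, f y ≤ g y) (y : Tor n) : nb f y ≤ nb g y :=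
  Finset.sum_le_sum fun _ _ => add_le_add (h _) (h _)

theorem nb_nonneg {f : Tor n → ℝ} (h : ∀ y, 0 ≤ f y) (y : Tor n) : 0 ≤ nb f y :=
  Finset.sum_nonneg fun _ _ => add_nonneg (h _) (h _)

theorem nb_smul (c : ℝ) (f : Tor n → ℝ) (y : Tor n) : nb (fun v => c * f v) y = c * nb f y := by
  simp only [nb, ← mul_add, ← Finset.mul_sum]

theorem nb_sub (f g : Tor n → ℝ) (y : Tor n) : nb (fun v => f v - g v) y = nb f y - nb g y := by
  simp only [nb, ← Finset.sum_sub_distrib]
  exact Finset.sum_congr rfl fun i _ => by ring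

theorem nb_sum {ι : Type*} (s : Finset ι) (f : ι → Tor n → ℝ) (y : Tor n) :
    nb (fun v => ∑ j ∈ s, f j v) y = ∑ j ∈ s, nb (f j) y := by
  simp only [nb]
  rw [Finset.sum_comm]
  exact Finset.sum_congr rfl fun i _ => by rw [Finset.sum_add_distrib]

/-- The lumped walk: stay weight `c0`, move weight `c1` to each neighbour; `j` counts the moves. -/
def qS (c0 c1 : ℝ) (x0 : Tor n) : ℕ → Tor n → ℕ → ℝ
  | 0 => q0 x0
  | k + 1 => fun y j => c0 * qS c0 c1 x0 k y j +
      c1 * (if j = 0 then 0 else nb (fun v => qS c0 c1 x0 k v (j - 1)) y)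

theorem qS_nonneg {c0 c1 : ℝ} (h0 : 0 ≤ c0) (h1 : 0 ≤ c1) (x0 : Tor n) (k : ℕ) (y : Tor n)
    (j : ℕ) : 0 ≤ qS c0 c1 x0 k y j := by
  induction k generalizing y j with
  | zero => simp only [qS, q0]; split_ifs <;> norm_num
  | succ k ih =>
    simp only [qS]
    refine add_nonneg (mul_nonneg h0 (ih y j)) (mul_nonneg h1 ?_)
    split_ifs
    · exact le_rfl
    · exact nb_nonneg (fun v => ih v _) y

/-- truncation invariant -/
def Inv (q : Tor n → ℕ → ℝ) (Q1 Q2 : Tor n → ℝ) : Prop :=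
  (∀ y, 0 ≤ Q1 y) ∧ (∀ y, Q1 y ≤ Q2 y) ∧
    ∀ y J, Q1 y - (1 / 2) ^ J * Q2 y ≤ ∑ j ∈ range J, q y j

theorem Inv.step {q : Tor n → ℕ → ℝ} {Q1 Q2 : Tor n → ℝ} (h : Inv q Q1 Q2) {c0 c1 : ℝ}
    (h0 : 0 ≤ c0) (h1 : 0 ≤ c1) :
    Inv (fun y j => c0 * q y j + c1 * (if j = 0 then 0 else nb (fun v => q v (j - 1)) y))
      (fun y => c0 * Q1 y + c1 * nb Q1 y) (fun y => c0 * Q2 y + 2 * c1 * nb Q2 y) := by
  obtain ⟨i1, i2, i3⟩ := h
  have hle : ∀ y, c0 * Q1 y + c1 * nb Q1 y ≤ c0 * Q2 y + 2 * c1 * nb Q2 y := by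
    intro y
    have a1 := mul_le_mul_of_nonneg_left (i2 y) h0
    have a2 := mul_le_mul_of_nonneg_left (nb_mono i2 y) h1
    have a3 : 0 ≤ c1 * nb Q2 y := mul_nonneg h1 (nb_nonneg (fun v => (i1 v).trans (i2 v)) y)
    linarith
  refine ⟨fun y => add_nonneg (mul_nonneg h0 (i1 y)) (mul_nonneg h1 (nb_nonneg i1 y)), hle, ?_⟩
  intro y J
  cases J with
  | zero =>
    simp only [pow_zero, one_mul, Finset.range_zero, Finset.sum_empty]
    linarith [hle y]
  | succ J =>
    have e1 : ∑ j ∈ range (J + 1), (c0 * q y j +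
        c1 * (if j = 0 then 0 else nb (fun v => q v (j - 1)) y)) =
        c0 * ∑ j ∈ range (J + 1), q y j + c1 * nb (fun v => ∑ j ∈ range J, q v j) y := by
      rw [Finset.sum_add_distrib, ← Finset.mul_sum, ← Finset.mul_sum, nb_sum]
      congr 2
      rw [Finset.sum_range_succ']
      simp
    rw [e1]
    have a1 := mul_le_mul_of_nonneg_left (i3 y (J + 1)) h0
    have a2 : nb (fun v => Q1 v - (1 / 2) ^ J * Q2 v) y ≤ nb (fun v => ∑ j ∈ range J, q v j) y :=
      nb_mono (fun v => i3 v J) y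
    have a3 := mul_le_mul_of_nonneg_left a2 h1
    rw [nb_sub, nb_smul] at a3
    rw [pow_succ] at a1 ⊢
    nlinarith

/-- The neighbour matrix. -/
def Bm (n : ℕ) : Matrix (Tor n) (Tor n) ℝ :=
  ∑ i : Fin 3, (Sh (Pi.single i 1) + Sh (-Pi.single i 1))

/-- One layer. -/
def Mm (n : ℕ) (c0 c1 : ℝ) : Matrix (Tor n) (Tor n) ℝ := c0 • 1 + c1 • Bm n

theorem sum_mul_Sh [NeZero n] (f : Tor n → ℝ) (v y : Tor n) :
    ∑ x, f x * (Sh v : Matrix (Tor n) (Tor n) ℝ) x y = f (y - v) := by
  rw [Finset.sum_eq_single (y - v)]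
  · simp [Sh]
  · intro x _ hx
    have : ¬ y = x + v := fun h => hx (by rw [h]; abel)
    simp [Sh, this]
  · intro h
    exact absurd (mem_univ _) h

theorem sum_mul_Bm [NeZero n] (f : Tor n → ℝ) (y : Tor n) : ∑ x, f x * Bm n x y = nb f y := by
  have h1 : ∀ x, f x * Bm n x y = ∑ i : Fin 3, (f x * (Sh (Pi.single i 1) : Matrix (Tor n) (Tor n) ℝ) x y +
      f x * (Sh (-Pi.single i 1) : Matrix (Tor n) (Tor n) ℝ) x y) := by
    intro x
    rw [Bm, Matrix.sum_apply, Finset.mul_sum]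
    exact Finset.sum_congr rfl fun i _ => by rw [Matrix.add_apply]; ring
  simp only [h1]
  rw [Finset.sum_comm]
  unfold nb
  refine Finset.sum_congr rfl fun i _ => ?_
  rw [Finset.sum_add_distrib, sum_mul_Sh, sum_mul_Sh, sub_neg_eq_add]
  ring

theorem sum_mul_Mm [NeZero n] (f : Tor n → ℝ) (c0 c1 : ℝ) (y : Tor n) :
    ∑ x, f x * Mm n c0 c1 x y = c0 * f y + c1 * nb f y := by
  have h1 : ∀ x, f x * Mm n c0 c1 x y = c0 * (f x * (1 : Matrix (Tor n) (Tor n) ℝ) x y) +
      c1 * (f x * Bm n x y) := by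
    intro x
    simp only [Mm, Matrix.add_apply, Matrix.smul_apply, smul_eq_mul]
    ring
  simp only [h1]
  rw [Finset.sum_add_distrib, ← Finset.mul_sum, ← Finset.mul_sum, sum_mul_Bm]
  congr 2
  rw [Finset.sum_eq_single y]
  · simp
  · intro x _ hx
    simp [hx]
  · intro h
    exact absurd (mem_univ _) h

theorem inv_qS [NeZero n] {c0 c1 : ℝ} (h0 : 0 ≤ c0) (h1 : 0 ≤ c1) (x0 : Tor n) (k : ℕ) :
    Inv (qS c0 c1 x0 k) (fun y => (Mm n c0 c1 ^ k) x0 y) (fun y => (Mm n c0 (2 * c1) ^ k) x0 y) := by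
  induction k with
  | zero =>
    refine ⟨fun y => ?_, fun y => ?_, fun y J => ?_⟩
    · simp only [pow_zero, Matrix.one_apply]
      split_ifs <;> norm_num
    · simp
    · simp only [pow_zero, Matrix.one_apply, qS, q0]
      cases J with
      | zero => simp
      | succ J =>
        by_cases h : x0 = y
        · subst h
          have e : ∑ j ∈ range (J + 1), (if x0 = x0 ∧ j = 0 then (1 : ℝ) else 0) = 1 := by
            rw [Finset.sum_range_succ']
            simp
          rw [e]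
          simp only [if_true]
          have : (0 : ℝ) ≤ (1 / 2) ^ (J + 1) := by positivity
          linarith
        · have h' : ¬ y = x0 := fun h'' => h h''.symm
          simp [h, h']
  | succ k ih =>
    have h := ih.step h0 h1
    have e1 : (fun y => (Mm n c0 c1 ^ (k + 1)) x0 y) =
        fun y => c0 * (Mm n c0 c1 ^ k) x0 y + c1 * nb (fun y => (Mm n c0 c1 ^ k) x0 y) y := by
      funext y
      rw [pow_succ, Matrix.mul_apply, sum_mul_Mm (fun v => (Mm n c0 c1 ^ k) x0 v)]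
    have e2 : (fun y => (Mm n c0 (2 * c1) ^ (k + 1)) x0 y) =
        fun y => c0 * (Mm n c0 (2 * c1) ^ k) x0 y +
          2 * c1 * nb (fun y => (Mm n c0 (2 * c1) ^ k) x0 y) y := by
      funext y
      rw [pow_succ, Matrix.mul_apply, sum_mul_Mm (fun v => (Mm n c0 (2 * c1) ^ k) x0 v)]
    rw [e1, e2]
    exact h

theorem one_sub_pow_le {p : ℝ} (h0 : 0 ≤ p) (h1 : p ≤ 1) (k : ℕ) :
    (1 - p) ^ k ≤ 1 - k * p + (k * p) ^ 2 := by
  induction k with
  | zero => simp
  | succ k ih =>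
    rw [pow_succ]
    have h2 : 0 ≤ 1 - p := by linarith
    have h3 := mul_le_mul_of_nonneg_right ih h2
    push_cast
    have hk : (0 : ℝ) ≤ k := Nat.cast_nonneg k
    have h4 : 0 ≤ (k * p) ^ 2 * p := by positivity
    have h5 : 0 ≤ (k : ℝ) * p ^ 2 := by positivity
    nlinarith

section Norm

open scoped Matrix.Norms.Operator

theorem norm_Bm [NeZero n] : ‖Bm n‖ ≤ 6 := by
  unfold Bm
  refine (norm_sum_le _ _).trans ?_
  refine (sum_le_sum fun i _ => (norm_add_le _ _).trans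
    (add_le_add (norm_Sh_le _) (norm_Sh_le _))).trans ?_
  rw [sum_const, card_univ, Fintype.card_fin]
  norm_num

theorem Lap_eq [NeZero n] : Lap n = Bm n - (6 : ℝ) • 1 := by
  rw [Lap, sum_sub_distrib, Bm, sum_const, card_univ, Fintype.card_fin,
    ← Nat.cast_smul_eq_nsmul ℝ, smul_smul]
  norm_num

/-- Discretization error, `a = 1, 2`. -/
theorem disc_err [NeZero n] {a : ℝ} (ha : 0 ≤ a) (ha2 : a ≤ 2) {s : ℕ} {p : ℝ} (h0 : 0 ≤ p) (h1 : p ≤ 1)
    (m : ℕ) (x y : Tor n) :
    |(Mm n ((1 - p) ^ (6 * s)) (a * (s * p * (1 - p) ^ (12 * s))) ^ m) x y -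
      exp ((m * p : ℝ) • ((a * s) • Bm n - (6 * s : ℝ) • 1)) x y| ≤
      180 * m * (s * p) ^ 2 * Real.exp (18 * s * p) ^ m +
      2 * m * (p * (18 * s)) ^ 2 * Real.exp ((m + 1) * (p * (18 * s))) := by
  set G : Matrix (Tor n) (Tor n) ℝ := (a * s) • Bm n - (6 * s : ℝ) • 1 with hG
  set M : Matrix (Tor n) (Tor n) ℝ :=
    Mm n ((1 - p) ^ (6 * s)) (a * (s * p * (1 - p) ^ (12 * s))) with hM
  have hs0 : (0 : ℝ) ≤ s := Nat.cast_nonneg s
  have hone : ‖(1 : Matrix (Tor n) (Tor n) ℝ)‖ ≤ 1 := norm_one_le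
  have hB := norm_Bm (n := n)
  have hGn : ‖G‖ ≤ 18 * s := by
    rw [hG]
    refine (norm_sub_le _ _).trans ?_
    rw [norm_smul, norm_smul, Real.norm_of_nonneg (by positivity),
      Real.norm_of_nonneg (by positivity)]
    linarith only [mul_le_mul_of_nonneg_left hB (mul_nonneg ha hs0),
      mul_le_mul_of_nonneg_left hone (by positivity : (0 : ℝ) ≤ 6 * s),
      mul_le_mul_of_nonneg_right ha2 hs0]
  have hp6 : 0 ≤ (1 - p) ^ (6 * s) := pow_nonneg (by linarith) _
  have hp6' : (1 - p) ^ (6 * s) ≤ 1 := pow_le_one₀ (by linarith) (by linarith)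
  have hp12 : 0 ≤ (1 - p) ^ (12 * s) := pow_nonneg (by linarith) _
  have hp12' : (1 - p) ^ (12 * s) ≤ 1 := pow_le_one₀ (by linarith) (by linarith)
  have hb6 := one_add_mul_le_pow (a := -p) (by linarith) (6 * s)
  have hb12 := one_add_mul_le_pow (a := -p) (by linarith) (12 * s)
  rw [← sub_eq_add_neg] at hb6 hb12
  push_cast at hb6 hb12
  have hu6 := one_sub_pow_le h0 h1 (6 * s)
  push_cast at hu6
  -- difference of one layer
  have hdiff : ‖M - (1 + p • G)‖ ≤ 180 * (s * p) ^ 2 := by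
    have e : M - (1 + p • G) = ((1 - p) ^ (6 * s) - 1 + 6 * s * p) • 1 +
        (-(a * (s * p * (1 - (1 - p) ^ (12 * s))))) • Bm n := by
      rw [hM, hG, Mm]
      module
    rw [e]
    refine (norm_add_le _ _).trans ?_
    rw [norm_smul, norm_smul, norm_neg]
    have c1 : ‖(1 - p) ^ (6 * s) - 1 + 6 * s * p‖ ≤ 36 * (s * p) ^ 2 := by
      rw [Real.norm_eq_abs, abs_le]
      constructor
      · have h36 : 0 ≤ 36 * (s * p) ^ 2 := by positivity
        linarith only [h36, hb6]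
      · linarith only [hu6]
    have c2 : ‖a * (s * p * (1 - (1 - p) ^ (12 * s)))‖ ≤ 24 * (s * p) ^ 2 := by
      have d1 : 0 ≤ 1 - (1 - p) ^ (12 * s) := by linarith
      have d2 : 1 - (1 - p) ^ (12 * s) ≤ 12 * (s * p) := by linarith
      have d3 : 0 ≤ s * p := mul_nonneg hs0 h0
      rw [Real.norm_of_nonneg (by positivity)]
      calc a * (s * p * (1 - (1 - p) ^ (12 * s))) ≤ 2 * (s * p * (12 * (s * p))) := by gcongr
        _ = _ := by ring
    have c3 : 0 ≤ ‖(1 - p) ^ (6 * s) - 1 + 6 * s * p‖ := norm_nonneg _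
    have c4 : 0 ≤ ‖a * (s * p * (1 - (1 - p) ^ (12 * s)))‖ := norm_nonneg _
    linarith only [mul_le_mul_of_nonneg_left hone c3, mul_le_mul_of_nonneg_left hB c4, c1, c2]
  have hexp1 : 1 ≤ Real.exp (18 * s * p) := Real.one_le_exp (by positivity)
  have hMn : ‖M‖ ≤ Real.exp (18 * s * p) := by
    have hM1 : ‖M‖ ≤ 1 + 12 * s * p := by
      rw [hM, Mm]
      refine (norm_add_le _ _).trans ?_
      rw [norm_smul, norm_smul, Real.norm_of_nonneg hp6, Real.norm_of_nonneg (by positivity)]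
      have c1 : (1 - p) ^ (6 * s) * ‖(1 : Matrix (Tor n) (Tor n) ℝ)‖ ≤ 1 * 1 := by gcongr
      have c2 : a * (s * p * (1 - p) ^ (12 * s)) * ‖Bm n‖ ≤ 2 * (s * p * 1) * 6 := by gcongr
      linarith
    have h3 := Real.add_one_le_exp (18 * s * p)
    have hsp : 0 ≤ (s : ℝ) * p := mul_nonneg hs0 h0
    linarith only [hM1, h3, hsp]
  have hTn : ‖1 + p • G‖ ≤ Real.exp (18 * s * p) := by
    refine (norm_add_le _ _).trans ?_
    rw [norm_smul, Real.norm_of_nonneg h0]
    have h3 := Real.add_one_le_exp (18 * s * p)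
    have := mul_le_mul_of_nonneg_left hGn h0
    linarith
  have hpow := Trot.norm_pow_sub_pow_le hexp1 hMn hTn m hone
  have hdisc := Disc.disc_bound hone [G] h0 (c := 18 * s) (by simpa using hGn) m
  simp only [List.map_cons, List.map_nil, List.prod_cons, List.prod_nil, mul_one, List.sum_cons,
    List.sum_nil, add_zero] at hdisc
  have h5 := entry_le_norm (M ^ m - exp ((m * p : ℝ) • G)) x y
  rw [Matrix.sub_apply] at h5
  refine h5.trans ?_
  have e : M ^ m - exp ((m * p : ℝ) • G) =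
      (M ^ m - (1 + p • G) ^ m) + ((1 + p • G) ^ m - exp ((m * p : ℝ) • G)) := by abel
  rw [e]
  refine (norm_add_le _ _).trans (add_le_add (hpow.trans ?_) hdisc)
  have h6 : (m : ℝ) * Real.exp (18 * s * p) ^ m * ‖M - (1 + p • G)‖ ≤
      m * Real.exp (18 * s * p) ^ m * (180 * (s * p) ^ 2) := by gcongr
  refine h6.trans (le_of_eq ?_)
  ring

end Norm

/-- Lower bound for the lumped walk, in terms of the heat kernel. -/
theorem qS_lowerE {A : ℝ} (hA : 0 ≤ A) {n : ℕ} [NeZero n] {s : ℕ} (hs1 : 1 ≤ s) {β : ℝ}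
    (hβ : 0 < β) :
    ∃ N0 : ℕ, ∀ N : ℕ, N0 ≤ N → β ≤ N ∧ ∀ m ≤ N, ∀ t : ℝ, t = s * (m * (β / (2 * N))) → 1 ≤ t →
      ∀ J : ℕ, cJ A * t ≤ J → ∀ (x : Tor n) (z : Fin 3 → ℤ), (∀ i, |(z i : ℝ)| ≤ A * √t) →
      exp (t • Lap n) x (x + fun i => (z i : ZMod n)) - (cK A / √t) ^ 3 / 2 ≤ ∑ j ∈ range J,
        qS ((1 - β / (2 * N)) ^ (6 * s)) (s * (β / (2 * N)) * (1 - β / (2 * N)) ^ (12 * s)) x m
          (x + fun i => (z i : ZMod n)) j := by
  have hs0 : (1 : ℝ) ≤ s := by exact_mod_cast hs1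
  have hcA := cK_pos A
  set K : ℝ := (180 + 648) * (s * β) ^ 2 * Real.exp (18 * s * β) with hK
  have hK0 : 0 ≤ K := by positivity
  set T0 : ℝ := (cK A / √(s * β / 2)) ^ 3 with hT0
  have hT0p : 0 < T0 := by
    have : 0 < √(s * β / 2) := Real.sqrt_pos.2 (by positivity)
    positivity
  refine ⟨max 1 (max ⌈β⌉₊ ⌈8 * K / T0⌉₊), fun N hN => ?_⟩
  have hN1 : 1 ≤ N := (le_max_left _ _).trans hN
  have hNβ : β ≤ N := (Nat.le_ceil β).trans
    (by exact_mod_cast ((le_max_left _ _).trans (le_max_right _ _)).trans hN)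
  refine ⟨hNβ, fun m hm t ht ht1 J hJ x z hz => ?_⟩
  have hNK : 8 * K / T0 ≤ N := (Nat.le_ceil _).trans
    (by exact_mod_cast ((le_max_right _ _).trans (le_max_right _ _)).trans hN)
  have hN0 : (0 : ℝ) < N := by exact_mod_cast hN1
  have hN1' : (1 : ℝ) ≤ N := by exact_mod_cast hN1
  set p : ℝ := β / (2 * N) with hp
  have hp0 : 0 ≤ p := by positivity
  have hp1 : p ≤ 1 := by
    rw [hp, div_le_one (by positivity)]
    linarith
  have hmN : (m : ℝ) ≤ N := by exact_mod_cast hm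
  have hm0 : (0 : ℝ) ≤ m := Nat.cast_nonneg m
  have hmβ := mul_le_mul_of_nonneg_right hmN hβ.le
  have h1β := mul_le_mul_of_nonneg_right hN1' hβ.le
  have hmp : (m : ℝ) * p ≤ β / 2 := by
    rw [hp, ← mul_div_assoc, div_le_iff₀ (mul_pos two_pos hN0)]
    linarith only [hmβ]
  have hm1p : ((m : ℝ) + 1) * p ≤ β := by
    rw [hp, ← mul_div_assoc, div_le_iff₀ (mul_pos two_pos hN0)]
    linarith only [hmβ, h1β]
  have htβ : t ≤ s * β / 2 := by
    rw [ht]
    linarith only [mul_le_mul_of_nonneg_left hmp (zero_le_one.trans hs0)]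
  have ht0 : 0 < t := by linarith only [ht1]
  set y : Tor n := x + fun i => (z i : ZMod n) with hy
  set T : ℝ := (cK A / √t) ^ 3 with hT
  have hTT : T0 ≤ T := by
    rw [hT0, hT]
    have h1 : 0 < √t := Real.sqrt_pos.2 ht0
    have h2 : √t ≤ √(s * β / 2) := Real.sqrt_le_sqrt htβ
    gcongr
  have hc0 : 0 ≤ (1 - p) ^ (6 * s) := pow_nonneg (sub_nonneg.2 hp1) _
  have hc1 : 0 ≤ s * p * (1 - p) ^ (12 * s) :=
    mul_nonneg (mul_nonneg (zero_le_one.trans hs0) hp0) (pow_nonneg (sub_nonneg.2 hp1) _)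
  -- the error of the discretization
  have herr : ∀ a : ℝ, 0 ≤ a → a ≤ 2 →
      |(Mm n ((1 - p) ^ (6 * s)) (a * (s * p * (1 - p) ^ (12 * s))) ^ m) x y -
        exp ((m * p : ℝ) • ((a * s) • Bm n - (6 * s : ℝ) • 1)) x y| ≤ T / 8 := by
    intro a ha ha2
    refine (disc_err ha ha2 hp0 hp1 m x y).trans ?_
    have e1 : Real.exp (18 * s * p) ^ m ≤ Real.exp (18 * s * β) := by
      rw [← Real.exp_nat_mul]
      refine Real.exp_le_exp.2 ?_
      have : (m : ℝ) * p ≤ β := by linarith only [hmp, hβ]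
      calc (m : ℝ) * (18 * s * p) = 18 * s * (m * p) := by ring
        _ ≤ 18 * s * β := by gcongr
    have e2 : Real.exp ((m + 1) * (p * (18 * s))) ≤ Real.exp (18 * s * β) := by
      refine Real.exp_le_exp.2 ?_
      calc ((m : ℝ) + 1) * (p * (18 * s)) = 18 * s * ((m + 1) * p) := by ring
        _ ≤ 18 * s * β := by gcongr
    have e3 : (m : ℝ) * (s * p) ^ 2 ≤ (s * β) ^ 2 / N := by
      have b0 : (m : ℝ) * p ≤ β := by linarith only [hmp, hβ]
      have b1 : p ≤ β / N := by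
        rw [hp]
        gcongr
        linarith only [hN0]
      calc (m : ℝ) * (s * p) ^ 2 = s ^ 2 * ((m * p) * p) := by ring
        _ ≤ s ^ 2 * (β * (β / N)) := by gcongr
        _ = _ := by ring
    calc 180 * (m : ℝ) * (s * p) ^ 2 * Real.exp (18 * s * p) ^ m +
          2 * m * (p * (18 * s)) ^ 2 * Real.exp ((m + 1) * (p * (18 * s)))
        = 180 * (m * (s * p) ^ 2) * Real.exp (18 * s * p) ^ m +
          648 * (m * (s * p) ^ 2) * Real.exp ((m + 1) * (p * (18 * s))) := by ring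
      _ ≤ 180 * ((s * β) ^ 2 / N) * Real.exp (18 * s * β) +
          648 * ((s * β) ^ 2 / N) * Real.exp (18 * s * β) := by gcongr
      _ = K / N := by rw [hK]; ring
      _ ≤ T0 / 8 := by
          rw [div_le_iff₀ hN0]
          rw [div_le_iff₀ hT0p] at hNK
          linarith only [hNK]
      _ ≤ T / 8 := by linarith only [hTT]
  have h1 := abs_le.1 (herr 1 (by norm_num) (by norm_num))
  have h2 := abs_le.1 (herr 2 (by norm_num) le_rfl)
  have g1 : (m * p : ℝ) • ((1 * s : ℝ) • Bm n - (6 * s : ℝ) • (1 : Matrix (Tor n) (Tor n) ℝ)) =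
      t • Lap n := by
    rw [Lap_eq, ht]
    module
  have g2 : (m * p : ℝ) • ((2 * s : ℝ) • Bm n - (6 * s : ℝ) • (1 : Matrix (Tor n) (Tor n) ℝ)) =
      t • ((2 : ℝ) • Lap n + (6 : ℝ) • 1) := by
    rw [Lap_eq, ht]
    module
  rw [g1, one_mul] at h1
  rw [g2] at h2
  have h3 := Lap_lower hA ht1 hz x
  have h4 := exp_two_le (n := n) ht0.le x y
  have h5 := half_pow_le ht1 hJ
  have hInv := inv_qS (n := n) hc0 hc1 x m
  have h6 := hInv.2.2 y J
  simp only at h6
  refine le_trans ?_ h6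
  have h7 : (1 / 2 : ℝ) ^ J * (Mm n ((1 - p) ^ (6 * s)) (2 * (s * p * (1 - p) ^ (12 * s))) ^ m) x y ≤
      (1 / 2 : ℝ) ^ J * (Real.exp (6 * t) + T / 8) :=
    mul_le_mul_of_nonneg_left (by linarith only [h2.2, h4]) (by positivity)
  have h8 : (1 / 2 : ℝ) ^ J * (T / 8) ≤ T / 8 := by
    have a1 : (1 / 2 : ℝ) ^ J ≤ 1 := pow_le_one₀ (by norm_num) (by norm_num)
    have a2 : 0 ≤ T / 8 := by linarith only [hTT, hT0p]
    exact mul_le_of_le_one_left a2 a1
  linarith only [h1.1, h3, h5, h7, h8]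

theorem Bm_nonneg : Le 0 (Bm n) := by
  intro x y
  rw [Bm, Matrix.sum_apply]
  exact Finset.sum_nonneg fun i _ => add_nonneg (Sh_nonneg _ x y) (Sh_nonneg _ x y)

theorem Bm_add (x : Tor n) (i : Fin 3) : 1 ≤ Bm n x (x + Pi.single i 1) := by
  rw [Bm, Matrix.sum_apply]
  have h1 : (Sh (Pi.single i 1) + Sh (-Pi.single i 1) : Matrix (Tor n) (Tor n) ℝ) x
      (x + Pi.single i 1) ≤ ∑ c : Fin 3,
      (Sh (Pi.single c 1) + Sh (-Pi.single c 1) : Matrix (Tor n) (Tor n) ℝ) x
      (x + Pi.single i 1) :=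
    Finset.single_le_sum (f := fun c : Fin 3 =>
      (Sh (Pi.single c 1) + Sh (-Pi.single c 1) : Matrix (Tor n) (Tor n) ℝ) x
      (x + Pi.single i 1)) (fun c _ => by
        simp only [Matrix.add_apply]
        exact add_nonneg (Sh_nonneg _ _ _) (Sh_nonneg _ _ _))
      (mem_univ i)
  refine le_trans ?_ h1
  rw [Matrix.add_apply]
  have h2 : (Sh (Pi.single i 1) : Matrix (Tor n) (Tor n) ℝ) x (x + Pi.single i 1) = 1 := by
    simp [Sh]
  have h3 : (0 : ℝ) ≤ (Sh (-Pi.single i 1) : Matrix (Tor n) (Tor n) ℝ) x (x + Pi.single i 1) :=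
    Sh_nonneg _ _ _
  linarith

theorem Bm_sub (x : Tor n) (i : Fin 3) : 1 ≤ Bm n x (x - Pi.single i 1) := by
  rw [Bm, Matrix.sum_apply]
  have h1 : (Sh (Pi.single i 1) + Sh (-Pi.single i 1) : Matrix (Tor n) (Tor n) ℝ) x
      (x - Pi.single i 1) ≤ ∑ c : Fin 3,
      (Sh (Pi.single c 1) + Sh (-Pi.single c 1) : Matrix (Tor n) (Tor n) ℝ) x
      (x - Pi.single i 1) :=
    Finset.single_le_sum (f := fun c : Fin 3 =>
      (Sh (Pi.single c 1) + Sh (-Pi.single c 1) : Matrix (Tor n) (Tor n) ℝ) x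
      (x - Pi.single i 1)) (fun c _ => by
        simp only [Matrix.add_apply]
        exact add_nonneg (Sh_nonneg _ _ _) (Sh_nonneg _ _ _))
      (mem_univ i)
  refine le_trans ?_ h1
  rw [Matrix.add_apply]
  have h2 : (Sh (-Pi.single i 1) : Matrix (Tor n) (Tor n) ℝ) x (x - Pi.single i 1) = 1 := by
    simp [Sh, sub_eq_add_neg]
  have h3 : (0 : ℝ) ≤ (Sh (Pi.single i 1) : Matrix (Tor n) (Tor n) ℝ) x (x - Pi.single i 1) :=
    Sh_nonneg _ _ _
  linarith

theorem Bm_sq_diag [NeZero n] (x : Tor n) : 6 ≤ (Bm n ^ 2) x x := by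
  rw [pow_two, Matrix.mul_apply, sum_mul_Bm (fun v => Bm n x v)]
  unfold nb
  rw [Fin.sum_univ_three]
  linarith [Bm_add x 0, Bm_add x 1, Bm_add x 2, Bm_sub x 0, Bm_sub x 1, Bm_sub x 2]

theorem exp_Lap_eq [NeZero n] (t : ℝ) :
    exp (t • Lap n) = Real.exp (-(6 * t)) • exp (t • Bm n) := by
  have h1 : t • Lap n = t • Bm n + (-(6 * t)) • (1 : Matrix (Tor n) (Tor n) ℝ) := by
    rw [Lap_eq]
    module
  rw [h1, Matrix.exp_add_of_commute _ _ ((Commute.one_right _).smul_right _)]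
  have h2 : exp ((-(6 * t)) • (1 : Matrix (Tor n) (Tor n) ℝ)) = Real.exp (-(6 * t)) • 1 := by
    open scoped Matrix.Norms.Operator in
    rw [← Algebra.algebraMap_eq_smul_one, ← Algebra.algebraMap_eq_smul_one, Real.exp_eq_exp_ℝ]
    exact (algebraMap_exp_comm (-(6 * t))).symm
  rw [h2, mul_smul_comm, mul_one]

/-- The walk returns to its starting point after two moves with a fixed fraction. -/
theorem exp_Lap_diag [NeZero n] {t : ℝ} (ht : 1 ≤ t) (x : Tor n) :
    4 * Real.exp (-(6 * t)) ≤ exp (t • Lap n) x x := by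
  have ht0 : 0 ≤ t := by linarith
  have hX : Le 0 (t • Bm n) := by simpa using (Bm_nonneg (n := n)).smul ht0
  have h1 := exp_ge_sum hX {0, 2} x x
  rw [Finset.sum_pair (by norm_num), Matrix.add_apply, Matrix.smul_apply, Matrix.smul_apply,
    pow_zero, Matrix.one_apply_eq, smul_pow, Matrix.smul_apply] at h1
  simp only [Nat.factorial, smul_eq_mul] at h1
  have h2 := Bm_sq_diag (n := n) x
  have h3 : 4 ≤ exp (t • Bm n) x x := by
    have h4 : (1 : ℝ) * 6 ≤ t ^ 2 * (Bm n ^ 2) x x :=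
      mul_le_mul (by nlinarith) h2 (by norm_num) (by positivity)
    norm_num at h1
    linarith
  rw [exp_Lap_eq, Matrix.smul_apply, smul_eq_mul, mul_comm]
  exact mul_le_mul_of_nonneg_left h3 (Real.exp_pos _).le

theorem qS_zero (c0 c1 : ℝ) (x0 : Tor n) (k : ℕ) (y : Tor n) :
    qS c0 c1 x0 k y 0 = c0 ^ k * (if y = x0 then 1 else 0) := by
  induction k with
  | zero => simp [qS, q0]
  | succ k ih =>
    simp only [qS, if_true, mul_zero, add_zero]
    rw [ih, pow_succ]
    ring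

/-- **Lower bound for the lumped walk with at least one move.** -/
theorem qS_lower1 {A : ℝ} (hA : 0 ≤ A) {n : ℕ} [NeZero n] {s : ℕ} (hs1 : 1 ≤ s) {β : ℝ}
    (hβ : 0 < β) :
    ∃ N0 : ℕ, ∀ N : ℕ, N0 ≤ N → ∀ m ≤ N, ∀ t : ℝ, t = s * (m * (β / (2 * N))) → 1 ≤ t →
      ∀ J : ℕ, cJ A * t ≤ J → ∀ (x : Tor n) (z : Fin 3 → ℤ), (∀ i, |(z i : ℝ)| ≤ A * √t) →
      (cK A / √t) ^ 3 / 4 ≤ ∑ j ∈ Ico 1 J,
        qS ((1 - β / (2 * N)) ^ (6 * s)) (s * (β / (2 * N)) * (1 - β / (2 * N)) ^ (12 * s)) x m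
          (x + fun i => (z i : ZMod n)) j := by
  have hcA := cK_pos A
  obtain ⟨N0, h⟩ := qS_lowerE hA (n := n) hs1 hβ
  refine ⟨max 1 N0, fun N hN m hm t ht ht1 J hJ x z hz => ?_⟩
  obtain ⟨hNβ, h'⟩ := h N ((le_max_right _ _).trans hN)
  have hN1 : (1 : ℝ) ≤ N := by exact_mod_cast (le_max_left _ _).trans hN
  have h1 := h' m hm t ht ht1 J hJ x z hz
  have h3 := Lap_lower hA ht1 hz x
  have ht0 : 0 < √t := Real.sqrt_pos.2 (by linarith)
  have hT : 0 < (cK A / √t) ^ 3 := by positivity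
  set p : ℝ := β / (2 * N) with hp
  have hp0 : 0 ≤ p := by positivity
  have hp1 : p ≤ 1 := by
    rw [hp, div_le_one (by positivity)]
    linarith
  have hJ0 : 0 < J := by
    rcases Nat.eq_zero_or_pos J with h0 | h0
    · subst h0
      rw [Finset.range_zero, Finset.sum_empty] at h1
      linarith
    · exact h0
  rw [Finset.range_eq_Ico, Finset.sum_eq_sum_Ico_succ_bot hJ0, zero_add, qS_zero] at h1
  by_cases hy : x + (fun i => (z i : ZMod n)) = x
  · rw [if_pos hy, mul_one] at h1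
    have h4 := exp_Lap_diag (n := n) ht1 x
    rw [hy] at h1 h3 ⊢
    have h5 : ((1 - p) ^ (6 * s)) ^ m ≤ Real.exp (-(6 * t)) := by
      have a1 : 1 - p ≤ Real.exp (-p) := by
        have := Real.add_one_le_exp (-p)
        linarith
      have a2 : 0 ≤ 1 - p := by linarith
      calc ((1 - p) ^ (6 * s)) ^ m = (1 - p) ^ (6 * s * m) := by rw [← pow_mul]
        _ ≤ Real.exp (-p) ^ (6 * s * m) := pow_le_pow_left₀ a2 a1 _
        _ = Real.exp (-(6 * t)) := by
          rw [← Real.exp_nat_mul, ht]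
          congr 1
          push_cast
          ring
    linarith
  · rw [if_neg hy, mul_zero, zero_add] at h1
    linarith

end

end Vale.Agent.P361.LRO.S3S.KerS
end

section

/-!
P361, block (1): the twisted partition function of the physical circuit is
`Tr (stepM ^ N * rotT)`.
-/

namespace Vale.Agent.P361.LRO

open Finset Matrix

noncomputable section

variable {V : Type} [Fintype V] [DecidableEq V]

theorem rotM_zero_zero : rotM 0 0 = 1 := by
  unfold rotM
  ext i j
  fin_cases i <;> fin_cases j <;> simp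

theorem rotM_zero_apply (θ : ℝ) (a b : Fin 2) :
    rotM θ 0 a b = if a = b then 1 + θ * (if a = 0 then 1 else -1) else 0 := by
  unfold rotM
  fin_cases a <;> fin_cases b <;> simp <;> ring

theorem rotM_symm (θ φ : ℝ) (a b : Fin 2) : rotM θ φ a b = rotM θ φ b a := by
  unfold rotM
  fin_cases a <;> fin_cases b <;> simp

/-- The diagonal slice. -/
def diaM (β : ℝ) (h : V → ℝ) (N : ℕ) : Matrix (V → Fin 2) (V → Fin 2) ℝ :=
  Matrix.diagonal fun σ : V → Fin 2 => ∏ x, (1 + β * h x / (2 * N) * if σ x = 0 then 1 else -1)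

theorem layM_phys (K β : ℝ) (h : V → ℝ) (b : Finset V) (N : ℕ) (φ : ℝ) {k : ℕ} (h1 : 1 ≤ k)
    (h2 : k ≤ N) :
    Dict.layM (fun x => spA (th β N h (blk K b)) (hatb N b) φ (Fin.ofNat (N + 1) k, x)) =
      diaM β h N := by
  have hk : Fin.ofNat (N + 1) k ≠ 0 := by
    intro h0
    have h3 := congrArg Fin.val h0
    simp only [Fin.ofNat, Fin.val_zero] at h3
    rw [Nat.mod_eq_of_lt (by omega)] at h3
    omega
  ext σ τ
  unfold Dict.layM diaM
  rw [Matrix.of_apply, Matrix.diagonal_apply]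
  have h4 : ∀ x, spA (th β N h (blk K b)) (hatb N b) φ (Fin.ofNat (N + 1) k, x) (σ x) (τ x) =
      if σ x = τ x then 1 + β * h x / (2 * N) * (if σ x = 0 then 1 else -1) else 0 := by
    intro x
    unfold spA hatb
    rw [if_neg (by
      simp only [Finset.mem_product, Finset.mem_singleton, not_and]
      exact fun h5 => absurd h5 hk)]
    rw [rotM_zero_apply]
    unfold th
    simp only [if_neg hk]
  simp only [h4]
  by_cases hst : σ = τ
  · subst hst
    simp
  · rw [if_neg hst]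
    obtain ⟨x, hx⟩ := Function.ne_iff.1 hst
    exact Finset.prod_eq_zero (Finset.mem_univ x) (if_neg hx)

theorem layM_zero (K β : ℝ) (h : V → ℝ) (b : Finset V) (N : ℕ) (φ : ℝ) :
    Dict.layM (fun x => spA (th β N h (blk K b)) (hatb N b) φ (0, x)) =
      rotT b (Real.tanh (K / (2 * b.card))) φ := by
  ext σ τ
  unfold Dict.layM rotT
  rw [Matrix.of_apply, Matrix.of_apply]
  refine Finset.prod_congr rfl fun x _ => ?_
  unfold spA hatb th blk
  by_cases hx : x ∈ b
  · simp [hx]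
  · simp only [Finset.mem_product, Finset.mem_singleton, hx, and_false, if_false, if_true]
    rw [rotM_zero_zero, Matrix.one_apply]

theorem swapM_transposeR (x y : V) : (swapM x y)ᵀ = swapM x y := by
  ext σ τ
  unfold swapM
  rw [Matrix.transpose_apply, Matrix.of_apply, Matrix.of_apply]
  congr 1
  apply propext
  constructor
  · rintro rfl
    funext z
    simp
  · rintro rfl
    funext z
    simp

theorem gatM_transpose (L : List (V × V)) (p : ℝ) :
    (Dict.gatM L p : Matrix (V → Fin 2) (V → Fin 2) ℝ)ᵀ =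
      (L.map fun e => (1 - p) • (1 : Matrix (V → Fin 2) (V → Fin 2) ℝ) + p • swapM e.1 e.2).prod := by
  unfold Dict.gatM
  rw [Matrix.transpose_list_prod]
  congr 1
  rw [List.map_map, ← List.map_reverse, List.reverse_reverse]
  refine List.map_congr_left fun e _ => ?_
  simp only [Function.comp_apply]
  unfold Dict.gatR
  rw [Dict.swapR_real, Matrix.transpose_add, Matrix.transpose_smul, Matrix.transpose_smul,
    Matrix.transpose_one, swapM_transposeR]

theorem rotT_transpose (b : Finset V) (t φ : ℝ) : (rotT b t φ)ᵀ = rotT b t φ := by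
  ext σ τ
  unfold rotT
  rw [Matrix.transpose_apply, Matrix.of_apply, Matrix.of_apply]
  refine Finset.prod_congr rfl fun x _ => ?_
  split_ifs with h1 h2 h3
  · exact rotM_symm _ _ _ _
  · rfl
  · exact absurd h2.symm h3
  · rename_i h4
    exact absurd h4.symm h2
  · rfl

/-- **Twisted dictionary for the physical circuit.** -/
theorem Zf_phys (L : List (V × V)) (β : ℝ) (h : V → ℝ) (K : ℝ) (b : Finset V) (N : ℕ) (φ : ℝ) :
    Zf (phys L β N) (th β N h (blk K b)) (hatb N b) φ =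
      Matrix.trace (stepM L β h N ^ N * rotT b (Real.tanh (K / (2 * b.card))) φ) := by
  rw [Zf_eq_NZ, Dict.NZ_phys, layM_zero]
  rw [Dict.down_congr (g := fun _ => diaM β h N * Dict.gatM L (β / (2 * N))) (fun k h1 h2 => by
    rw [layM_phys K β h b N φ h1 h2]), Dict.down_const]
  rw [← Matrix.trace_transpose, Matrix.transpose_mul, Matrix.transpose_pow, Matrix.transpose_mul,
    gatM_transpose, rotT_transpose, Matrix.trace_mul_comm]
  unfold diaM
  rw [Matrix.diagonal_transpose]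
  rfl

end

end Vale.Agent.P361.LRO
end

section

/-!
P361, block (1): assembly.
-/

namespace Vale.Agent.P361.LRO

open Finset Matrix Filter Topology

noncomputable section

variable {V : Type} [Fintype V] [DecidableEq V]

theorem Zf_nonneg {X : Type} [Fintype X] [DecidableEq X] {μ : Equiv.Perm X → ℝ} {θ : X → ℝ}
    (hμ : ∀ π, 0 ≤ μ π) (hθ : ∀ x, 0 ≤ θ x) (hZ : 0 < ZZ μ θ) (hst : Stable μ θ) (b : Finset X)
    (φ : ℝ) : 0 ≤ Zf μ θ b φ := by
  obtain ⟨ι, hι, p, hp0, hp1, hF⟩ := exists_factor (FP μ θ b) (by rw [FP_eval_one]; exact hZ)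
    (FP_roots hμ hθ hZ hst b)
  rw [← FP_eval_cos, hF]
  exact zt_nonneg (by rw [FP_eval_one]; exact hZ.le) hp0 hp1 (Real.neg_one_le_cos φ)

/-- The law of the physical circuit. -/
theorem isLaw_phys' (L : List (V × V)) {β : ℝ} (hβ : 0 ≤ β) {N : ℕ} (hN : β ≤ N) :
    IsLaw (phys L β N) := by
  refine ⟨_, _, ?_, rfl⟩
  intro g hg
  unfold gates at hg
  rw [List.mem_flatMap] at hg
  obtain ⟨k, -, hk⟩ := hg
  rw [List.mem_map] at hk
  obtain ⟨e, -, rfl⟩ := hk
  rcases Nat.eq_zero_or_pos N with h0 | h0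
  · subst h0
    simp
  · have hN' : (0 : ℝ) < N := by exact_mod_cast h0
    constructor
    · positivity
    · show β / (2 * N) ≤ 1 / 2
      rw [div_le_iff₀ (by positivity)]
      linarith

end

end Vale.Agent.P361.LRO
end

section

/-!
P361, stage R1/R2, block (1'): moments of the block twist, scalar part.
-/

namespace Vale.Agent.P361.LRO.Bloch

open Finset MeasureTheory intervalIntegral

/-- One step: `κ ∫ (1-t)^(m+1) Z ≤ (m+1) ∫ (1-t)^m Z`. -/
theorem zint_step {ι : Type*} [Fintype ι] {c : ℝ} {p : ι → ℝ} (hc : 0 ≤ c)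
    (hp0 : ∀ j, 0 ≤ p j) (hp1 : ∀ j, p j ≤ 1 / 2) (m : ℕ) :
    (∑ j, p j) * ∫ t in (-1 : ℝ)..1, (1 - t) ^ (m + 1) * zt c p t ≤
      (m + 1 : ℕ) * ∫ t in (-1 : ℝ)..1, (1 - t) ^ m * zt c p t := by
  classical
  have hcz := continuous_zt c p
  set D : ℝ → ℝ := fun t => c * ∑ j, (∏ i ∈ univ.erase j, (1 - p i * (1 - t))) * p j with hD
  have hcD : Continuous D := by
    rw [hD]
    refine continuous_const.mul (continuous_finsetSum _ fun j _ => ?_)
    exact (continuous_finsetProd _ fun i _ => by fun_prop).mul continuous_const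
  have hder : ∀ t, HasDerivAt (zt c p) (D t) t := fun t => hasDerivAt_zt c p t
  have hge : ∀ t ∈ Set.Icc (-1 : ℝ) 1, (∑ j, p j) * zt c p t ≤ D t := by
    intro t ht
    rw [hD]
    simp only
    unfold zt
    rw [← mul_assoc, mul_comm (∑ j, p j) c, mul_assoc]
    refine mul_le_mul_of_nonneg_left ?_ hc
    rw [sum_mul]
    refine sum_le_sum fun j _ => ?_
    rw [← mul_prod_erase univ _ (mem_univ j)]
    have hf : ∀ i, 0 ≤ 1 - p i * (1 - t) := by
      intro i
      have := hp0 i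
      have := hp1 i
      have := ht.1
      have := ht.2
      nlinarith
    have hprod : 0 ≤ ∏ i ∈ univ.erase j, (1 - p i * (1 - t)) := prod_nonneg fun i _ => hf i
    have hle : 1 - p j * (1 - t) ≤ 1 := by
      have := hp0 j
      have := ht.2
      nlinarith
    have := mul_le_mul_of_nonneg_right hle hprod
    nlinarith [hp0 j]
  have hpow : ∀ t : ℝ, HasDerivAt (fun t : ℝ => (1 - t) ^ (m + 1))
      (-((m + 1 : ℕ) * (1 - t) ^ m)) t := by
    intro t
    have h1 : HasDerivAt (fun t : ℝ => 1 - t) (-1) t := by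
      simpa using (hasDerivAt_id t).const_sub 1
    have h2 := h1.pow (m + 1)
    have h3 : -((m + 1 : ℕ) * (1 - t) ^ m) = ((m + 1 : ℕ) : ℝ) * (1 - t) ^ (m + 1 - 1) * -1 := by
      rw [Nat.add_sub_cancel]; ring
    rw [h3]
    exact h2
  have hparts : ∫ t in (-1 : ℝ)..1, ((-((m + 1 : ℕ) * (1 - t) ^ m)) * zt c p t +
      (1 - t) ^ (m + 1) * D t) =
      (1 - 1) ^ (m + 1) * zt c p 1 - (1 - (-1)) ^ (m + 1) * zt c p (-1) := by
    have h : ∀ t ∈ Set.uIcc (-1 : ℝ) 1, HasDerivAt (fun t => (1 - t) ^ (m + 1) * zt c p t)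
        ((-((m + 1 : ℕ) * (1 - t) ^ m)) * zt c p t + (1 - t) ^ (m + 1) * D t) t := by
      intro t _
      exact (hpow t).mul (hder t)
    have hint : IntervalIntegrable (fun t => (-((m + 1 : ℕ) * (1 - t) ^ m)) * zt c p t +
        (1 - t) ^ (m + 1) * D t) volume (-1) 1 := by
      apply Continuous.intervalIntegrable
      fun_prop
    exact intervalIntegral.integral_eq_sub_of_hasDerivAt h hint
  have i1 : IntervalIntegrable (fun t => (-((m + 1 : ℕ) * (1 - t) ^ m)) * zt c p t)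
      volume (-1) 1 := by
    apply Continuous.intervalIntegrable; fun_prop
  have i2 : IntervalIntegrable (fun t => (1 - t) ^ (m + 1) * D t) volume (-1) 1 := by
    apply Continuous.intervalIntegrable; fun_prop
  rw [intervalIntegral.integral_add i1 i2] at hparts
  have e1 : ∫ t in (-1 : ℝ)..1, (-((m + 1 : ℕ) * (1 - t) ^ m)) * zt c p t =
      -((m + 1 : ℕ) * ∫ t in (-1 : ℝ)..1, (1 - t) ^ m * zt c p t) := by
    rw [← intervalIntegral.integral_const_mul, ← intervalIntegral.integral_neg]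
    congr 1
    funext t
    ring
  rw [e1] at hparts
  have hmono : ∫ t in (-1 : ℝ)..1, (∑ j, p j) * ((1 - t) ^ (m + 1) * zt c p t) ≤
      ∫ t in (-1 : ℝ)..1, (1 - t) ^ (m + 1) * D t := by
    refine intervalIntegral.integral_mono_on (by norm_num) ?_ i2 ?_
    · apply Continuous.intervalIntegrable; fun_prop
    · intro t ht
      have h1 := hge t ht
      have h2 : 0 ≤ (1 - t) ^ (m + 1) := pow_nonneg (by linarith [ht.2]) _
      nlinarith [mul_le_mul_of_nonneg_left h1 h2]
  rw [intervalIntegral.integral_const_mul] at hmono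
  have hz : 0 ≤ zt c p (-1) := zt_nonneg hc hp0 hp1 le_rfl
  have hz2 : 0 ≤ (1 - (-1 : ℝ)) ^ (m + 1) * zt c p (-1) := mul_nonneg (by norm_num) hz
  have hz3 : (1 - (1 : ℝ)) ^ (m + 1) * zt c p 1 = 0 := by simp
  linarith

/-- `κ^m ∫ (1-t)^m Z ≤ m! ∫ Z`. -/
theorem zint_pow {ι : Type*} [Fintype ι] {c : ℝ} {p : ι → ℝ} (hc : 0 ≤ c)
    (hp0 : ∀ j, 0 ≤ p j) (hp1 : ∀ j, p j ≤ 1 / 2) (m : ℕ) :
    (∑ j, p j) ^ m * ∫ t in (-1 : ℝ)..1, (1 - t) ^ m * zt c p t ≤
      (m.factorial : ℝ) * ∫ t in (-1 : ℝ)..1, zt c p t := by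
  induction m with
  | zero => simp
  | succ m ih =>
    have hk : 0 ≤ ∑ j, p j := sum_nonneg fun j _ => hp0 j
    have h1 := zint_step hc hp0 hp1 m
    have h2 := mul_le_mul_of_nonneg_left h1 (pow_nonneg hk m)
    have h3 := mul_le_mul_of_nonneg_left ih (Nat.cast_nonneg (α := ℝ) (m + 1))
    calc (∑ j, p j) ^ (m + 1) * ∫ t in (-1 : ℝ)..1, (1 - t) ^ (m + 1) * zt c p t
        = (∑ j, p j) ^ m * ((∑ j, p j) * ∫ t in (-1 : ℝ)..1, (1 - t) ^ (m + 1) * zt c p t) := by
          rw [pow_succ]; ring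
      _ ≤ (∑ j, p j) ^ m * ((m + 1 : ℕ) * ∫ t in (-1 : ℝ)..1, (1 - t) ^ m * zt c p t) := h2
      _ = ((m + 1 : ℕ) : ℝ) * ((∑ j, p j) ^ m * ∫ t in (-1 : ℝ)..1, (1 - t) ^ m * zt c p t) := by
          ring
      _ ≤ ((m + 1 : ℕ) : ℝ) * ((m.factorial : ℝ) * ∫ t in (-1 : ℝ)..1, zt c p t) := h3
      _ = ((m + 1).factorial : ℝ) * ∫ t in (-1 : ℝ)..1, zt c p t := by
          rw [Nat.factorial_succ]; push_cast; ring

variable {X : Type} [Fintype X] [DecidableEq X]

/-- **Moments of the block twist, `t`-form.** -/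
theorem kap_int_t_pow {μ : Equiv.Perm X → ℝ} {θ : X → ℝ} (hμ : ∀ π, 0 ≤ μ π)
    (hθ : ∀ x, 0 ≤ θ x) (hZ : 0 < ZZ μ θ) (hst : Stable μ θ) (b : Finset X) (m : ℕ) :
    KK μ θ (fun z => if z ∈ b then 1 else 0) ^ m *
        (∫ t in (-1 : ℝ)..1, (1 - t) ^ m * (FP μ θ b).eval t) ≤
      (m.factorial : ℝ) * ∫ t in (-1 : ℝ)..1, (FP μ θ b).eval t := by
  classical
  obtain ⟨ι, hι, p, hp0, hp1, hF⟩ := exists_factor (FP μ θ b) (by rw [FP_eval_one]; exact hZ)
    (FP_roots hμ hθ hZ hst b)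
  rw [FP_eval_one] at hF
  have hd1 : HasDerivAt (fun t => (FP μ θ b).eval t) ((FP μ θ b).derivative.eval 1) 1 :=
    (FP μ θ b).hasDerivAt 1
  have hd2 := hasDerivAt_zt (ZZ μ θ) p 1
  have hfun : (fun t => (FP μ θ b).eval t) = zt (ZZ μ θ) p := funext hF
  rw [hfun] at hd1
  have hd3 := hd1.unique hd2
  have hsum : ∑ j, p j = KK μ θ (fun z => if z ∈ b then 1 else 0) := by
    rw [KK_block, ← FP_deriv_one, hd3, eq_div_iff hZ.ne', mul_comm]
    congr 1
    refine sum_congr rfl fun j _ => ?_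
    simp
  have h := zint_pow hZ.le hp0 hp1 m
  rw [hsum] at h
  simp only [← hF] at h
  exact h

/-- **Moments of the block twist, angle form.** -/
theorem kap_int_pow {μ : Equiv.Perm X → ℝ} {θ : X → ℝ} (hμ : ∀ π, 0 ≤ μ π)
    (hθ : ∀ x, 0 ≤ θ x) (hZ : 0 < ZZ μ θ) (hst : Stable μ θ) (b : Finset X) (m : ℕ) :
    KK μ θ (fun z => if z ∈ b then 1 else 0) ^ m *
        (∫ φ in (0 : ℝ)..Real.pi, Real.sin φ * (1 - Real.cos φ) ^ m * Zf μ θ b φ) ≤
      (m.factorial : ℝ) * ∫ φ in (0 : ℝ)..Real.pi, Real.sin φ * Zf μ θ b φ := by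
  have hsub : ∀ g : ℝ → ℝ, Continuous g →
      (∫ φ in (0 : ℝ)..Real.pi, Real.sin φ * g (Real.cos φ)) = ∫ t in (-1 : ℝ)..1, g t := by
    intro g hg
    have h := integral_comp_mul_deriv (a := 0) (b := Real.pi) (f := Real.cos)
      (f' := fun φ => -Real.sin φ) (g := g) (fun x _ => Real.hasDerivAt_cos x)
      (by fun_prop) hg
    rw [Real.cos_zero, Real.cos_pi, integral_symm (-1 : ℝ) 1] at h
    have h2 : (∫ φ in (0 : ℝ)..Real.pi, (g ∘ Real.cos) φ * -Real.sin φ) =
        - ∫ φ in (0 : ℝ)..Real.pi, Real.sin φ * g (Real.cos φ) := by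
      rw [← intervalIntegral.integral_neg]
      refine integral_congr fun φ _ => ?_
      simp only [Function.comp]
      ring
    rw [h2] at h
    linarith
  have hc : Continuous fun t : ℝ => (FP μ θ b).eval t := (FP μ θ b).continuous
  have h1 := hsub (fun t => (FP μ θ b).eval t) hc
  have h2 := hsub (fun t => (1 - t) ^ m * (FP μ θ b).eval t) (by fun_prop)
  simp only [FP_eval_cos] at h1 h2
  have h3 := kap_int_t_pow hμ hθ hZ hst b m
  rw [← h1, ← h2] at h3
  simpa only [mul_assoc] using h3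

end Vale.Agent.P361.LRO.Bloch
end

section

/-!
P361, stage 3, block (1'): all moments of the block twist for the Gibbs state.
-/

namespace Vale.Agent.P361.LRO.Bloch

open Finset Matrix Filter Topology

noncomputable section

variable {V : Type} [Fintype V] [DecidableEq V]

/-- Limit of the moment inequality. -/
theorem twist_limit_pow {W : ℕ → Matrix (V → Fin 2) (V → Fin 2) ℝ}
    {W0 : Matrix (V → Fin 2) (V → Fin 2) ℝ} (hW : Tendsto W atTop (𝓝 W0)) (b : Finset V) (θ : ℝ)
    {k : ℕ → ℝ} {κ : ℝ} (hκ : 0 ≤ κ) (m : ℕ) (hk : ∃ᶠ N in atTop, κ ≤ k N)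
    (hpos : ∀ᶠ N in atTop, ∀ φ, 0 ≤ ZTw (W N) b θ φ)
    (hin : ∀ᶠ N in atTop, k N ^ m * (∫ φ in (0 : ℝ)..Real.pi,
        Real.sin φ * (1 - Real.cos φ) ^ m * ZTw (W N) b θ φ) ≤
      (m.factorial : ℝ) * ∫ φ in (0 : ℝ)..Real.pi, Real.sin φ * ZTw (W N) b θ φ) :
    κ ^ m * (∫ φ in (0 : ℝ)..Real.pi, Real.sin φ * (1 - Real.cos φ) ^ m * ZTw W0 b θ φ) ≤
      (m.factorial : ℝ) * ∫ φ in (0 : ℝ)..Real.pi, Real.sin φ * ZTw W0 b θ φ := by
  have h1 := (tendsto_int_ZTw hW b θ (g := fun φ => Real.sin φ * (1 - Real.cos φ) ^ m)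
    (by fun_prop)).const_mul (κ ^ m)
  have h2 := (tendsto_int_ZTw hW b θ (g := Real.sin) (by fun_prop)).const_mul (m.factorial : ℝ)
  refine le_of_tendsto_of_tendsto_of_frequently h1 h2 ?_
  refine (hk.and_eventually (hpos.and hin)).mono fun N hN => ?_
  obtain ⟨h3, h4, h5⟩ := hN
  refine le_trans (mul_le_mul_of_nonneg_right (pow_le_pow_left₀ hκ h3 m) ?_) h5
  refine intervalIntegral.integral_nonneg Real.pi_pos.le fun φ hφ => ?_
  have h6 := Real.sin_nonneg_of_nonneg_of_le_pi hφ.1 hφ.2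
  have h7 : 0 ≤ 1 - Real.cos φ := by linarith [Real.cos_le_one φ]
  exact mul_nonneg (mul_nonneg h6 (pow_nonneg h7 m)) (h4 φ)

theorem tanh_nonneg' {x : ℝ} (hx : 0 ≤ x) : 0 ≤ Real.tanh x := by
  rw [Real.tanh_eq_sinh_div_cosh]
  exact div_nonneg (Real.sinh_nonneg_iff.2 hx) (Real.cosh_pos _).le

/-- For large `N` the physical circuit is a law and all parameters are in `[0, 1]`. -/
theorem phys_good (L : List (V × V)) {β : ℝ} (hβ : 0 < β) {h : V → ℝ} (hh : ∀ x, 0 ≤ h x) {K : ℝ}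
    (hK : 0 ≤ K) (b : Finset V) : ∀ᶠ N : ℕ in atTop, IsLaw (phys L β N) ∧
      ∀ z, 0 ≤ th β N h (blk K b) z ∧ th β N h (blk K b) z ≤ 1 := by
  have hT : 0 ≤ Real.tanh (K / (2 * b.card)) := tanh_nonneg' (by positivity)
  have hT1 : Real.tanh (K / (2 * b.card)) ≤ 1 := (Real.tanh_lt_one _).le
  have h1 : ∀ᶠ N : ℕ in atTop, β ≤ N := eventually_atTop.2 (by
    obtain ⟨n, hn⟩ := exists_nat_ge β
    exact ⟨n, fun m hm => hn.trans (by exact_mod_cast hm)⟩)
  have h2 : ∀ᶠ N : ℕ in atTop, β * (∑ x, h x) / 2 ≤ N := eventually_atTop.2 (by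
    obtain ⟨n, hn⟩ := exists_nat_ge (β * (∑ x, h x) / 2)
    exact ⟨n, fun m hm => hn.trans (by exact_mod_cast hm)⟩)
  filter_upwards [h1, h2, eventually_gt_atTop 0] with N hN1 hN2 hN0
  have hN' : (0 : ℝ) < N := by exact_mod_cast hN0
  refine ⟨isLaw_phys' L hβ.le hN1, fun z => ?_⟩
  unfold th
  split_ifs with hz
  · unfold blk
    split_ifs
    · exact ⟨hT, hT1⟩
    · exact ⟨le_rfl, zero_le_one⟩
  · constructor
    · exact div_nonneg (mul_nonneg hβ.le (hh _)) (by positivity)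
    · rw [div_le_one (by positivity)]
      have h3 : h z.2 ≤ ∑ x, h x := Finset.single_le_sum (fun x _ => hh x) (Finset.mem_univ _)
      have h4 : β * h z.2 ≤ β * ∑ x, h x := mul_le_mul_of_nonneg_left h3 hβ.le
      linarith

/-- **All moments of the block twist, Gibbs state.** -/
theorem twist_gibbs_pow (L : List (V × V)) {β : ℝ} (hβ : 0 < β) {h : V → ℝ} (hh : ∀ x, 0 ≤ h x)
    {K κ : ℝ} (hK : 0 ≤ K) (hκ0 : 0 ≤ κ) (b : Finset V)
    (hκ : ∃ᶠ N : ℕ in atTop, κ ≤ kap L β N h K b) (m : ℕ) :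
    κ ^ m * (∫ φ in (0 : ℝ)..Real.pi, Real.sin φ * (1 - Real.cos φ) ^ m *
        Matrix.trace (NormedSpace.exp (-β • ham L h) *
          rotT b (Real.tanh (K / (2 * b.card))) φ)) ≤
      (m.factorial : ℝ) * ∫ φ in (0 : ℝ)..Real.pi, Real.sin φ *
        Matrix.trace (NormedSpace.exp (-β • ham L h) *
          rotT b (Real.tanh (K / (2 * b.card))) φ) := by
  have hgood := phys_good L hβ hh hK b
  refine twist_limit_pow (stepM_tendsto L β h) b _ hκ0 m hκ ?_ ?_
  · filter_upwards [hgood] with N hN φ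
    obtain ⟨hl, ht⟩ := hN
    unfold ZTw
    rw [← Zf_phys]
    exact Zf_nonneg hl.nonneg (fun z => (ht z).1) (ZZ_pos hl fun z => (ht z).1)
      (SR.stable_of_isLaw hl ht) _ φ
  · filter_upwards [hgood] with N hN
    obtain ⟨hl, ht⟩ := hN
    unfold ZTw
    simp only [← Zf_phys]
    exact kap_int_pow hl.nonneg (fun z => (ht z).1) (ZZ_pos hl fun z => (ht z).1)
      (SR.stable_of_isLaw hl ht) _ m

end

end Vale.Agent.P361.LRO.Bloch
end
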