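import Mathlib
import Vale.Agent.P361.Bd6.B1
import Vale.Agent.P361.Bd6.B2

set_option linter.all false

section

/-!
P361, low-temperature order, block LOC (4), part A: Fourier transform on the cycles.
-/

namespace Vale.Agent.P361.LRO.Loc

open Finset Vale.Agent.P361.LRO

noncomputable section

variable {X : Type} [Fintype X] [DecidableEq X]

/-- Characters of `Fin 2`. -/
def ch (t a : Fin 2) : ℝ := if t = 1 ∧ a = 1 then -1 else 1

end

end Vale.Agent.P361.LRO.Loc
end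

section

/-! P361 / LRO / LOC by loops.
`Zp π θ = ∑_{s ∘ π = s} ∏_v (1 + θ_v s_v)` (weight of a full ring configuration), GKS positivity,
comparison under composition with one transposition, and the flipped weight. -/

namespace Vale.Agent.P361.LRO.Loop

open Finset Equiv

variable {N : Type*} [Fintype N] [DecidableEq N]

end Vale.Agent.P361.LRO.Loop
end

section

/-! P361 / LRO / LOC by loops, part 2: the flipped weight (two `σ¹` insertions). -/

namespace Vale.Agent.P361.LRO.Loop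

open Finset Equiv

variable {N : Type*} [Fintype N] [DecidableEq N]

end Vale.Agent.P361.LRO.Loop
end

section

/-! P361 / LRO / LOC by loops, part 3: change of basis (flips picture <-> `S³` picture). -/

namespace Vale.Agent.P361.LRO.Loop

open Finset Equiv Matrix

variable {X : Type} [Fintype X] [DecidableEq X]

noncomputable def Hh : Matrix (Fin 2) (Fin 2) ℝ := !![1/2, 1/2; 1/2, -1/2]

end Vale.Agent.P361.LRO.Loop
end

section

/-! P361 LRO LOC: bridge between `Loop` (spins in `ℤˣ`) and the interface `Loc` (spins in `Fin 2`). -/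

namespace Vale.Agent.P361.LRO.Loc

open Finset Vale.Agent.P361.LRO

variable {X : Type} [Fintype X] [DecidableEq X]

end Vale.Agent.P361.LRO.Loc
end

section

/-! P361 LRO LOC, leaf B: Griffiths on the cycles. -/

namespace Vale.Agent.P361.LRO.Loc

open Finset Vale.Agent.P361.LRO

end Vale.Agent.P361.LRO.Loc
end

section

/-!
P361 LRO, block (4): strand geometry of the physical circuit.
-/

namespace Vale.Agent.P361.LRO.Loc.Geo

open Finset Vale.Agent.P361.LRO

noncomputable section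

variable {X : Type} [Fintype X] [DecidableEq X]

end

end Vale.Agent.P361.LRO.Loc.Geo
end

section

/-!
P361 LRO, block (4): the pointwise lower bounds on the conductances of the physical circuit.
-/

namespace Vale.Agent.P361.LRO.Loc.Geo

open Finset Vale.Agent.P361.LRO

noncomputable section

section Gen

variable {X : Type} [Fintype X] [DecidableEq X]

end Gen

variable {V : Type} [Fintype V] [DecidableEq V]

/-- Gates in the layers `[lo, hi)` touching a site satisfying `Q`. -/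
def tch (N : ℕ) (Q : V → Prop) (lo hi : ℕ)
    (g : (Fin (N + 1) × V) × (Fin (N + 1) × V) × ℝ) : Prop :=
  lo ≤ (g.1.1 : ℕ) ∧ (g.1.1 : ℕ) < hi ∧ (Q g.1.2 ∨ Q g.2.1.2)

end

end Vale.Agent.P361.LRO.Loc.Geo
end

section

/-!
P361 LRO, block (6): the bumped profiles (helper660).
-/

namespace Vale.Agent.P361.LRO.Ind

open Finset Vale.Agent.P361.LRO

noncomputable section

section gm

variable {n : ℕ} [NeZero n]

theorem gm_bump_pos (lam : ℝ) (o : Tor n) (r : ℕ) (x : Tor n) : 0 < bump n lam o r x := Real.exp_pos _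

theorem gm_bump_le {lam : ℝ} (hl : 0 ≤ lam) (o : Tor n) (r : ℕ) (x : Tor n) :
    bump n lam o r x ≤ 1 := by
  unfold bump
  rw [Real.exp_le_one_iff]
  have : 0 ≤ lam * dist n o r x := mul_nonneg hl (Nat.cast_nonneg _)
  linarith

theorem gm_bump_mono {lam : ℝ} (hl : 0 ≤ lam) {r r' : ℕ} (h : r ≤ r') (o x : Tor n) :
    bump n lam o r x ≤ bump n lam o r' x := by
  unfold bump
  apply Real.exp_le_exp.2
  have h1 : (dist n o r' x : ℝ) ≤ dist n o r x := by exact_mod_cast gm_dist_anti h o x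
  have := mul_le_mul_of_nonneg_left h1 hl
  linarith

theorem gm_lipN {lam : ℝ} (hl : 0 ≤ lam) {r : ℕ} (hr : 1 ≤ r) (o : Tor n) :
    LipN n lam (bump n lam o r) := by
  intro x i
  obtain ⟨h1, h2⟩ := gm_dist_step hr o x i
  have h1' : (dist n o r (x + Pi.single i 1) : ℝ) ≤ dist n o r x + 1 := by exact_mod_cast h1
  have h2' : (dist n o r x : ℝ) ≤ dist n o r (x + Pi.single i 1) + 1 := by exact_mod_cast h2
  have k1 := mul_le_mul_of_nonneg_left h1' hl
  have k2 := mul_le_mul_of_nonneg_left h2' hl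
  unfold bump
  rw [← Real.exp_add, ← Real.exp_add]
  exact ⟨Real.exp_le_exp.2 (by linarith), Real.exp_le_exp.2 (by linarith)⟩

theorem gm_bump_cube {lam : ℝ} {o x : Tor n} {r : ℕ} (hr : r ≤ n) (hx : x ∈ cube n o r) :
    bump n lam o r x = 1 := by
  unfold bump
  rw [gm_dist_cube hr hx]
  simp

theorem gm_bump_ground {lam : ℝ} (hl : 0 ≤ lam) {o x : Tor n} {r s : ℕ} (hrs : r ≤ s)
    (hs : 8 * s ≤ n) (hx : x ∈ cube n (pt n o (4 * s) 0 0) s) :
    bump n lam o r x ≤ Real.exp (-(3 * lam * s)) := by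
  unfold bump
  apply Real.exp_le_exp.2
  have h1 : ((3 * s : ℕ) : ℝ) ≤ dist n o r x := by exact_mod_cast gm_dist_ground hrs hs hx
  have := mul_le_mul_of_nonneg_left h1 hl
  push_cast at this
  linarith

/-- the weight of the sites lowered in `HH r' → HH r` -/
theorem gm_lowered {lam : ℝ} (hl : 0 < lam) (o : Tor n) (h : Tor n → ℝ) {r r' : ℕ} (hr : r ≤ r') :
    ∑ x, (if HH n lam o r h x = HH n lam o r' h x then 0 else HH n lam o r' h x) ≤
      (r' + 2 / lam) ^ 3 := by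
  refine le_trans (Finset.sum_le_sum fun x _ => ?_) (sum_bump hl o r')
  split_ifs with hx
  · exact (gm_bump_pos lam o r' x).le
  · unfold HH at hx ⊢
    rcases le_total (h x) (bump n lam o r' x) with h2 | h2
    · rw [max_eq_right h2]
    · exact absurd (by
        rw [max_eq_left h2, max_eq_left ((gm_bump_mono hl.le hr o x).trans h2)]) hx

/-- the weight of the sites lowered in `HH r' → h` -/
theorem gm_lowered' {lam : ℝ} (hl : 0 < lam) (o : Tor n) (h : Tor n → ℝ) (r' : ℕ) :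
    ∑ x, (if h x = HH n lam o r' h x then 0 else HH n lam o r' h x) ≤
      (r' + 2 / lam) ^ 3 := by
  refine le_trans (Finset.sum_le_sum fun x _ => ?_) (sum_bump hl o r')
  split_ifs with hx
  · exact (gm_bump_pos lam o r' x).le
  · unfold HH at hx ⊢
    rcases le_total (h x) (bump n lam o r' x) with h2 | h2
    · rw [max_eq_right h2]
    · exact absurd (max_eq_left h2).symm hx

end gm

/-! ### The statements of PLAN.txt -/

theorem Fam_HH {n : ℕ} [NeZero n] {h0 lam : ℝ} (hlam : 0 ≤ lam) (o : Tor n)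
    {r : ℕ} (hr : 0 < r) {h : Tor n → ℝ} (hh : Fam n h0 lam h) :
    Fam n h0 lam (HH n lam o r h) :=
  hh.sup' (gm_lipN hlam hr o) (gm_bump_le hlam o r)

theorem Fam_one {n : ℕ} [NeZero n] {h0 lam : ℝ} (h1 : h0 ≤ 1) (hlam : 0 ≤ lam) :
    Fam n h0 lam (fun _ => 1) :=
  fam_const h1 le_rfl zero_le_one hlam

theorem HH_one {n : ℕ} [NeZero n] {h0 lam : ℝ} (hlam : 0 ≤ lam) (o : Tor n)
    {r : ℕ} (hr : r ≤ n) {h : Tor n → ℝ} (hh : Fam n h0 lam h) {x : Tor n} (hx : x ∈ cube n o r) :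
    HH n lam o r h x = 1 := by
  unfold HH
  rw [gm_bump_cube hr hx]
  exact max_eq_right (hh.le_one x)

theorem HH_mono {n : ℕ} [NeZero n] {lam : ℝ} (hlam : 0 ≤ lam) (o : Tor n)
    {r s : ℕ} (hr : r ≤ s) (h : Tor n → ℝ) (x : Tor n) :
    HH n lam o r h x ≤ HH n lam o s h x :=
  max_le_max le_rfl (gm_bump_mono hlam hr o x)

/-- total field of the lowered sites, from radius `s` to radius `r`. -/
theorem sum_lowered {n : ℕ} [NeZero n] {lam : ℝ} (hlam : 0 < lam) (o : Tor n)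
    {r s : ℕ} (hr : r ≤ s) (h : Tor n → ℝ) :
    ∑ x, (if HH n lam o r h x = HH n lam o s h x then 0 else HH n lam o s h x)
      ≤ (s + 2 / lam) ^ 3 := gm_lowered hlam o h hr

/-- total field of the lowered sites, from radius `s` to `h`. -/
theorem sum_lowered' {n : ℕ} [NeZero n] {lam : ℝ} (hlam : 0 < lam) (o : Tor n)
    (s : ℕ) (h : Tor n → ℝ) :
    ∑ x, (if h x = HH n lam o s h x then 0 else HH n lam o s h x)
      ≤ (s + 2 / lam) ^ 3 := gm_lowered' hlam o h s

/-- nothing is changed on the ground cube. -/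
theorem HH_ground {n : ℕ} [NeZero n] {h0 lam : ℝ} (hlam : 0 ≤ lam) (o : Tor n)
    {r s : ℕ} (hrs : r ≤ s) (hs : 8 * s ≤ n) {h : Tor n → ℝ} (hh : Fam n h0 lam h)
    (hsm : Real.exp (-(lam * (3 * s))) ≤ h0)
    {x : Tor n} (hx : x ∈ cube n (pt n o (4 * s) 0 0) s) : HH n lam o r h x = h x := by
  refine max_eq_left (((gm_bump_ground hlam hrs hs hx).trans ?_).trans (hh.ge x))
  have e : 3 * lam * (s : ℝ) = lam * (3 * s) := by ring
  rw [e]
  exact hsm

theorem disj_EG {n N : ℕ} [NeZero n] (o : Tor n) (b : Finset (Tor n)) {r s : ℕ} (hrs : r ≤ s)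
    (hs : 8 * s ≤ n) : Disjoint (EE6 n N o b r) (GG6 n N o s) := by
  rw [Finset.disjoint_left]
  rintro ⟨k, x⟩ h1 h2
  unfold GG6 at h2
  rw [mem_product, mem_filter] at h2
  obtain ⟨⟨-, hk⟩, hx⟩ := h2
  unfold EE6 at h1
  rw [mem_union, mem_product, mem_filter] at h1
  rcases h1 with h1 | ⟨-, h1⟩
  · unfold hatb at h1
    rw [mem_product, mem_singleton] at h1
    exact hk h1.1
  · have h3 := gm_dist_ground hrs hs hx
    rw [gm_dist_cube (by omega) h1] at h3
    have hs0 : s = 0 := by omega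
    subst hs0
    rw [gm_mem_cube (by omega)] at hx
    exact absurd (hx 0) (by omega)

theorem disj_hat {n N : ℕ} [NeZero n] (o : Tor n) (b : Finset (Tor n)) (s : ℕ) :
    Disjoint (hatb N b) (GG6 n N o s) := by
  rw [Finset.disjoint_left]
  rintro ⟨k, x⟩ h1 h2
  unfold GG6 at h2
  rw [mem_product, mem_filter] at h2
  unfold hatb at h1
  rw [mem_product, mem_singleton] at h1
  exact h2.1.2 h1.1

end

end Vale.Agent.P361.LRO.Ind
end

section

/-!
# P361 LRO, block (6), package C1: straight lines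
-/

namespace Vale.Agent.P361.LRO.Ind

open Finset

namespace Lines

theorem sum4 (s T : ℕ) (g : ℕ → ℕ → ℕ → ℕ → ℝ) :
    ∑ x ∈ range s, ∑ y ∈ range s, ∑ z ∈ range s, ∑ w ∈ range T, g x y z w =
      ∑ p ∈ range s ×ˢ range s ×ˢ range s ×ˢ range T, g p.1 p.2.1 p.2.2.1 p.2.2.2 := by
  rw [sum_product]
  refine sum_congr rfl fun x _ => ?_
  rw [sum_product]
  refine sum_congr rfl fun y _ => ?_
  rw [sum_product]

theorem line_le (s : ℕ) (f : ℕ → ℝ) {x : ℕ} (hx : x < s) :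
    (f x - f (x + 4 * s)) ^ 2 ≤ 4 * s * ∑ i ∈ range (5 * s - 1), (f (i + 1) - f i) ^ 2 := by
  have h1 : ∑ i ∈ range (4 * s), (f (x + (i + 1)) - f (x + i)) = f (x + 4 * s) - f x :=
    sum_range_sub (fun i => f (x + i)) (4 * s)
  have h2 := sq_sum_le_card_mul_sum_sq (s := range (4 * s))
    (f := fun i => f (x + (i + 1)) - f (x + i))
  rw [h1, card_range] at h2
  have h3 : ∑ i ∈ range (4 * s), (f (x + (i + 1)) - f (x + i)) ^ 2 =
      ∑ i ∈ Ico x (x + 4 * s), (f (i + 1) - f i) ^ 2 := by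
    rw [sum_Ico_eq_sum_range, Nat.add_sub_cancel_left]
    refine sum_congr rfl fun i _ => ?_
    rw [add_assoc]
  have h4 : ∑ i ∈ Ico x (x + 4 * s), (f (i + 1) - f i) ^ 2 ≤
      ∑ i ∈ range (5 * s - 1), (f (i + 1) - f i) ^ 2 := by
    refine sum_le_sum_of_subset_of_nonneg (fun i hi => ?_) fun i _ _ => sq_nonneg _
    rw [mem_Ico] at hi
    rw [mem_range]
    omega
  have h5 : (f x - f (x + 4 * s)) ^ 2 = (f (x + 4 * s) - f x) ^ 2 := by ring
  rw [h5]
  refine h2.trans ?_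
  rw [h3]
  push_cast
  exact mul_le_mul_of_nonneg_left h4 (by positivity)

theorem esp_ge (s T : ℕ) (U : ℕ → ℕ → ℕ → ℕ → ℝ) :
    ∑ y ∈ range s, ∑ z ∈ range s, ∑ w ∈ range T,
      ∑ x ∈ range (5 * s - 1), (U (x + 1) y z w - U x y z w) ^ 2 ≤ E4 (5 * s) T U := by
  have hss : range s ⊆ range (5 * s) := range_subset_range.2 (by omega)
  have h0 : ∑ y ∈ range s, ∑ z ∈ range s, ∑ w ∈ range T,
      ∑ x ∈ range (5 * s - 1), (U (x + 1) y z w - U x y z w) ^ 2 =
      ∑ x ∈ range (5 * s - 1), ∑ y ∈ range s, ∑ z ∈ range s, ∑ w ∈ range T,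
        (U (x + 1) y z w - U x y z w) ^ 2 :=
    ((sum_congr rfl fun y _ => sum_congr rfl fun z _ => sum_comm).trans
      (sum_congr rfl fun y _ => sum_comm)).trans sum_comm
  have h1 : ∑ x ∈ range (5 * s - 1), ∑ y ∈ range s, ∑ z ∈ range s, ∑ w ∈ range T,
        (U (x + 1) y z w - U x y z w) ^ 2 ≤
      ∑ x ∈ range (5 * s - 1), ∑ y ∈ range (5 * s), ∑ z ∈ range (5 * s), ∑ w ∈ range T,
        (U (x + 1) y z w - U x y z w) ^ 2 := by
    refine sum_le_sum fun x _ => ?_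
    refine (sum_le_sum fun y _ => sum_le_sum_of_subset_of_nonneg hss fun z _ _ =>
      sum_nonneg fun w _ => sq_nonneg _).trans ?_
    exact sum_le_sum_of_subset_of_nonneg hss fun y _ _ =>
      sum_nonneg fun z _ => sum_nonneg fun w _ => sq_nonneg _
  rw [h0]
  refine h1.trans ?_
  unfold E4 Esp Eti
  have h2 : 0 ≤ ∑ x ∈ range (5 * s), ∑ y ∈ range (5 * s - 1), ∑ z ∈ range (5 * s),
      ∑ w ∈ range T, (U x (y + 1) z w - U x y z w) ^ 2 :=
    sum_nonneg fun x _ => sum_nonneg fun y _ => sum_nonneg fun z _ => sum_nonneg fun w _ =>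
      sq_nonneg _
  have h3 : 0 ≤ ∑ x ∈ range (5 * s), ∑ y ∈ range (5 * s), ∑ z ∈ range (5 * s - 1),
      ∑ w ∈ range T, (U x y (z + 1) w - U x y z w) ^ 2 :=
    sum_nonneg fun x _ => sum_nonneg fun y _ => sum_nonneg fun z _ => sum_nonneg fun w _ =>
      sq_nonneg _
  have h4 : 0 ≤ ∑ x ∈ range (5 * s), ∑ y ∈ range (5 * s), ∑ z ∈ range (5 * s),
      ∑ w ∈ range (T - 1), (U x y z (w + 1) - U x y z w) ^ 2 :=
    sum_nonneg fun x _ => sum_nonneg fun y _ => sum_nonneg fun z _ => sum_nonneg fun w _ =>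
      sq_nonneg _
  linarith

end Lines

/-- straight lines. -/
theorem lines (s T : ℕ) (hs : 0 < s) (hT : 0 < T) (U : ℕ → ℕ → ℕ → ℕ → ℝ)
    (hU : ∀ x < s, ∀ y < s, ∀ z < s, ∀ w < T, U x y z w = 1) :
    (1 - (1 / ((s : ℝ) ^ 3 * T)) * ∑ x ∈ range s, ∑ y ∈ range s, ∑ z ∈ range s, ∑ w ∈ range T,
      U (x + 4 * s) y z w) ^ 2 ≤ 4 / (s * T) * E4 (5 * s) T U := by
  have hs' : (0 : ℝ) < s := by exact_mod_cast hs
  have hT' : (0 : ℝ) < T := by exact_mod_cast hT
  have hc : (0 : ℝ) < (s : ℝ) ^ 3 * T := by positivity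
  -- the quadruple sum of the differences
  have h1 : (s : ℝ) ^ 3 * T - ∑ x ∈ range s, ∑ y ∈ range s, ∑ z ∈ range s, ∑ w ∈ range T,
      U (x + 4 * s) y z w = ∑ x ∈ range s, ∑ y ∈ range s, ∑ z ∈ range s, ∑ w ∈ range T,
      (U x y z w - U (x + 4 * s) y z w) := by
    simp only [sum_sub_distrib]
    have : ∑ x ∈ range s, ∑ y ∈ range s, ∑ z ∈ range s, ∑ w ∈ range T, U x y z w =
        (s : ℝ) ^ 3 * T := by
      have e : ∑ x ∈ range s, ∑ y ∈ range s, ∑ z ∈ range s, ∑ w ∈ range T, U x y z w =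
          ∑ x ∈ range s, ∑ y ∈ range s, ∑ z ∈ range s, ∑ w ∈ range T, (1 : ℝ) :=
        sum_congr rfl fun x hx => sum_congr rfl fun y hy => sum_congr rfl fun z hz =>
          sum_congr rfl fun w hw => hU x (mem_range.1 hx) y (mem_range.1 hy) z (mem_range.1 hz) w
            (mem_range.1 hw)
      rw [e]
      simp only [sum_const, card_range, nsmul_eq_mul]
      ring
    rw [this]
  -- Cauchy-Schwarz
  have h2 : (∑ x ∈ range s, ∑ y ∈ range s, ∑ z ∈ range s, ∑ w ∈ range T,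
      (U x y z w - U (x + 4 * s) y z w)) ^ 2 ≤ (s : ℝ) ^ 3 * T *
      ∑ x ∈ range s, ∑ y ∈ range s, ∑ z ∈ range s, ∑ w ∈ range T,
        (U x y z w - U (x + 4 * s) y z w) ^ 2 := by
    rw [Lines.sum4, Lines.sum4]
    have := sq_sum_le_card_mul_sum_sq (s := range s ×ˢ range s ×ˢ range s ×ˢ range T)
      (f := fun p : ℕ × ℕ × ℕ × ℕ => U p.1 p.2.1 p.2.2.1 p.2.2.2 -
        U (p.1 + 4 * s) p.2.1 p.2.2.1 p.2.2.2)
    refine this.trans (le_of_eq ?_)
    congr 1
    simp only [card_product, card_range]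
    push_cast
    ring
  -- the lines
  have h3 : ∑ x ∈ range s, ∑ y ∈ range s, ∑ z ∈ range s, ∑ w ∈ range T,
      (U x y z w - U (x + 4 * s) y z w) ^ 2 ≤ 4 * (s : ℝ) ^ 2 * E4 (5 * s) T U := by
    have e1 : ∑ x ∈ range s, ∑ y ∈ range s, ∑ z ∈ range s, ∑ w ∈ range T,
        (U x y z w - U (x + 4 * s) y z w) ^ 2 ≤
        ∑ x ∈ range s, 4 * (s : ℝ) * ∑ y ∈ range s, ∑ z ∈ range s, ∑ w ∈ range T,
          ∑ i ∈ range (5 * s - 1), (U (i + 1) y z w - U i y z w) ^ 2 := by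
      refine sum_le_sum fun x hx => ?_
      rw [mul_sum]
      refine sum_le_sum fun y _ => ?_
      rw [mul_sum]
      refine sum_le_sum fun z _ => ?_
      rw [mul_sum]
      refine sum_le_sum fun w _ => ?_
      exact Lines.line_le s (fun i => U i y z w) (mem_range.1 hx)
    rw [sum_const, card_range, nsmul_eq_mul] at e1
    have e2 := mul_le_mul_of_nonneg_left (Lines.esp_ge s T U)
      (by positivity : (0 : ℝ) ≤ 4 * (s : ℝ) ^ 2)
    refine e1.trans (le_trans (le_of_eq ?_) e2)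
    ring
  have h4 : 1 - (1 / ((s : ℝ) ^ 3 * T)) * ∑ x ∈ range s, ∑ y ∈ range s, ∑ z ∈ range s,
      ∑ w ∈ range T, U (x + 4 * s) y z w =
      (∑ x ∈ range s, ∑ y ∈ range s, ∑ z ∈ range s, ∑ w ∈ range T,
        (U x y z w - U (x + 4 * s) y z w)) / ((s : ℝ) ^ 3 * T) := by
    rw [← h1, sub_div, div_self hc.ne']
    ring
  rw [h4, div_pow, div_le_iff₀ (by positivity)]
  refine h2.trans ((mul_le_mul_of_nonneg_left h3 hc.le).trans (le_of_eq ?_))
  field_simp

end Vale.Agent.P361.LRO.Ind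
end

section

/-!
# P361 LRO, block (6), S1: the top step (6a) (helper531)
-/

namespace Vale.Agent.P361.LRO.Ind

open Finset Vale.Agent.P361.LRO _root_.P361.LRO

/-- a sum over `range (m * W)`, block by block -/
theorem st_blocks (m W : ℕ) (g : ℕ → ℝ) :
    ∑ i ∈ range (m * W), g i = ∑ w ∈ range m, ∑ j ∈ range W, g (w * W + j) := by
  induction m with
  | zero => simp
  | succ m ih => rw [Nat.succ_mul, Finset.sum_range_add, ih, Finset.sum_range_succ]

/-- sum over the physical layers, window by window -/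
theorem st_layers {N W m : ℕ} (hN : N = m * W) (f : Fin (N + 1) → ℝ) :
    ∑ k ∈ univ.filter (fun k => k ≠ 0), f k = ∑ w ∈ range m, ∑ j ∈ range W, f (lay N W w j) := by
  have h1 : ∑ k ∈ univ.filter (fun k => k ≠ 0), f k = ∑ i : Fin N, f i.succ := by
    rw [Finset.sum_filter, Fin.sum_univ_succ]
    simp [Fin.succ_ne_zero]
  have h2 : ∑ i : Fin N, f i.succ =
      ∑ i ∈ range N, f (if h : 1 + i < N + 1 then ⟨1 + i, h⟩ else 0) := by
    rw [← Fin.sum_univ_eq_sum_range
      (fun i => f (if h : 1 + i < N + 1 then ⟨1 + i, h⟩ else 0)) N]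
    refine Finset.sum_congr rfl fun i _ => ?_
    have hi : 1 + (i : ℕ) < N + 1 := by have := i.isLt; omega
    rw [dif_pos hi]
    congr 1
    refine Fin.ext ?_
    simp [Fin.val_succ, add_comm]
  rw [h1, h2]
  have h3 := st_blocks m W (fun i => f (if h : 1 + i < N + 1 then ⟨1 + i, h⟩ else 0))
  rw [← hN] at h3
  rw [h3]
  refine Finset.sum_congr rfl fun w _ => Finset.sum_congr rfl fun j _ => ?_
  unfold lay
  simp only [add_assoc]

/-- layers of windows are physical -/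
theorem st_lay_ne {N W m : ℕ} (hN : N = m * W) {w j : ℕ} (hw : w < m) (hj : j < W) :
    (lay N W w j : Fin (N + 1)) ≠ 0 := by
  have h1 : (w + 1) * W ≤ m * W := Nat.mul_le_mul_right W hw
  rw [Nat.succ_mul] at h1
  have h2 : 1 + w * W + j < N + 1 := by omega
  unfold lay
  rw [dif_pos h2]
  intro h
  have := congrArg Fin.val h
  simp at this

end Vale.Agent.P361.LRO.Ind
end

section

/-!
P361, block twist, part 4: joint eigenvectors of the Casimir operator and `S³` of a block.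
-/

namespace Vale.Agent.P361.LRO.TwJ

set_option linter.all false

open Matrix Finset
open scoped ComplexOrder

variable {V : Type} [Fintype V] [DecidableEq V]

theorem st_conj (x : V) (A : M2) : (st x A)ᴴ = st x Aᴴ := by
  ext σ τ
  rw [Matrix.conjTranspose_apply, st_apply, st_apply, Matrix.conjTranspose_apply, star_mul']
  congr 1
  have : (∀ y, y ≠ x → τ y = σ y) ↔ (∀ y, y ≠ x → σ y = τ y) :=
    ⟨fun h y hy => (h y hy).symm, fun h y hy => (h y hy).symm⟩
  simp only [this]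
  split_ifs <;> simp

theorem Sg_conj (b : Finset V) (A : M2) : (Sg b A)ᴴ = Sg b Aᴴ := by
  simp only [Sg, Matrix.conjTranspose_sum, st_conj]

theorem sm_conj : smᴴ = sp := by
  ext i j; fin_cases i <;> fin_cases j <;> simp [sm, sp]

theorem sp_conj : spᴴ = sm := by
  ext i j; fin_cases i <;> fin_cases j <;> simp [sm, sp]

theorem sz_conj : szᴴ = sz := by
  ext i j; fin_cases i <;> fin_cases j <;> simp [sz]

/-- The Casimir operator `S_b²`. -/
noncomputable def Cas (b : Finset V) : Opr V :=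
  Sg b sm * Sg b sp + Sg b sz * Sg b sz + Sg b sz

theorem Cas_herm (b : Finset V) : (Cas b).IsHermitian := by
  rw [Matrix.IsHermitian, Cas]
  simp only [Matrix.conjTranspose_add, Matrix.conjTranspose_mul, Sg_conj, sm_conj, sp_conj,
    sz_conj]

theorem Sz_herm (b : Finset V) : (Sg b sz).IsHermitian := by
  rw [Matrix.IsHermitian, Sg_conj, sz_conj]

theorem Sz_Sm (b : Finset V) : Sg b sz * Sg b sm = Sg b sm * Sg b sz - Sg b sm := by
  have := Sg_comm b sz sm
  rw [comm_sz_sm] at this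
  have h2 : Sg b (-sm) = -Sg b sm := by
    have := Sg_smul b (-1) sm
    simpa using this
  rw [h2, sub_eq_iff_eq_add] at this
  rw [this]
  abel

theorem Sz_Sp (b : Finset V) : Sg b sz * Sg b sp = Sg b sp * Sg b sz + Sg b sp := by
  have := Sg_comm b sz sp
  rw [comm_sz_sp] at this
  rw [← sub_eq_iff_eq_add'.1 this]

theorem Sp_Sm (b : Finset V) :
    Sg b sp * Sg b sm = Sg b sm * Sg b sp + (2 : ℂ) • Sg b sz := by
  have := Sg_comm b sp sm
  rw [comm_sp_sm, Sg_smul] at this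
  rw [← sub_eq_iff_eq_add'.1 this]

theorem Cas_Sz (b : Finset V) : Cas b * Sg b sz = Sg b sz * Cas b := by
  have h1 := Sz_Sm b
  have h2 := Sz_Sp b
  set Z := Sg b sz
  set M := Sg b sm
  set Q := Sg b sp
  have h3 : Z * (M * Q) = M * Q * Z := by
    rw [← mul_assoc, h1, sub_mul, mul_assoc, h2]
    noncomm_ring
  rw [Cas]
  change (M * Q + Z * Z + Z) * Z = Z * (M * Q + Z * Z + Z)
  rw [mul_add, mul_add, h3]
  noncomm_ring

theorem Cas_Sp (b : Finset V) : Cas b * Sg b sp = Sg b sp * Cas b := by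
  have h1 := Sp_Sm b
  have h2 := Sz_Sp b
  set Z := Sg b sz
  set M := Sg b sm
  set Q := Sg b sp
  have h2' : Q * Z = Z * Q - Q := by rw [h2]; abel
  have h3 : Q * (M * Q) = M * Q * Q + (2 : ℂ) • (Z * Q) := by
    rw [← mul_assoc, h1, add_mul, Matrix.smul_mul]
  have h4 : Q * (Z * Z) = Z * Z * Q - (2 : ℂ) • (Z * Q) + Q := by
    rw [← mul_assoc, h2', sub_mul, mul_assoc, h2', mul_sub, two_smul]
    noncomm_ring
  rw [Cas]
  change (M * Q + Z * Z + Z) * Q = Q * (M * Q + Z * Z + Z)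
  rw [mul_add, mul_add, h3, h4, h2']
  noncomm_ring

/-- Squared norm. -/
theorem re_star_dot_nonneg (v : (V → Fin 2) → ℂ) : 0 ≤ (star v ⬝ᵥ v).re :=
  (Complex.le_def.1 (dotProduct_star_self_nonneg v)).1

theorem re_star_dot_pos {v : (V → Fin 2) → ℂ} (hv : v ≠ 0) : 0 < (star v ⬝ᵥ v).re := by
  refine lt_of_le_of_ne (re_star_dot_nonneg v) fun h => hv ?_
  have h1 := Complex.le_def.1 (dotProduct_star_self_nonneg v)
  apply dotProduct_star_self_eq_zero.1
  apply Complex.ext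
  · rw [← h]; rfl
  · rw [← h1.2]

theorem form_conj (X : Opr V) (v w : (V → Fin 2) → ℂ) :
    star v ⬝ᵥ (Xᴴ *ᵥ w) = star (X *ᵥ v) ⬝ᵥ w := by
  rw [Matrix.star_mulVec, Matrix.dotProduct_mulVec]

theorem form_sp (b : Finset V) (v w : (V → Fin 2) → ℂ) :
    star v ⬝ᵥ (Sg b sp *ᵥ w) = star (Sg b sm *ᵥ v) ⬝ᵥ w := by
  rw [← form_conj, Sg_conj, sm_conj]

theorem form_sm (b : Finset V) (v w : (V → Fin 2) → ℂ) :
    star v ⬝ᵥ (Sg b sm *ᵥ w) = star (Sg b sp *ᵥ v) ⬝ᵥ w := by
  rw [← form_conj, Sg_conj, sp_conj]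

/-- A joint eigenvector of the Casimir operator and `S³` lies on the ladder of a highest weight
vector. -/
theorem joint {b : Finset V} {k : ℝ} (hk : 0 ≤ k) {w : (V → Fin 2) → ℂ} (hw : w ≠ 0) {lam mu : ℂ}
    (h1 : Cas b *ᵥ w = lam • w) (h2 : Sg b sz *ᵥ w = mu • w) :
    ∃ N r p : ℕ, N + 2 * r = b.card ∧ p ≤ N ∧
      Cas b *ᵥ w = (((N : ℝ) / 2 * ((N : ℝ) / 2 + 1) : ℝ) : ℂ) • w ∧
      Sg b sz *ᵥ w = (((N : ℝ) / 2 - p : ℝ) : ℂ) • w ∧
      opA b k *ᵥ w = ((aN k N : ℝ) : ℂ) • w ∧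
      opB b k *ᵥ w = ((b0N k N - p * b1N k N : ℝ) : ℂ) • w := by
  classical
  -- the weight
  obtain ⟨σ0, hσ0⟩ := Function.ne_iff.1 hw
  have hmu : ∀ σ, w σ ≠ 0 → (b.card : ℂ) / 2 - (nb b σ : ℂ) = mu := by
    intro σ hσ
    have := congrFun h2 σ
    rw [Sz_eq, Matrix.mulVec_diagonal, Pi.smul_apply, smul_eq_mul] at this
    exact mul_right_cancel₀ hσ this
  set m := nb b σ0 with hm
  have hwm : Supp b m w := by
    intro σ hσ
    have h3 := hmu σ hσ
    have h4 := hmu σ0 hσ0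
    have h5 : ((nb b σ : ℤ) : ℂ) = ((m : ℤ) : ℂ) := by
      rw [hm]; linear_combination h4 - h3
    exact_mod_cast h5
  have hmu' : mu = (b.card : ℂ) / 2 - (m : ℂ) := (hmu σ0 hσ0).symm
  -- raising
  have hsupp : ∀ j : ℕ, Supp b (m - j) (Sg b sp ^ j *ᵥ w) := by
    intro j
    induction j with
    | zero => simpa using hwm
    | succ j ih =>
      rw [pow_succ', ← Matrix.mulVec_mulVec]
      have := (shift_Sp b).supp ih
      convert this using 1
      push_cast; ring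
  have hex : ∃ j : ℕ, Sg b sp ^ (j + 1) *ᵥ w = 0 := by
    refine ⟨m.toNat, ?_⟩
    by_contra hne
    obtain ⟨σ, hσ⟩ := Function.ne_iff.1 hne
    have h3 := hsupp (m.toNat + 1) σ hσ
    have h4 := nb_nonneg b σ
    have h5 := nb_nonneg b σ0
    have h6 := Int.toNat_of_nonneg h5
    push_cast at h3
    omega
  set p := Nat.find hex with hp
  have hp0 : Sg b sp ^ (p + 1) *ᵥ w = 0 := Nat.find_spec hex
  have hpj : ∀ j, j ≤ p → Sg b sp ^ j *ᵥ w ≠ 0 := by
    intro j hj
    cases j with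
    | zero => simpa using hw
    | succ j => exact Nat.find_min hex (by omega)
  set v := Sg b sp ^ p *ᵥ w with hv
  have hv0 : v ≠ 0 := hpj p le_rfl
  have hspv : Sg b sp *ᵥ v = 0 := by
    rw [hv, Matrix.mulVec_mulVec, ← pow_succ']
    exact hp0
  have hvs : Supp b (m - p) v := hsupp p
  obtain ⟨σ1, hσ1⟩ := Function.ne_iff.1 hv0
  have hr1 := hvs σ1 hσ1
  have hr0 := nb_nonneg b σ1
  set r := (m - p).toNat with hr
  have hr2 : (r : ℤ) = m - p := Int.toNat_of_nonneg (by omega)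
  rw [← hr2] at hvs
  have hSzv : Sg b sz *ᵥ v = (((b.card : ℂ) / 2 - r)) • v := by
    ext σ
    rw [Sz_eq, Matrix.mulVec_diagonal, Pi.smul_apply, smul_eq_mul]
    by_cases h0 : v σ = 0
    · rw [h0]; simp
    · rw [hvs σ h0]; push_cast; ring
  -- `n - 2 r ≥ 0`
  have hN0 : 2 * r ≤ b.card := by
    have h3 : star v ⬝ᵥ ((Sg b sp * Sg b sm) *ᵥ v) =
        ((b.card : ℂ) - 2 * r) * (star v ⬝ᵥ v) := by
      rw [Sp_Sm, Matrix.add_mulVec, ← Matrix.mulVec_mulVec, hspv, Matrix.mulVec_zero, zero_add,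
        Matrix.smul_mulVec, hSzv, smul_smul, dotProduct_smul, smul_eq_mul]
      ring
    have h4 : star v ⬝ᵥ ((Sg b sp * Sg b sm) *ᵥ v) = star (Sg b sm *ᵥ v) ⬝ᵥ (Sg b sm *ᵥ v) := by
      rw [← Matrix.mulVec_mulVec, form_sp]
    have h5 := re_star_dot_nonneg (Sg b sm *ᵥ v)
    rw [← h4, h3] at h5
    have h6 := re_star_dot_pos hv0
    have h7 : (((b.card : ℂ) - 2 * r) * (star v ⬝ᵥ v)).re =
        ((b.card : ℝ) - 2 * r) * (star v ⬝ᵥ v).re := by
      rw [Complex.mul_re]; simp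
    rw [h7] at h5
    have h8 : 0 ≤ (b.card : ℝ) - 2 * r := by
      by_contra hc
      push Not at hc
      nlinarith
    have : (2 * r : ℝ) ≤ b.card := by linarith
    exact_mod_cast this
  set N := b.card - 2 * r with hNdef
  have hN : N + 2 * r = b.card := by omega
  have hNr : (N : ℝ) = (b.card : ℝ) - 2 * r := by
    rw [← hN]; push_cast; ring
  have hNc : (b.card : ℂ) = (N : ℂ) + 2 * r := by rw [← hN]; push_cast; ring
  -- the Casimir eigenvalue
  have hCj : ∀ j : ℕ, Cas b *ᵥ (Sg b sp ^ j *ᵥ w) = lam • (Sg b sp ^ j *ᵥ w) := by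
    intro j
    induction j with
    | zero => simpa using h1
    | succ j ih =>
      rw [pow_succ', ← Matrix.mulVec_mulVec, Matrix.mulVec_mulVec _ (Cas b), Cas_Sp,
        ← Matrix.mulVec_mulVec, ih, Matrix.mulVec_smul]
  have hlam : lam = (N : ℂ) / 2 * ((N : ℂ) / 2 + 1) := by
    have h3 := hCj p
    rw [← hv, Cas, Matrix.add_mulVec, Matrix.add_mulVec, ← Matrix.mulVec_mulVec, hspv,
      Matrix.mulVec_zero, zero_add, ← Matrix.mulVec_mulVec, hSzv, Matrix.mulVec_smul, hSzv,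
      smul_smul, ← add_smul] at h3
    have h4 := congrFun h3 σ1
    rw [Pi.smul_apply, Pi.smul_apply, smul_eq_mul, smul_eq_mul] at h4
    have h5 := mul_right_cancel₀ hσ1 h4
    rw [← h5, hNc]; ring
  have hmuN : mu = (N : ℂ) / 2 - p := by
    rw [hmu', hNc]
    have : ((m : ℤ) : ℂ) = (r : ℂ) + p := by
      have : (m : ℤ) = r + p := by omega
      rw [this]; push_cast; ring
    rw [this]; ring
  have hSzj : ∀ j : ℕ, Sg b sz *ᵥ (Sg b sp ^ j *ᵥ w) = (mu + j) • (Sg b sp ^ j *ᵥ w) := by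
    intro j
    ext σ
    rw [Sz_eq, Matrix.mulVec_diagonal, Pi.smul_apply, smul_eq_mul]
    by_cases h0 : (Sg b sp ^ j *ᵥ w) σ = 0
    · rw [h0]; simp
    · rw [hsupp j σ h0, hmu']; push_cast; ring
  have hSmSp : ∀ j : ℕ, (Sg b sm * Sg b sp) *ᵥ (Sg b sp ^ j *ᵥ w) =
      (lam - (mu + j) * (mu + j) - (mu + j)) • (Sg b sp ^ j *ᵥ w) := by
    intro j
    have h3 : Sg b sm * Sg b sp = Cas b - Sg b sz * Sg b sz - Sg b sz := by
      rw [Cas]; abel
    rw [h3, Matrix.sub_mulVec, Matrix.sub_mulVec, hCj, ← Matrix.mulVec_mulVec, hSzj,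
      Matrix.mulVec_smul, hSzj, smul_smul, sub_smul, sub_smul]
  -- descending back to `w`
  have hkap : ∀ j : ℕ, j ≤ p → ∃ c : ℂ, c ≠ 0 ∧ Sg b sm ^ j *ᵥ (Sg b sp ^ j *ᵥ w) = c • w := by
    intro j
    induction j with
    | zero => intro _; exact ⟨1, one_ne_zero, by simp⟩
    | succ j ih =>
      intro hj
      obtain ⟨c, hc, hcw⟩ := ih (by omega)
      refine ⟨(lam - (mu + j) * (mu + j) - (mu + j)) * c, mul_ne_zero ?_ hc, ?_⟩
      · intro h0
        have h3 := hSmSp j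
        rw [h0, zero_smul] at h3
        have h4 : star (Sg b sp ^ j *ᵥ w) ⬝ᵥ ((Sg b sm * Sg b sp) *ᵥ (Sg b sp ^ j *ᵥ w)) =
            star (Sg b sp *ᵥ (Sg b sp ^ j *ᵥ w)) ⬝ᵥ (Sg b sp *ᵥ (Sg b sp ^ j *ᵥ w)) := by
          rw [← Matrix.mulVec_mulVec, form_sm]
        rw [h3, dotProduct_zero] at h4
        have h5 := dotProduct_star_self_eq_zero.1 h4.symm
        apply hpj (j + 1) hj
        rw [pow_succ', ← Matrix.mulVec_mulVec]
        exact h5
      · have h3 : Sg b sm ^ (j + 1) *ᵥ (Sg b sp ^ (j + 1) *ᵥ w) =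
            Sg b sm ^ j *ᵥ ((Sg b sm * Sg b sp) *ᵥ (Sg b sp ^ j *ᵥ w)) := by
          rw [Matrix.mulVec_mulVec, Matrix.mulVec_mulVec, Matrix.mulVec_mulVec, pow_succ,
            pow_succ']
          simp only [mul_assoc]
        rw [h3, hSmSp, Matrix.mulVec_smul, hcw, smul_smul]
  obtain ⟨c, hc, hcw⟩ := hkap p le_rfl
  rw [← hv] at hcw
  have hwv : w = c⁻¹ • (Sg b sm ^ p *ᵥ v) := by
    rw [hcw, smul_smul, inv_mul_cancel₀ hc, one_smul]
  refine ⟨N, r, p, hN, ?_, ?_, ?_, ?_, ?_⟩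
  · -- `p ≤ N`
    have h3 : star w ⬝ᵥ ((Sg b sp * Sg b sm) *ᵥ w) =
        (lam - mu * mu + mu) * (star w ⬝ᵥ w) := by
      have h4 := hSmSp 0
      simp only [pow_zero, Matrix.one_mulVec, Nat.cast_zero, add_zero] at h4
      rw [Sp_Sm, Matrix.add_mulVec, h4, Matrix.smul_mulVec, h2, smul_smul, ← add_smul,
        dotProduct_smul, smul_eq_mul]
      ring
    have h4 : star w ⬝ᵥ ((Sg b sp * Sg b sm) *ᵥ w) = star (Sg b sm *ᵥ w) ⬝ᵥ (Sg b sm *ᵥ w) := by
      rw [← Matrix.mulVec_mulVec, form_sp]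
    have h5 := re_star_dot_nonneg (Sg b sm *ᵥ w)
    rw [← h4, h3] at h5
    have h6 := re_star_dot_pos hw
    have h7 : lam - mu * mu + mu = ((((N : ℝ) - p) * (p + 1) : ℝ) : ℂ) := by
      rw [hlam, hmuN]; push_cast; ring
    rw [h7, Complex.re_ofReal_mul] at h5
    by_contra hc
    push Not at hc
    have h8 : (N : ℝ) < p := by exact_mod_cast hc
    have h9 : (((N : ℝ) - p) * (p + 1)) < 0 :=
      mul_neg_of_neg_of_pos (by linarith) (by positivity)
    nlinarith
  · rw [h1, hlam]; push_cast; rfl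
  · rw [h2, hmuN]; push_cast; rfl
  · conv_lhs => rw [hwv]
    rw [Matrix.mulVec_smul, opA_ladder hk hN hvs hspv, smul_comm, ← hwv]
  · conv_lhs => rw [hwv]
    rw [Matrix.mulVec_smul, opB_ladder hk hN hvs hspv, smul_comm, ← hwv]

end Vale.Agent.P361.LRO.TwJ
end

section

/-!
P361, block twist, part 5: the scalar averages `a(N)`, `b₀(N)`, `b₁(N)` and the scalar inequality.
-/

namespace Vale.Agent.P361.LRO.TwJ

set_option linter.all false

open MeasureTheory intervalIntegral Real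

theorem dd_le {k : ℝ} (hk : 0 ≤ k) (θ : ℝ) : dd k θ ≤ Real.exp (k / 2) := by
  have h1 : 0 ≤ Real.sinh (k / 2) := Real.sinh_nonneg_iff.2 (by linarith)
  have h2 := Real.cosh_add_sinh (k / 2)
  have h3 := Real.cos_le_one θ
  rw [dd]
  nlinarith

theorem cont_a (k : ℝ) (N : ℕ) : Continuous fun θ => 1 / 2 * Real.sin θ ^ 1 * dd k θ ^ N := by
  have := continuous_dd k
  fun_prop

theorem cont_b0 (k : ℝ) (N : ℕ) :
    Continuous fun θ => 1 / 2 * Real.cos θ * Real.sin θ ^ 1 * dd k θ ^ N := by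
  have := continuous_dd k
  fun_prop

theorem cont_b1 {k : ℝ} (hk : 0 ≤ k) (N : ℕ) :
    Continuous fun θ => 1 / 2 * Real.sin θ ^ 2 *
      (dd k θ ^ N * (Real.sinh (k / 2) * Real.sin θ / dd k θ)) := by
  have h1 := continuous_dd k
  have h2 : ∀ θ, dd k θ ≠ 0 := fun θ => (dd_pos hk θ).ne'
  exact (by fun_prop : Continuous fun θ => 1 / 2 * Real.sin θ ^ 2).mul
    ((h1.pow N).mul ((continuous_const.mul Real.continuous_sin).div h1 h2))

theorem aN_pos {k : ℝ} (hk : 0 ≤ k) (N : ℕ) : 0 < aN k N := by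
  refine intervalIntegral.intervalIntegral_pos_of_pos_on
    ((cont_a k N).intervalIntegrable _ _) (fun θ hθ => ?_) Real.pi_pos
  have h1 := Real.sin_pos_of_pos_of_lt_pi hθ.1 hθ.2
  have h2 := dd_pos hk θ
  positivity

theorem aN_le {k : ℝ} (hk : 0 ≤ k) {N n : ℕ} (h : N ≤ n) :
    aN k n ≤ Real.exp (k / 2 * (n - N : ℕ)) * aN k N := by
  rw [aN, aN, ← intervalIntegral.integral_const_mul]
  refine intervalIntegral.integral_mono_on Real.pi_pos.le
    ((cont_a k n).intervalIntegrable _ _)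
    (((cont_a k N).const_mul _).intervalIntegrable _ _) fun θ hθ => ?_
  have h1 := Real.sin_nonneg_of_nonneg_of_le_pi hθ.1 hθ.2
  have h2 := dd_pos hk θ
  have h3 : dd k θ ^ n = dd k θ ^ (n - N) * dd k θ ^ N := by
    rw [← pow_add, Nat.sub_add_cancel h]
  have h4 : dd k θ ^ (n - N) ≤ Real.exp (k / 2 * (n - N : ℕ)) := by
    rw [mul_comm, Real.exp_nat_mul]
    exact pow_le_pow_left₀ h2.le (dd_le hk θ) _
  rw [h3]
  have h5 : 0 ≤ 1 / 2 * Real.sin θ ^ 1 * dd k θ ^ N := by positivity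
  calc 1 / 2 * Real.sin θ ^ 1 * (dd k θ ^ (n - N) * dd k θ ^ N)
      = dd k θ ^ (n - N) * (1 / 2 * Real.sin θ ^ 1 * dd k θ ^ N) := by ring
    _ ≤ _ := mul_le_mul_of_nonneg_right h4 h5

theorem b1N_nonneg {k : ℝ} (hk : 0 ≤ k) (N : ℕ) : 0 ≤ b1N k N := by
  refine intervalIntegral.integral_nonneg Real.pi_pos.le fun θ hθ => ?_
  have h1 := Real.sin_nonneg_of_nonneg_of_le_pi hθ.1 hθ.2
  have h2 := dd_pos hk θ
  have h3 : 0 ≤ Real.sinh (k / 2) := Real.sinh_nonneg_iff.2 (by linarith)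
  positivity

theorem b0N_le {k : ℝ} (hk : 0 ≤ k) (N : ℕ) : b0N k N ≤ aN k N := by
  refine intervalIntegral.integral_mono_on Real.pi_pos.le
    ((cont_b0 k N).intervalIntegrable _ _) ((cont_a k N).intervalIntegrable _ _) fun θ hθ => ?_
  have h1 := Real.sin_nonneg_of_nonneg_of_le_pi hθ.1 hθ.2
  have h2 := dd_pos hk θ
  have h3 := Real.cos_le_one θ
  have h4 : 0 ≤ 1 / 2 * Real.sin θ ^ 1 * dd k θ ^ N := by positivity
  nlinarith

theorem hasDerivAt_dd (k θ : ℝ) : HasDerivAt (dd k) (Real.sinh (k / 2) * -Real.sin θ) θ :=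
  ((Real.hasDerivAt_cos θ).const_mul _).const_add _

theorem N_b1 {k : ℝ} (hk : 0 ≤ k) (N : ℕ) : (N : ℝ) * b1N k N = 2 * b0N k N := by
  have h1 : ∀ θ ∈ Set.uIcc (0 : ℝ) Real.pi, HasDerivAt (fun θ => dd k θ ^ N * Real.sin θ ^ 2)
      (-2 * N * (1 / 2 * Real.sin θ ^ 2 *
        (dd k θ ^ N * (Real.sinh (k / 2) * Real.sin θ / dd k θ))) +
        4 * (1 / 2 * Real.cos θ * Real.sin θ ^ 1 * dd k θ ^ N)) θ := by
    intro θ _
    have h2 := ((hasDerivAt_dd k θ).pow N).mul ((Real.hasDerivAt_sin θ).pow 2)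
    refine HasDerivAt.congr_deriv (f := fun θ => dd k θ ^ N * Real.sin θ ^ 2) h2 ?_
    have h3 := (dd_pos hk θ).ne'
    rcases N with _ | M
    · simp; ring
    · have : dd k θ ^ (M + 1) / dd k θ = dd k θ ^ M := by
        rw [pow_succ, mul_div_cancel_right₀ _ h3]
      simp only [Nat.add_sub_cancel, Pi.pow_apply]
      have h5 : dd k θ ^ (M + 1) * (Real.sinh (k / 2) * Real.sin θ / dd k θ) =
          dd k θ ^ M * (Real.sinh (k / 2) * Real.sin θ) := by
        rw [← this]; ring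
      rw [h5]
      push_cast
      ring
  have h2 := intervalIntegral.integral_eq_sub_of_hasDerivAt h1
    ((((cont_b1 hk N).const_mul _).add ((cont_b0 k N).const_mul _)).intervalIntegrable _ _)
  rw [intervalIntegral.integral_add (((cont_b1 hk N).const_mul _).intervalIntegrable _ _)
    (((cont_b0 k N).const_mul _).intervalIntegrable _ _), intervalIntegral.integral_const_mul,
    intervalIntegral.integral_const_mul] at h2
  simp only [Real.sin_pi, Real.sin_zero] at h2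
  change -2 * (N : ℝ) * b1N k N + 4 * b0N k N = _ at h2
  norm_num at h2
  linarith

theorem aN_mono_succ {k : ℝ} (hk : 0 ≤ k) (N : ℕ) : aN k N ≤ aN k (N + 1) := by
  have h0 : (∫ θ in (0 : ℝ)..Real.pi, 1 / 2 * Real.sin θ * (dd k θ - 1)) =
      Real.cosh (k / 2) - 1 := by
    have h1 : ∀ θ ∈ Set.uIcc (0 : ℝ) Real.pi,
        HasDerivAt (fun θ => -(1 / 2) * (Real.cosh (k / 2) - 1) * Real.cos θ +
          1 / 4 * Real.sinh (k / 2) * Real.sin θ ^ 2)
          (1 / 2 * Real.sin θ * (dd k θ - 1)) θ := by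
      intro θ _
      have h2 := ((Real.hasDerivAt_cos θ).const_mul (-(1 / 2) * (Real.cosh (k / 2) - 1))).add
        (((Real.hasDerivAt_sin θ).pow 2).const_mul (1 / 4 * Real.sinh (k / 2)))
      refine HasDerivAt.congr_deriv (f := fun θ => -(1 / 2) * (Real.cosh (k / 2) - 1) * Real.cos θ +
          1 / 4 * Real.sinh (k / 2) * Real.sin θ ^ 2) h2 ?_
      rw [dd]
      norm_num
      ring
    have hc := continuous_dd k
    rw [intervalIntegral.integral_eq_sub_of_hasDerivAt h1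
      ((by fun_prop : Continuous fun θ => 1 / 2 * Real.sin θ * (dd k θ - 1)).intervalIntegrable
        _ _)]
    simp
    ring
  have h1 : (∫ θ in (0 : ℝ)..Real.pi, 1 / 2 * Real.sin θ * (dd k θ - 1)) ≤
      aN k (N + 1) - aN k N := by
    rw [aN, aN, ← intervalIntegral.integral_sub ((cont_a k (N + 1)).intervalIntegrable _ _)
      ((cont_a k N).intervalIntegrable _ _)]
    have hc := continuous_dd k
    refine intervalIntegral.integral_mono_on Real.pi_pos.le
      ((by fun_prop : Continuous fun θ => 1 / 2 * Real.sin θ * (dd k θ - 1)).intervalIntegrable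
        _ _)
      (((cont_a k (N + 1)).sub (cont_a k N)).intervalIntegrable _ _) fun θ hθ => ?_
    have h2 := Real.sin_nonneg_of_nonneg_of_le_pi hθ.1 hθ.2
    have h3 := dd_pos hk θ
    have h4 : dd k θ - 1 ≤ dd k θ ^ N * (dd k θ - 1) := by
      rcases le_total 1 (dd k θ) with h | h
      · have := one_le_pow₀ h (n := N)
        nlinarith
      · have := pow_le_one₀ h3.le h (n := N)
        nlinarith
    have h5 := mul_le_mul_of_nonneg_left h4 (by positivity : 0 ≤ 1 / 2 * Real.sin θ)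
    calc 1 / 2 * Real.sin θ * (dd k θ - 1) ≤ _ := h5
      _ = _ := by ring
  have h2 : 0 ≤ Real.cosh (k / 2) - 1 := by linarith [Real.one_le_cosh (k / 2)]
  linarith

theorem aN_mono {k : ℝ} (hk : 0 ≤ k) {N n : ℕ} (h : N ≤ n) : aN k N ≤ aN k n := by
  induction n, h using Nat.le_induction with
  | base => exact le_rfl
  | succ m _ ih => exact ih.trans (aN_mono_succ hk m)

end Vale.Agent.P361.LRO.TwJ
end

section

/-!
P361, block twist, part 6: quadratic forms from joint eigenvectors; the operator inequality.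
-/

namespace Vale.Agent.P361.LRO.TwJ

set_option linter.all false

open Matrix Finset
open scoped ComplexOrder

variable {V : Type} [Fintype V] [DecidableEq V]

end Vale.Agent.P361.LRO.TwJ
end

section

/-!
P361, block twist, part 7: the inequality for real positive semidefinite matrices.
-/

namespace Vale.Agent.P361.LRO.TwJ

set_option linter.all false

open Matrix Finset
open scoped ComplexOrder

variable {V : Type} [Fintype V] [DecidableEq V]

/-- Real matrices as complex matrices. -/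
noncomputable def cm (W : Matrix (V → Fin 2) (V → Fin 2) ℝ) : Opr V :=
  Matrix.of fun σ τ => ((W σ τ : ℝ) : ℂ)

theorem cm_mul (A B : Matrix (V → Fin 2) (V → Fin 2) ℝ) : cm (A * B) = cm A * cm B := by
  ext σ τ; simp [cm, Matrix.mul_apply]

theorem cm_trace (A : Matrix (V → Fin 2) (V → Fin 2) ℝ) :
    Matrix.trace (cm A) = ((Matrix.trace A : ℝ) : ℂ) := by
  simp [cm, Matrix.trace]

theorem cm_conj (A : Matrix (V → Fin 2) (V → Fin 2) ℝ) : (cm A)ᴴ = cm Aᵀ := by
  ext σ τ; simp [cm, Matrix.conjTranspose_apply]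

theorem cm_add (A B : Matrix (V → Fin 2) (V → Fin 2) ℝ) : cm (A + B) = cm A + cm B := by
  ext σ τ; simp [cm]

theorem cm_sub (A B : Matrix (V → Fin 2) (V → Fin 2) ℝ) : cm (A - B) = cm A - cm B := by
  ext σ τ; simp [cm]

theorem cm_smul (c : ℝ) (A : Matrix (V → Fin 2) (V → Fin 2) ℝ) :
    cm (c • A) = (c : ℂ) • cm A := by
  ext σ τ; simp [cm]

theorem cm_one : cm (1 : Matrix (V → Fin 2) (V → Fin 2) ℝ) = 1 := by
  ext σ τ; simp only [cm, Matrix.of_apply, Matrix.one_apply]; split_ifs <;> simp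

theorem cm_sum {ι : Type} (s : Finset ι) (A : ι → Matrix (V → Fin 2) (V → Fin 2) ℝ) :
    cm (∑ i ∈ s, A i) = ∑ i ∈ s, cm (A i) := by
  ext σ τ; simp [cm, Matrix.sum_apply]

open scoped MatrixOrder in
theorem cm_factor {W : Matrix (V → Fin 2) (V → Fin 2) ℝ} (hW : W.PosSemidef) :
    ∃ R : Opr V, cm W = Rᴴ * R := by
  obtain ⟨B, hB⟩ := CStarAlgebra.nonneg_iff_eq_star_mul_self.mp hW.nonneg
  refine ⟨cm B, ?_⟩
  rw [cm_conj, ← cm_mul, hB]
  congr 2

/-- The rotated slice and `rotT`. -/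
theorem Tw_eq (b : Finset V) (k φ : ℝ) :
    Tw b k φ = ((Real.cosh (k / 2) ^ b.card : ℝ) : ℂ) • cm (rotT b (Real.tanh (k / 2)) φ) := by
  ext σ τ
  rw [Matrix.smul_apply, smul_eq_mul, Tw, pr, P, Matrix.of_apply, cm, Matrix.of_apply, rotT,
    Matrix.of_apply]
  have h1 : (Real.cosh (k / 2) ^ b.card : ℝ) = ∏ x : V, if x ∈ b then Real.cosh (k / 2) else 1 := by
    rw [Finset.prod_ite_mem, Finset.univ_inter, Finset.prod_const]
  rw [h1, ← Complex.ofReal_mul, ← Finset.prod_mul_distrib, Complex.ofReal_prod]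
  refine Finset.prod_congr rfl fun x _ => ?_
  have hc := (Real.cosh_pos (k / 2)).ne'
  by_cases hx : x ∈ b
  · rw [blk, if_pos hx, if_pos hx, if_pos hx]
    have hs : Real.cosh (k / 2) * Real.tanh (k / 2) = Real.sinh (k / 2) := by
      rw [Real.tanh_eq_sinh_div_cosh]; field_simp
    generalize σ x = i
    generalize τ x = j
    fin_cases i <;> fin_cases j
    · simp only [gm, rotM, Matrix.of_apply, Matrix.cons_val', Matrix.cons_val_zero,
        Fin.zero_eta, Matrix.cons_val_fin_one]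
      congr 1
      rw [← hs]; ring
    · simp only [gm, rotM, Matrix.of_apply, Matrix.cons_val', Matrix.cons_val_zero,
        Fin.zero_eta, Matrix.cons_val_fin_one, Fin.mk_one, Matrix.cons_val_one]
      congr 1
      rw [← hs]; ring
    · simp only [gm, rotM, Matrix.of_apply, Matrix.cons_val', Matrix.cons_val_zero,
        Fin.zero_eta, Matrix.cons_val_fin_one, Fin.mk_one, Matrix.cons_val_one]
      congr 1
      rw [← hs]; ring
    · simp only [gm, rotM, Matrix.of_apply, Matrix.cons_val', Matrix.cons_val_zero,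
        Fin.zero_eta, Matrix.cons_val_fin_one, Fin.mk_one, Matrix.cons_val_one]
      congr 1
      rw [← hs]; ring
  · rw [blk, if_neg hx, if_neg hx, if_neg hx, one_mul, Matrix.one_apply]
    split_ifs <;> simp

/-- The trace against a matrix preserving the total number only sees the pinched part. -/
theorem trace_E (b : Finset V) (k θ : ℝ) {W : Opr V}
    (hsym : ∀ σ τ, W σ τ ≠ 0 → nb univ σ = nb univ τ) :
    Matrix.trace (W * E b k 0 θ) = Matrix.trace (W * Tw b k θ) := by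
  simp only [Matrix.trace, Matrix.diag, Matrix.mul_apply]
  refine Finset.sum_congr rfl fun σ _ => Finset.sum_congr rfl fun τ _ => ?_
  by_cases h1 : W σ τ = 0
  · rw [h1, zero_mul, zero_mul]
  · congr 1
    rw [E, Pi, Matrix.of_apply]
    split_ifs with h2
    · rfl
    · -- then the entry of `Tw` vanishes
      by_contra hne
      have hne' : Tw b k θ τ σ ≠ 0 := fun h => hne h.symm
      rw [Tw, pr, P, Matrix.of_apply, Finset.prod_ne_zero_iff] at hne'
      apply h2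
      have h3 : ∀ y, y ∉ b → τ y = σ y := by
        intro y hy
        have := hne' y (Finset.mem_univ y)
        rw [blk, if_neg hy] at this
        by_contra hc
        exact this (Matrix.one_apply_ne hc)
      have h4 := hsym σ τ h1
      rw [nb, nb, ← Finset.sum_add_sum_compl b, ← Finset.sum_add_sum_compl b] at h4
      have h5 : ∑ y ∈ bᶜ, ((σ y : ℕ) : ℤ) = ∑ y ∈ bᶜ, ((τ y : ℕ) : ℤ) :=
        Finset.sum_congr rfl fun y hy => by rw [h3 y (Finset.mem_compl.1 hy)]
      rw [nb, nb]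
      omega

theorem trace_Av (b : Finset V) (k : ℝ) {w : ℝ → ℝ} (hw : Continuous w) {W : Opr V}
    (hsym : ∀ σ τ, W σ τ ≠ 0 → nb univ σ = nb univ τ) :
    Matrix.trace (W * Av b k 0 w) =
      ∫ θ in (0 : ℝ)..Real.pi, ((w θ : ℝ) : ℂ) * Matrix.trace (W * Tw b k θ) := by
  rw [mul_Av b k 0 hw, Matrix.trace]
  simp only [Matrix.diag, Matrix.of_apply]
  rw [← intervalIntegral.integral_finset_sum]
  · congr 1
    ext θ
    rw [← trace_E b k θ hsym, Matrix.trace, Finset.mul_sum]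
    rfl
  · intro σ _
    refine (Continuous.mul (Complex.continuous_ofReal.comp hw) ?_).intervalIntegrable _ _
    simp only [Matrix.mul_apply]
    exact continuous_finset_sum _ fun ρ _ => continuous_const.mul (continuous_E b k 0 ρ σ)

/-! ### The Casimir operator and the exchange operators -/

theorem st_st_apply {x y : V} (hxy : x ≠ y) (A B : M2) (σ τ : V → Fin 2) :
    (st x A * st y B) σ τ = A (σ x) (τ x) * B (σ y) (τ y) *
      if (∀ z, z ≠ x → z ≠ y → σ z = τ z) then 1 else 0 := by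
  rw [show st y B = P (Function.update (fun _ => 1) y B) from rfl, st_mul_P,
    Function.update_of_ne hxy, mul_one, P_update, mul_assoc]
  congr 1
  rw [← Finset.mul_prod_erase _ _ (Finset.mem_erase.2 ⟨hxy.symm, Finset.mem_univ y⟩)]
  congr 1
  · simp
  · split_ifs with h
    · refine Finset.prod_eq_one fun z hz => ?_
      have h1 := Finset.mem_erase.1 hz
      have h2 := Finset.mem_erase.1 h1.2
      rw [Function.update_of_ne h1.1, h z h2.1 h1.1, Matrix.one_apply_eq]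
    · push Not at h
      obtain ⟨z, hz1, hz2, hz3⟩ := h
      refine Finset.prod_eq_zero
        (Finset.mem_erase.2 ⟨hz2, Finset.mem_erase.2 ⟨hz1, Finset.mem_univ z⟩⟩) ?_
      rw [Function.update_of_ne hz2]
      exact Matrix.one_apply_ne hz3

theorem swap_eq {x y : V} (hxy : x ≠ y) :
    cm (swapM x y) = (1 / 2 : ℂ) • (1 : Opr V) + (2 : ℂ) • (st x sz * st y sz) +
      st x sm * st y sp + st x sp * st y sm := by
  ext σ τ
  simp only [Matrix.add_apply, Matrix.smul_apply, smul_eq_mul, st_st_apply hxy]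
  rw [cm, Matrix.of_apply, swapM, Matrix.of_apply]
  by_cases h : ∀ z, z ≠ x → z ≠ y → σ z = τ z
  · simp only [if_pos h, mul_one]
    have h1 : (σ = τ ∘ Equiv.swap x y) ↔ (σ x = τ y ∧ σ y = τ x) := by
      constructor
      · intro hc
        rw [hc]
        simp
      · rintro ⟨ha, hb⟩
        ext1 z
        by_cases hzx : z = x
        · subst hzx; simp [ha]
        · by_cases hzy : z = y
          · subst hzy; simp [hb]
          · rw [Function.comp_apply, Equiv.swap_apply_of_ne_of_ne hzx hzy, h z hzx hzy]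
    have h2 : (σ = τ) ↔ (σ x = τ x ∧ σ y = τ y) := by
      constructor
      · intro hc; rw [hc]; simp
      · rintro ⟨ha, hb⟩
        ext1 z
        by_cases hzx : z = x
        · subst hzx; exact ha
        · by_cases hzy : z = y
          · subst hzy; exact hb
          · exact h z hzx hzy
    rw [Matrix.one_apply]
    simp only [h1, h2]
    generalize σ x = i
    generalize σ y = j
    generalize τ x = i'
    generalize τ y = j'
    fin_cases i <;> fin_cases j <;> fin_cases i' <;> fin_cases j' <;>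
      simp [sz, sm, sp] <;> norm_num
  · simp only [if_neg h, mul_zero, add_zero]
    have h1 : ¬ (σ = τ ∘ Equiv.swap x y) := by
      intro hc
      apply h
      intro z hzx hzy
      rw [hc, Function.comp_apply, Equiv.swap_apply_of_ne_of_ne hzx hzy]
    have h2 : ¬ (σ = τ) := by
      intro hc
      apply h
      intro z _ _
      rw [hc]
    rw [if_neg h1, Matrix.one_apply_ne h2]
    simp

theorem hM_self (x : V) : cm (hM x x) = 0 := by
  ext σ τ
  simp only [cm, hM, swapM, Matrix.of_apply, Matrix.smul_apply, Matrix.sub_apply,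
    Equiv.swap_self, Equiv.coe_refl, Function.comp_id, Matrix.one_apply, smul_eq_mul,
    Matrix.zero_apply]
  simp

/-- One pair. -/
noncomputable def Fp (x y : V) : Opr V :=
  (1 / 2 : ℂ) • (st x sm * st y sp + st y sm * st x sp) + (1 / 2 : ℂ) •
    (st x sz * st y sz + st y sz * st x sz)

theorem Fp_ne {x y : V} (hxy : x ≠ y) : (1 / 4 : ℂ) • (1 : Opr V) - Fp x y = cm (hM x y) := by
  have h1 : st y sm * st x sp = st x sp * st y sm := st_comm hxy.symm _ _
  have h2 : st y sz * st x sz = st x sz * st y sz := st_comm hxy.symm _ _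
  have h3 : cm (hM x y) = (1 / 2 : ℂ) • ((1 : Opr V) - cm (swapM x y)) := by
    rw [hM, cm_smul, cm_sub, cm_one]; push_cast; rfl
  rw [h3, swap_eq hxy, Fp, h1, h2]
  ext σ τ
  simp only [Matrix.add_apply, Matrix.sub_apply, Matrix.smul_apply, smul_eq_mul]
  ring

theorem Fp_self (x : V) :
    (1 / 4 : ℂ) • (1 : Opr V) - Fp x x = cm (hM x x) - ((1 / 2 : ℂ) • (1 : Opr V) - st x sz) := by
  rw [hM_self, Fp, st_mul_st, st_mul_st]
  have h1 : (1 : Opr V) = st x 1 := by
    rw [st, ← P_one]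
    congr 1
    ext1 y
    by_cases h : y = x
    · subst h; simp
    · simp [Function.update_of_ne h]
  rw [h1, ← st_add, ← st_add, ← st_smul, ← st_smul, ← st_smul, ← st_smul, ← st_add, ← st_sub,
    ← st_sub]
  have h2 : (1 / 4 : ℂ) • (1 : M2) - ((1 / 2 : ℂ) • (sm * sp + sm * sp) +
      (1 / 2 : ℂ) • (sz * sz + sz * sz)) = -((1 / 2 : ℂ) • (1 : M2) - sz) := by
    ext i j
    fin_cases i <;> fin_cases j <;>
      simp [sm, sp, sz, Matrix.mul_apply, Fin.sum_univ_two] <;> norm_num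
  rw [h2, zero_sub]
  have h3 : ∀ A : M2, st x (-A) = -st x A := fun A => by
    have := st_smul x (-1) A
    simpa using this
  rw [h3]

theorem Cas_eq (b : Finset V) :
    (((b.card : ℝ) / 2 * ((b.card : ℝ) / 2 + 1) : ℝ) : ℂ) • (1 : Opr V) - Cas b =
      ∑ x ∈ b, ∑ y ∈ b, cm (hM x y) := by
  have h1 : Cas b = ∑ x ∈ b, ∑ y ∈ b, Fp x y + ∑ x ∈ b, st x sz := by
    have e1 : ∑ x ∈ b, ∑ y ∈ b, Fp x y = ∑ x ∈ b, ∑ y ∈ b, (st x sm * st y sp) +
        ∑ x ∈ b, ∑ y ∈ b, (st x sz * st y sz) := by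
      simp only [Fp, Finset.sum_add_distrib, ← Finset.smul_sum]
      rw [Finset.sum_comm (f := fun x y => st y sm * st x sp),
        Finset.sum_comm (f := fun x y => st y sz * st x sz), ← two_smul ℂ, ← two_smul ℂ, smul_smul,
        smul_smul]
      norm_num
    rw [e1, Cas, Sg, Sg, Sg, Finset.sum_mul_sum, Finset.sum_mul_sum]
  have h2 : ∀ x ∈ b, ∑ y ∈ b, ((1 / 4 : ℂ) • (1 : Opr V) - Fp x y) =
      ∑ y ∈ b, cm (hM x y) - ((1 / 2 : ℂ) • (1 : Opr V) - st x sz) := by
    intro x hx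
    rw [← Finset.add_sum_erase b _ hx, ← Finset.add_sum_erase b _ hx, Fp_self]
    have : ∑ y ∈ b.erase x, ((1 / 4 : ℂ) • (1 : Opr V) - Fp x y) =
        ∑ y ∈ b.erase x, cm (hM x y) :=
      Finset.sum_congr rfl fun y hy => Fp_ne (Finset.ne_of_mem_erase hy).symm
    rw [this]
    abel
  have h3 := Finset.sum_congr rfl h2
  simp only [Finset.sum_sub_distrib, Finset.sum_const] at h3
  have h4 : ∑ x ∈ b, ∑ y ∈ b, cm (hM x y) =
      b.card • b.card • ((1 / 4 : ℂ) • (1 : Opr V)) - ∑ x ∈ b, ∑ y ∈ b, Fp x y +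
        (b.card • ((1 / 2 : ℂ) • (1 : Opr V)) - ∑ x ∈ b, st x sz) := by
    rw [h3]; abel
  rw [h4, h1]
  simp only [← Nat.cast_smul_eq_nsmul ℂ, smul_smul]
  ext σ τ
  simp only [Matrix.add_apply, Matrix.sub_apply, Matrix.smul_apply, smul_eq_mul]
  push_cast
  ring

theorem Sz_cm (b : Finset V) :
    (((b.card : ℝ) / 2 : ℝ) : ℂ) • (1 : Opr V) - Sg b sz =
      ∑ x ∈ b, cm ((1 / 2 : ℝ) • (1 - szM x)) := by
  have h1 : ∀ x : V, cm ((1 / 2 : ℝ) • (1 - szM x)) = (1 / 2 : ℂ) • (1 : Opr V) - st x sz := by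
    intro x
    ext σ τ
    rw [cm, Matrix.of_apply, Matrix.smul_apply, Matrix.sub_apply, szM, Matrix.sub_apply,
      Matrix.smul_apply, st_apply]
    by_cases h : σ = τ
    · subst h
      rw [Matrix.one_apply_eq, Matrix.diagonal_apply_eq, Matrix.one_apply_eq,
        if_pos (fun _ _ => rfl)]
      generalize σ x = i
      fin_cases i <;> simp [sz] <;> norm_num
    · rw [Matrix.one_apply_ne h, Matrix.diagonal_apply_ne _ h, Matrix.one_apply_ne h]
      by_cases hx : σ x = τ x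
      · rw [if_neg]
        · simp
        · intro hc
          exact h (funext fun y => by
            by_cases hy : y = x
            · rw [hy, hx]
            · exact hc y hy)
      · have : sz (σ x) (τ x) = 0 := by
          revert hx
          generalize σ x = i
          generalize τ x = j
          intro hx
          fin_cases i <;> fin_cases j <;> simp [sz] at hx ⊢
        rw [this]; simp
  rw [Finset.sum_congr rfl fun x _ => h1 x, Finset.sum_sub_distrib, Finset.sum_const, Sg]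
  congr 1
  ext σ τ
  simp only [Matrix.smul_apply, smul_eq_mul, nsmul_eq_mul]
  push_cast
  ring

end Vale.Agent.P361.LRO.TwJ
end

section

/-! (copy of the P367 file) the bounded Lie-Trotter product formula. -/

namespace Vale.Agent.P361TrotB

open Filter Topology NormedSpace

section powers

variable {𝔸 : Type*} [NormedRing 𝔸]

/-- telescoping estimate for powers -/
theorem norm_pow_sub_pow_le' {a b : 𝔸} {M : ℝ} (hM : 1 ≤ M) (ha : ‖a‖ ≤ M) (hb : ‖b‖ ≤ M) (m : ℕ)
    (h1 : ‖(1 : 𝔸)‖ ≤ 1) : ‖a ^ m - b ^ m‖ ≤ m * M ^ m * ‖a - b‖ := by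
  have hpa : ∀ k : ℕ, ‖a ^ k‖ ≤ M ^ k := by
    intro k
    induction k with
    | zero => simpa using h1
    | succ k ih =>
      rw [pow_succ, pow_succ]
      refine (norm_mul_le _ _).trans ?_
      gcongr
  induction m with
  | zero => simp
  | succ m ih =>
    have e : a ^ (m + 1) - b ^ (m + 1) = a ^ m * (a - b) + (a ^ m - b ^ m) * b := by
      rw [pow_succ, pow_succ]; noncomm_ring
    rw [e]
    have h2 : ‖a ^ m * (a - b)‖ ≤ M ^ m * ‖a - b‖ := by
      refine (norm_mul_le _ _).trans ?_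
      gcongr
      exact hpa m
    have h3 : ‖(a ^ m - b ^ m) * b‖ ≤ (m * M ^ m * ‖a - b‖) * M := by
      refine (norm_mul_le _ _).trans ?_
      gcongr
    have hM0 : 0 ≤ M := zero_le_one.trans hM
    calc ‖a ^ m * (a - b) + (a ^ m - b ^ m) * b‖
        ≤ M ^ m * ‖a - b‖ + (m * M ^ m * ‖a - b‖) * M := (norm_add_le _ _).trans (add_le_add h2 h3)
      _ ≤ (M ^ m * M) * ‖a - b‖ + (m * M ^ m * ‖a - b‖) * M := by
          gcongr
          exact le_mul_of_one_le_right (by positivity) hM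
      _ = ((m + 1 : ℕ) : ℝ) * M ^ (m + 1) * ‖a - b‖ := by
          push_cast
          ring

end powers

variable {𝔸 : Type*} [NormedRing 𝔸] [NormedAlgebra ℂ 𝔸] [CompleteSpace 𝔸]

omit [CompleteSpace 𝔸] in
/-- norm of the exponential -/
theorem norm_exp_le' (h1 : ‖(1 : 𝔸)‖ ≤ 1) (x : 𝔸) : ‖exp x‖ ≤ Real.exp ‖x‖ := by
  have h2 : ∀ n : ℕ, ‖((n.factorial : ℂ)⁻¹) • x ^ n‖ ≤ ‖x‖ ^ n / n.factorial := by
    intro n
    rw [norm_smul, norm_inv, Complex.norm_natCast, div_eq_inv_mul]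
    gcongr
    rcases Nat.eq_zero_or_pos n with hn | hn
    · subst hn; simpa using h1
    · exact norm_pow_le' x hn
  have hs : Summable fun n : ℕ => ‖x‖ ^ n / (n.factorial : ℝ) := Real.summable_pow_div_factorial _
  rw [exp_eq_tsum ℂ, Real.exp_eq_exp_ℝ, exp_eq_tsum_div]
  exact tsum_of_norm_bounded hs.hasSum h2

/-- first order remainder of the exponential -/
theorem norm_exp_sub_one_sub_le (_h1 : ‖(1 : 𝔸)‖ ≤ 1) (x : 𝔸) :
    ‖exp x - 1 - x‖ ≤ ‖x‖ ^ 2 * Real.exp ‖x‖ := by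
  have h2 : ∀ n : ℕ, ‖(((n + 2).factorial : ℂ)⁻¹) • x ^ (n + 2)‖ ≤
      ‖x‖ ^ 2 * (‖x‖ ^ n / n.factorial) := by
    intro n
    rw [norm_smul, norm_inv, Complex.norm_natCast]
    have h3 : ‖x ^ (n + 2)‖ ≤ ‖x‖ ^ (n + 2) := norm_pow_le' x (by omega)
    have h4 : ((n + 2).factorial : ℝ)⁻¹ ≤ (n.factorial : ℝ)⁻¹ := by
      apply inv_anti₀ (by positivity)
      exact_mod_cast Nat.factorial_le (by omega)
    calc ((n + 2).factorial : ℝ)⁻¹ * ‖x ^ (n + 2)‖ ≤ (n.factorial : ℝ)⁻¹ * ‖x‖ ^ (n + 2) := by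
          gcongr
      _ = _ := by rw [pow_add]; ring
  have hs : Summable fun n : ℕ => ‖x‖ ^ n / (n.factorial : ℝ) := Real.summable_pow_div_factorial _
  have hx : Summable fun n : ℕ => ((n.factorial : ℂ)⁻¹) • x ^ n := expSeries_summable' (𝕂 := ℂ) x
  have e : exp x - 1 - x = ∑' n : ℕ, (((n + 2).factorial : ℂ)⁻¹) • x ^ (n + 2) := by
    rw [exp_eq_tsum ℂ]
    have h5 := hx.sum_add_tsum_nat_add 2
    simp only [Finset.sum_range_succ, Finset.range_zero, Finset.sum_empty, zero_add,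
      Nat.factorial_zero, Nat.cast_one, inv_one, pow_zero, one_smul, Nat.factorial_one,
      pow_one] at h5
    show (∑' n : ℕ, ((n.factorial : ℂ)⁻¹) • x ^ n) - 1 - x = _
    rw [← h5]
    abel
  rw [e]
  have h6 : HasSum (fun n : ℕ => ‖x‖ ^ 2 * (‖x‖ ^ n / (n.factorial : ℝ))) (‖x‖ ^ 2 * Real.exp ‖x‖) := by
    have h7 := hs.hasSum.mul_left (‖x‖ ^ 2)
    rw [Real.exp_eq_exp_ℝ, exp_eq_tsum_div]
    exact h7
  exact tsum_of_norm_bounded h6 h2

/-- a product formula with second order defect -/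
theorem trotter_of_defect (h1 : ‖(1 : 𝔸)‖ ≤ 1) {f : ℕ → 𝔸} {C : 𝔸} {c K : ℝ} (hc : 0 ≤ c)
    (hC : ‖C‖ ≤ c) (hf : ∀ m : ℕ, 1 ≤ m → ‖f m‖ ≤ Real.exp (c / m))
    (hd : ∀ m : ℕ, 1 ≤ m → ‖f m - exp (((m : ℂ)⁻¹) • C)‖ ≤ K / (m : ℝ) ^ 2) :
    Tendsto (fun m : ℕ => f m ^ m) atTop (𝓝 (exp C)) := by
  rw [tendsto_iff_norm_sub_tendsto_zero]
  have hlim : Tendsto (fun m : ℕ => Real.exp c * K * (m : ℝ)⁻¹) atTop (𝓝 0) := by
    have := (tendsto_inv_atTop_nhds_zero_nat (𝕜 := ℝ)).const_mul (Real.exp c * K)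
    simpa using this
  refine squeeze_zero' (Eventually.of_forall fun _ => norm_nonneg _) ?_ hlim
  filter_upwards [eventually_ge_atTop 1] with m hm
  have hm0 : (m : ℝ) ≠ 0 := by positivity
  have hmc : (m : ℂ) ≠ 0 := by exact_mod_cast (by omega : m ≠ 0)
  have e1 : exp C = exp (((m : ℂ)⁻¹) • C) ^ m := by
    let _ : NormedAlgebra ℚ 𝔸 := NormedAlgebra.restrictScalars ℚ ℂ 𝔸
    rw [← exp_nsmul, ← Nat.cast_smul_eq_nsmul ℂ, smul_smul, mul_inv_cancel₀ hmc, one_smul]
  have hb : ‖exp (((m : ℂ)⁻¹) • C)‖ ≤ Real.exp (c / m) := by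
    refine (norm_exp_le' h1 _).trans ?_
    rw [norm_smul, norm_inv, Complex.norm_natCast]
    apply Real.exp_le_exp.2
    rw [div_eq_inv_mul]
    gcongr
  have hM : 1 ≤ Real.exp (c / m) := Real.one_le_exp (by positivity)
  rw [e1]
  refine (norm_pow_sub_pow_le' hM (hf m hm) hb m h1).trans ?_
  have e2 : Real.exp (c / m) ^ m = Real.exp c := by
    rw [← Real.exp_nat_mul]
    congr 1
    field_simp
  rw [e2]
  calc (m : ℝ) * Real.exp c * ‖f m - exp (((m : ℂ)⁻¹) • C)‖
      ≤ (m : ℝ) * Real.exp c * (K / (m : ℝ) ^ 2) := by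
        gcongr
        exact hd m hm
    _ = Real.exp c * K * (m : ℝ)⁻¹ := by
        field_simp

/-- products of exponentials, first order expansion -/
theorem prod_exp_expand (h1 : ‖(1 : 𝔸)‖ ≤ 1) (l : List 𝔸) :
    ∃ K : ℝ, 0 ≤ K ∧ ∀ t : ℝ, 0 ≤ t → t ≤ 1 →
      ‖(l.map fun A => exp ((t : ℂ) • A)).prod - 1 - (t : ℂ) • l.sum‖ ≤ K * t ^ 2 ∧
      ‖(l.map fun A => exp ((t : ℂ) • A)).prod‖ ≤ Real.exp (t * (l.map fun A => ‖A‖).sum) := by
  induction l with
  | nil =>
    refine ⟨0, le_rfl, fun t _ _ => ?_⟩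
    simp [h1]
  | cons A l ih =>
    obtain ⟨K, hK, ih⟩ := ih
    refine ⟨‖A‖ ^ 2 * Real.exp ‖A‖ * Real.exp ((l.map fun A => ‖A‖).sum) + K +
      ‖A‖ * (‖l.sum‖ + K), ?_, fun t ht0 ht1 => ?_⟩
    · positivity
    obtain ⟨h2, h3⟩ := ih t ht0 ht1
    set P := (l.map fun A => exp ((t : ℂ) • A)).prod with hP
    have htn : ‖(t : ℂ) • A‖ = t * ‖A‖ := by
      rw [norm_smul, Complex.norm_real, Real.norm_eq_abs, abs_of_nonneg ht0]
    have hSn : 0 ≤ (l.map fun A => ‖A‖).sum := List.sum_nonneg (by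
      intro x hx
      obtain ⟨a, _, rfl⟩ := List.mem_map.1 hx
      exact norm_nonneg _)
    have hE := norm_exp_sub_one_sub_le h1 ((t : ℂ) • A)
    rw [htn] at hE
    have hP1 : ‖P‖ ≤ Real.exp ((l.map fun A => ‖A‖).sum) := by
      refine h3.trans (Real.exp_le_exp.2 ?_)
      nlinarith
    have hPm : ‖P - 1‖ ≤ t * (‖l.sum‖ + K) := by
      have e : P - 1 = (P - 1 - (t : ℂ) • l.sum) + (t : ℂ) • l.sum := by abel
      rw [e]
      refine (norm_add_le _ _).trans ?_
      rw [norm_smul, Complex.norm_real, Real.norm_eq_abs, abs_of_nonneg ht0]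
      nlinarith [norm_nonneg l.sum, mul_nonneg hK (sq_nonneg t), mul_le_mul_of_nonneg_left ht1 (mul_nonneg hK ht0)]
    constructor
    · rw [List.map_cons, List.prod_cons, List.sum_cons, ← hP]
      have e : exp ((t : ℂ) • A) * P - 1 - (t : ℂ) • (A + l.sum)
          = (exp ((t : ℂ) • A) - 1 - (t : ℂ) • A) * P + (P - 1 - (t : ℂ) • l.sum)
            + ((t : ℂ) • A) * (P - 1) := by
        rw [smul_add]
        noncomm_ring
      rw [e]
      have n1 : ‖(exp ((t : ℂ) • A) - 1 - (t : ℂ) • A) * P‖ ≤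
          ‖A‖ ^ 2 * Real.exp ‖A‖ * Real.exp ((l.map fun A => ‖A‖).sum) * t ^ 2 := by
        refine (norm_mul_le _ _).trans ?_
        have h4 : (t * ‖A‖) ^ 2 * Real.exp (t * ‖A‖) ≤ ‖A‖ ^ 2 * Real.exp ‖A‖ * t ^ 2 := by
          have : Real.exp (t * ‖A‖) ≤ Real.exp ‖A‖ := Real.exp_le_exp.2 (by nlinarith [norm_nonneg A])
          calc (t * ‖A‖) ^ 2 * Real.exp (t * ‖A‖) ≤ (t * ‖A‖) ^ 2 * Real.exp ‖A‖ := by gcongr
            _ = _ := by ring
        calc _ ≤ (‖A‖ ^ 2 * Real.exp ‖A‖ * t ^ 2) * Real.exp ((l.map fun A => ‖A‖).sum) :=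
              mul_le_mul (hE.trans h4) hP1 (norm_nonneg _) (by positivity)
          _ = _ := by ring
      have n2 : ‖((t : ℂ) • A) * (P - 1)‖ ≤ ‖A‖ * (‖l.sum‖ + K) * t ^ 2 := by
        refine (norm_mul_le _ _).trans ?_
        rw [htn]
        calc t * ‖A‖ * ‖P - 1‖ ≤ t * ‖A‖ * (t * (‖l.sum‖ + K)) := by gcongr
          _ = _ := by ring
      calc _ ≤ ‖(exp ((t : ℂ) • A) - 1 - (t : ℂ) • A) * P‖ + ‖P - 1 - (t : ℂ) • l.sum‖
            + ‖((t : ℂ) • A) * (P - 1)‖ := norm_add₃_le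
        _ ≤ _ := by linarith
    · rw [List.map_cons, List.prod_cons, List.map_cons, List.sum_cons, ← hP]
      refine (norm_mul_le _ _).trans ?_
      rw [mul_add, Real.exp_add]
      have h5 := norm_exp_le' h1 ((t : ℂ) • A)
      rw [htn] at h5
      exact mul_le_mul h5 h3 (norm_nonneg _) (Real.exp_pos _).le

omit [NormedAlgebra ℂ 𝔸] [CompleteSpace 𝔸] in
theorem norm_list_sum_le' (l : List 𝔸) : ‖l.sum‖ ≤ (l.map fun A => ‖A‖).sum := by
  induction l with
  | nil => simp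
  | cons A l ih =>
    rw [List.sum_cons, List.map_cons, List.sum_cons]
    exact (norm_add_le _ _).trans (add_le_add le_rfl ih)

/-- Lie-Trotter product formula for a finite product -/
theorem lie_trotter_list (h1 : ‖(1 : 𝔸)‖ ≤ 1) (l : List 𝔸) :
    Tendsto (fun m : ℕ => ((l.map fun A => exp (((m : ℂ)⁻¹) • A)).prod) ^ m) atTop
      (𝓝 (exp l.sum)) := by
  obtain ⟨K, hK, h⟩ := prod_exp_expand h1 l
  have hS : ‖l.sum‖ ≤ (l.map fun A => ‖A‖).sum := norm_list_sum_le' l
  have hSn : 0 ≤ (l.map fun A => ‖A‖).sum := (norm_nonneg _).trans hS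
  refine trotter_of_defect h1 (c := (l.map fun A => ‖A‖).sum)
    (K := K + ‖l.sum‖ ^ 2 * Real.exp ‖l.sum‖) hSn hS ?_ ?_
  · intro m hm
    have hm1 : ((m : ℝ)⁻¹) ≤ 1 := inv_le_one_of_one_le₀ (by exact_mod_cast hm)
    have h2 := (h ((m : ℝ)⁻¹) (by positivity) hm1).2
    rw [Complex.ofReal_inv, Complex.ofReal_natCast] at h2
    rwa [div_eq_inv_mul]
  · intro m hm
    have hm1 : ((m : ℝ)⁻¹) ≤ 1 := inv_le_one_of_one_le₀ (by exact_mod_cast hm)
    have h2 := (h ((m : ℝ)⁻¹) (by positivity) hm1).1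
    rw [Complex.ofReal_inv, Complex.ofReal_natCast] at h2
    have h3 := norm_exp_sub_one_sub_le h1 (((m : ℂ)⁻¹) • l.sum)
    have h4 : ‖((m : ℂ)⁻¹) • l.sum‖ = (m : ℝ)⁻¹ * ‖l.sum‖ := by
      rw [norm_smul, norm_inv, Complex.norm_natCast]
    rw [h4] at h3
    have h5 : Real.exp ((m : ℝ)⁻¹ * ‖l.sum‖) ≤ Real.exp ‖l.sum‖ :=
      Real.exp_le_exp.2 (by nlinarith [norm_nonneg l.sum])
    have e : (l.map fun A => exp (((m : ℂ)⁻¹) • A)).prod - exp (((m : ℂ)⁻¹) • l.sum)
        = ((l.map fun A => exp (((m : ℂ)⁻¹) • A)).prod - 1 - ((m : ℂ)⁻¹) • l.sum)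
          - (exp (((m : ℂ)⁻¹) • l.sum) - 1 - ((m : ℂ)⁻¹) • l.sum) := by abel
    rw [e]
    refine (norm_sub_le _ _).trans ?_
    have h6 : ((m : ℝ)⁻¹ * ‖l.sum‖) ^ 2 * Real.exp ((m : ℝ)⁻¹ * ‖l.sum‖)
        ≤ ‖l.sum‖ ^ 2 * Real.exp ‖l.sum‖ * ((m : ℝ)⁻¹) ^ 2 := by
      calc ((m : ℝ)⁻¹ * ‖l.sum‖) ^ 2 * Real.exp ((m : ℝ)⁻¹ * ‖l.sum‖)
          ≤ ((m : ℝ)⁻¹ * ‖l.sum‖) ^ 2 * Real.exp ‖l.sum‖ := by gcongr
        _ = _ := by ring
    have e2 : (K + ‖l.sum‖ ^ 2 * Real.exp ‖l.sum‖) / (m : ℝ) ^ 2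
        = K * ((m : ℝ)⁻¹) ^ 2 + ‖l.sum‖ ^ 2 * Real.exp ‖l.sum‖ * ((m : ℝ)⁻¹) ^ 2 := by
      rw [div_eq_mul_inv, inv_pow]; ring
    rw [e2]
    linarith

end Vale.Agent.P361TrotB
end

section

/-!
P361, block (8): Lie-Trotter for the static Gibbs state, complex matrices.
-/

namespace Vale.Agent.P361.LRO.LY

open Finset Matrix Filter Topology

noncomputable section

variable {V : Type} [Fintype V] [DecidableEq V]

/-- Complexification of a real matrix. -/
def cM {m : Type} (A : Matrix m m ℝ) : Matrix m m ℂ := A.map (fun t : ℝ => (t : ℂ))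

/-- The exchange, complex. -/
def swapC (x y : V) : Matrix (V → Fin 2) (V → Fin 2) ℂ :=
  Matrix.of fun σ τ => if σ = τ ∘ Equiv.swap x y then 1 else 0

/-- Gate. -/
def gateC (x y : V) (p : ℝ) : Matrix (V → Fin 2) (V → Fin 2) ℂ :=
  ((1 - p : ℝ) : ℂ) • (1 : Matrix (V → Fin 2) (V → Fin 2) ℂ) + ((p : ℝ) : ℂ) • swapC x y

/-- Slice `∏_x exp (b_x σ³_x / 2)`. -/
def sliceC (b : V → ℝ) : Matrix (V → Fin 2) (V → Fin 2) ℂ :=
  Matrix.diagonal fun σ => ∏ x, Complex.exp (if σ x = 0 then (b x / 2 : ℝ) else (-(b x / 2) : ℝ))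

/-- One Trotter step. -/
def stepC (L : List (V × V)) (β : ℝ) (h : V → ℝ) (N : ℕ) :
    Matrix (V → Fin 2) (V → Fin 2) ℂ :=
  sliceC (fun x => β * h x / N) * (L.map fun e => gateC e.1 e.2 ((1 - Real.exp (-(β / N))) / 2)).prod

theorem cM_mul {m : Type} [Fintype m] (A B : Matrix m m ℝ) : cM (A * B) = cM A * cM B := by
  unfold cM
  ext i j
  simp [Matrix.mul_apply, Matrix.map_apply]

theorem cM_trace {m : Type} [Fintype m] (A : Matrix m m ℝ) :
    (cM A).trace = ((A.trace : ℝ) : ℂ) := by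
  unfold cM
  simp [Matrix.trace]

theorem swapC_eq (x y : V) : swapC x y = cM (swapM x y) := by
  ext σ τ
  simp only [swapC, cM, swapM, Matrix.of_apply, Matrix.map_apply]
  split_ifs <;> simp

theorem swapC_sq (x y : V) : swapC x y * swapC x y = (1 : Matrix (V → Fin 2) (V → Fin 2) ℂ) := by
  ext σ τ
  rw [Matrix.mul_apply, Finset.sum_eq_single (τ ∘ Equiv.swap x y)]
  · have h1 : (swapC x y : Matrix (V → Fin 2) (V → Fin 2) ℂ) (τ ∘ Equiv.swap x y) τ = 1 := by
      simp [swapC]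
    have h2 : (τ ∘ Equiv.swap x y) ∘ Equiv.swap x y = τ := by
      funext z
      simp
    rw [h1, mul_one]
    simp only [swapC, Matrix.of_apply, h2, Matrix.one_apply]
  · intro ρ _ hρ
    have h1 : (swapC x y : Matrix (V → Fin 2) (V → Fin 2) ℂ) ρ τ = 0 := by
      simp [swapC, hρ]
    rw [h1, mul_zero]
  · intro h
    exact absurd (Finset.mem_univ _) h

/-! ### Exponentials -/

section Exp

open scoped Matrix.Norms.Operator Nat

variable {m : Type} [Fintype m] [DecidableEq m]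

theorem norm_one_le : ‖(1 : Matrix m m ℂ)‖ ≤ 1 := by
  rcases isEmpty_or_nonempty m with h | h
  · have : (1 : Matrix m m ℂ) = 0 := Subsingleton.elim _ _
    rw [this, norm_zero]
    exact zero_le_one
  · rw [norm_one]

/-- Exponential of a multiple of an idempotent. -/
theorem exp_idem {Q : Matrix m m ℂ} (hQ : Q * Q = Q) (a : ℂ) :
    NormedSpace.exp (a • Q) = (1 - Q) + Complex.exp a • Q := by
  have h1 := NormedSpace.exp_series_hasSum_exp' (𝕂 := ℂ) (a • Q)
  have h2 := NormedSpace.exp_series_hasSum_exp' (𝕂 := ℂ) a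
  have h3 : HasSum (fun n : ℕ => ((n !⁻¹ : ℂ) • a ^ n) • Q) (NormedSpace.exp a • Q) :=
    h2.smul_const Q
  have h4 : HasSum (fun n : ℕ => if n = 0 then (1 - Q) else 0) (1 - Q) := by
    have := hasSum_ite_eq (0 : ℕ) (1 - Q)
    exact this
  have h5 := h4.add h3
  have h6 : (fun n : ℕ => (n !⁻¹ : ℂ) • (a • Q) ^ n) =
      fun n : ℕ => (if n = 0 then (1 - Q) else 0) + ((n !⁻¹ : ℂ) • a ^ n) • Q := by
    funext n
    have hp : ∀ k : ℕ, Q ^ (k + 1) = Q := by
      intro k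
      induction k with
      | zero => rw [zero_add, pow_one]
      | succ k ih => rw [pow_succ, ih, hQ]
    rcases n with _ | n
    · simp
    · rw [if_neg (Nat.succ_ne_zero n), zero_add, smul_pow, hp n, smul_smul, smul_eq_mul]
  rw [h6] at h1
  have h7 := h1.unique h5
  rw [← Complex.exp_eq_exp_ℂ] at h7
  exact h7

theorem hM_idem (x y : V) : cM (hM x y) * cM (hM x y) = cM (hM x y) := by
  have h1 : cM (hM x y) = (1 / 2 : ℂ) • ((1 : Matrix (V → Fin 2) (V → Fin 2) ℂ) - swapC x y) := by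
    rw [swapC_eq]
    ext σ τ
    simp only [cM, hM, Matrix.map_apply, Matrix.smul_apply, Matrix.sub_apply, smul_eq_mul,
      Matrix.one_apply]
    push_cast
    split_ifs <;> simp
  rw [h1, smul_mul_smul_comm, sub_mul, mul_sub, mul_sub, swapC_sq, one_mul, mul_one, one_mul]
  have : ((1 : Matrix (V → Fin 2) (V → Fin 2) ℂ) - swapC x y - (swapC x y - 1)) =
      (2 : ℂ) • ((1 : Matrix (V → Fin 2) (V → Fin 2) ℂ) - swapC x y) := by
    rw [two_smul]
    abel
  rw [this, smul_smul]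
  norm_num

theorem gate_exp (x y : V) (t : ℝ) :
    NormedSpace.exp (((-t : ℝ) : ℂ) • cM (hM x y)) = gateC x y ((1 - Real.exp (-t)) / 2) := by
  rw [exp_idem (hM_idem x y)]
  have h1 : cM (hM x y) = (1 / 2 : ℂ) • ((1 : Matrix (V → Fin 2) (V → Fin 2) ℂ) - swapC x y) := by
    rw [swapC_eq]
    ext σ τ
    simp only [cM, hM, Matrix.map_apply, Matrix.smul_apply, Matrix.sub_apply, smul_eq_mul,
      Matrix.one_apply]
    push_cast
    split_ifs <;> simp
  rw [h1, gateC]
  ext σ τ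
  simp only [Matrix.add_apply, Matrix.sub_apply, Matrix.smul_apply, smul_eq_mul]
  push_cast
  ring

theorem slice_exp (b : V → ℝ) :
    NormedSpace.exp (cM (∑ x, (b x / 2) • szM x)) = sliceC b := by
  have h1 : cM (∑ x, (b x / 2) • szM x) = Matrix.diagonal fun σ : V → Fin 2 =>
      ∑ x, ((if σ x = 0 then (b x / 2 : ℝ) else (-(b x / 2) : ℝ) : ℝ) : ℂ) := by
    ext σ τ
    simp only [cM, Matrix.map_apply, Matrix.sum_apply, Matrix.smul_apply, szM, smul_eq_mul,
      Matrix.diagonal_apply]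
    by_cases h : σ = τ
    · subst h
      simp only [if_true]
      push_cast
      refine Finset.sum_congr rfl fun x _ => ?_
      split_ifs <;> push_cast <;> ring
    · simp [h]
  rw [h1, Matrix.exp_diagonal, sliceC]
  congr 1
  funext σ
  rw [Pi.coe_exp, ← Complex.exp_eq_exp_ℂ, Complex.exp_sum]
  refine Finset.prod_congr rfl fun x _ => ?_
  congr 1
  split_ifs <;> rfl

theorem cM_exp (A : Matrix m m ℝ) : cM (NormedSpace.exp A) = NormedSpace.exp (cM A) := by
  have h := NormedSpace.map_exp (𝔸 := Matrix m m ℝ) (𝔹 := Matrix m m ℂ)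
    (RingHom.mapMatrix (m := m) Complex.ofRealHom) ?_ A
  · exact h
  · exact Continuous.matrix_map continuous_id Complex.continuous_ofReal

theorem smul_list_sum (c : ℝ) (L : List (V × V)) :
    (L.map fun e => ((c : ℝ) : ℂ) • cM (hM e.1 e.2)).sum =
      ((c : ℝ) : ℂ) • cM (L.map fun e => hM e.1 e.2).sum := by
  induction L with
  | nil =>
    ext σ τ
    simp [cM]
  | cons e L ih =>
    rw [List.map_cons, List.sum_cons, ih, List.map_cons, List.sum_cons]
    ext σ τ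
    simp only [cM, Matrix.add_apply, Matrix.smul_apply, Matrix.map_apply, smul_eq_mul]
    push_cast
    ring

theorem step_tendsto (L : List (V × V)) (β : ℝ) (h : V → ℝ) :
    Tendsto (fun N : ℕ => stepC L β h N ^ N) atTop
      (𝓝 (cM (NormedSpace.exp (-β • ham L h)))) := by
  have h1 := Vale.Agent.P361TrotB.lie_trotter_list (𝔸 := Matrix (V → Fin 2) (V → Fin 2) ℂ)
    norm_one_le (cM (∑ x, (β * h x / 2) • szM x) ::
      L.map fun e => ((-β : ℝ) : ℂ) • cM (hM e.1 e.2))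
  have hsum : (cM (∑ x, (β * h x / 2) • szM x) ::
      L.map fun e => ((-β : ℝ) : ℂ) • cM (hM e.1 e.2)).sum = cM (-β • ham L h) := by
    rw [List.sum_cons]
    rw [smul_list_sum]
    ext σ τ
    simp only [cM, ham, Matrix.add_apply, Matrix.smul_apply, Matrix.map_apply, Matrix.sub_apply,
      smul_eq_mul, Matrix.sum_apply]
    rw [mul_sub, Finset.mul_sum]
    push_cast
    rw [sub_eq_add_neg, ← Finset.sum_neg_distrib, add_comm]
    congr 1
    refine Finset.sum_congr rfl fun x _ => ?_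
    ring
  rw [hsum] at h1
  rw [cM_exp]
  refine Tendsto.congr (fun N => ?_) h1
  congr 1
  rw [List.map_cons, List.prod_cons, List.map_map, stepC]
  congr 1
  · rw [← slice_exp]
    congr 1
    ext σ τ
    simp only [cM, Matrix.smul_apply, Matrix.map_apply, smul_eq_mul, Matrix.sum_apply]
    push_cast
    rw [Finset.mul_sum]
    refine Finset.sum_congr rfl fun x _ => ?_
    ring
  · congr 1
    refine List.map_congr_left fun e _ => ?_
    rw [Function.comp_apply, smul_smul, ← gate_exp]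
    congr 2
    push_cast
    ring

theorem trace_tendsto (L : List (V × V)) (β : ℝ) (h : V → ℝ)
    (A : Matrix (V → Fin 2) (V → Fin 2) ℝ) :
    Tendsto (fun N : ℕ => (stepC L β h N ^ N * cM A).trace) atTop
      (𝓝 (((NormedSpace.exp (-β • ham L h) * A).trace : ℝ) : ℂ)) := by
  have h1 := step_tendsto L β h
  have h2 : Continuous fun X : Matrix (V → Fin 2) (V → Fin 2) ℂ => (X * cM A).trace :=
    Continuous.matrix_trace (continuous_id.mul continuous_const)
  have h3 := (h2.tendsto _).comp h1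
  rw [← cM_mul, cM_trace] at h3
  exact h3

end Exp

end

end Vale.Agent.P361.LRO.LY
end

section

/-!
P361, stage 3, block (F): the sharp bound on the torus from the blocks (K), (D), (B), (M), (T).
-/

namespace Vale.Agent.P361.LRO.S3F

open Finset Filter Topology S3

/-- Every function of `r` is a polynomial of `r (n - r + 1)`. -/
theorem exists_poly' (n : ℕ) (g : ℕ → ℝ) :
    ∃ P : Polynomial ℝ, ∀ r : ℕ, 2 * r ≤ n → P.eval ((r : ℝ) * ((n : ℝ) - r + 1)) = g r := by
  classical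
  have hinj : Set.InjOn (fun r : ℕ => (r : ℝ) * ((n : ℝ) - r + 1))
      ((Finset.range (n / 2 + 1) : Finset ℕ) : Set ℕ) := by
    intro r hr s hs h
    have hr' : r < n / 2 + 1 := Finset.mem_range.1 hr
    have hs' : s < n / 2 + 1 := Finset.mem_range.1 hs
    have h1 : (r : ℝ) + s ≤ n := by
      have : r + s ≤ n := by omega
      exact_mod_cast this
    simp only at h
    have h2 : ((r : ℝ) - s) * ((n : ℝ) + 1 - r - s) = 0 := by linear_combination h
    rcases mul_eq_zero.1 h2 with h3 | h3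
    · exact_mod_cast sub_eq_zero.1 h3
    · exfalso; linarith
  refine ⟨Lagrange.interpolate (Finset.range (n / 2 + 1))
    (fun r : ℕ => (r : ℝ) * ((n : ℝ) - r + 1)) g, fun r hr => ?_⟩
  exact Lagrange.eval_interpolate_at_node g hinj (Finset.mem_range.2 (by omega))

/-- The scalar conclusion from the sharp direction inequality. -/
theorem sharp_scalar {ι : Type*} [Fintype ι] (μ : ι → ℝ) (r : ι → ℕ) {nb : ℕ} (hnb : 0 < nb)
    (h0 : ∀ i, 0 ≤ μ i) (h1 : ∑ i, μ i = 1) (hr : ∀ i, 2 * r i ≤ nb)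
    {K δ d q C c R : ℝ} (hK : 0 < K) (hC : 0 < C) (hc : 0 < c) (hδ0 : 0 < δ) (hδ1 : δ ≤ 1 / 4)
    (hd0 : 0 < d) (hd : 4 * d ≤ δ) (hq1 : (1 - δ) * d ≤ q) (hq2 : q ≤ d)
    (hM : ∑ i, μ i * ((r i : ℝ) * ((nb : ℝ) - r i + 1)) ≤ (1 + δ) * d * (nb : ℝ) ^ 2)
    (hT1 : ∑ i, (if (r i : ℝ) < q * nb then μ i else 0) ≤ δ)
    (hT2 : ∑ i, (if (r i : ℝ) < q * nb then μ i else 0) ≤ Real.exp (-(K * d)))
    (hR : R ≤ (∑ i, μ i * (r i : ℝ)) / nb + c * ((∑ i, μ i * (r i : ℝ)) / nb +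
      (1 / K) * Real.log (C * ((∑ i, if (r i : ℝ) < q * nb then μ i else 0) +
        Real.exp (-(K * q)))))) :
    R ≤ d * (1 + 20 * δ + c * (21 * δ)) + c * (2 * C / K) := by
  have hnb' : (0 : ℝ) < nb := by exact_mod_cast hnb
  set D : ι → ℝ := fun i => (r i : ℝ) / nb with hD
  have hD0 : ∀ i, 0 ≤ D i := fun i => by rw [hD]; positivity
  have hq0 : 0 ≤ q := le_trans (mul_nonneg (by linarith) hd0.le) hq1
  have hD1 : ∀ i, D i ≤ 1 / 2 := by
    intro i
    rw [hD]
    simp only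
    rw [div_le_iff₀ hnb']
    have : (2 : ℝ) * r i ≤ nb := by exact_mod_cast hr i
    linarith
  have hmean : ∑ i, μ i * (D i * (1 - D i)) ≤ (1 + δ) * d := by
    have e1 : ∀ i, μ i * (D i * (1 - D i)) * (nb : ℝ) ^ 2 ≤
        μ i * ((r i : ℝ) * ((nb : ℝ) - r i + 1)) := by
      intro i
      have : D i * (1 - D i) * (nb : ℝ) ^ 2 = (r i : ℝ) * ((nb : ℝ) - r i) := by
        rw [hD]
        field_simp
      have h2 : μ i * (D i * (1 - D i)) * (nb : ℝ) ^ 2 = μ i * ((r i : ℝ) * ((nb : ℝ) - r i)) := by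
        rw [← this]; ring
      rw [h2]
      refine mul_le_mul_of_nonneg_left ?_ (h0 i)
      have : (0 : ℝ) ≤ r i := Nat.cast_nonneg _
      linarith
    have e2 : (∑ i, μ i * (D i * (1 - D i))) * (nb : ℝ) ^ 2 ≤ (1 + δ) * d * (nb : ℝ) ^ 2 := by
      rw [sum_mul]
      exact (sum_le_sum fun i _ => e1 i).trans hM
    exact le_of_mul_le_mul_right e2 (by positivity)
  have hconv : ∀ i, (D i < q ↔ (r i : ℝ) < q * nb) := fun i => by
    rw [hD]; exact div_lt_iff₀ hnb'
  have htail : ∑ i, (if D i < q then μ i else 0) ≤ δ := by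
    simp only [hconv]
    exact hT1
  have hmD := mean_D μ D h0 h1 hD0 hD1 (m := (1 + δ) * d) (q := q) (s := δ) (ε := δ) hq0
    (by linarith) hδ0 (by linarith) (by linarith) hmean htail
  have hDle : ∑ i, μ i * D i ≤ (1 + 20 * δ) * d := by
    refine hmD.trans ?_
    have e1 : (1 + δ) * d / (1 - δ) ≤ (1 + 3 * δ) * d := by
      rw [div_le_iff₀ (by linarith)]
      have : (1 + δ) ≤ (1 + 3 * δ) * (1 - δ) := by
        linarith [mul_nonneg hδ0.le (sub_nonneg.2 hδ1)]
      linarith [mul_le_mul_of_nonneg_right this hd0.le]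
    have e2 : (1 + δ) * d - q * (1 - q) + q * δ ≤ 4 * δ * d := by
      have h3 : q * (1 - q) = q - q * q := by ring
      have h4 : q * q ≤ d * (δ / 4) := mul_le_mul hq2 (by linarith) hq0 hd0.le
      have h5 : q * δ ≤ d * δ := mul_le_mul_of_nonneg_right hq2 hδ0.le
      rw [h3]
      linarith [mul_nonneg hδ0.le hd0.le]
    linarith
  have hDr : ∑ i, μ i * D i = (∑ i, μ i * (r i : ℝ)) / nb := by
    rw [sum_div]
    exact sum_congr rfl fun i _ => by rw [hD]; ring
  rw [hDr] at hDle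
  set m := (∑ i, μ i * (r i : ℝ)) / nb with hm
  set P := ∑ i, (if (r i : ℝ) < q * nb then μ i else 0) with hP
  have hP0 : 0 ≤ P := sum_nonneg fun i _ => by split_ifs; exacts [h0 i, le_rfl]
  have hPq : P ≤ Real.exp (-(K * q)) := by
    refine hT2.trans (Real.exp_le_exp.2 ?_)
    have := mul_le_mul_of_nonneg_left hq2 hK.le
    linarith
  have hlog : Real.log (C * (P + Real.exp (-(K * q)))) ≤ 2 * C - K * q := by
    have he := Real.exp_pos (-(K * q))
    have h2 : Real.log (C * (P + Real.exp (-(K * q)))) ≤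
        Real.log (2 * C * Real.exp (-(K * q))) := by
      refine Real.log_le_log (mul_pos hC (by linarith)) ?_
      have := mul_le_mul_of_nonneg_left hPq hC.le
      linarith
    rw [Real.log_mul (by positivity) he.ne', Real.log_exp] at h2
    have h3 := Real.log_le_sub_one_of_pos (show 0 < 2 * C by positivity)
    linarith
  have hlog2 : (1 / K) * Real.log (C * (P + Real.exp (-(K * q)))) ≤ 2 * C / K - q := by
    have h2 := mul_le_mul_of_nonneg_left hlog (show 0 ≤ 1 / K by positivity)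
    have h3 : (1 / K) * (2 * C - K * q) = 2 * C / K - q := by field_simp
    linarith
  have hfin : c * (m + (1 / K) * Real.log (C * (P + Real.exp (-(K * q))))) ≤
      c * (21 * δ * d + 2 * C / K) := by
    refine mul_le_mul_of_nonneg_left ?_ hc.le
    linarith
  have : R ≤ m + c * (21 * δ * d + 2 * C / K) := by linarith
  linarith

/-- `3 ^ a` in `[x, 3 x]`. -/
theorem exists_pow3 {x : ℝ} (hx : 1 ≤ x) : ∃ a : ℕ, x ≤ (3 : ℝ) ^ a ∧ (3 : ℝ) ^ a ≤ 3 * x := by
  obtain ⟨m, hm1, hm2⟩ := exists_nat_pow_near hx (by norm_num : (1 : ℝ) < 3)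
  exact ⟨m + 1, hm2.le, by rw [pow_succ]; linarith⟩

theorem BC_pos : 0 < BC := by
  have hz : 0 < (riemannZeta (3 / 2)).re := by
    have h1 : riemannZeta (3 / 2) = ((∑' n : ℕ, 1 / ((n : ℝ) + 1) ^ (3 / 2 : ℝ) : ℝ) : ℂ) := by
      have h2 := zeta_eq_tsum_one_div_nat_add_one_cpow (s := 3 / 2) (by norm_num)
      rw [h2, Complex.ofReal_tsum]
      refine tsum_congr fun n => ?_
      have h3 : ((((n : ℝ) + 1) ^ (3 / 2 : ℝ) : ℝ) : ℂ) = ((n : ℂ) + 1) ^ (3 / 2 : ℂ) := by
        rw [Complex.ofReal_cpow (by positivity)]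
        push_cast
        norm_num
      rw [Complex.ofReal_div, h3, Complex.ofReal_one]
    rw [h1, Complex.ofReal_re]
    have hs : Summable fun n : ℕ => 1 / ((n : ℝ) + 1) ^ (3 / 2 : ℝ) := by
      have := (summable_nat_add_iff 1).2 (Real.summable_one_div_nat_rpow.2
        (by norm_num : (1 : ℝ) < 3 / 2))
      simpa using this
    exact hs.tsum_pos (fun n => by positivity) 0 (by positivity)
  unfold BC
  positivity

theorem cube_nonempty {n : ℕ} [NeZero n] (x : Tor n) {w : ℕ} (hw : 0 < w) :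
    (cube n x w).Nonempty := by
  have : NeZero w := ⟨hw.ne'⟩
  unfold cube
  exact (Finset.univ_nonempty).image _

/-- The body of `DirSharpStmt3` for one state. -/
def DirAt (C : ℝ) {V : Type} [Fintype V] [DecidableEq V] (L : List (V × V)) (β : ℝ) (h : V → ℝ)
    (b : Finset V) : Prop :=
  ∃ (ι : Type) (_ : Fintype ι) (μ : ι → ℝ) (r : ι → ℕ), (∀ i, 0 ≤ μ i) ∧
      (∀ i, 2 * r i ≤ b.card) ∧ ∑ i, μ i = 1 ∧
      (∀ P : Polynomial ℝ, ∑ i, μ i * P.eval ((r i : ℝ) * ((b.card : ℝ) - r i + 1)) =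
        gib L β h (Polynomial.aeval (CM b) P)) ∧
      ∀ K κ q : ℝ, 1 ≤ K → 0 < κ → 0 ≤ q → q ≤ 1 / 4 →
        (∃ᶠ N : ℕ in atTop, κ ≤ kap L β N h K b) →
        (∑ x ∈ b, rho L β h x) / b.card ≤ (∑ i, μ i * (r i : ℝ)) / b.card +
          C * (K / κ) * ((∑ i, μ i * (r i : ℝ)) / b.card +
            (1 / K) * Real.log (C * ((∑ i, if (r i : ℝ) < q * b.card then μ i else 0) +
              Real.exp (-(K * q)))))

theorem fam_const {n : ℕ} [NeZero n] {g0 lam : ℝ} (hg0 : 0 ≤ g0) (hg1 : g0 ≤ 1) (hlam : 0 ≤ lam) :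
    Fam n g0 lam (fun _ => g0) := by
  refine ⟨fun y => ⟨le_rfl, hg1⟩, fun y i => ?_⟩
  have h1 : 1 ≤ Real.exp lam := Real.one_le_exp hlam
  have h2 := mul_le_mul_of_nonneg_right h1 hg0
  constructor <;> linarith

/-- The choice of the parameters. -/
theorem params {d c2 Lam δ : ℝ} (hd0 : 0 < d) (hd1 : d ≤ 1 / 100) (hc2 : 0 < c2) (hLam : 0 < Lam)
    (hδ0 : 0 < δ) : ∀ᶠ β : ℝ in atTop, 1 ≤ β ∧ 4 * (BC * β ^ (-(3 / 2) : ℝ)) ≤ δ ∧
      1 ≤ Lam * β ^ (3 / 2 : ℝ) ∧ ∃ a : ℕ, β ^ (1 / 2 + d) ≤ (3 : ℝ) ^ a ∧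
      (3 : ℝ) ^ a ≤ 3 * β ^ (1 / 2 + d) ∧ Real.sqrt β ≤ (3 : ℝ) ^ a ∧
      (3 : ℝ) ^ a ≤ β ^ (3 / 4 : ℝ) ∧ Lam * β ^ (3 / 2 : ℝ) ≤ c2 * β * 3 ^ a := by
  have hlim1 : Tendsto (fun β : ℝ => β ^ (-(3 / 2) : ℝ)) atTop (𝓝 0) :=
    tendsto_rpow_neg_atTop (by norm_num)
  have hlim2 : Tendsto (fun β : ℝ => β ^ d) atTop atTop := tendsto_rpow_atTop hd0
  have hlim3 : Tendsto (fun β : ℝ => β ^ (1 / 4 - d)) atTop atTop :=
    tendsto_rpow_atTop (by linarith)
  have hlim4 : Tendsto (fun β : ℝ => β ^ (3 / 2 : ℝ)) atTop atTop :=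
    tendsto_rpow_atTop (by norm_num)
  have h1 : ∀ᶠ β : ℝ in atTop, 4 * (BC * β ^ (-(3 / 2) : ℝ)) ≤ δ := by
    have h2 : Tendsto (fun β : ℝ => 4 * (BC * β ^ (-(3 / 2) : ℝ))) atTop (𝓝 (4 * (BC * 0))) :=
      (hlim1.const_mul BC).const_mul 4
    rw [mul_zero, mul_zero] at h2
    exact h2.eventually_le_const hδ0
  filter_upwards [eventually_ge_atTop 1, h1, hlim2.eventually_ge_atTop (Lam / c2),
    hlim3.eventually_ge_atTop 3, hlim4.eventually_ge_atTop (1 / Lam)] with β hb1 hb6 hb7 hb8 hb9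
  have hβ' : 0 < β := by linarith
  obtain ⟨a, ha1, ha2⟩ := exists_pow3 (x := β ^ (1 / 2 + d)) (Real.one_le_rpow hb1 (by linarith))
  refine ⟨hb1, hb6, ?_, a, ha1, ha2, ?_, ?_, ?_⟩
  · have := mul_le_mul_of_nonneg_left hb9 hLam.le
    rwa [mul_one_div_cancel hLam.ne'] at this
  · refine le_trans ?_ ha1
    rw [Real.sqrt_eq_rpow]
    exact Real.rpow_le_rpow_of_exponent_le hb1 (by linarith)
  · refine ha2.trans ?_
    have h1 : β ^ (3 / 4 : ℝ) = β ^ (1 / 4 - d) * β ^ (1 / 2 + d) := by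
      rw [← Real.rpow_add hβ']
      congr 1
      ring
    rw [h1]
    exact mul_le_mul_of_nonneg_right hb8 (Real.rpow_nonneg hβ'.le _)
  · have h1 : β ^ (3 / 2 : ℝ) * β ^ d = β * β ^ (1 / 2 + d) := by
      rw [← Real.rpow_add hβ']
      nth_rewrite 2 [← Real.rpow_one β]
      rw [← Real.rpow_add hβ']
      congr 1
      ring
    have h2 : Lam ≤ c2 * β ^ d := by
      rwa [div_le_iff₀' hc2] at hb7
    calc Lam * β ^ (3 / 2 : ℝ)
      _ ≤ c2 * β ^ d * β ^ (3 / 2 : ℝ) := mul_le_mul_of_nonneg_right h2 (Real.rpow_nonneg hβ'.le _)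
      _ = c2 * (β ^ (3 / 2 : ℝ) * β ^ d) := by ring
      _ = c2 * β * β ^ (1 / 2 + d) := by rw [h1]; ring
      _ ≤ c2 * β * 3 ^ a := mul_le_mul_of_nonneg_left ha1 (by positivity)

end Vale.Agent.P361.LRO.S3F
end

section

/-!
Block (1) of the low temperature order proof (P361): binomial sums over the subsets of the block.
-/

namespace Vale.Agent.P361.LRO.Tw

open Finset

set_option linter.unusedSectionVars false

variable {V : Type} [DecidableEq V]

end Vale.Agent.P361.LRO.Tw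
end
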