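import Mathlib
import Vale.Agent.P361.Bd6.B3
import Vale.Agent.P361.Bd6.B4
import Vale.Agent.P361.Bd6.B1
import Vale.Agent.P361.Bd6.B5

set_option linter.all false

section

/-! # Bloch's law: final form of the statement (all spins) -/

namespace Vale.Agent.P361.LRO.S3

open Filter Topology

/-- Everything about the zero-field limit for spin `n/2`, given Bloch's law. -/
theorem answer_bloch {n : ℕ} (hn : 1 ≤ n) {c : ℝ}
    (H : Tendsto (fun β : ℝ => β ^ (3 / 2 : ℝ) * ((n : ℝ) / 2 - Model.spontMag n β)) atTop (𝓝 c)) :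
    (∀ β : ℝ, 0 < β →
      (∀ h : ℝ, Tendsto (fun N : ℕ => Model.finPressure n N β h) atTop (𝓝 (Model.pressure n β h))) ∧
      ConvexOn ℝ Set.univ (Model.pressure n β) ∧
      HasDerivWithinAt (Model.pressure n β) (Model.spontMag n β) (Set.Ioi 0) 0 ∧
      Model.spontMag n β ≤ (n : ℝ) / 2) ∧
    (∃ β₀ : ℝ, 0 < β₀ ∧ ∀ β : ℝ, β₀ ≤ β → 0 < Model.spontMag n β) ∧
    Tendsto (fun β : ℝ => Model.spontMag n β) atTop (𝓝 ((n : ℝ) / 2)) ∧
    Tendsto (fun β : ℝ => β ^ (3 / 2 : ℝ) * ((n : ℝ) / 2 - Model.spontMag n β)) atTop (𝓝 c) := by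
  have hT : Tendsto (fun β : ℝ => Model.spontMag n β) atTop (𝓝 ((n : ℝ) / 2)) := by
    have h1 : Tendsto (fun β : ℝ => β ^ (-(3 / 2) : ℝ)) atTop (𝓝 0) :=
      tendsto_rpow_neg_atTop (by norm_num)
    have h2 := h1.mul H
    rw [zero_mul] at h2
    have h3 : Tendsto (fun β : ℝ => (n : ℝ) / 2 - Model.spontMag n β) atTop (𝓝 0) := by
      refine h2.congr' ?_
      filter_upwards [eventually_gt_atTop (0 : ℝ)] with β hβ
      rw [← mul_assoc, ← Real.rpow_add hβ]
      norm_num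
    have h4 := (tendsto_const_nhds (x := (n : ℝ) / 2)).sub h3
    simpa using h4
  have hn' : (0 : ℝ) < (n : ℝ) / 2 := by
    have : (1 : ℝ) ≤ n := by exact_mod_cast hn
    linarith
  obtain ⟨β₁, h1⟩ := eventually_atTop.1 ((tendsto_order.1 hT).1 0 hn')
  exact ⟨fun β hβ => Vale.Agent.P361.Bridge.main_thermo n hn β hβ,
    ⟨max 1 β₁, lt_of_lt_of_le one_pos (le_max_left _ _), fun β hβ =>
      h1 β (le_trans (le_max_right _ _) hβ)⟩, hT, H⟩

end Vale.Agent.P361.LRO.S3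
end

section

/-! # Stage 3, all spins: assembly, with the theorems of the blocks as hypotheses -/

namespace Vale.Agent.P361.LRO.S3S

open Filter Topology Vale.Agent.P361.LRO.S3

theorem bloch_of_blocksS (s : ℕ)
    (hK : KappaStmt3S s) (hD : DirStmt3) (hDS : DirSharpStmt3) (hE : EnergyStmt3S s)
    (h0 : StartStmt3S s)
    (boot : KappaStmt3S s → DirStmt3 → EnergyStmt3S s → StartStmt3S s → BootStmt3S s)
    (mean : BootStmt3S s → MeanStmt3S s)
    (tail : BootStmt3S s → TailStmt3S s)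
    (fin : KappaStmt3S s → BootStmt3S s → DirSharpStmt3 → MeanStmt3S s → TailStmt3S s →
      FinalStmt3S s)
    (lim : FinalStmt3S s →
      Tendsto (fun β : ℝ => β ^ (3 / 2 : ℝ) * ((s : ℝ) / 2 - Model.spontMag s β)) atTop
        (𝓝 (BCS s))) :
    Tendsto (fun β : ℝ => β ^ (3 / 2 : ℝ) * ((s : ℝ) / 2 - Model.spontMag s β)) atTop
      (𝓝 (BCS s)) :=
  have hB : BootStmt3S s := boot hK hD hE h0
  lim (fin hK hB hDS (mean hB) (tail hB))

/-- The statement of the hand-in for all spins `S = n / 2`. -/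
theorem answerS
    (H : ∀ n : ℕ, 1 ≤ n →
      Tendsto (fun β : ℝ => β ^ (3 / 2 : ℝ) * ((n : ℝ) / 2 - Model.spontMag n β)) atTop
        (𝓝 (BCS n))) :
    ∀ n : ℕ, 1 ≤ n →
    (∀ β : ℝ, 0 < β →
      (∀ h : ℝ, Tendsto (fun N : ℕ => Model.finPressure n N β h) atTop (𝓝 (Model.pressure n β h))) ∧
      ConvexOn ℝ Set.univ (Model.pressure n β) ∧
      HasDerivWithinAt (Model.pressure n β) (Model.spontMag n β) (Set.Ioi 0) 0 ∧
      Model.spontMag n β ≤ (n : ℝ) / 2) ∧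
    (∃ β₀ : ℝ, 0 < β₀ ∧ ∀ β : ℝ, β₀ ≤ β → 0 < Model.spontMag n β) ∧
    Tendsto (fun β : ℝ => Model.spontMag n β) atTop (𝓝 ((n : ℝ) / 2)) ∧
    Tendsto (fun β : ℝ => β ^ (3 / 2 : ℝ) * ((n : ℝ) / 2 - Model.spontMag n β)) atTop
      (𝓝 ((riemannZeta (3 / 2)).re /
        (8 * Real.pi ^ (3 / 2 : ℝ) * ((n : ℝ) / 2) ^ (3 / 2 : ℝ)))) :=
  fun _ hn => answer_bloch hn (H _ hn)

end Vale.Agent.P361.LRO.S3S
end

section

/-!
P361 LRO, block (6), energy form of the local input: used for all spins.  The copies of a layer are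
slots of the layer, and the same-site conductances are not needed.
-/

namespace Vale.Agent.P361.LRO.Ind

open Finset Vale.Agent.P361.LRO _root_.P361.LRO

noncomputable section

/-- Local information on the network, energy form (the conclusions of `E4_le`, `dev_le`,
`contact_le`). -/
structure LocalE (n N W m : ℕ) [NeZero n] (β K c1 : ℝ) (b : Finset (Tor n)) (h : Tor n → ℝ)
    (c : Nd n N → Nd n N → ℝ) : Prop where
  symm : ∀ u v, c u v = c v u
  nonneg : ∀ u v, 0 ≤ c u v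
  tot : ∀ (k : Fin (N + 1)) (x : Tor n), k ≠ 0 → ∑ v, c (k, x) v ≤ β * h x / (2 * N)
  e4 : ∀ (o : Tor n) (S : ℕ), 2 ≤ S → S < n → (∀ x ∈ cube n o S, h x = 1) → ∀ a : Nd n N → ℝ,
    c1 * (β / m) ^ 2 * E4 S m (UU n N W o a) ≤ 100 * netK c a
  dev : ∀ (o : Tor n) (S : ℕ), 2 ≤ S → S < n → (∀ x ∈ cube n o S, h x = 1) → ∀ a : Nd n N → ℝ,
    c1 * (β / m) * (β / N) * (∑ x ∈ range S, ∑ y ∈ range S, ∑ z ∈ range S, ∑ w ∈ range m,
      ∑ j ∈ range W, (a (lay N W w j, pt n o x y z) - UU n N W o a x y z w) ^ 2) ≤ netK c a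
  contact : b.Nonempty → (∀ x ∈ b, h x = 1) → ∀ a : Nd n N → ℝ, (∀ x ∈ b, a (0, x) = 1) →
    c1 * K * (β / N) * (1 / b.card) * (∑ x ∈ b, ∑ j ∈ range W, (1 - a (lay N W 0 j, x)) ^ 2)
      ≤ netK c a

/-- Local information without same-site conductances. -/
structure LocalN (n N W : ℕ) [NeZero n] (β K c1 : ℝ) (b : Finset (Tor n)) (h : Tor n → ℝ)
    (c : Nd n N → Nd n N → ℝ) : Prop where
  symm : ∀ u v, c u v = c v u
  nonneg : ∀ u v, 0 ≤ c u v
  tot : ∀ (k : Fin (N + 1)) (x : Tor n), k ≠ 0 → ∑ v, c (k, x) v ≤ β * h x / (2 * N)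
  nbr : ∀ (k l : Fin (N + 1)) (x : Tor n) (i : Fin 3), k ≠ 0 → l ≠ 0 →
    ((k : ℕ) + W ≤ l ∨ (l : ℕ) + W ≤ k) → (l : ℕ) ≤ k + 3 * W → (k : ℕ) ≤ l + 3 * W →
    h x = 1 → h (x + Pi.single i 1) = 1 →
    c1 * (β / N) ^ 2 ≤ c (k, x) (l, x + Pi.single i 1)
  contact : ∀ (k : Fin (N + 1)) (x : Tor n), k ≠ 0 → (k : ℕ) ≤ W → x ∈ b → h x = 1 →
    c1 * (K / b.card) * (β / N) ≤ c (0, x) (k, x)

end

end Vale.Agent.P361.LRO.Ind
end

section

/-!
P361 LRO, all spins, block (6) by TYING THE COPIES (helper262): the network with copies on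
`NdS n s N` is reduced to a network on `Nd n N` to which block (6) for `s = 1` applies verbatim.
-/

namespace Vale.Agent.P361.LRO.GenS

open Finset Vale.Agent.P361.LRO _root_.P361.LRO

noncomputable section

/-- (M1) output of LOC with copies (`k = 0` allowed). -/
def LocStmtS (s : ℕ) : Prop :=
  ∃ c0 : ℝ, 0 < c0 ∧ ∀ (n : ℕ) [NeZero n] (M : ℕ) (β : ℝ) (N : ℕ) (h T : Tor n → ℝ),
    2 ≤ n → 1 ≤ β → 8 * β ≤ N → (∀ x, 0 ≤ h x ∧ h x ≤ 1) → (∀ x, 0 ≤ T x ∧ T x ≤ 1) →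
    (∀ (k k' : Fin (N + 1)) (x y : Tor n) (i j : Fin s), k < k' →
      1 / 4 ≤ ((k' : ℝ) - (k : ℝ)) * β / N → ((k' : ℝ) - (k : ℝ)) * β / N ≤ 1 →
      ((x, y) ∈ edges n ∨ (y, x) ∈ edges n) → x ≠ y →
      c0 * (th β N (hS h) (hS T) (k, (x, i)) * th β N (hS h) (hS T) (k', (y, j))) ≤
        cc (phys (edgesS n s M) β N) (th β N (hS h) (hS T)) (k, (x, i)) (k', (y, j))) ∧
    (∀ (k k' : Fin (N + 1)) (x : Tor n) (i : Fin s), k < k' →
      ((k' : ℝ) - (k : ℝ)) * β / N ≤ 1 →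
      c0 * (th β N (hS h) (hS T) (k, (x, i)) * th β N (hS h) (hS T) (k', (x, i))) ≤
        ∑ j, cc (phys (edgesS n s M) β N) (th β N (hS h) (hS T)) (k, (x, j)) (k', (x, i)))

end

end Vale.Agent.P361.LRO.GenS
end

section

/-!
P361 LRO, block (6), master file, part 1: the physical conductances satisfy `Ind.Low`.
-/

namespace Vale.Agent.P361.LRO.Net

open Finset Filter Vale.Agent.P361.LRO

noncomputable section

section

variable {V : Type} {β : ℝ} {N : ℕ} {T : V → ℝ}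

theorem th_nonneg (hβ : 0 ≤ β) {h : V → ℝ} (hh : ∀ x, 0 ≤ h x) (hT : ∀ x, 0 ≤ T x)
    (z : Fin (N + 1) × V) : 0 ≤ th β N h T z := by
  unfold th
  split_ifs
  · exact hT _
  · exact div_nonneg (mul_nonneg hβ (hh _)) (by positivity)

theorem th_le_one (hβ : 0 ≤ β) (hN : β ≤ N) {h : V → ℝ} (hh : ∀ x, h x ≤ 1)
    (hT : ∀ x, T x ≤ 1) (z : Fin (N + 1) × V) : th β N h T z ≤ 1 := by
  unfold th
  split_ifs
  · exact hT _
  · rcases eq_or_lt_of_le hβ with h0 | h0
    · rw [← h0]; simp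
    · have hNp : (0 : ℝ) < N := h0.trans_le hN
      rw [div_le_one (by positivity)]
      have := mul_le_mul_of_nonneg_left (hh z.2) hβ
      linarith

end

/-- Hypothesis from the blocks (2), (5): magnetizations close to one on the whole family. -/
def MagHyp (n : ℕ) [NeZero n] (β : ℝ) (N : ℕ) (T : Tor n → ℝ) (h0 lam ε : ℝ) : Prop :=
  ∀ h, Fam n h0 lam h → ∀ z : Fin (N + 1) × Tor n, z.1 ≠ 0 →
    1 - ε ^ 2 ≤ mag (phys (edges n) β N) (th β N h T) z

end

end Vale.Agent.P361.LRO.Net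
end

section

/-!
P361 LRO, block (6), master file, part 2: the physical conductances satisfy `Ind.Local`.
-/

namespace Vale.Agent.P361.LRO.Net

open Finset Filter Vale.Agent.P361.LRO

noncomputable section

/-- LOC with the constant `cl` (form of `Skel/Low.lean`, `Loc/LowLoc.lean`). -/
def LocBound (cl : ℝ) : Prop :=
  ∀ {V : Type} [Fintype V] [DecidableEq V] (L : List (V × V)),
    (∀ x, (L.filter fun e => e.1 = x ∨ e.2 = x).length ≤ 6) →
    ∀ (β : ℝ), 1 ≤ β → ∀ N : ℕ, 8 * β ≤ N → ∀ h T : V → ℝ,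
    (∀ x, 0 ≤ h x ∧ h x ≤ 1) → (∀ x, 0 ≤ T x ∧ T x ≤ 1) →
    (∀ (k k' : Fin (N + 1)) (x : V), 0 < k → k < k' → ((k' : ℝ) - (k : ℝ)) * β / N ≤ 1 →
      cl * (β * h x / (2 * N)) ^ 2 ≤ cc (phys L β N) (th β N h T) (k, x) (k', x)) ∧
    (∀ (k k' : Fin (N + 1)) (x y : V), 0 < k → k < k' → 1 / 4 ≤ ((k' : ℝ) - (k : ℝ)) * β / N →
      ((k' : ℝ) - (k : ℝ)) * β / N ≤ 1 → ((x, y) ∈ L ∨ (y, x) ∈ L) → x ≠ y →
      cl * (β * h x / (2 * N)) * (β * h y / (2 * N)) ≤
        cc (phys L β N) (th β N h T) (k, x) (k', y)) ∧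
    (∀ (k : Fin (N + 1)) (x : V), 0 < k → (k : ℝ) * β / N ≤ 1 →
      cl * T x * (β * h x / (2 * N)) ≤ cc (phys L β N) (th β N h T) (0, x) (k, x))

theorem half_le_tanh {y : ℝ} (h0 : 0 ≤ y) (h1 : y ≤ 1) : y / 2 ≤ Real.tanh y := by
  rw [Real.tanh_eq_sinh_div_cosh, le_div_iff₀ (Real.cosh_pos y)]
  have h2 : y ≤ Real.sinh y := Real.self_le_sinh_iff.2 h0
  have h3 : Real.cosh y ≤ 2 := by
    have := Real.cosh_le_cosh.2 (show |y| ≤ |(1 : ℝ)| by
      rw [abs_of_nonneg h0, abs_one]; exact h1)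
    refine this.trans ?_
    rw [Real.cosh_eq]
    have he := Real.exp_one_lt_d9
    have he2 : Real.exp (-1) ≤ 1 := Real.exp_le_one_iff.2 (by norm_num)
    linarith
  have h4 := Real.cosh_pos y
  nlinarith

end

end Vale.Agent.P361.LRO.Net
end

section

/-!
P361 LRO, all spins: local information on the slots network.
-/

namespace Vale.Agent.P361.LRO.GenS

open Finset _root_.P361.LRO Vale.Agent.P361.LRO

noncomputable section

theorem isLaw_phys'' {V : Type} [Fintype V] [DecidableEq V] (L : List (V × V)) {β : ℝ}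
    (hβ : 0 ≤ β) {N : ℕ} (hN : β ≤ N) : IsLaw (phys L β N) := by
  refine ⟨gates L N (β / (2 * N)), base N, ?_, rfl⟩
  intro g hg
  unfold gates at hg
  rw [List.mem_flatMap] at hg
  obtain ⟨k, _, hk⟩ := hg
  rw [List.mem_map] at hk
  obtain ⟨e, _, rfl⟩ := hk
  refine ⟨by positivity, ?_⟩
  by_cases hN0 : (N : ℝ) = 0
  · rw [hN0]; simp
  · have hNp : (0:ℝ) < N := lt_of_le_of_ne (Nat.cast_nonneg N) (Ne.symm hN0)
    rw [div_le_div_iff₀ (by positivity) (by norm_num)]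
    linarith

theorem blk_memS {V : Type} [Fintype V] [DecidableEq V] {K : ℝ} (hK : 0 ≤ K) (b : Finset V)
    (x : V) : 0 ≤ blk K b x ∧ blk K b x ≤ 1 := by
  unfold blk
  split_ifs
  · have h0 : 0 ≤ K / (2 * b.card) := by positivity
    refine ⟨?_, (Real.tanh_lt_one _).le⟩
    rw [Real.tanh_eq_sinh_div_cosh]
    exact div_nonneg (Real.sinh_nonneg_iff.2 h0) (Real.cosh_pos _).le
  · norm_num

theorem blk_hS {n s : ℕ} [NeZero n] (K : ℝ) (b : Finset (Tor n)) :
    blk K (b ×ˢ (univ : Finset (Fin s))) =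
      hS (fun x => if x ∈ b then Real.tanh (K / (2 * (b ×ˢ (univ : Finset (Fin s))).card))
        else 0) := by
  funext z
  show (if z ∈ b ×ˢ (univ : Finset (Fin s)) then _ else _) = if z.1 ∈ b then _ else _
  by_cases hz : z.1 ∈ b
  · rw [if_pos hz, if_pos (by simp [hz])]
  · rw [if_neg hz, if_neg (by simp [hz])]

end

end Vale.Agent.P361.LRO.GenS
end

section

/-! P361 LRO LOC, leaf D: the arc bound. -/

namespace Vale.Agent.P361.LRO.Loc

open Finset Vale.Agent.P361.LRO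

end Vale.Agent.P361.LRO.Loc
end

section

/-!
P361 LRO, block (4), final form: from `LocSame` and `LocNN` to windows of unit time length.
-/

namespace Vale.Agent.P361.LRO

open Finset

noncomputable section

namespace Loc.Final

open Vale.Agent.P361.LRO.Loc

variable {V : Type} [Fintype V] [DecidableEq V]

end Loc.Final

end

end Vale.Agent.P361.LRO
end

section

/-!
P361 LRO, block (4), with arbitrary additional gates between the layers `N` and `0`.
`E₁ ++ (gates L N p ++ E₂)`; for spin `S` these gates are the projector onto the symmetric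
subspace of the copies.
-/

namespace Vale.Agent.P361.LRO

open Finset

noncomputable section

namespace Loc.Ext

open Vale.Agent.P361.LRO.Loc Vale.Agent.P361.LRO.Loc.Geo

variable {V : Type} [Fintype V] [DecidableEq V]

/-! ### Neighbours -/

end Loc.Ext

end

end Vale.Agent.P361.LRO
end

section

/-!
P361 LRO, block (4) LOC, done: `locSame`, `locNN`, `net`, `loc` (form of `Skel/Low.lean`) and
`locE` (extra gates between the layers `N` and `0`, any degree bound).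
-/

namespace Vale.Agent.P361.LRO

open Finset

noncomputable section

namespace Loc.Done

open Vale.Agent.P361.LRO.Loc.Final

variable {V : Type} [Fintype V] [DecidableEq V]

end Loc.Done

end

end Vale.Agent.P361.LRO
end

section

/-!
P361 LRO, stage 3: the physical network in the field `g / β` satisfies `Ind3.Local3`
(long windows: `Bloch/LongCC` + `Bloch/Kernel4` + the defect bound `DeltaStmt`).
-/

namespace Vale.Agent.P361.LRO.Ind3

open Finset Matrix Vale.Agent.P361.LRO _root_.P361.LRO Vale.Agent.P361.LRO.Ind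
  Vale.Agent.P361.LRO.Bloch

noncomputable section

/-- The defect bound (output of `Bloch/Delta.lean`). -/
def DeltaStmt : Prop :=
  ∃ C : ℝ, 0 < C ∧ ∀ (V : Type) [Fintype V] [DecidableEq V] (L : List (V × V)) (β K η : ℝ)
    (b : Finset V), 0 < β → 0 < K → K ≤ b.card → b.Nonempty → 0 < η →
    ∃ N0 : ℕ, ∀ N : ℕ, N0 ≤ N → ∀ h : V → ℝ, (∀ x, 0 ≤ h x ∧ h x ≤ 1) →
    (∀ x, rho L β h x ≤ η) → ∀ k m : ℕ, k + m + 1 ≤ N → ∀ (x y : V) (w1 w2 : List (Lt V))
      (a c : V) (p : ℝ), mword L β N (th β N h (blk K b)) k m = w1 ++ Lt.gate a c p :: w2 →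
      trace (lctx L β N (th β N h (blk K b)) (k + m + 1) x * wd w1 * exM a c * wd w2 *
          rctx L β N (th β N h (blk K b)) k y) ≤
        C * η * Real.exp (C * (K * η)) * trace (lctx L β N (th β N h (blk K b)) (k + m + 1) x *
          wd (mword L β N (th β N h (blk K b)) k m) * rctx L β N (th β N h (blk K b)) k y) ∧
      trace (lctx L β N (th β N h (blk K b)) (k + m + 1) x * wd w1 * neM a c * wd w2 *
          rctx L β N (th β N h (blk K b)) k y) ≤
        C * η * Real.exp (C * (K * η)) * trace (lctx L β N (th β N h (blk K b)) (k + m + 1) x *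
          wd (mword L β N (th β N h (blk K b)) k m) * rctx L β N (th β N h (blk K b)) k y)

/-- The loss factor of `m ≤ N` layers with slice parameters `≤ 1 / (2N)`. -/
theorem loss_ge {N m : ℕ} (hN : 1 ≤ N) (hm : m ≤ N) :
    Real.exp (-2) ≤ ((1 - 1 / (2 * (N : ℝ))) / (1 + 1 / (2 * (N : ℝ)))) ^ m := by
  have hNr : (1:ℝ) ≤ N := by exact_mod_cast hN
  have hNp : (0:ℝ) < N := by linarith
  set u : ℝ := 1 / (2 * (N : ℝ)) with hu
  have hu0 : 0 < u := by positivity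
  have hu1 : u ≤ 1 / 2 := by
    rw [hu, div_le_div_iff₀ (by positivity) (by norm_num)]
    linarith
  have h1 : 0 < (1 - u) / (1 + u) := div_pos (by linarith) (by linarith)
  have h2 : (1 - u) / (1 + u) ≤ 1 := by
    rw [div_le_one (by linarith)]; linarith
  have h3 : ((1 - u) / (1 + u)) ^ N ≤ ((1 - u) / (1 + u)) ^ m :=
    pow_le_pow_of_le_one h1.le h2 hm
  refine le_trans ?_ h3
  have h4 : Real.exp (-(4 * u)) ≤ (1 - u) / (1 + u) := by
    rw [Real.exp_neg, ← one_div, div_le_div_iff₀ (Real.exp_pos _) (by linarith), one_mul]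
    have h5 : 1 + 4 * u + (4 * u) ^ 2 / 2 ≤ Real.exp (4 * u) :=
      Real.quadratic_le_exp_of_nonneg (by positivity)
    have h6 : (1 - u) * (1 + 4 * u + (4 * u) ^ 2 / 2) ≤ (1 - u) * Real.exp (4 * u) :=
      mul_le_mul_of_nonneg_left h5 (by linarith)
    refine le_trans ?_ h6
    linarith only [mul_nonneg (mul_nonneg hu0.le hu0.le) (sub_nonneg.2 hu1), hu0]
  calc Real.exp (-2) = (Real.exp (-(4 * u))) ^ N := by
        rw [← Real.exp_nat_mul]
        congr 1
        rw [hu]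
        field_simp
        norm_num
    _ ≤ _ := pow_le_pow_left₀ (Real.exp_pos _).le h4 N

/-- difference of two points of a cube -/
theorem cube_diff {n : ℕ} [NeZero n] {p x y : Tor n} {w : ℕ} (hx : x ∈ cube n p w)
    (hy : y ∈ cube n p w) : ∃ z : Fin 3 → ℤ, (∀ i, |(z i : ℝ)| ≤ w) ∧
      y = x + fun i => (z i : ZMod n) := by
  unfold cube at hx hy
  rw [Finset.mem_image] at hx hy
  obtain ⟨i, _, hi⟩ := hx
  obtain ⟨j, _, hj⟩ := hy
  refine ⟨fun a => ((j a : ℕ) : ℤ) - ((i a : ℕ) : ℤ), fun a => ?_, ?_⟩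
  · have h1 : ((i a : ℕ) : ℝ) < w := by exact_mod_cast (i a).2
    have h2 : ((j a : ℕ) : ℝ) < w := by exact_mod_cast (j a).2
    have h3 : (0:ℝ) ≤ ((i a : ℕ) : ℝ) := Nat.cast_nonneg _
    have h4 : (0:ℝ) ≤ ((j a : ℕ) : ℝ) := Nat.cast_nonneg _
    push_cast
    rw [abs_le]
    constructor <;> linarith
  · rw [← hi, ← hj]
    funext a
    simp only [Pi.add_apply]
    push_cast
    ring

theorem cJ_nonneg : 0 ≤ Ker.cJ 18 := by
  have hc := Ker.cK_pos 18
  have hc1 : Ker.cK 18 ≤ 1 := by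
    unfold Ker.cK
    rw [Real.exp_le_one_iff]
    norm_num
  have h3 : Ker.cK 18 ^ 3 ≤ 1 := pow_le_one₀ hc.le hc1
  have hl : 0 ≤ Real.log (4 / Ker.cK 18 ^ 3) := by
    apply Real.log_nonneg
    rw [le_div_iff₀ (by positivity)]
    linarith
  have hl2 : 0 < Real.log 2 := Real.log_pos (by norm_num)
  unfold Ker.cJ
  positivity

end

end Vale.Agent.P361.LRO.Ind3
end

section

/-!
P361 LRO, stage 3, all spins: the physical network with copies in the field `g / (s β)` satisfies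
`LocalC3` (long windows), from the long-window bound `CCgeS` and the defect bound `DeltaStmt`.
-/

namespace Vale.Agent.P361.LRO.GenS

open Finset Matrix Vale.Agent.P361.LRO _root_.P361.LRO Vale.Agent.P361.LRO.Bloch

noncomputable section

/-- Conductances between all copies at distance at least a quarter of the circle; only the inter
gates have to be controlled. -/
def CCgeS (s : ℕ) : Prop :=
  ∃ c0 CJ : ℝ, 0 < c0 ∧ 0 < CJ ∧ ∀ (n M : ℕ) [NeZero n] (β : ℝ), 2 ≤ n → 8 ≤ β →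
    ∃ N0 : ℕ, 1 ≤ N0 ∧ ∀ N W : ℕ, N0 ≤ N → N = 4 * W →
    ∀ θ : Fin (N + 1) × (Tor n × Fin s) → ℝ, (∀ z, 0 ≤ θ z ∧ θ z ≤ 1) →
      (∀ z, z.1 ≠ 0 → θ z ≤ 1 / (2 * N)) → (∀ k x i j, θ (k, (x, i)) = θ (k, (x, j))) →
      ∀ k m e : ℕ, k + m + 1 ≤ N → W ≤ m + 1 → (3:ℝ) ^ e ≤ 3 * √β → √β ≤ 3 * 3 ^ e →
      ∀ δ : ℝ, 0 ≤ δ → δ * (CJ * β) ≤ 1 / 2 →
      ∀ (p x y : Tor n) (i j : Fin s), x ∈ cube n p (2 * 3 ^ e) → y ∈ cube n p (2 * 3 ^ e) →
      (∀ w1 w2 a b p, a.1 ≠ b.1 → mword (edgesS n s M) β N θ k m = w1 ++ Lt.gate a b p :: w2 →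
        trace (lctx (edgesS n s M) β N θ (k + m + 1) (x, i) * wd w1 * exM a b * wd w2 *
            rctx (edgesS n s M) β N θ k (y, j)) ≤
          δ * trace (lctx (edgesS n s M) β N θ (k + m + 1) (x, i) *
            wd (mword (edgesS n s M) β N θ k m) * rctx (edgesS n s M) β N θ k (y, j)) ∧
        trace (lctx (edgesS n s M) β N θ (k + m + 1) (x, i) * wd w1 * neM a b * wd w2 *
            rctx (edgesS n s M) β N θ k (y, j)) ≤
          δ * trace (lctx (edgesS n s M) β N θ (k + m + 1) (x, i) *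
            wd (mword (edgesS n s M) β N θ k m) * rctx (edgesS n s M) β N θ k (y, j))) →
      c0 / 27 ^ e *
        (θ (Fin.ofNat (N + 1) (k + m + 1), (x, i)) * θ (Fin.ofNat (N + 1) k, (y, j))) ≤
      cc (phys (edgesS n s M) β N) θ (Fin.ofNat (N + 1) (k + m + 1), (x, i))
        (Fin.ofNat (N + 1) k, (y, j))

/-- **The physical network with copies satisfies `LocalC3`.** `c1` depends only on `s`. -/
theorem localC3_inst (s : ℕ) (hs : 0 < s) (hCC : CCgeS s) (hΔ : Ind3.DeltaStmt) :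
    ∃ c1 : ℝ, 0 < c1 ∧ ∀ A : ℝ, 0 < A → ∃ β0 : ℝ, 8 ≤ β0 ∧
    ∀ β : ℝ, β0 ≤ β → ∀ (e n M : ℕ) [NeZero n] (K η : ℝ) (b : Finset (Tor n)), 2 ≤ n →
    (3:ℝ) ^ e ≤ 3 * √β → √β ≤ 3 * 3 ^ e → 0 < K → K ≤ s * b.card → b.Nonempty →
    0 < η → η ≤ A * β ^ (-(3 / 2) : ℝ) → K * η ≤ A →
    ∃ N0 : ℕ, ∀ N W : ℕ, N0 ≤ N → N = 4 * W → ∀ g : Tor n → ℝ, (∀ x, 0 ≤ g x ∧ g x ≤ 1) →
    (∀ z, rho (edgesS n s M) β (hS fun y => g y / (s * β)) z ≤ η) →
    LocalC3 n s N W e K c1 b g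
      (Net.c0 (phys (edgesS n s M) β N)
        (th β N (hS fun y => g y / (s * β)) (blk K (b ×ˢ univ)))) := by
  obtain ⟨C, hC, hΔ⟩ := hΔ
  obtain ⟨c0, CJ, hc0p, hCJ, hCC⟩ := hCC
  have hsr : (1 : ℝ) ≤ s := by exact_mod_cast hs
  have hs0 : (0 : ℝ) < s := by linarith
  refine ⟨c0 / 8, by positivity, fun A hA => ?_⟩
  set Mc : ℝ := 2 * (C * A * Real.exp (C * A) * CJ) with hM
  have hMp : 0 < Mc := by
    have := Real.exp_pos (C * A)
    positivity
  refine ⟨max 8 (Mc ^ 2), le_max_left _ _, ?_⟩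
  intro β hβ e n M _ K η b hn he1 he2 hK hKb hbn hη hη2 hKη
  have hβ8 : 8 ≤ β := (le_max_left _ _).trans hβ
  have hβ0 : 0 < β := by linarith
  have hβM : Mc ≤ √β := Real.le_sqrt_of_sq_le ((le_max_right _ _).trans hβ)
  set δ : ℝ := C * η * Real.exp (C * (K * η)) with hδ
  have hδ0 : 0 ≤ δ := by
    have := Real.exp_pos (C * (K * η))
    positivity
  have hsβ : 0 < √β := Real.sqrt_pos.2 hβ0
  have hrp : β ^ (-(3 / 2) : ℝ) = 1 / (β * √β) := by
    rw [Real.rpow_neg hβ0.le, one_div, Real.sqrt_eq_rpow]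
    congr 1
    rw [show (3 / 2 : ℝ) = 1 + 1 / 2 by norm_num, Real.rpow_add hβ0, Real.rpow_one]
  have hδ2 : δ * (CJ * β) ≤ 1 / 2 := by
    have h1 : δ ≤ C * (A * (1 / (β * √β))) * Real.exp (C * A) := by
      rw [hδ]
      refine mul_le_mul (mul_le_mul_of_nonneg_left ?_ hC.le)
        (Real.exp_le_exp.2 (mul_le_mul_of_nonneg_left hKη hC.le)) (Real.exp_pos _).le
        (by positivity)
      rw [← hrp]; exact hη2
    have h2 : 0 ≤ CJ * β := by positivity
    calc δ * (CJ * β)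
        ≤ C * (A * (1 / (β * √β))) * Real.exp (C * A) * (CJ * β) :=
          mul_le_mul_of_nonneg_right h1 h2
      _ = Mc / 2 / √β := by rw [hM]; field_simp
      _ ≤ 1 / 2 := by
        rw [div_div, div_le_div_iff₀ (by positivity) (by norm_num)]
        linarith
  set bS : Finset (Tor n × Fin s) := b ×ˢ univ with hbS
  have hcard : ((bS.card : ℕ) : ℝ) = b.card * s := by
    rw [hbS, Finset.card_product, Finset.card_univ, Fintype.card_fin]
    push_cast
    ring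
  have hbp : (0:ℝ) < b.card := by exact_mod_cast hbn.card_pos
  have hbSn : bS.Nonempty := by
    obtain ⟨x, hx⟩ := hbn
    exact ⟨(x, ⟨0, hs⟩), by rw [hbS]; simp [hx]⟩
  have hKbS : K ≤ bS.card := by rw [hcard]; linarith
  obtain ⟨N1, hN1⟩ := hΔ (Tor n × Fin s) (edgesS n s M) β K η bS hβ0 hK hKbS hbSn hη
  obtain ⟨N2, hN21, hN2⟩ := hCC n M β hn hβ8
  refine ⟨max N1 (max N2 ⌈β⌉₊), ?_⟩
  intro N W hN hNW g hg hrho
  have hNN1 : N1 ≤ N := (le_max_left _ _).trans hN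
  have hNN2 : N2 ≤ N := (le_max_left _ _).trans ((le_max_right _ _).trans hN)
  have hNβ : β ≤ N := by
    have : ⌈β⌉₊ ≤ N := (le_max_right _ _).trans ((le_max_right _ _).trans hN)
    exact (Nat.le_ceil β).trans (by exact_mod_cast this)
  have hNp : (0:ℝ) < N := by linarith
  have hNat : 1 ≤ N := hN21.trans hNN2
  have hW : 1 ≤ W := by omega
  set h : Tor n → ℝ := fun y => g y / (s * β) with hh
  have hh01 : ∀ x, 0 ≤ h x ∧ h x ≤ 1 := fun x => by
    rw [hh]
    refine ⟨div_nonneg (hg x).1 (by positivity), ?_⟩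
    simp only
    rw [div_le_one (mul_pos hs0 hβ0)]
    have b1 := mul_le_mul_of_nonneg_right hsr hβ0.le
    linarith only [(hg x).2, b1, hβ8]
  have hT : ∀ x, 0 ≤ blk K bS x ∧ blk K bS x ≤ 1 := blk_memS hK.le bS
  set θ : Fin (N + 1) × (Tor n × Fin s) → ℝ := th β N (hS h) (blk K bS) with hθdef
  have hθ : ∀ z, 0 ≤ θ z ∧ θ z ≤ 1 := fun z =>
    ⟨Net.th_nonneg (h := hS h) (T := blk K bS) hβ0.le (fun x => (hh01 x.1).1)
        (fun x => (hT x).1) z,
      Net.th_le_one (h := hS h) (T := blk K bS) hβ0.le hNβ (fun x => (hh01 x.1).2)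
        (fun x => (hT x).2) z⟩
  have hθg : ∀ (k : Fin (N + 1)) (x : Tor n) (i : Fin s), k ≠ 0 →
      θ (k, (x, i)) = g x / (2 * ((N * s : ℕ) : ℝ)) := fun k x i hk => by
    rw [hθdef]
    unfold th hS
    rw [if_neg hk, hh]
    push_cast
    field_simp
  have hθ2 : ∀ z : Fin (N + 1) × (Tor n × Fin s), z.1 ≠ 0 → θ z ≤ 1 / (2 * N) := by
    rintro ⟨k, x, i⟩ hk
    rw [hθg k x i hk]
    push_cast
    rw [div_le_div_iff₀ (by positivity) (by positivity)]
    have h1 : g x ≤ 1 := (hg x).2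
    have h2 : g x * (2 * (N:ℝ)) ≤ 1 * (2 * N) := mul_le_mul_of_nonneg_right h1 (by positivity)
    have b1 := mul_le_mul_of_nonneg_left hsr hNp.le
    linarith only [h2, b1]
  have hθ0 : ∀ (x : Tor n) (i : Fin s), θ (0, (x, i)) = blk K bS (x, i) := fun x i => by
    rw [hθdef]; unfold th; rw [if_pos rfl]
  have hθs : ∀ k x i j, θ (k, (x, i)) = θ (k, (x, j)) := by
    intro k x i j
    by_cases hk : k = 0
    · subst hk
      rw [hθ0, hθ0, hbS, blk_hS]
      rfl
    · rw [hθg k x i hk, hθg k x j hk]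
  have hlaw := isLaw_phys'' (edgesS n s M) hβ0.le hNβ
  have hG : Net.Good (phys (edgesS n s M) β N) := good_of_isLaw hlaw
  have hval : ∀ u v, u ≠ v → Net.c0 (phys (edgesS n s M) β N) θ u v =
      cc (phys (edgesS n s M) β N) θ u v := fun u v huv => if_neg huv
  have hmain : ∀ (k m : ℕ), k + m + 1 ≤ N → W ≤ m + 1 → ∀ (p x y : Tor n) (i j : Fin s),
      x ∈ cube n p (2 * 3 ^ e) → y ∈ cube n p (2 * 3 ^ e) →
      c0 / 27 ^ e * (θ (Fin.ofNat (N + 1) (k + m + 1), (x, i)) *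
        θ (Fin.ofNat (N + 1) k, (y, j))) ≤
      cc (phys (edgesS n s M) β N) θ (Fin.ofNat (N + 1) (k + m + 1), (x, i))
        (Fin.ofNat (N + 1) k, (y, j)) := fun k m hkm hWm p x y i j hx hy =>
    hN2 N W hNN2 hNW _ hθ hθ2 hθs k m e hkm hWm he1 he2 δ hδ0 hδ2 p x y i j hx hy
      (fun w1 w2 a c p _ hw => hN1 N hNN1 (hS h) (fun z => hh01 z.1) hrho k m hkm (x, i) (y, j)
        w1 w2 a c p hw)
  refine ⟨?_, ?_, ?_, ?_, ?_⟩
  · intro u v
    unfold Net.c0
    by_cases huv : u = v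
    · subst huv; rfl
    · rw [if_neg huv, if_neg (Ne.symm huv), Net.cc_comm]
  · intro u v
    unfold Net.c0
    split_ifs with huv
    · exact le_rfl
    · exact hG.ccnn _ hθ u v huv
  · intro k x i hk
    have h2 : ∑ y, Net.c0 (phys (edgesS n s M) β N) θ (k, (x, i)) y =
        vv (phys (edgesS n s M) β N) θ (k, (x, i)) :=
      Net.netV_c0 (phys (edgesS n s M) β N) θ (k, (x, i))
    have h3 := hG.vle _ hθ (k, (x, i))
    rw [hθg k x i hk] at h3
    exact h2.trans_le h3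
  · intro k l p x y i j hk hkl hx hy hgx hgy
    have hk0 : 0 < (k : ℕ) := Fin.pos_of_ne_zero hk
    have hl0 : l ≠ 0 := by
      intro h
      rw [h] at hkl
      simp at hkl
      omega
    have hne : ((k, (x, i)) : Fin (N + 1) × (Tor n × Fin s)) ≠ (l, (y, j)) := fun h => by
      have : (k:ℕ) = l := congrArg (fun z : Fin (N + 1) × (Tor n × Fin s) => (z.1 : ℕ)) h
      omega
    rw [hval _ _ hne, Net.cc_comm]
    have hlN : (l : ℕ) ≤ N := Nat.lt_succ_iff.1 l.2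
    obtain ⟨m, hm⟩ : ∃ m : ℕ, (l : ℕ) = k + m + 1 := ⟨(l : ℕ) - k - 1, by omega⟩
    have h1 := hmain k m (by omega) (by omega) p y x j i hy hx
    have hl : Fin.ofNat (N + 1) ((k : ℕ) + m + 1) = l := by
      rw [← hm]; exact Fin.cast_val_eq_self l
    have hkk : Fin.ofNat (N + 1) (k : ℕ) = k := Fin.cast_val_eq_self k
    rw [hl, hkk, hθg l y j hl0, hθg k x i hk, hgx, hgy] at h1
    refine le_trans ?_ h1
    have hNs : (0 : ℝ) < ((N * s : ℕ) : ℝ) := by push_cast; positivity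
    have e1 : c0 / 27 ^ e * (1 / (2 * ((N * s : ℕ) : ℝ)) * (1 / (2 * ((N * s : ℕ) : ℝ)))) =
        2 * (c0 / 8 / (((N * s : ℕ) : ℝ) ^ 2 * 27 ^ e)) := by
      field_simp
      norm_num
    rw [e1]
    have : 0 ≤ c0 / 8 / (((N * s : ℕ) : ℝ) ^ 2 * 27 ^ e) := by positivity
    linarith
  · intro k p x y j hWk hxb hx hy hgy
    have hk0 : 0 < (k : ℕ) := by omega
    have hkne : k ≠ 0 := by
      intro h
      rw [h] at hk0
      simp at hk0
    have hkN : (k : ℕ) ≤ N := Nat.lt_succ_iff.1 k.2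
    obtain ⟨m, hm⟩ : ∃ m : ℕ, (k : ℕ) = 0 + m + 1 := ⟨(k : ℕ) - 1, by omega⟩
    have hl : Fin.ofNat (N + 1) (0 + m + 1) = k := by
      rw [← hm]; exact Fin.cast_val_eq_self k
    have hkk : Fin.ofNat (N + 1) 0 = (0 : Fin (N + 1)) := by
      simp
    have hNs : (0 : ℝ) < ((N * s : ℕ) : ℝ) := by push_cast; positivity
    have ht : ∀ i : Fin s, K / (b.card * s) / 4 ≤ θ (0, (x, i)) := by
      intro i
      rw [hθ0]
      unfold blk
      rw [if_pos (by rw [hbS]; simp [hxb]), hcard]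
      have h3 := Net.half_le_tanh (y := K / (2 * (b.card * s))) (by positivity)
        ((div_le_one (by positivity)).2 (by linarith only [hKb, hK]))
      refine le_trans (le_of_eq ?_) h3
      field_simp
      ring
    have hterm : ∀ i : Fin s, c0 / 27 ^ e * (1 / (2 * ((N * s : ℕ) : ℝ)) *
        (K / (b.card * s) / 4)) ≤
        Net.c0 (phys (edgesS n s M) β N) θ (0, (x, i)) (k, (y, j)) := by
      intro i
      have hne : ((0, (x, i)) : Fin (N + 1) × (Tor n × Fin s)) ≠ (k, (y, j)) := fun h =>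
        hkne (congrArg Prod.fst h).symm
      rw [hval _ _ hne, Net.cc_comm]
      have h1 := hmain 0 m (by omega) (by omega) p y x j i hy hx
      rw [hl, hkk, hθg k y j hkne, hgy] at h1
      refine le_trans ?_ h1
      exact mul_le_mul_of_nonneg_left (mul_le_mul_of_nonneg_left (ht i) (by positivity))
        (by positivity)
    have hsum : ∑ _i : Fin s, c0 / 27 ^ e * (1 / (2 * ((N * s : ℕ) : ℝ)) *
        (K / (b.card * s) / 4)) ≤
        ∑ i, Net.c0 (phys (edgesS n s M) β N) θ (0, (x, i)) (k, (y, j)) :=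
      Finset.sum_le_sum fun i _ => hterm i
    rw [Finset.sum_const, Finset.card_univ, Fintype.card_fin, nsmul_eq_mul] at hsum
    refine le_trans (le_of_eq ?_) hsum
    field_simp
    norm_num

end

end Vale.Agent.P361.LRO.GenS
end

section

/-!
P361 LRO, stage 3, network chapter, all spins (`LowE`): the top of the ladder (helper494, from
helper972's Ind3/LadTop.lean).
-/

namespace Vale.Agent.P361.LRO.Ind3

open Finset Vale.Agent.P361.LRO _root_.P361.LRO Vale.Agent.P361.LRO.Ind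

private theorem lt3e_card_GG {n N : ℕ} [NeZero n] (o : Tor n) (s : ℕ) (hs : s ≤ n) :
    ((GG6 n N o s).card : ℝ) = N * (s : ℝ) ^ 3 := by
  unfold GG6
  rw [Finset.card_product, Vale.Agent.P361.LRO.Ind.card_cube _ _ hs]
  have h1 : (univ.filter fun k : Fin (N + 1) => k ≠ 0).card = N := by
    rw [Finset.filter_ne', Finset.card_erase_of_mem (Finset.mem_univ _), Finset.card_univ,
      Fintype.card_fin]
    rfl
  rw [h1]
  push_cast
  rfl

private theorem lt3e_sum_q {n N : ℕ} [NeZero n] (o : Tor n) (s : ℕ) (hs : s ≤ n) (t : ℝ) :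
    ∑ z : Nd n N, (if z ∈ GG6 n N o s then t else 0) = N * (s : ℝ) ^ 3 * t := by
  rw [Finset.sum_ite_mem, Finset.univ_inter, Finset.sum_const, nsmul_eq_mul, lt3e_card_GG o s hs]

private theorem lt3e_LBn_mono {X : Type} [Fintype X] {c : X → X → ℝ} {E G : Finset X} {A B : ℝ}
    (hAB : B ≤ A) (h : LBn c E G A) : LBn c E G B := fun a h1 h2 => hAB.trans (h a h1 h2)

/-- The numbers. -/
private theorem lt3e_num {C ρ h0 ε : ℝ} {e : ℕ} (hC : 0 < C) (he : C + 8 ≤ 3 ^ e)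
    (hρ : 3 ^ (100 * e) ≤ ρ) (hh0 : 0 < h0) (hh : h0⁻¹ ≤ ρ ^ (5 / 2 : ℝ)) (hε : 0 ≤ ε)
    (hε1 : ε ≤ 1 / 1000) :
    0 < h0 ^ (-(4 * ε)) * (C / (9 ^ e * ρ) + 8 / (h0 * ρ ^ 3)) ∧
    ρ ^ (1 / 3 : ℝ) ≤ 1 / (h0 ^ (-(4 * ε)) * (C / (9 ^ e * ρ) + 8 / (h0 * ρ ^ 3))) := by
  have h31 : (1 : ℝ) ≤ 3 ^ (100 * e) := one_le_pow₀ (by norm_num)
  have hρ1 : 1 ≤ ρ := h31.trans hρ
  have hρ0 : 0 < ρ := by linarith
  have h9 : (1 : ℝ) ≤ 9 ^ e := one_le_pow₀ (by norm_num)
  have h90 : (0 : ℝ) < 9 ^ e := by positivity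
  have hpos : 0 < h0 ^ (-(4 * ε)) * (C / (9 ^ e * ρ) + 8 / (h0 * ρ ^ 3)) := by positivity
  refine ⟨hpos, ?_⟩
  rw [le_div_iff₀ hpos]
  have e1 : h0 ^ (-(4 * ε)) ≤ ρ ^ (1 / 100 : ℝ) := by
    rw [Real.rpow_neg hh0.le, ← Real.inv_rpow hh0.le]
    calc (h0⁻¹) ^ (4 * ε) ≤ (ρ ^ (5 / 2 : ℝ)) ^ (4 * ε) :=
          Real.rpow_le_rpow (by positivity) hh (by positivity)
      _ = ρ ^ ((5 / 2 : ℝ) * (4 * ε)) := by rw [← Real.rpow_mul hρ0.le]
      _ ≤ ρ ^ (1 / 100 : ℝ) := Real.rpow_le_rpow_of_exponent_le hρ1 (by linarith)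
  have e2 : C / (9 ^ e * ρ) + 8 / (h0 * ρ ^ 3) ≤ (C + 8) * ρ ^ (-(1 / 2) : ℝ) := by
    have f1 : C / (9 ^ e * ρ) ≤ C * ρ ^ (-(1 / 2) : ℝ) := by
      have g1 : C / (9 ^ e * ρ) ≤ C * ρ ^ (-1 : ℝ) := by
        rw [Real.rpow_neg_one, ← div_eq_mul_inv]
        refine div_le_div_of_nonneg_left hC.le hρ0 ?_
        exact le_mul_of_one_le_left hρ0.le h9
      refine g1.trans ?_
      have := Real.rpow_le_rpow_of_exponent_le hρ1 (show (-1 : ℝ) ≤ -(1 / 2) by norm_num)
      gcongr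
    have f2 : 8 / (h0 * ρ ^ 3) ≤ 8 * ρ ^ (-(1 / 2) : ℝ) := by
      have g1 : 8 / (h0 * ρ ^ 3) = 8 * (h0⁻¹ * ρ ^ (-3 : ℝ)) := by
        rw [Real.rpow_neg hρ0.le, show (3 : ℝ) = ((3 : ℕ) : ℝ) by norm_num, Real.rpow_natCast]
        field_simp
      have g2 : h0⁻¹ * ρ ^ (-3 : ℝ) ≤ ρ ^ (5 / 2 : ℝ) * ρ ^ (-3 : ℝ) := by gcongr
      have g3 : ρ ^ (5 / 2 : ℝ) * ρ ^ (-3 : ℝ) = ρ ^ (-(1 / 2) : ℝ) := by
        rw [← Real.rpow_add hρ0]; norm_num
      rw [g3] at g2
      rw [g1]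
      gcongr
    have f3 : (C + 8) * ρ ^ (-(1 / 2) : ℝ) =
        C * ρ ^ (-(1 / 2) : ℝ) + 8 * ρ ^ (-(1 / 2) : ℝ) := by ring
    rw [f3]
    exact add_le_add f1 f2
  have e3 : C + 8 ≤ ρ ^ (47 / 300 : ℝ) := by
    calc C + 8 ≤ (3 : ℝ) ^ e := he
      _ = (3 : ℝ) ^ (e : ℝ) := (Real.rpow_natCast 3 e).symm
      _ ≤ (3 : ℝ) ^ (((100 * e : ℕ) : ℝ) * (47 / 300)) := by
          refine Real.rpow_le_rpow_of_exponent_le (by norm_num) ?_
          push_cast
          have : (0 : ℝ) ≤ e := Nat.cast_nonneg e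
          linarith
      _ = ((3 : ℝ) ^ (100 * e)) ^ (47 / 300 : ℝ) := by
          rw [Real.rpow_mul (by norm_num), Real.rpow_natCast]
      _ ≤ ρ ^ (47 / 300 : ℝ) := Real.rpow_le_rpow (by positivity) hρ (by norm_num)
  calc ρ ^ (1 / 3 : ℝ) * (h0 ^ (-(4 * ε)) * (C / (9 ^ e * ρ) + 8 / (h0 * ρ ^ 3)))
      ≤ ρ ^ (1 / 3 : ℝ) * (ρ ^ (1 / 100 : ℝ) * (ρ ^ (47 / 300 : ℝ) * ρ ^ (-(1 / 2) : ℝ))) := by
        have e4 : C / (9 ^ e * ρ) + 8 / (h0 * ρ ^ 3) ≤
            ρ ^ (47 / 300 : ℝ) * ρ ^ (-(1 / 2) : ℝ) := by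
          refine e2.trans ?_
          gcongr
        have : (0 : ℝ) ≤ C / (9 ^ e * ρ) + 8 / (h0 * ρ ^ 3) := by positivity
        gcongr
    _ = (ρ ^ (1 / 3 : ℝ) * ρ ^ (1 / 100 : ℝ)) * (ρ ^ (47 / 300 : ℝ) * ρ ^ (-(1 / 2) : ℝ)) := by
        ring
    _ = 1 := by
        rw [← Real.rpow_add hρ0, ← Real.rpow_add hρ0, ← Real.rpow_add hρ0]
        norm_num

/-- The top of the ladder, from the statement of `step_top3`. `Low` is used with `β = 1`
(scaled fields). -/
theorem lad_top3E_of (c1 : ℝ)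
    (hs3 : ∃ C : ℝ, 0 < C ∧ ∀ (n N W e : ℕ) [NeZero n]
    (K : ℝ) (o : Tor n) (b : Finset (Tor n)) (c : Nd n N → Nd n N → ℝ) (s : ℕ),
    0 < W → N = 4 * W → e ≤ s → 8 * 3 ^ s < n →
    Local3 n N W e K c1 b (fun _ => 1) c →
    RBn c (EE6 n N o b (3 ^ s))
      (fun z => if z ∈ GG6 n N o (3 ^ s) then 1 / ((N : ℝ) * (3 ^ s) ^ 3) else 0)
      (C / (9 ^ e * 3 ^ s))) :
    ∃ e0 : ℕ, 1 ≤ e0 ∧ ∀ (n N W e : ℕ) [NeZero n]
    (K h0 lam ε : ℝ) (o : Tor n) (b : Finset (Tor n)) (h : Tor n → ℝ)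
    (c : (Tor n → ℝ) → Nd n N → Nd n N → ℝ) (s : ℕ),
    e0 ≤ e → 0 < W → N = 4 * W → 8 * 3 ^ s < n →
    0 < h0 → h0 ≤ 1 → 1 / 3 ^ (10 * e) ≤ lam → 0 ≤ ε → ε ≤ 1 / 1000 →
    100 * e ≤ s → h0⁻¹ ≤ ((3 : ℝ) ^ s) ^ (5 / 2 : ℝ) →
    (∀ g, Fam n h0 lam g → Local3 n N W e K c1 b g (c g)) → LowE n N b 1 h0 lam ε c →
    Fam n h0 lam h →
    LBn (c (HH n lam o (3 ^ s) h)) (EE6 n N o b (3 ^ s)) (GG6 n N o (3 ^ s))
      (((3 : ℝ) ^ s) ^ (1 / 3 : ℝ)) := by
  obtain ⟨C, hC, hstep⟩ := hs3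
  obtain ⟨e0, he0⟩ := pow_unbounded_of_one_lt (C + 8) (show (1 : ℝ) < 3 by norm_num)
  refine ⟨max 1 e0, le_max_left _ _, ?_⟩
  intro n N W e _ K h0 lam ε o b h c s he hW hN hn hh0 hh1 hlam hε hε1 hs hh0s hLoc hLow hh
  have heC : C + 8 ≤ (3 : ℝ) ^ e :=
    he0.le.trans (pow_le_pow_right₀ (by norm_num) ((le_max_right _ _).trans he))
  have hlam0 : 0 ≤ lam := le_trans (by positivity) hlam
  have h3s : 0 < 3 ^ s := by positivity
  have hsn : 3 ^ s ≤ n := by omega
  have hN0 : 0 < N := by omega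
  have hN0' : (0 : ℝ) < N := by exact_mod_cast hN0
  have h3s' : (0 : ℝ) < (3 : ℝ) ^ s := by positivity
  have e3 : ((3 ^ s : ℕ) : ℝ) = (3 : ℝ) ^ s := by push_cast; rfl
  have hH := Fam_HH (h := h) hlam0 o h3s hh
  have h1 := Fam_one (n := n) (h0 := h0) (lam := lam) hh1 hlam0
  have hR := hstep n N W e K o b (c fun _ => 1) s hW hN (by omega) hn (hLoc _ h1)
  set q : Nd n N → ℝ :=
    fun z => if z ∈ GG6 n N o (3 ^ s) then 1 / ((N : ℝ) * ((3 : ℝ) ^ s) ^ 3) else 0 with hq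
  have hdisj := disj_EG (N := N) o b (le_refl (3 ^ s)) (by omega : 8 * 3 ^ s ≤ n)
  have hq1 : ∑ z, q z = 1 := by
    rw [hq, lt3e_sum_q o (3 ^ s) hsn, e3]
    field_simp
  have hq2 : ∑ z, q z ^ 2 = 1 / ((N : ℝ) * ((3 : ℝ) ^ s) ^ 3) := by
    have e : ∀ z, q z ^ 2 =
        if z ∈ GG6 n N o (3 ^ s) then (1 / ((N : ℝ) * ((3 : ℝ) ^ s) ^ 3)) ^ 2 else 0 := by
      intro z
      rw [hq]
      dsimp only
      split_ifs <;> simp
    rw [Finset.sum_congr rfl fun z _ => e z, lt3e_sum_q o (3 ^ s) hsn, e3]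
    field_simp
  have hdual := hLow.dual hh0 hh1 (HH n lam o (3 ^ s) h) hH (EE6 n N o b (3 ^ s)) q
    Finset.subset_union_left
    (by
      intro z hz hz0
      unfold EE6 at hz
      rw [Finset.mem_union] at hz
      rcases hz with hz | hz
      · unfold hatb at hz
        rw [Finset.mem_product, Finset.mem_singleton] at hz
        exact absurd hz.1 hz0
      · rw [Finset.mem_product] at hz
        exact HH_one hlam0 o hsn hh hz.2)
    (by
      intro z hz
      have := Finset.disjoint_left.1 hdisj hz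
      rw [hq]
      dsimp only
      rw [if_neg this])
    (by
      intro x
      rw [hq]
      dsimp only
      rw [if_neg]
      unfold GG6
      rw [Finset.mem_product, Finset.mem_filter]
      rintro ⟨⟨_, h0⟩, _⟩
      exact h0 rfl)
    (by
      intro z
      rw [hq]
      dsimp only
      split_ifs <;> positivity)
    hq1 (C / (9 ^ e * 3 ^ s)) (by positivity) hR
  rw [hq2] at hdual
  have hnum := lt3e_num (ρ := (3 : ℝ) ^ s) (e := e) hC heC
    (pow_le_pow_right₀ (by norm_num) hs) hh0 hh0s hε hε1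
  have e4 : 8 * (N : ℝ) / (1 * h0) * (1 / ((N : ℝ) * ((3 : ℝ) ^ s) ^ 3)) =
      8 / (h0 * ((3 : ℝ) ^ s) ^ 3) := by
    field_simp
  rw [e4] at hdual
  refine lt3e_LBn_mono hnum.2 (LBn_of_RBn hnum.1 ?_ hdual)
  intro x hx
  rw [hq]
  dsimp only
  rw [if_neg hx]

end Vale.Agent.P361.LRO.Ind3
end

section

/-!
P361, Bloch's law for all spins: long windows for any circuit whose trace formula is the one of the
physical circuit with an extra (entrywise nonnegative) factor `EM` between the layers `N` and `0`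
(for spin `S`: the projector onto the symmetric subspace of the copies).
-/

namespace Vale.Agent.P361.LRO.Bloch

open Finset Matrix Vale.Agent.P361.LRO.Dict

set_option linter.unusedSectionVars false

noncomputable section

variable {V : Type} [Fintype V] [DecidableEq V]

/-- The trace formula with the factor `EM`. -/
def TrE {N : ℕ} (μ : Equiv.Perm (Fin (N + 1) × V) → ℝ) (EM : MM V) (L : List (V × V)) (β : ℝ) : Prop :=
  ∀ A : Fin (N + 1) × V → Matrix (Fin 2) (Fin 2) ℝ, NZ μ A = trace (EM *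
    (down (fun k => layM (fun x => A (Fin.ofNat (N + 1) k, x)) * gatM L (β / (2 * N))) N *
      layM (fun x => A (0, x))))

theorem NZ_splitE {N : ℕ} {μ : Equiv.Perm (Fin (N + 1) × V) → ℝ} {EM : MM V} {L : List (V × V)}
    {β : ℝ} (hμ : TrE μ EM L β) (A : Fin (N + 1) × V → Matrix (Fin 2) (Fin 2) ℝ)
    {k m : ℕ} (h : k + m + 1 ≤ N) :
    NZ μ A = trace (EM * (
      down (fun j => (layM fun x => A (Fin.ofNat (N + 1) (k + m + 1 + j), x)) *
        gatM L (β / (2 * N))) (N - (k + m + 1)) *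
      ((layM fun x => A (Fin.ofNat (N + 1) (k + m + 1), x)) *
        ((gatM L (β / (2 * N)) * down (fun j => (layM fun x => A (Fin.ofNat (N + 1) (k + j), x)) *
          gatM L (β / (2 * N))) m) * ((layM fun x => A (Fin.ofNat (N + 1) k, x)) *
          (if k = 0 then 1 else gatM L (β / (2 * N)) *
            down (fun j => (layM fun x => A (Fin.ofNat (N + 1) j, x)) *
              gatM L (β / (2 * N))) (k - 1) * layM fun x => A (Fin.ofNat (N + 1) 0, x))))))) := by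
  rw [hμ]
  have h0 : (layM fun x => A (0, x) : MM V) = layM fun x => A (Fin.ofNat (N + 1) 0, x) := rfl
  rw [h0, split_gen (fun j => (layM fun x => A (Fin.ofNat (N + 1) j, x) : MM V))
    (gatM L (β / (2 * N))) h]

theorem TrE.phys (L : List (V × V)) (β : ℝ) (N : ℕ) : TrE (phys L β N) 1 L β := by
  intro A
  rw [NZ_phys, one_mul]

/-- The product formula for the partition function is positive. -/
theorem TrE.pos {N : ℕ} {μ : Equiv.Perm (Fin (N + 1) × V) → ℝ} {EM : MM V} {L : List (V × V)}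
    {β : ℝ} (hμ : TrE μ EM L β) (hEM : PU EM) (hβ : 0 ≤ β) (hN : β ≤ N)
    {θ : Fin (N + 1) × V → ℝ} (hθ : ∀ z, 0 ≤ θ z ∧ θ z ≤ 1) :
    0 < NZ μ fun z => dgM (θ z) := by
  have hp0 : 0 ≤ β / (2 * N) := by positivity
  have hp1 : β / (2 * N) ≤ 1 := by
    rcases Nat.eq_zero_or_pos N with h | h
    · subst h; norm_num
    · have : (0 : ℝ) < N := by exact_mod_cast h
      rw [div_le_one (by positivity)]
      linarith
  rw [hμ]
  have hd : ∀ n, PU (down (fun k => layM (fun x => dgM (θ (Fin.ofNat (N + 1) k, x))) *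
      gatM L (β / (2 * N))) n) := by
    intro n
    induction n with
    | zero => exact PU.one
    | succ n ih => exact ((PU.layM fun _ => hθ _).mul (PU.gatM L hp0 hp1)).mul ih
  have h1 := (hEM.mul ((hd N).mul (PU.layM fun x => hθ (0, x)))).trace
  linarith

/-- From a trace inequality to the conductance. -/
theorem cc_of_trace (L : List (V × V)) {β : ℝ} {N : ℕ} {μ : Equiv.Perm (Fin (N + 1) × V) → ℝ}
    {EM : MM V} (hEM : Le 0 EM) (hμ : TrE μ EM L β) (hβ : 0 ≤ β) (hN : β ≤ N) (hN0 : 0 < N)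
    {θ : Fin (N + 1) × V → ℝ} (hθ : ∀ z, 0 ≤ θ z ∧ θ z ≤ 1)
    (hpos : 0 < NZ μ fun z => dgM (θ z)) {k m : ℕ} (hk : k + m + 1 ≤ N) (x y : V) (S : ℝ)
    (hS : S * trace ((EM * lctx L β N θ (k + m + 1) x) * wd (mword L β N θ k m) *
        rctx L β N θ k y) ≤
      trace ((EM * lctx L β N θ (k + m + 1) x) * sxM x * wd (mword L β N θ k m) *
        (sxM y * rctx L β N θ k y))) :
    S * (θ (Fin.ofNat (N + 1) (k + m + 1), x) * θ (Fin.ofNat (N + 1) k, y)) / 4 ≤
      cc μ θ (Fin.ofNat (N + 1) (k + m + 1), x) (Fin.ofNat (N + 1) k, y) := by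
  classical
  have hNr : (0 : ℝ) < N := by exact_mod_cast hN0
  set p : ℝ := β / (2 * N) with hp
  have hp0 : 0 ≤ p := by positivity
  have hp1 : p ≤ 1 := by
    rw [hp, div_le_one (by positivity)]
    linarith
  set u : Fin (N + 1) × V := (Fin.ofNat (N + 1) (k + m + 1), x) with hu
  set v : Fin (N + 1) × V := (Fin.ofNat (N + 1) k, y) with hv
  have huv : u ≠ v := by
    intro h
    have := ofNat_inj hk (by omega) (congrArg Prod.fst h)
    omega
  set A : MM V := EM * lctx L β N θ (k + m + 1) x with hA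
  set C : MM V := rctx L β N θ k y with hC
  set w : List (Lt V) := mword L β N θ k m with hw
  have hAn : Le 0 A := hEM.zero_mul
    ((preM_nonneg L hp0 hp1 hθ _).zero_mul (rmM_nonneg (fun _ => hθ _) _))
  have hCn : Le 0 C := (rmM_nonneg (fun _ => hθ _) _).zero_mul (restM_nonneg L hp0 hp1 hθ _)
  have hok : ∀ l ∈ w, Ok l := ok_mid L hp0 hp1 (fun _ _ => hθ _) m
  have hwd : wd w = gatM L p * down (fun j => (layM fun z =>
      dgM (θ (Fin.ofNat (N + 1) (k + j), z))) * gatM L p) m := wd_mid L p _ m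
  -- layers away from `u`, `v`
  have hlay : ∀ j, j ≤ N → j ≠ k + m + 1 → j ≠ k →
      (layM fun z => (Function.update (Function.update (fun z => dgM (θ z)) u m1) v m1)
        (Fin.ofNat (N + 1) j, z) : MM V) = layM fun z => dgM (θ (Fin.ofNat (N + 1) j, z)) := by
    intro j hj h1 h2
    congr 1
    funext z
    rw [Function.update_of_ne, Function.update_of_ne]
    · intro h
      exact h1 (ofNat_inj hj hk (congrArg Prod.fst h))
    · intro h
      exact h2 (ofNat_inj hj (by omega) (congrArg Prod.fst h))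
  have hlayu : (layM fun z => (Function.update (Function.update (fun z => dgM (θ z)) u m1) v m1)
        (Fin.ofNat (N + 1) (k + m + 1), z) : MM V) =
      rmM (fun z => θ (Fin.ofNat (N + 1) (k + m + 1), z)) x * sxM x := by
    rw [rmM_mul_sxM]
    congr 1
    funext z
    rw [Function.update_of_ne]
    · by_cases hz : z = x
      · subst hz
        rw [← hu, Function.update_self, Function.update_self]
      · rw [Function.update_of_ne hz, Function.update_of_ne]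
        intro h
        exact hz (congrArg Prod.snd h)
    · intro h
      have := ofNat_inj hk (by omega) (congrArg Prod.fst h)
      omega
  have hlayv : (layM fun z => (Function.update (Function.update (fun z => dgM (θ z)) u m1) v m1)
        (Fin.ofNat (N + 1) k, z) : MM V) =
      sxM y * rmM (fun z => θ (Fin.ofNat (N + 1) k, z)) y := by
    rw [sxM_mul_rmM]
    congr 1
    funext z
    by_cases hz : z = y
    · subst hz
      rw [← hv, Function.update_self, Function.update_self]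
    · rw [Function.update_of_ne hz, Function.update_of_ne, Function.update_of_ne]
      · intro h
        have := ofNat_inj (by omega) hk (congrArg Prod.fst h)
        omega
      · intro h
        exact hz (congrArg Prod.snd h)
  have hnum : NZ μ (Function.update (Function.update (fun z => dgM (θ z)) u m1) v m1) =
      trace (A * sxM x * wd w * (sxM y * C)) := by
    rw [NZ_splitE hμ _ hk, hlayu, hlayv, hwd]
    rw [down_congr (f := fun j => (layM fun z => (Function.update (Function.update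
        (fun z => dgM (θ z)) u m1) v m1) (Fin.ofNat (N + 1) (k + m + 1 + j), z) : MM V) *
        gatM L (β / (2 * N)))
      (g := fun j => FM N θ (k + m + 1 + j) * gatM L (β / (2 * N)))
      (fun j h1 h2 => by rw [hlay _ (by omega) (by omega) (by omega)]; rfl)]
    rw [down_congr (f := fun j => (layM fun z => (Function.update (Function.update
        (fun z => dgM (θ z)) u m1) v m1) (Fin.ofNat (N + 1) (k + j), z) : MM V) *
        gatM L (β / (2 * N)))
      (g := fun j => (layM fun z => dgM (θ (Fin.ofNat (N + 1) (k + j), z))) *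
        gatM L (β / (2 * N)))
      (fun j h1 h2 => by rw [hlay _ (by omega) (by omega) (by omega)])]
    have hrest : (if k = 0 then 1 else gatM L (β / (2 * N)) *
            down (fun j => (layM fun z => (Function.update (Function.update (fun z => dgM (θ z)) u
              m1) v m1) (Fin.ofNat (N + 1) j, z) : MM V) * gatM L (β / (2 * N))) (k - 1) *
            layM fun z => (Function.update (Function.update (fun z => dgM (θ z)) u m1) v m1)
              (Fin.ofNat (N + 1) 0, z)) = restM L (β / (2 * N)) N θ k := by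
      unfold restM
      by_cases hk0 : k = 0
      · rw [if_pos hk0, if_pos hk0]
      · rw [if_neg hk0, if_neg hk0, hlay 0 (by omega) (by omega) (by omega),
          down_congr (f := fun j => (layM fun z => (Function.update (Function.update
            (fun z => dgM (θ z)) u m1) v m1) (Fin.ofNat (N + 1) j, z) : MM V) *
            gatM L (β / (2 * N)))
          (g := fun j => FM N θ j * gatM L (β / (2 * N)))
          (fun j h1 h2 => by rw [hlay _ (by omega) (by omega) (by omega)]; rfl)]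
        rfl
    rw [hrest, hA, hC]
    unfold lctx rctx preM
    simp only [Matrix.mul_assoc]
    rw [hp]
  have hden : NZ μ (fun z => dgM (θ z)) ≤
      (1 + θ u) * (1 + θ v) * trace (A * wd w * C) := by
    rw [NZ_splitE hμ _ hk, hwd]
    have hGn := gatM_nonneg' L hp0 hp1
    have hPn := preM_nonneg L hp0 hp1 hθ (k + m + 1)
    have hRn := restM_nonneg L hp0 hp1 hθ k
    have hMn : Le (0 : MM V) (gatM L p * down (fun j => (layM fun z =>
      dgM (θ (Fin.ofNat (N + 1) (k + j), z))) * gatM L p) m) := by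
      rw [← hwd]; exact wd_nonneg hok
    have h1 := (layM_le_rmM (t := fun z => θ (Fin.ofNat (N + 1) (k + m + 1), z))
      (fun _ => hθ _) x)
    have h2 := (layM_le_rmM (t := fun z => θ (Fin.ofNat (N + 1) k, z)) (fun _ => hθ _) y)
    have h3 : Le (preM L p N θ (k + m + 1) * ((layM fun z =>
        dgM (θ (Fin.ofNat (N + 1) (k + m + 1), z))) * ((gatM L p * down (fun j => (layM fun z =>
        dgM (θ (Fin.ofNat (N + 1) (k + j), z))) * gatM L p) m) * ((layM fun z =>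
        dgM (θ (Fin.ofNat (N + 1) k, z))) * restM L p N θ k))))
        (preM L p N θ (k + m + 1) * (((1 + θ u) • rmM (fun z =>
          θ (Fin.ofNat (N + 1) (k + m + 1), z)) x) * ((gatM L p * down (fun j => (layM fun z =>
        dgM (θ (Fin.ofNat (N + 1) (k + j), z))) * gatM L p) m) * (((1 + θ v) • rmM (fun z =>
          θ (Fin.ofNat (N + 1) k, z)) y) * restM L p N θ k)))) := by
      refine Le.mul_left ?_ hPn
      refine Le.trans (Le.mul_right h1 (hMn.zero_mul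
        ((layM_nonneg' fun _ => hθ _).zero_mul hRn))) ?_
      refine Le.mul_left ?_ ((rmM_nonneg (fun _ => hθ _) _).zero_smul (by linarith [(hθ u).1]))
      refine Le.mul_left ?_ hMn
      exact Le.mul_right h2 hRn
    have h4 := (h3.mul_left hEM).trace
    refine le_trans h4 (le_of_eq ?_)
    rw [hA, hC]
    unfold lctx rctx
    simp only [Matrix.smul_mul, Matrix.mul_smul, Matrix.trace_smul, smul_eq_mul, Matrix.mul_assoc]
    ring
  have hNZn : 0 < NZ μ fun z => dgM (θ z) := hpos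
  have hccn : 0 ≤ cc μ θ u v := by
    rw [cc_eq3 _ _ huv, hnum]
    refine div_nonneg (mul_nonneg (mul_nonneg (hθ u).1 (hθ v).1) ?_) hNZn.le
    have := (((hAn.zero_mul (sxM_nonneg x)).zero_mul (wd_nonneg hok)).zero_mul
      ((sxM_nonneg y).zero_mul hCn)).trace
    rwa [Matrix.trace_zero] at this
  have hmain' : S * trace (A * wd w * C) ≤ trace (A * sxM x * wd w * (sxM y * C)) := hS
  rcases le_or_gt S 0 with hS0 | hS0
  · refine le_trans ?_ hccn
    have : S * (θ u * θ v) ≤ 0 :=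
      mul_nonpos_of_nonpos_of_nonneg hS0 (mul_nonneg (hθ u).1 (hθ v).1)
    linarith
  · rw [cc_eq3 _ _ huv, hnum, le_div_iff₀ hNZn]
    have hZ' : 0 ≤ trace (A * wd w * C) := by
      have := ((hAn.zero_mul (wd_nonneg hok)).zero_mul hCn).trace
      rwa [Matrix.trace_zero] at this
    have h5 : NZ μ (fun z => dgM (θ z)) ≤ 4 * trace (A * wd w * C) := by
      refine hden.trans (mul_le_mul_of_nonneg_right ?_ hZ')
      nlinarith [(hθ u).1, (hθ u).2, (hθ v).1, (hθ v).2]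
    have h6 : 0 ≤ S * (θ u * θ v) / 4 :=
      div_nonneg (mul_nonneg hS0.le (mul_nonneg (hθ u).1 (hθ v).1)) (by norm_num)
    calc S * (θ u * θ v) / 4 * NZ μ (fun z => dgM (θ z))
        ≤ S * (θ u * θ v) / 4 * (4 * trace (A * wd w * C)) := mul_le_mul_of_nonneg_left h5 h6
      _ = θ u * θ v * (S * trace (A * wd w * C)) := by ring
      _ ≤ θ u * θ v * trace (A * sxM x * wd w * (sxM y * C)) :=
          mul_le_mul_of_nonneg_left hmain' (mul_nonneg (hθ u).1 (hθ v).1)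


/-- From a trace inequality to the conductance of the physical circuit (any list `L`, any slice
parameters in `[0, 1]`). -/
theorem cc_of_trace_phys (L : List (V × V)) {β : ℝ} {N : ℕ} (hβ : 0 ≤ β) (hN : β ≤ N)
    (hN0 : 0 < N) {θ : Fin (N + 1) × V → ℝ} (hθ : ∀ z, 0 ≤ θ z ∧ θ z ≤ 1)
    {k m : ℕ} (hk : k + m + 1 ≤ N) (x y : V) (S : ℝ)
    (hS : S * trace (lctx L β N θ (k + m + 1) x * wd (mword L β N θ k m) * rctx L β N θ k y) ≤
      trace (lctx L β N θ (k + m + 1) x * sxM x * wd (mword L β N θ k m) *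
        (sxM y * rctx L β N θ k y))) :
    S * (θ (Fin.ofNat (N + 1) (k + m + 1), x) * θ (Fin.ofNat (N + 1) k, y)) / 4 ≤
      cc (phys L β N) θ (Fin.ofNat (N + 1) (k + m + 1), x) (Fin.ofNat (N + 1) k, y) := by
  refine cc_of_trace (EM := 1) L one_nonneg (TrE.phys L β N) hβ hN hN0 hθ
    ((TrE.phys L β N).pos PU.one hβ hN hθ) hk x y S ?_
  rw [Matrix.one_mul]
  exact hS

end

end Vale.Agent.P361.LRO.Bloch
end

section

/-!
P361 LRO, stage 3, all spins: `CCgeS s` (input of `GenS/LocalInst3S.lean`) from the long-window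
trace inequality `LongTr s` and the kernel bound `KerS.qS_lower1`.
-/

namespace Vale.Agent.P361.LRO.S3S

open Finset Matrix Vale.Agent.P361.LRO _root_.P361.LRO Vale.Agent.P361.LRO.Bloch
  Vale.Agent.P361.LRO.S3S.KerS Vale.Agent.P361.LRO.GenS

noncomputable section

/-- Long windows on `edgesS n s M`, trace form, for every pair of copies (walk with at least one
move); only the inter gates have to be controlled. -/
def LongTr (s : ℕ) : Prop :=
  ∀ (n M : ℕ) [NeZero n] (β : ℝ) (N : ℕ), 2 ≤ n → 0 ≤ β → β ≤ N → 0 < N →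
    ∀ θ : Fin (N + 1) × (Tor n × Fin s) → ℝ, (∀ z, 0 ≤ θ z ∧ θ z ≤ 1) →
    (∀ k x i j, θ (k, (x, i)) = θ (k, (x, j))) →
    ∀ τ : ℝ, 0 ≤ τ → τ ≤ 1 → (∀ z, z.1 ≠ 0 → θ z ≤ τ) →
    ∀ k m : ℕ, k + m + 1 ≤ N → ∀ δ : ℝ, 0 ≤ δ → ∀ (x y : Tor n) (i j : Fin s),
      (∀ w1 w2 a b p, a.1 ≠ b.1 → mword (edgesS n s M) β N θ k m = w1 ++ Lt.gate a b p :: w2 →
        trace (lctx (edgesS n s M) β N θ (k + m + 1) (x, i) * wd w1 * exM a b * wd w2 *
            rctx (edgesS n s M) β N θ k (y, j)) ≤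
          δ * trace (lctx (edgesS n s M) β N θ (k + m + 1) (x, i) *
            wd (mword (edgesS n s M) β N θ k m) * rctx (edgesS n s M) β N θ k (y, j)) ∧
        trace (lctx (edgesS n s M) β N θ (k + m + 1) (x, i) * wd w1 * neM a b * wd w2 *
            rctx (edgesS n s M) β N θ k (y, j)) ≤
          δ * trace (lctx (edgesS n s M) β N θ (k + m + 1) (x, i) *
            wd (mword (edgesS n s M) β N θ k m) * rctx (edgesS n s M) β N θ k (y, j))) →
      ∀ J : ℕ,
      ((1 - τ) / (1 + τ)) ^ m * (∑ l ∈ Ico 1 J,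
        qS ((1 - β / (2 * N)) ^ (6 * s)) (s * (β / (2 * N)) * (1 - β / (2 * N)) ^ (12 * s)) x
          (m + 1) y l *
        (1 / s - δ * ((m + 1) * s * (β / (2 * N)) * (6 * s) +
          s * (1 + 2 * (β / (2 * N)) * (6 * s)) * l))) *
        trace (lctx (edgesS n s M) β N θ (k + m + 1) (x, i) *
          wd (mword (edgesS n s M) β N θ k m) * rctx (edgesS n s M) β N θ k (y, j)) ≤
      trace (lctx (edgesS n s M) β N θ (k + m + 1) (x, i) * sxM (x, i) *
        wd (mword (edgesS n s M) β N θ k m) * (sxM (y, j) * rctx (edgesS n s M) β N θ k (y, j)))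

/-- The weight of the lumped walk, at least one move. -/
theorem walkS_ge {n : ℕ} [NeZero n] {s : ℕ} (hs1 : 1 ≤ s) {β : ℝ} (hβ : 8 ≤ β) :
    ∃ N0 : ℕ, 1 ≤ N0 ∧ ∀ N W : ℕ, N0 ≤ N → N = 4 * W →
      ∀ m e : ℕ, m + 1 ≤ N → W ≤ m + 1 → (3:ℝ) ^ e ≤ 3 * √β → √β ≤ 3 * 3 ^ e →
      ∀ J : ℕ, Ker.cJ 18 * (s * (β / 2)) ≤ J →
      ∀ p x y : Tor n, x ∈ cube n p (2 * 3 ^ e) → y ∈ cube n p (2 * 3 ^ e) →
      Ker.cK 18 ^ 3 / (108 * s ^ 3 * 27 ^ e) ≤ ∑ j ∈ Ico 1 J,
        qS ((1 - β / (2 * N)) ^ (6 * s)) (s * (β / (2 * N)) * (1 - β / (2 * N)) ^ (12 * s)) x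
          (m + 1) y j := by
  have hcK : 0 < Ker.cK 18 := Ker.cK_pos 18
  have hβ0 : 0 < β := by linarith
  have hJ0 := Ind3.cJ_nonneg
  have hs0 : (1:ℝ) ≤ s := by exact_mod_cast hs1
  obtain ⟨N0, hN0⟩ := qS_lower1 (A := 18) (by norm_num) (n := n) hs1 hβ0
  refine ⟨max N0 (max 1 ⌈β⌉₊), le_max_of_le_right (le_max_left _ _), ?_⟩
  intro N W hN hNW m e hm hWm he1 he2 J hJ p x y hx hy
  have hN1 : 1 ≤ N := (le_max_left _ _).trans ((le_max_right _ _).trans hN)
  have hNβ : β ≤ N := by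
    have : ⌈β⌉₊ ≤ N := (le_max_right _ _).trans ((le_max_right _ _).trans hN)
    exact (Nat.le_ceil β).trans (by exact_mod_cast this)
  have hNp : (0:ℝ) < N := by linarith
  obtain ⟨z, hz, hyz⟩ := Ind3.cube_diff hx hy
  have hp0 : 0 ≤ β / (2 * N) := by positivity
  set t : ℝ := s * (((m + 1 : ℕ) : ℝ) * (β / (2 * N))) with ht
  have hm1 : ((m + 1 : ℕ) : ℝ) ≤ N := by exact_mod_cast hm
  have hm2 : (N : ℝ) / 4 ≤ ((m + 1 : ℕ) : ℝ) := by
    have h1 : (N : ℝ) = 4 * W := by rw [hNW]; push_cast; ring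
    have h2 : (W : ℝ) ≤ ((m + 1 : ℕ) : ℝ) := by exact_mod_cast hWm
    linarith
  have hs1' : ((m + 1 : ℕ) : ℝ) * (β / (2 * N)) ≤ β / 2 := by
    calc ((m + 1 : ℕ) : ℝ) * (β / (2 * N)) ≤ N * (β / (2 * N)) :=
          mul_le_mul_of_nonneg_right hm1 hp0
      _ = β / 2 := by field_simp
  have hs2' : β / 8 ≤ ((m + 1 : ℕ) : ℝ) * (β / (2 * N)) := by
    calc β / 8 = N / 4 * (β / (2 * N)) := by field_simp; norm_num
      _ ≤ _ := mul_le_mul_of_nonneg_right hm2 hp0
  have ht1 : t ≤ s * (β / 2) := mul_le_mul_of_nonneg_left hs1' (by linarith)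
  have ht2 : β / 8 ≤ t := by
    calc β / 8 ≤ 1 * (((m + 1 : ℕ) : ℝ) * (β / (2 * N))) := by rw [one_mul]; exact hs2'
      _ ≤ t := mul_le_mul_of_nonneg_right hs0 (by linarith)
  have ht3 : 1 ≤ t := by linarith
  have htp : 0 < t := by linarith
  have hsq : 0 < √t := Real.sqrt_pos.2 htp
  have hβs : √β ≤ 3 * √t := by
    have h1 : √β ≤ √(9 * t) := Real.sqrt_le_sqrt (by linarith)
    rw [Real.sqrt_mul (by norm_num), show (9:ℝ) = 3 ^ 2 by norm_num,
      Real.sqrt_sq (by norm_num)] at h1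
    exact h1
  have hker := hN0 N ((le_max_left _ _).trans hN) (m + 1) hm t rfl ht3 J
    ((mul_le_mul_of_nonneg_left ht1 hJ0).trans hJ) x z (fun i => by
      refine (hz i).trans ?_
      push_cast
      linarith)
  rw [← hyz] at hker
  refine le_trans ?_ hker
  have h27 : (27:ℝ) ^ e = (3 ^ e) ^ 3 := by
    rw [← pow_mul, mul_comm, pow_mul]; norm_num
  have h1 : √t ≤ 3 * s * 3 ^ e := by
    have a1 : √t ≤ √((s : ℝ) ^ 2 * β) := by
      refine Real.sqrt_le_sqrt (ht1.trans ?_)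
      have b1 := mul_nonneg (zero_le_one.trans hs0) hβ0.le
      have b2 := mul_le_mul_of_nonneg_left hs0 b1
      linarith only [b1, b2]
    have a2 : √((s : ℝ) ^ 2 * β) = s * √β := by
      rw [Real.sqrt_mul (by positivity), Real.sqrt_sq (by linarith)]
    rw [a2] at a1
    calc √t ≤ s * √β := a1
      _ ≤ s * (3 * 3 ^ e) := mul_le_mul_of_nonneg_left he2 (by linarith)
      _ = _ := by ring
  have h2 : Ker.cK 18 / (3 * s * 3 ^ e) ≤ Ker.cK 18 / √t :=
    div_le_div_of_nonneg_left hcK.le hsq h1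
  have h3 := pow_le_pow_left₀ (by positivity) h2 3
  calc Ker.cK 18 ^ 3 / (108 * s ^ 3 * 27 ^ e) = (Ker.cK 18 / (3 * s * 3 ^ e)) ^ 3 / 4 := by
        rw [h27, div_pow, mul_pow, mul_pow]; field_simp; norm_num
    _ ≤ _ := by linarith

theorem ccgeS_of {s : ℕ} (hs : 0 < s) (hL : LongTr s) : CCgeS s := by
  have hs1 : (1:ℝ) ≤ s := by exact_mod_cast hs
  have hs0 : (0:ℝ) < s := by linarith
  have hcK : 0 < Ker.cK 18 := Ker.cK_pos 18
  have hcJ := Ind3.cJ_nonneg
  -- `a_l ≤ X β`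
  set X : ℝ := 3 * s ^ 2 + s * (1 + 6 * s) * (Ker.cJ 18 * (s / 2) + 1) with hX
  have hXp : 0 < X := by positivity
  refine ⟨Real.exp (-2) * Ker.cK 18 ^ 3 / (864 * s ^ 4), s * X, ?_, by positivity, ?_⟩
  · have := Real.exp_pos (-2)
    positivity
  intro n M _ β hn hβ
  obtain ⟨N0, hN01, hN0⟩ := walkS_ge (n := n) hs hβ
  refine ⟨max N0 ⌈β⌉₊, le_max_of_le_left hN01, ?_⟩
  intro N W hN hNW θ hθ hθ2 hcopy k m e hk hWm he1 he2 δ hδ hδ2 p x y i j hx hy hXX
  have hN1 : 1 ≤ N := hN01.trans ((le_max_left _ _).trans hN)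
  have hNβ : β ≤ N := by
    have : ⌈β⌉₊ ≤ N := (le_max_right _ _).trans hN
    exact (Nat.le_ceil β).trans (by exact_mod_cast this)
  have hβ0 : 0 < β := by linarith
  have hNp : (0:ℝ) < N := by linarith
  have hN1r : (1:ℝ) ≤ N := by exact_mod_cast hN1
  set J : ℕ := ⌈Ker.cJ 18 * (s * (β / 2))⌉₊ with hJ
  have hJ1 : Ker.cJ 18 * (s * (β / 2)) ≤ J := Nat.le_ceil _
  have hJ2 : (J:ℝ) ≤ Ker.cJ 18 * (s * (β / 2)) + 1 := (Nat.ceil_lt_add_one (by positivity)).le
  have hwalk := hN0 N W ((le_max_left _ _).trans hN) hNW m e (by omega) hWm he1 he2 J hJ1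
    p x y hx hy
  have hτ1 : 1 / (2 * (N:ℝ)) ≤ 1 := by
    rw [div_le_one (by positivity)]
    linarith
  have htr := hL n M β N hn hβ0.le hNβ (by omega) θ hθ hcopy (1 / (2 * N)) (by positivity) hτ1
    hθ2 k m hk δ hδ x y i j hXX J
  have hcc := cc_of_trace_phys (edgesS n s M) hβ0.le hNβ (by omega) hθ hk (x, i) (y, j) _ htr
  refine le_trans ?_ hcc
  have hp0 : 0 ≤ β / (2 * N) := by positivity
  have hp1 : β / (2 * N) ≤ 1 / 2 := by
    rw [div_le_div_iff₀ (by positivity) (by norm_num)]; linarith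
  set c0 : ℝ := (1 - β / (2 * N)) ^ (6 * s) with hc0
  set c1 : ℝ := s * (β / (2 * N)) * (1 - β / (2 * N)) ^ (12 * s) with hc1
  have hc0n : 0 ≤ c0 := pow_nonneg (by linarith only [hp1]) _
  have hc1n : 0 ≤ c1 := mul_nonneg (mul_nonneg hs0.le hp0) (pow_nonneg (by linarith only [hp1]) _)
  set S := ∑ l ∈ Ico 1 J, qS c0 c1 x (m + 1) y l with hS
  have hhalf : S / (2 * s) ≤ ∑ l ∈ Ico 1 J, qS c0 c1 x (m + 1) y l *
      (1 / s - δ * ((m + 1) * s * (β / (2 * N)) * (6 * s) +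
        s * (1 + 2 * (β / (2 * N)) * (6 * s)) * l)) := by
    rw [hS, Finset.sum_div]
    refine Finset.sum_le_sum fun l hl => ?_
    rw [div_eq_mul_inv]
    refine mul_le_mul_of_nonneg_left ?_ (qS_nonneg hc0n hc1n x _ y l)
    have hl' : (l:ℝ) ≤ J := by exact_mod_cast (Finset.mem_Ico.1 hl).2.le
    have hm1 : ((m:ℝ) + 1) ≤ N := by exact_mod_cast (by omega : m + 1 ≤ N)
    have h1 : (m + 1) * s * (β / (2 * N)) * (6 * s) ≤ 3 * (s:ℝ) ^ 2 * β := by
      calc ((m:ℝ) + 1) * s * (β / (2 * N)) * (6 * s) ≤ N * s * (β / (2 * N)) * (6 * s) := by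
            gcongr
        _ = 3 * (s:ℝ) ^ 2 * β := by field_simp; norm_num
    have h2 : 2 * (β / (2 * N)) * (6 * (s:ℝ)) ≤ 6 * s := by
      have b2 := mul_le_mul_of_nonneg_right hp1 hs0.le
      linarith only [b2]
    have h3 : (l:ℝ) ≤ (Ker.cJ 18 * (s / 2) + 1) * β := by
      refine (hl'.trans hJ2).trans ?_
      linarith only [hβ]
    have h4 : s * (1 + 2 * (β / (2 * N)) * (6 * s)) * l ≤
        s * (1 + 6 * s) * ((Ker.cJ 18 * (s / 2) + 1) * β) := by
      refine mul_le_mul ?_ h3 (Nat.cast_nonneg _) (by positivity)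
      exact mul_le_mul_of_nonneg_left (by linarith only [h2]) hs0.le
    have h5 : (m + 1) * s * (β / (2 * N)) * (6 * s) +
        s * (1 + 2 * (β / (2 * N)) * (6 * s)) * l ≤ X * β := by
      rw [hX]
      linarith only [h1, h4]
    have h6 := mul_le_mul_of_nonneg_left h5 hδ
    have h7 : δ * (X * β) ≤ 1 / (2 * s) := by
      rw [le_div_iff₀ (by positivity)]
      have : δ * (X * β) * (2 * s) = 2 * (δ * (s * X * β)) := by ring
      rw [this]; linarith only [hδ2]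
    have h8 : (1:ℝ) / s = 1 / (2 * s) + 1 / (2 * s) := by field_simp; norm_num
    rw [← one_div, h8]
    linarith only [h6, h7]
  have hloss := Ind3.loss_ge (N := N) (m := m) hN1 (by omega)
  have hθθ : 0 ≤ θ (Fin.ofNat (N + 1) (k + m + 1), (x, i)) * θ (Fin.ofNat (N + 1) k, (y, j)) :=
    mul_nonneg (hθ _).1 (hθ _).1
  have hS1 : Ker.cK 18 ^ 3 / (216 * s ^ 4 * 27 ^ e) ≤ ∑ l ∈ Ico 1 J, qS c0 c1 x (m + 1) y l *
      (1 / s - δ * ((m + 1) * s * (β / (2 * N)) * (6 * s) +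
        s * (1 + 2 * (β / (2 * N)) * (6 * s)) * l)) := by
    refine le_trans ?_ hhalf
    calc Ker.cK 18 ^ 3 / (216 * s ^ 4 * 27 ^ e) =
          Ker.cK 18 ^ 3 / (108 * s ^ 3 * 27 ^ e) / (2 * s) := by field_simp; norm_num
      _ ≤ S / (2 * s) := div_le_div_of_nonneg_right hwalk (by positivity)
  have h6 : Real.exp (-2) * Ker.cK 18 ^ 3 / (864 * s ^ 4) / 27 ^ e ≤
      ((1 - 1 / (2 * (N:ℝ))) / (1 + 1 / (2 * (N:ℝ)))) ^ m * (∑ l ∈ Ico 1 J,
      qS c0 c1 x (m + 1) y l * (1 / s - δ * ((m + 1) * s * (β / (2 * N)) * (6 * s) +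
        s * (1 + 2 * (β / (2 * N)) * (6 * s)) * l))) / 4 := by
    have e1 : Real.exp (-2) * Ker.cK 18 ^ 3 / (864 * s ^ 4) / 27 ^ e =
        Real.exp (-2) * (Ker.cK 18 ^ 3 / (216 * s ^ 4 * 27 ^ e)) / 4 := by
      field_simp
      norm_num
    rw [e1]
    refine div_le_div_of_nonneg_right ?_ (by norm_num)
    exact mul_le_mul hloss hS1 (by positivity) ((Real.exp_pos _).le.trans hloss)
  have h7 := mul_le_mul_of_nonneg_right h6 hθθ
  refine h7.trans (le_of_eq ?_)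
  ring

end

end Vale.Agent.P361.LRO.S3S
end

section

/-!
P361, stage 3, all spins `S = s/2`: the start of the bootstrap at the uniform field `h = 1/β`, on the
level of the magnetization per site of the odd tori (helper10).
-/

namespace Vale.Agent.P361.LRO.S3

open Filter Topology Finset

/-- Magnetization per site on odd tori from the torus pressure. -/
theorem magTorus_ge_slope (s : ℕ) {N : ℕ} (hN : 1 ≤ N) {β h : ℝ} (hβ : 0 < β) (hh : 0 < h) :
    (pressTorus s N β h - pressTorus s N β (h / 2)) / (h / 2) ≤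
      gibbsMagV s (torusAdj (2 * N + 1)) β h / (2 * N + 1) ^ 3 := by
  have h1 := pressTorus_support s N hN hβ h (h / 2)
  rw [div_le_iff₀ (by positivity)]
  nlinarith

/-- Field `c/β`: the deficit of the magnetization per site is `O(β^{-3/2})` on large odd tori. -/
theorem magTorus_start (s : ℕ) {c : ℝ} (hc : 0 < c) (hU : ∀ κ : ℝ, κ < 1 / 21 → ∀ ε : ℝ, 0 < ε →
    ∀ᶠ β : ℝ in atTop, ∀ h : ℝ, β ^ (-1 - κ) ≤ h →
      |β ^ (3 / 2 : ℝ) * ((s : ℝ) / 2 - Model.mag s β h) -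
        Model.idealDeficit ((s : ℝ) / 2) (β * h)| ≤ ε) :
    ∃ C β0 : ℝ, ∀ β : ℝ, β0 ≤ β → ∃ N0 : ℕ, ∀ N : ℕ, N0 ≤ N → 1 ≤ N ∧
      (s : ℝ) / 2 - gibbsMagV s (torusAdj (2 * N + 1)) β (c / β) / (2 * N + 1) ^ 3 ≤
        C * β ^ (-(3 / 2) : ℝ) := by
  set I := Model.idealDeficit ((s : ℝ) / 2) (c / 2) with hI
  have h1 := hU (1 / 42) (by norm_num) 1 one_pos
  obtain ⟨β1, hβ1⟩ := eventually_atTop.1 h1
  have hlim : Tendsto (fun β : ℝ => β ^ (1 / 42 : ℝ)) atTop atTop :=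
    tendsto_rpow_atTop (by norm_num)
  obtain ⟨β2, hβ2⟩ := eventually_atTop.1 (hlim.eventually (eventually_ge_atTop (2 / c)))
  refine ⟨|I| + 2, max (max β1 β2) 1, fun β hβ => ?_⟩
  have hb1 : β1 ≤ β := le_trans (le_trans (le_max_left _ _) (le_max_left _ _)) hβ
  have hb2 : β2 ≤ β := le_trans (le_trans (le_max_right _ _) (le_max_left _ _)) hβ
  have hb0 : (0 : ℝ) < β := lt_of_lt_of_le one_pos (le_trans (le_max_right _ _) hβ)
  set h : ℝ := c / β with hh
  have hpos : 0 < h := by positivity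
  have hfield : β ^ (-1 - 1 / 42 : ℝ) ≤ h / 2 := by
    have e1 : β ^ (-1 - 1 / 42 : ℝ) = β⁻¹ * (β ^ (1 / 42 : ℝ))⁻¹ := by
      rw [← Real.rpow_neg hb0.le, ← Real.rpow_neg_one, ← Real.rpow_add hb0]
      congr 1
    have e2 : 2 / c ≤ β ^ (1 / 42 : ℝ) := hβ2 β hb2
    have e4 : (β ^ (1 / 42 : ℝ))⁻¹ ≤ (2 / c)⁻¹ := inv_anti₀ (by positivity) e2
    have e5 : h / 2 = β⁻¹ * (2 / c)⁻¹ := by rw [hh]; field_simp
    rw [e1, e5]
    exact mul_le_mul_of_nonneg_left e4 (inv_nonneg.2 hb0.le)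
  have h2 := hβ1 β hb1 (h / 2) hfield
  have hbh : β * (h / 2) = c / 2 := by
    rw [hh]; field_simp
  rw [hbh, ← hI] at h2
  have hb32 : 0 < β ^ (3 / 2 : ℝ) := Real.rpow_pos_of_pos hb0 _
  have hneg : β ^ (-(3 / 2) : ℝ) = (β ^ (3 / 2 : ℝ))⁻¹ := Real.rpow_neg hb0.le _
  have hb32' : 0 < β ^ (-(3 / 2) : ℝ) := Real.rpow_pos_of_pos hb0 _
  have h3 : (s : ℝ) / 2 - Model.mag s β (h / 2) ≤ (|I| + 1) * β ^ (-(3 / 2) : ℝ) := by
    have e1 := (abs_le.1 h2).2
    have e2 := le_abs_self I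
    rw [hneg, ← div_eq_mul_inv, le_div_iff₀ hb32]
    linarith
  have h4 := Vale.Agent.P361.rightDeriv_le_slope' s hb0 (h₀ := h / 2) (h := h) (by linarith)
  have h4' : Model.mag s β (h / 2) ≤
      (Model.pressure s β h - Model.pressure s β (h / 2)) / (h / 2) := by
    have e1 : h - h / 2 = h / 2 := by ring
    rw [e1] at h4
    exact h4
  have h5 : Tendsto (fun N : ℕ => (pressTorus s N β h - pressTorus s N β (h / 2)) / (h / 2)) atTop
      (𝓝 ((Model.pressure s β h - Model.pressure s β (h / 2)) / (h / 2))) :=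
    ((pressTorus_tendsto s hb0 h).sub (pressTorus_tendsto s hb0 (h / 2))).div_const _
  have h6 := (tendsto_order.1 h5).1
    ((Model.pressure s β h - Model.pressure s β (h / 2)) / (h / 2) - β ^ (-(3 / 2) : ℝ))
    (by linarith)
  obtain ⟨N0, hN0⟩ := eventually_atTop.1 h6
  refine ⟨N0 + 1, fun N hN => ⟨by omega, ?_⟩⟩
  have h7 := hN0 N (by omega)
  have h8 := magTorus_ge_slope s (by omega : 1 ≤ N) hb0 hpos
  have h9 : (|I| + 1) * β ^ (-(3 / 2) : ℝ) + β ^ (-(3 / 2) : ℝ) =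
      (|I| + 2) * β ^ (-(3 / 2) : ℝ) := by ring
  linarith

end Vale.Agent.P361.LRO.S3
end
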