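import Mathlib
import Vale.Agent.P361.Bd6.B1
import Vale.Agent.P361.Bd6.B3
import Vale.Agent.P361.Bd6.B4
import Vale.Agent.P361.Bd6.B2
import Vale.Agent.P361.Bd6.B5

set_option linter.all false

section

namespace Vale.Agent.P361.BridgeB

open Filter Topology MeasureTheory

lemma mag_eq (n : ℕ) (β h : ℝ) : Model.mag n β h = H.magAt n β h := rfl

lemma sqrt_cube {x : ℝ} (hx : 0 ≤ x) : Real.sqrt x ^ 3 = x ^ (3 / 2 : ℝ) := by
  rw [Real.sqrt_eq_rpow, ← Real.rpow_natCast, ← Real.rpow_mul hx]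
  norm_num

lemma ideal_eq {S : ℝ} (hS : 0 < S) (t : ℝ) : Model.idealDeficit S t = B.fS S t := by
  unfold Model.idealDeficit B.fS
  congr 1
  · rw [sqrt_cube (by have := Real.pi_pos; positivity), Real.rpow_neg (by have := Real.pi_pos; positivity)]
  · refine tsum_congr fun j => ?_
    rw [sqrt_cube (by positivity)]

end Vale.Agent.P361.BridgeB
end

section

set_option linter.unusedSectionVars false

/-!
Part B: comparison with free bosons, occupation numbers.
-/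

namespace Vale.Agent.P361.B

open Finset Filter Topology

variable {V : Type*} [Fintype V] [DecidableEq V]
variable {n N : ℕ} {adj : V → V → Prop} [DecidableRel adj] {e : V → V → ℝ} {lam : V → ℝ}
variable {E : ℝ} {ψ : (V → ℕ) → ℝ}

/-- Boson hopping form. -/
noncomputable def kform (n : ℕ) (adj : V → V → Prop) [DecidableRel adj] (ψ : (V → ℕ) → ℝ) : ℝ :=
  (n : ℝ) / 4 * ∑ x, ∑ y, if adj x y then ∑ σ ∈ occBox V n,
    (Real.sqrt ((σ x : ℝ) + 1) * ψ (σ + Pi.single x 1) -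
      Real.sqrt ((σ y : ℝ) + 1) * ψ (σ + Pi.single y 1)) ^ 2 else 0

lemma hop_pointwise {m a b A B : ℝ} (ha : 0 ≤ a) (hb : 0 ≤ b) (ham : a ≤ m) (hbm : b ≤ m) :
    m * (B - A) ^ 2 ≤ (Real.sqrt (m - a) * A - Real.sqrt (m - b) * B) ^ 2 +
      2 * (a + b) * (A ^ 2 + B ^ 2) := by
  have h1 : 0 ≤ m - a := by linarith
  have h2 : 0 ≤ m - b := by linarith
  have s1 := Real.sq_sqrt h1
  have s2 := Real.sq_sqrt h2
  have p1 := Real.sqrt_nonneg (m - a)
  have p2 := Real.sqrt_nonneg (m - b)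
  set p := Real.sqrt (m - a)
  set q := Real.sqrt (m - b)
  have hm : 0 ≤ m := ha.trans ham
  have hpq : p * q ≤ m := by nlinarith [sq_nonneg (p - q)]
  have hpq2 : m - a - b ≤ p * q := by
    rcases le_or_gt (m - a - b) 0 with h | h
    · exact h.trans (mul_nonneg p1 p2)
    · refine le_of_sq_le_sq ?_ (mul_nonneg p1 p2)
      rw [mul_pow, s1, s2]
      nlinarith [mul_nonneg ha hb, mul_nonneg ha h.le, mul_nonneg hb h.le]
  have e1 : m * (B - A) ^ 2 = (p * A - q * B) ^ 2 + (a * A ^ 2 + b * B ^ 2 -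
      2 * (m - p * q) * (A * B)) := by
    have : (p * A - q * B) ^ 2 = (m - a) * A ^ 2 + (m - b) * B ^ 2 - 2 * (p * q) * (A * B) := by
      rw [← s1, ← s2]; ring
    rw [this]; ring
  rw [e1]
  have h3 : -(2 * (m - p * q) * (A * B)) ≤ (m - p * q) * (A ^ 2 + B ^ 2) := by
    nlinarith [mul_nonneg (sub_nonneg.2 hpq) (sq_nonneg (A + B))]
  have h4 : (m - p * q) * (A ^ 2 + B ^ 2) ≤ (a + b) * (A ^ 2 + B ^ 2) :=
    mul_le_mul_of_nonneg_right (by linarith) (by positivity)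
  nlinarith [mul_nonneg ha (sq_nonneg B), mul_nonneg hb (sq_nonneg A)]

theorem IsEig.kform_le (h : IsEig n adj N E ψ)
    (hadj : ∀ x y, adj x y → adj y x) (hirr : ∀ x, ¬ adj x x) :
    kform n adj ψ ≤ E +
      ∑ x, ∑ y, (if adj x y then pairFn n ψ x y + pairFn n ψ y y else 0) := by
  have hE : E = 1 / 4 * ∑ x, ∑ y, if adj x y then
      ∑ σ ∈ occBox V n, edgeT n x y ψ σ ^ 2 else 0 := by
    have := h.weak (fun _ => 1)
    simp only [one_mul, h.norm, mul_one] at this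
    rw [this]
    congr 1
    refine Finset.sum_congr rfl fun x _ => Finset.sum_congr rfl fun y _ => ?_
    split_ifs
    · exact Finset.sum_congr rfl fun σ _ => by ring
    · rfl
  set t : V → V → ℝ := fun x y => ∑ σ ∈ occBox V n,
    ((σ x : ℝ) + σ y) * (((σ y : ℝ) + 1) * ψ (σ + Pi.single y 1) ^ 2) with ht
  have hmain : kform n adj ψ ≤ 1 / 4 * ∑ x, ∑ y, (if adj x y then
      ∑ σ ∈ occBox V n, edgeT n x y ψ σ ^ 2 + 2 * (t x y + t y x) else 0) := by
    unfold kform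
    rw [div_eq_mul_one_div, mul_comm (n : ℝ), mul_assoc]
    refine mul_le_mul_of_nonneg_left ?_ (by norm_num)
    rw [Finset.mul_sum]
    refine Finset.sum_le_sum fun x _ => ?_
    rw [Finset.mul_sum]
    refine Finset.sum_le_sum fun y _ => ?_
    by_cases hxy : adj x y
    · rw [if_pos hxy, if_pos hxy, Finset.mul_sum, ht, ← Finset.sum_add_distrib, Finset.mul_sum,
        ← Finset.sum_add_distrib]
      refine Finset.sum_le_sum fun σ hσ => ?_
      rw [mem_occBox] at hσ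
      have := @hop_pointwise (n : ℝ) (σ x) (σ y) (Real.sqrt ((σ y : ℝ) + 1) * ψ (σ + Pi.single y 1))
        (Real.sqrt ((σ x : ℝ) + 1) * ψ (σ + Pi.single x 1)) (by positivity) (by positivity)
        (by exact_mod_cast hσ x) (by exact_mod_cast hσ y)
      have e1 : (Real.sqrt ((σ y : ℝ) + 1) * ψ (σ + Pi.single y 1)) ^ 2 =
          ((σ y : ℝ) + 1) * ψ (σ + Pi.single y 1) ^ 2 := by
        rw [mul_pow, Real.sq_sqrt (by positivity)]
      have e2 : (Real.sqrt ((σ x : ℝ) + 1) * ψ (σ + Pi.single x 1)) ^ 2 =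
          ((σ x : ℝ) + 1) * ψ (σ + Pi.single x 1) ^ 2 := by
        rw [mul_pow, Real.sq_sqrt (by positivity)]
      rw [e1, e2] at this
      refine this.trans (le_of_eq ?_)
      unfold edgeT
      ring
    · rw [if_neg hxy, if_neg hxy, mul_zero]
  have hsplit : 1 / 4 * ∑ x, ∑ y, (if adj x y then
      ∑ σ ∈ occBox V n, edgeT n x y ψ σ ^ 2 + 2 * (t x y + t y x) else 0) =
      E + 1 / 2 * (∑ x, ∑ y, (if adj x y then t x y else 0) +
        ∑ x, ∑ y, (if adj x y then t y x else 0)) := by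
    rw [hE, ← Finset.sum_add_distrib, Finset.mul_sum, Finset.mul_sum, Finset.mul_sum,
      ← Finset.sum_add_distrib]
    refine Finset.sum_congr rfl fun x _ => ?_
    rw [← Finset.sum_add_distrib, Finset.mul_sum, Finset.mul_sum, Finset.mul_sum,
      ← Finset.sum_add_distrib]
    refine Finset.sum_congr rfl fun y _ => ?_
    split_ifs <;> ring
  have hsymm : ∑ x, ∑ y, (if adj x y then t y x else 0) =
      ∑ x, ∑ y, (if adj x y then t x y else 0) := by
    rw [Finset.sum_comm]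
    refine Finset.sum_congr rfl fun y _ => Finset.sum_congr rfl fun x _ => ?_
    by_cases hxy : adj x y
    · rw [if_pos hxy, if_pos (hadj _ _ hxy)]
    · rw [if_neg hxy, if_neg fun h' => hxy (hadj _ _ h')]
  have hterm : ∀ x y, adj x y → t x y = pairFn n ψ x y + pairFn n ψ y y := by
    intro x y hxy
    have hne : x ≠ y := fun h' => hirr x (by rw [← h'] at hxy; exact hxy)
    have hF : ∀ ζ, ζ ∉ occBox V n → (fun ζ => ψ ζ ^ 2) ζ = 0 := by
      intro ζ hζ
      simp only [h.supp ζ hζ]; norm_num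
    have key := sum_shift n y (fun ζ => ψ ζ ^ 2) (fun σ => (σ x : ℝ) + σ y) hF
    have e1 : t x y = ∑ σ ∈ occBox V n, ((σ y : ℝ) + 1) * ψ (σ + Pi.single y 1) ^ 2 *
        ((σ x : ℝ) + σ y) := Finset.sum_congr rfl fun σ _ => by ring
    rw [e1, key, pairFn, pairFn, ← Finset.sum_add_distrib]
    refine Finset.sum_congr rfl fun η _ => ?_
    rcases Nat.eq_zero_or_pos (η y) with h0 | h0
    · rw [h0, if_neg hne]; simp
    · rw [sub_single_apply η x y h0, sub_single_apply η y y h0, if_neg hne, if_pos rfl]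
      ring
  have hfin : ∑ x, ∑ y, (if adj x y then t x y else 0) =
      ∑ x, ∑ y, (if adj x y then pairFn n ψ x y + pairFn n ψ y y else 0) := by
    refine Finset.sum_congr rfl fun x _ => Finset.sum_congr rfl fun y _ => ?_
    split_ifs with hxy
    · exact hterm x y hxy
    · rfl
  rw [hsplit, hsymm, hfin] at hmain
  linarith

/-! Occupation numbers of `N` labelled particles. -/

/-- Occupation numbers. -/
def occ {N : ℕ} (x : Fin N → V) (v : V) : ℕ := ∑ i, if x i = v then 1 else 0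

lemma occ_cons {N : ℕ} (v : V) (x : Fin N → V) :
    occ (Fin.cons v x : Fin (N + 1) → V) = occ x + Pi.single v 1 := by
  ext w
  rw [Pi.add_apply, occ, occ, Fin.sum_univ_succ, add_comm]
  simp only [Fin.cons_zero, Fin.cons_succ]
  congr 1
  by_cases h : v = w
  · subst h; simp
  · rw [if_neg h, Pi.single_apply, if_neg (Ne.symm h)]

lemma sum_occ {N : ℕ} (x : Fin N → V) : ∑ v, occ x v = N := by
  unfold occ
  rw [Finset.sum_comm]
  simp

lemma occ_perm {N : ℕ} (x : Fin N → V) (p : Equiv.Perm (Fin N)) : occ (x ∘ p) = occ x := by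
  ext v
  exact Equiv.sum_comp p (fun i => if x i = v then 1 else 0)

lemma occ_eq_card {N : ℕ} (x : Fin N → V) (v : V) : occ x v = Fintype.card {i // x i = v} := by
  rw [occ, Fintype.card_subtype, Finset.card_filter]

lemma exists_perm {N : ℕ} {x y : Fin N → V} (h : occ x = occ y) :
    ∃ p : Equiv.Perm (Fin N), y ∘ p = x := by
  have e : ∀ v, Nonempty ({i // x i = v} ≃ {i // y i = v}) := by
    intro v
    rw [← Fintype.card_eq, ← occ_eq_card, ← occ_eq_card, h]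
  let f := fun v => Classical.choice (e v)
  refine ⟨Equiv.ofFiberEquiv f, ?_⟩
  ext i
  exact Equiv.ofFiberEquiv_map f i

/-- Number of labelled configurations with given occupation numbers. -/
def cnt (N : ℕ) (ζ : V → ℕ) : ℕ := (Finset.univ.filter fun x : Fin N → V => occ x = ζ).card

lemma cnt_eq_sum (N : ℕ) (ζ : V → ℕ) :
    cnt N ζ = ∑ x : Fin N → V, if occ x = ζ then 1 else 0 := by
  rw [cnt, Finset.card_filter]

lemma cnt_succ (N : ℕ) (ζ : V → ℕ) (v : V) :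
    cnt (N + 1) (ζ + Pi.single v 1) * (ζ v + 1) = (N + 1) * cnt N ζ := by
  have h1 : ∑ x : Fin (N + 1) → V, ∑ i, (if occ x = ζ + Pi.single v 1 then
      (if x i = v then 1 else 0) else 0) = cnt (N + 1) (ζ + Pi.single v 1) * (ζ v + 1) := by
    rw [cnt_eq_sum, Finset.sum_mul]
    refine Finset.sum_congr rfl fun x _ => ?_
    by_cases h : occ x = ζ + Pi.single v 1
    · simp only [if_pos h, one_mul]
      have : occ x v = ζ v + 1 := by rw [h]; simp
      rw [← this]; rfl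
    · simp only [if_neg h, zero_mul, Finset.sum_const_zero]
  have h0 : ∑ x : Fin (N + 1) → V, (if occ x = ζ + Pi.single v 1 then
      (if x 0 = v then 1 else 0) else 0) = cnt N ζ := by
    rw [← (Fin.consEquiv fun _ => V).sum_comp, Fintype.sum_prod_type, cnt_eq_sum]
    rw [Finset.sum_eq_single v]
    · refine Finset.sum_congr rfl fun x _ => ?_
      change (if occ (Fin.cons v x : Fin (N + 1) → V) = ζ + Pi.single v 1 then
        (if v = v then 1 else 0) else 0) = _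
      rw [occ_cons, if_pos rfl]
      simp only [add_left_inj]
    · intro w _ hw
      refine Finset.sum_eq_zero fun x _ => ?_
      change (if occ (Fin.cons w x : Fin (N + 1) → V) = ζ + Pi.single v 1 then
        (if w = v then 1 else 0) else 0) = _
      rw [if_neg hw, ite_self]
    · simp
  rw [← h1, Finset.sum_comm]
  have h2 : ∀ i : Fin (N + 1), ∑ x : Fin (N + 1) → V, (if occ x = ζ + Pi.single v 1 then
      (if x i = v then 1 else 0) else 0) = cnt N ζ := by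
    intro i
    rw [← h0, ← (Equiv.arrowCongr (Equiv.swap 0 i) (Equiv.refl V)).sum_comp]
    refine Finset.sum_congr rfl fun x _ => ?_
    have e1 : (Equiv.arrowCongr (Equiv.swap 0 i) (Equiv.refl V)) x = x ∘ Equiv.swap 0 i := by
      ext j; simp [Equiv.arrowCongr]
    rw [e1, occ_perm]
    simp
  simp only [h2]
  simp

lemma cnt_pos (N : ℕ) : ∀ ζ : V → ℕ, ∑ v, ζ v = N → 0 < cnt N ζ := by
  induction N with
  | zero =>
    intro ζ hζ
    rw [cnt, Finset.card_pos]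
    refine ⟨Fin.elim0, ?_⟩
    rw [Finset.mem_filter]
    refine ⟨Finset.mem_univ _, ?_⟩
    ext v
    have : ζ v = 0 := (Finset.sum_eq_zero_iff.1 hζ) v (Finset.mem_univ _)
    rw [this, occ]; simp
  | succ N ih =>
    intro ζ hζ
    obtain ⟨v, hv⟩ : ∃ v, 0 < ζ v := by
      by_contra hcon
      push Not at hcon
      have : ∑ v, ζ v = 0 := Finset.sum_eq_zero fun v _ => Nat.le_zero.1 (hcon v)
      omega
    set ζ' : V → ℕ := ζ - Pi.single v 1 with hζ'
    have e1 : ζ' + Pi.single v 1 = ζ := sub_add_single ζ v hv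
    have e2 : ∑ w, ζ' w = N := by
      have : ∑ w, (ζ' + Pi.single v 1 : V → ℕ) w = N + 1 := by rw [e1, hζ]
      simp only [Pi.add_apply, Finset.sum_add_distrib] at this
      rw [Finset.sum_pi_single'] at this
      simp at this
      exact this
    have h := cnt_succ N ζ' v
    rw [e1] at h
    have h3 := ih ζ' e2
    by_contra hcon
    have h4 : cnt (N + 1) ζ = 0 := by omega
    rw [h4, zero_mul] at h
    have : 0 < (N + 1) * cnt N ζ' := by positivity
    omega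

lemma fiber_sum (n N : ℕ) (g : (V → ℕ) → ℝ) (h1 : ∀ ζ, ζ ∉ occBox V n → g ζ = 0)
    (h2 : ∀ ζ, ∑ v, ζ v ≠ N → g ζ = 0) :
    ∑ x : Fin N → V, g (occ x) / cnt N (occ x) = ∑ ζ ∈ occBox V n, g ζ := by
  have e1 : ∀ ζ ∈ occBox V n, g ζ = ∑ x : Fin N → V, if occ x = ζ then g ζ / cnt N ζ else 0 := by
    intro ζ _
    by_cases h : ∑ v, ζ v = N
    · rw [← Finset.sum_filter, Finset.sum_const, nsmul_eq_mul]
      have h3 : (0 : ℝ) < cnt N ζ := by exact_mod_cast cnt_pos N ζ h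
      change g ζ = (cnt N ζ : ℝ) * (g ζ / cnt N ζ)
      field_simp
    · rw [h2 ζ h]; simp
  rw [Finset.sum_congr rfl e1, Finset.sum_comm]
  refine Finset.sum_congr rfl fun x _ => ?_
  by_cases h : occ x ∈ occBox V n
  · rw [Finset.sum_ite_eq, if_pos h]
  · rw [Finset.sum_ite_eq, if_neg h, h1 _ h]; simp

end Vale.Agent.P361.B
end

section

set_option linter.unusedSectionVars false

/-!
Part B: comparison with free bosons, spectral side.
-/

namespace Vale.Agent.P361.B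

open Finset Filter Topology

variable {V : Type*} [Fintype V] [DecidableEq V]
variable {n N : ℕ} {adj : V → V → Prop} [DecidableRel adj] {e : V → V → ℝ} {lam : V → ℝ}
variable {E : ℝ} {ψ : (V → ℕ) → ℝ}

/-- Tensor basis. -/
noncomputable def tens (e : V → V → ℝ) {N : ℕ} (k x : Fin N → V) : ℝ := ∏ i, e (k i) (x i)

lemma tens_compl (hS : Spec adj e lam) (x y : Fin N → V) :
    ∑ k : Fin N → V, tens e k x * tens e k y = if x = y then 1 else 0 := by
  unfold tens
  simp only [← Finset.prod_mul_distrib]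
  have h := Finset.prod_univ_sum (fun _ : Fin N => (Finset.univ : Finset V))
    (fun i v => e v (x i) * e v (y i))
  rw [Fintype.piFinset_univ] at h
  rw [← h]
  simp only [hS.compl]
  by_cases hxy : x = y
  · subst hxy; simp
  · rw [if_neg hxy]
    obtain ⟨i, hi⟩ := Function.ne_iff.1 hxy
    exact Finset.prod_eq_zero (Finset.mem_univ i) (if_neg hi)

lemma tens_orth (hS : Spec adj e lam) (k l : Fin N → V) :
    ∑ x : Fin N → V, tens e k x * tens e l x = if k = l then 1 else 0 := by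
  unfold tens
  simp only [← Finset.prod_mul_distrib]
  have h := Finset.prod_univ_sum (fun _ : Fin N => (Finset.univ : Finset V))
    (fun i v => e (k i) v * e (l i) v)
  rw [Fintype.piFinset_univ] at h
  rw [← h]
  simp only [hS.orth]
  by_cases hkl : k = l
  · subst hkl; simp
  · rw [if_neg hkl]
    obtain ⟨i, hi⟩ := Function.ne_iff.1 hkl
    exact Finset.prod_eq_zero (Finset.mem_univ i) (if_neg hi)

/-- Fourier coefficient. -/
noncomputable def four (e : V → V → ℝ) {N : ℕ} (F : (Fin N → V) → ℝ) (k : Fin N → V) : ℝ :=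
  ∑ x, tens e k x * F x

lemma parseval (hS : Spec adj e lam) (F : (Fin N → V) → ℝ) :
    ∑ k, four e F k ^ 2 = ∑ x, F x ^ 2 := by
  have h1 : ∀ k, four e F k ^ 2 = ∑ x, ∑ y, F x * F y * (tens e k x * tens e k y) := by
    intro k
    rw [sq, four, Finset.sum_mul_sum]
    exact Finset.sum_congr rfl fun x _ => Finset.sum_congr rfl fun y _ => by ring
  simp only [h1]
  rw [Finset.sum_comm]
  refine Finset.sum_congr rfl fun x _ => ?_
  rw [Finset.sum_comm]
  simp only [← Finset.mul_sum, tens_compl hS]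
  rw [Finset.sum_eq_single x]
  · rw [if_pos rfl]; ring
  · intro y _ hy
    rw [if_neg (Ne.symm hy), mul_zero]
  · simp

lemma edge_spectral (hS : Spec adj e lam) (hadj : ∀ x y, adj x y → adj y x) (f : V → ℝ) :
    ∑ x, ∑ y, (if adj x y then (f x - f y) ^ 2 else 0) =
      2 * ∑ k, lam k * (∑ x, e k x * f x) ^ 2 := by
  have hexp : ∀ x, f x = ∑ k, (∑ y, e k y * f y) * e k x := by
    intro x
    calc f x = ∑ y, f y * ∑ k, e k y * e k x := by simp only [hS.compl]; simp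
      _ = _ := by
        simp only [Finset.mul_sum, Finset.sum_mul]
        rw [Finset.sum_comm]
        exact Finset.sum_congr rfl fun k _ => Finset.sum_congr rfl fun y _ => by ring
  have hlap : ∀ x, ∑ y, (if adj x y then f x - f y else 0) =
      ∑ k, lam k * (∑ y, e k y * f y) * e k x := by
    intro x
    have h1 : ∀ y, (if adj x y then f x - f y else 0) =
        ∑ k, -((∑ y, e k y * f y) * (if adj x y then e k y - e k x else 0)) := by
      intro y
      split_ifs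
      · conv_lhs => rw [hexp x, hexp y]
        rw [← Finset.sum_sub_distrib]
        exact Finset.sum_congr rfl fun k _ => by ring
      · simp
    simp only [h1]
    rw [Finset.sum_comm]
    refine Finset.sum_congr rfl fun k _ => ?_
    rw [Finset.sum_neg_distrib, ← Finset.mul_sum, hS.eig]
    ring
  have hsq : ∑ x, ∑ y, (if adj x y then (f x - f y) ^ 2 else 0) =
      2 * ∑ x, f x * ∑ y, (if adj x y then f x - f y else 0) := by
    have h1 : ∑ x, ∑ y, (if adj x y then (f x - f y) ^ 2 else 0) =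
        ∑ x, ∑ y, (if adj x y then f x * (f x - f y) else 0) +
        ∑ x, ∑ y, (if adj x y then f y * (f y - f x) else 0) := by
      rw [← Finset.sum_add_distrib]
      refine Finset.sum_congr rfl fun x _ => ?_
      rw [← Finset.sum_add_distrib]
      refine Finset.sum_congr rfl fun y _ => ?_
      split_ifs <;> ring
    have h2 : ∑ x, ∑ y, (if adj x y then f y * (f y - f x) else 0) =
        ∑ x, ∑ y, (if adj x y then f x * (f x - f y) else 0) := by
      rw [Finset.sum_comm]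
      refine Finset.sum_congr rfl fun y _ => Finset.sum_congr rfl fun x _ => ?_
      by_cases hxy : adj x y
      · rw [if_pos hxy, if_pos (hadj _ _ hxy)]
      · rw [if_neg hxy, if_neg fun h' => hxy (hadj _ _ h')]
    rw [h1, h2, ← two_mul]
    congr 1
    refine Finset.sum_congr rfl fun x _ => ?_
    rw [Finset.mul_sum]
    exact Finset.sum_congr rfl fun y _ => by split_ifs <;> ring
  rw [hsq]
  congr 1
  simp only [hlap]
  set c : V → ℝ := fun k => ∑ y, e k y * f y with hc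
  calc ∑ x, f x * ∑ k, lam k * c k * e k x = ∑ x, ∑ k, lam k * c k * (e k x * f x) := by
        refine Finset.sum_congr rfl fun x _ => ?_
        rw [Finset.mul_sum]
        exact Finset.sum_congr rfl fun k _ => by ring
    _ = ∑ k, ∑ x, lam k * c k * (e k x * f x) := Finset.sum_comm
    _ = ∑ k, lam k * c k ^ 2 := by
        refine Finset.sum_congr rfl fun k _ => ?_
        rw [← Finset.mul_sum, sq, mul_assoc]

/-- Wave function of labelled particles. -/
noncomputable def wf (N : ℕ) (ψ : (V → ℕ) → ℝ) (x : Fin N → V) : ℝ :=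
  ψ (occ x) / Real.sqrt (cnt N (occ x))

lemma wf_perm (ψ : (V → ℕ) → ℝ) (x : Fin N → V) (p : Equiv.Perm (Fin N)) :
    wf N ψ (x ∘ p) = wf N ψ x := by
  rw [wf, occ_perm, wf]

lemma cnt_occ_pos (x : Fin N → V) : (0 : ℝ) < cnt N (occ x) := by
  exact_mod_cast cnt_pos N (occ x) (sum_occ x)

lemma wf_inner {ψ₁ ψ₂ : (V → ℕ) → ℝ} (h1 : ∀ ζ, ζ ∉ occBox V n → ψ₁ ζ = 0)
    (h2 : ∀ ζ, ∑ v, ζ v ≠ N → ψ₁ ζ = 0) :
    ∑ x, wf N ψ₁ x * wf N ψ₂ x = ∑ ζ ∈ occBox V n, ψ₁ ζ * ψ₂ ζ := by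
  rw [← fiber_sum n N (fun ζ => ψ₁ ζ * ψ₂ ζ) (fun ζ hζ => by simp only [h1 ζ hζ, zero_mul])
    (fun ζ hζ => by simp only [h2 ζ hζ, zero_mul])]
  refine Finset.sum_congr rfl fun x _ => ?_
  have h3 := cnt_occ_pos x
  rw [wf, wf, div_mul_div_comm, Real.mul_self_sqrt h3.le]

lemma four_perm (hS : Spec adj e lam) (F : (Fin N → V) → ℝ)
    (hF : ∀ x (p : Equiv.Perm (Fin N)), F (x ∘ p) = F x) (k : Fin N → V)
    (p : Equiv.Perm (Fin N)) : four e F (k ∘ p) = four e F k := by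
  unfold four
  rw [← (Equiv.arrowCongr p.symm (Equiv.refl V)).sum_comp]
  refine Finset.sum_congr rfl fun x _ => ?_
  have e1 : (Equiv.arrowCongr p.symm (Equiv.refl V)) x = x ∘ p := by
    ext j; simp [Equiv.arrowCongr]
  rw [e1]
  have e2 : tens e (k ∘ p) (x ∘ p) = tens e k x :=
    Equiv.prod_comp p (fun i => e (k i) (x i))
  rw [e2, hF]

lemma four_occ (hS : Spec adj e lam) (F : (Fin N → V) → ℝ)
    (hF : ∀ x (p : Equiv.Perm (Fin N)), F (x ∘ p) = F x) {k l : Fin N → V} (h : occ k = occ l) :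
    four e F k = four e F l := by
  obtain ⟨p, hp⟩ := exists_perm h
  rw [← hp, four_perm hS F hF]

lemma four_cons (F : (Fin (N + 1) → V) → ℝ) (v : V) (k : Fin N → V) :
    four e F (Fin.cons v k) = four e (fun x => ∑ w, e v w * F (Fin.cons w x)) k := by
  unfold four
  rw [← (Fin.consEquiv fun _ => V).sum_comp, Fintype.sum_prod_type, Finset.sum_comm]
  refine Finset.sum_congr rfl fun x _ => ?_
  rw [Finset.mul_sum]
  refine Finset.sum_congr rfl fun w _ => ?_
  change tens e (Fin.cons v k : Fin (N + 1) → V) (Fin.cons w x : Fin (N + 1) → V) *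
    F (Fin.cons w x) = _
  rw [tens, Fin.prod_univ_succ]
  simp only [Fin.cons_zero, Fin.cons_succ]
  rw [tens]; ring

lemma hop_sum (ψ : (V → ℕ) → ℝ) (h1 : ∀ ζ, ζ ∉ occBox V n → ψ ζ = 0)
    (h2 : ∀ ζ, ∑ v, ζ v ≠ N + 1 → ψ ζ = 0) (v w : V) :
    ∑ σ ∈ occBox V n, (Real.sqrt ((σ v : ℝ) + 1) * ψ (σ + Pi.single v 1) -
      Real.sqrt ((σ w : ℝ) + 1) * ψ (σ + Pi.single w 1)) ^ 2 =
    (N + 1 : ℝ) * ∑ x : Fin N → V, (wf (N + 1) ψ (Fin.cons v x) -
      wf (N + 1) ψ (Fin.cons w x)) ^ 2 := by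
  have hout : ∀ ζ : V → ℕ, ζ ∉ occBox V n → ∀ v, ψ (ζ + Pi.single v 1) = 0 := by
    intro ζ hζ v
    apply h1
    rw [mem_occBox] at hζ ⊢
    push Not at hζ ⊢
    obtain ⟨x, hx⟩ := hζ
    refine ⟨x, ?_⟩
    rw [Pi.add_apply]; omega
  have hsec : ∀ ζ : V → ℕ, ∑ u, ζ u ≠ N → ∀ v, ψ (ζ + Pi.single v 1) = 0 := by
    intro ζ hζ v
    apply h2
    simp only [Pi.add_apply, Finset.sum_add_distrib]
    rw [Finset.sum_pi_single']
    simp [hζ]
  refine (fiber_sum n N (fun σ => (Real.sqrt ((σ v : ℝ) + 1) * ψ (σ + Pi.single v 1) -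
      Real.sqrt ((σ w : ℝ) + 1) * ψ (σ + Pi.single w 1)) ^ 2)
      (fun ζ hζ => by simp only [hout ζ hζ]; simp)
      (fun ζ hζ => by simp only [hsec ζ hζ]; simp)).symm.trans ?_
  rw [Finset.mul_sum]
  refine Finset.sum_congr rfl fun x _ => ?_
  have hc := cnt_occ_pos x
  have hwf : ∀ u, Real.sqrt (N + 1 : ℝ) * wf (N + 1) ψ (Fin.cons u x) =
      Real.sqrt ((occ x u : ℝ) + 1) * ψ (occ x + Pi.single u 1) / Real.sqrt (cnt N (occ x)) := by
    intro u
    rw [wf, occ_cons]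
    have hc2 : (0 : ℝ) < cnt (N + 1) (occ x + Pi.single u 1) := by
      rw [← occ_cons]; exact cnt_occ_pos _
    have h3 : (cnt (N + 1) (occ x + Pi.single u 1) : ℝ) * ((occ x u : ℝ) + 1) =
        ((N : ℝ) + 1) * cnt N (occ x) := by exact_mod_cast cnt_succ N (occ x) u
    have h4 : Real.sqrt (cnt (N + 1) (occ x + Pi.single u 1)) * Real.sqrt ((occ x u : ℝ) + 1) =
        Real.sqrt ((N : ℝ) + 1) * Real.sqrt (cnt N (occ x)) := by
      rw [← Real.sqrt_mul hc2.le, h3, Real.sqrt_mul (by positivity)]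
    have h5 : 0 < Real.sqrt (cnt (N + 1) (occ x + Pi.single u 1)) := Real.sqrt_pos.2 hc2
    have h6 : 0 < Real.sqrt (cnt N (occ x)) := Real.sqrt_pos.2 hc
    rw [mul_div_assoc', div_eq_div_iff h5.ne' h6.ne']
    calc _ = (Real.sqrt ((N : ℝ) + 1) * Real.sqrt (cnt N (occ x))) * ψ (occ x + Pi.single u 1) := by
          ring
      _ = _ := by rw [← h4]; ring
  have h7 : (N + 1 : ℝ) * (wf (N + 1) ψ (Fin.cons v x) - wf (N + 1) ψ (Fin.cons w x)) ^ 2 =
      (Real.sqrt (N + 1 : ℝ) * wf (N + 1) ψ (Fin.cons v x) -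
        Real.sqrt (N + 1 : ℝ) * wf (N + 1) ψ (Fin.cons w x)) ^ 2 := by
    rw [← mul_sub, mul_pow, Real.sq_sqrt (by positivity)]
  rw [h7, hwf, hwf, ← sub_div, div_pow, Real.sq_sqrt hc.le]

/-- One-particle energies summed. -/
noncomputable def bosE (n : ℕ) (lam : V → ℝ) (m : V → ℕ) : ℝ := (n : ℝ) / 2 * ∑ v, lam v * m v

lemma sum_lam_occ (k : Fin N → V) : ∑ v, lam v * (occ k v : ℝ) = ∑ i, lam (k i) := by
  unfold occ
  push_cast
  simp only [Finset.mul_sum]
  rw [Finset.sum_comm]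
  refine Finset.sum_congr rfl fun i _ => ?_
  simp

theorem kform_eq (hS : Spec adj e lam) (hadj : ∀ x y, adj x y → adj y x)
    (h1 : ∀ ζ, ζ ∉ occBox V n → ψ ζ = 0) (h2 : ∀ ζ, ∑ v, ζ v ≠ N → ψ ζ = 0) :
    kform n adj ψ = ∑ k : Fin N → V, bosE n lam (occ k) * four e (wf N ψ) k ^ 2 := by
  rcases N with _ | N
  · have h3 : ∀ (σ : V → ℕ) v, ψ (σ + Pi.single v 1) = 0 := by
      intro σ v
      apply h2
      simp only [Pi.add_apply, Finset.sum_add_distrib]
      rw [Finset.sum_pi_single']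
      simp
    have h4 : kform n adj ψ = 0 := by
      unfold kform
      simp [h3]
    rw [h4]
    symm
    refine Finset.sum_eq_zero fun k _ => ?_
    rw [bosE, sum_lam_occ]; simp
  · unfold kform
    have h3 : ∀ v w, (if adj v w then ∑ σ ∈ occBox V n,
        (Real.sqrt ((σ v : ℝ) + 1) * ψ (σ + Pi.single v 1) -
          Real.sqrt ((σ w : ℝ) + 1) * ψ (σ + Pi.single w 1)) ^ 2 else 0) =
        (N + 1 : ℝ) * ∑ x : Fin N → V, (if adj v w then (wf (N + 1) ψ (Fin.cons v x) -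
          wf (N + 1) ψ (Fin.cons w x)) ^ 2 else 0) := by
      intro v w
      split_ifs
      · exact hop_sum ψ h1 h2 v w
      · simp
    simp only [h3]
    have h4 : ∑ v, ∑ w, (N + 1 : ℝ) * ∑ x : Fin N → V, (if adj v w then
        (wf (N + 1) ψ (Fin.cons v x) - wf (N + 1) ψ (Fin.cons w x)) ^ 2 else 0) =
        (N + 1 : ℝ) * ∑ x : Fin N → V, ∑ v, ∑ w, (if adj v w then
        (wf (N + 1) ψ (Fin.cons v x) - wf (N + 1) ψ (Fin.cons w x)) ^ 2 else 0) := by
      have h5 := sum_swap3 (Finset.univ : Finset (Fin N → V)) (fun _ => (N + 1 : ℝ))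
        (fun v w x => if adj v w then
          (wf (N + 1) ψ (Fin.cons v x) - wf (N + 1) ψ (Fin.cons w x)) ^ 2 else 0)
      simp only [← Finset.mul_sum] at h5 ⊢
      exact h5
    rw [h4]
    have h6 : ∀ x : Fin N → V, ∑ v, ∑ w, (if adj v w then
        (wf (N + 1) ψ (Fin.cons v x) - wf (N + 1) ψ (Fin.cons w x)) ^ 2 else 0) =
        2 * ∑ k, lam k * (∑ v, e k v * wf (N + 1) ψ (Fin.cons v x)) ^ 2 := fun x =>
      edge_spectral hS hadj (fun v => wf (N + 1) ψ (Fin.cons v x))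
    simp only [h6]
    have h7 : ∑ x : Fin N → V, 2 * ∑ k, lam k *
        (∑ v, e k v * wf (N + 1) ψ (Fin.cons v x)) ^ 2 =
        2 * ∑ k : Fin (N + 1) → V, lam (k 0) * four e (wf (N + 1) ψ) k ^ 2 := by
      rw [← Finset.mul_sum, Finset.sum_comm]
      congr 1
      rw [← (Fin.consEquiv fun _ => V).sum_comp, Fintype.sum_prod_type]
      refine Finset.sum_congr rfl fun k0 _ => ?_
      have h8 := parseval hS (fun x : Fin N → V => ∑ v, e k0 v * wf (N + 1) ψ (Fin.cons v x))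
      rw [← Finset.mul_sum, ← h8, Finset.mul_sum]
      refine Finset.sum_congr rfl fun k _ => ?_
      change _ = lam ((Fin.cons k0 k : Fin (N + 1) → V) 0) *
        four e (wf (N + 1) ψ) (Fin.cons k0 k) ^ 2
      rw [four_cons, Fin.cons_zero]
    rw [h7]
    have h9 : ∀ i : Fin (N + 1), ∑ k : Fin (N + 1) → V, lam (k i) * four e (wf (N + 1) ψ) k ^ 2 =
        ∑ k : Fin (N + 1) → V, lam (k 0) * four e (wf (N + 1) ψ) k ^ 2 := by
      intro i
      rw [← (Equiv.arrowCongr (Equiv.swap 0 i) (Equiv.refl V)).sum_comp]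
      refine Finset.sum_congr rfl fun k _ => ?_
      have e1 : (Equiv.arrowCongr (Equiv.swap 0 i) (Equiv.refl V)) k = k ∘ Equiv.swap 0 i := by
        ext j; simp [Equiv.arrowCongr]
      rw [e1, four_perm hS _ (wf_perm ψ)]
      simp
    have h10 : ∑ k : Fin (N + 1) → V, bosE n lam (occ k) * four e (wf (N + 1) ψ) k ^ 2 =
        (n : ℝ) / 2 * ∑ i : Fin (N + 1), ∑ k : Fin (N + 1) → V,
          lam (k i) * four e (wf (N + 1) ψ) k ^ 2 := by
      rw [Finset.sum_comm, Finset.mul_sum]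
      refine Finset.sum_congr rfl fun k _ => ?_
      rw [bosE, sum_lam_occ, ← Finset.sum_mul]
      ring
    rw [h10]
    simp only [h9]
    rw [Finset.sum_const, Finset.card_univ, Fintype.card_fin, nsmul_eq_mul]
    push_cast
    ring

end Vale.Agent.P361.B
end

section

set_option linter.unusedSectionVars false

/-!
Part B: low-energy part of the partition function against free bosons.
-/

namespace Vale.Agent.P361.B

open Finset Filter Topology

variable {V : Type*} [Fintype V] [DecidableEq V]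
variable {n N : ℕ} {adj : V → V → Prop} [DecidableRel adj] {e : V → V → ℝ} {lam : V → ℝ}

lemma bessel {X ι : Type*} [Fintype X] (I : Finset ι) (F : ι → X → ℝ) (Φ : X → ℝ)
    (h1 : ∀ i ∈ I, ∑ x, F i x ^ 2 = 1) (h2 : ∀ i ∈ I, ∀ j ∈ I, i ≠ j → ∑ x, F i x * F j x = 0) :
    ∑ i ∈ I, (∑ x, Φ x * F i x) ^ 2 ≤ ∑ x, Φ x ^ 2 := by
  set c : ι → ℝ := fun i => ∑ x, Φ x * F i x with hc
  have h0 : 0 ≤ ∑ x, (Φ x - ∑ i ∈ I, c i * F i x) ^ 2 := Finset.sum_nonneg fun x _ => sq_nonneg _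
  have e1 : ∑ x, (Φ x - ∑ i ∈ I, c i * F i x) ^ 2 = ∑ x, Φ x ^ 2 -
      2 * ∑ x, Φ x * ∑ i ∈ I, c i * F i x + ∑ x, (∑ i ∈ I, c i * F i x) ^ 2 := by
    rw [Finset.mul_sum, ← Finset.sum_sub_distrib, ← Finset.sum_add_distrib]
    exact Finset.sum_congr rfl fun x _ => by ring
  have e2 : ∑ x, Φ x * ∑ i ∈ I, c i * F i x = ∑ i ∈ I, c i ^ 2 := by
    simp only [Finset.mul_sum]
    rw [Finset.sum_comm]
    refine Finset.sum_congr rfl fun i _ => ?_
    calc ∑ x, Φ x * (c i * F i x) = c i * ∑ x, Φ x * F i x := by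
          rw [Finset.mul_sum]; exact Finset.sum_congr rfl fun x _ => by ring
      _ = c i ^ 2 := by rw [sq]
  have e3 : ∑ x, (∑ i ∈ I, c i * F i x) ^ 2 = ∑ i ∈ I, c i ^ 2 := by
    have : ∀ x, (∑ i ∈ I, c i * F i x) ^ 2 = ∑ i ∈ I, ∑ j ∈ I, c i * c j * (F i x * F j x) := by
      intro x
      rw [sq, Finset.sum_mul_sum]
      exact Finset.sum_congr rfl fun i _ => Finset.sum_congr rfl fun j _ => by ring
    simp only [this]
    rw [Finset.sum_comm]
    refine Finset.sum_congr rfl fun i hi => ?_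
    rw [Finset.sum_comm]
    simp only [← Finset.mul_sum]
    rw [Finset.sum_eq_single i]
    · have : ∑ x, F i x * F i x = 1 := by rw [← h1 i hi]; exact Finset.sum_congr rfl fun x _ => by ring
      rw [this]; ring
    · intro j hj hij
      rw [h2 i hi j hj (Ne.symm hij), mul_zero]
    · intro h; exact absurd hi h
  rw [e1, e2, e3] at h0
  linarith

/-- Occupation numbers of `N` particles. -/
noncomputable def occImg (V : Type*) [Fintype V] [DecidableEq V] (N : ℕ) : Finset (V → ℕ) :=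
  (Finset.univ : Finset (Fin N → V)).image occ

theorem peierls_bosons {ι : Type*} (hS : Spec adj e lam) (hadj : ∀ x y, adj x y → adj y x)
    (I : Finset ι) (E : ι → ℝ) (ψ : ι → (V → ℕ) → ℝ) (h : ∀ i ∈ I, IsEig n adj N (E i) (ψ i))
    (horth : ∀ i ∈ I, ∀ j ∈ I, i ≠ j → ∑ ζ ∈ occBox V n, ψ i ζ * ψ j ζ = 0)
    {d : ℝ} (hd : ∀ i ∈ I, kform n adj (ψ i) ≤ E i + d) {β : ℝ} (hβ : 0 ≤ β) :
    ∑ i ∈ I, Real.exp (-(β * E i)) ≤
      Real.exp (β * d) * ∑ m ∈ occImg V N, Real.exp (-(β * bosE n lam m)) := by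
  classical
  set w : ι → (V → ℕ) → ℝ := fun i m =>
    ∑ k : Fin N → V, if occ k = m then four e (wf N (ψ i)) k ^ 2 else 0 with hw
  have hw0 : ∀ i m, 0 ≤ w i m := fun i m =>
    Finset.sum_nonneg fun k _ => by split_ifs <;> positivity
  have hfib : ∀ (i : ι) (g : (V → ℕ) → ℝ), ∑ m ∈ occImg V N, g m * w i m =
      ∑ k : Fin N → V, g (occ k) * four e (wf N (ψ i)) k ^ 2 := by
    intro i g
    simp only [hw, Finset.mul_sum]
    rw [Finset.sum_comm]
    refine Finset.sum_congr rfl fun k _ => ?_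
    rw [Finset.sum_eq_single (occ k)]
    · rw [if_pos rfl]
    · intro m _ hm
      rw [if_neg (Ne.symm hm), mul_zero]
    · intro hk
      exact absurd (Finset.mem_image_of_mem _ (Finset.mem_univ k)) hk
  have hone : ∀ i ∈ I, ∑ m ∈ occImg V N, w i m = 1 := by
    intro i hi
    have h1 := hfib i (fun _ => 1)
    simp only [one_mul] at h1
    rw [h1, parseval hS]
    have h2 := wf_inner (ψ₂ := ψ i) (h i hi).supp (h i hi).sect
    have h3 : ∑ x, wf N (ψ i) x ^ 2 = ∑ x, wf N (ψ i) x * wf N (ψ i) x :=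
      Finset.sum_congr rfl fun x _ => by ring
    rw [h3, h2, ← (h i hi).norm]
    exact Finset.sum_congr rfl fun x _ => by ring
  have hle : ∀ m ∈ occImg V N, ∑ i ∈ I, w i m ≤ 1 := by
    intro m hm
    obtain ⟨k0, _, hk0⟩ := Finset.mem_image.1 hm
    have hc : (0 : ℝ) < cnt N m := by rw [← hk0]; exact cnt_occ_pos k0
    have hwm : ∀ i, w i m = cnt N m * four e (wf N (ψ i)) k0 ^ 2 := by
      intro i
      simp only [hw]
      rw [cnt_eq_sum]
      push_cast
      rw [Finset.sum_mul]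
      refine Finset.sum_congr rfl fun k _ => ?_
      split_ifs with hk
      · rw [one_mul, four_occ hS _ (wf_perm (ψ i)) (hk.trans hk0.symm)]
      · rw [zero_mul]
    set Φ : (Fin N → V) → ℝ := fun x => ∑ k : Fin N → V, if occ k = m then tens e k x else 0 with hΦ
    have hΦF : ∀ i, ∑ x, Φ x * wf N (ψ i) x = cnt N m * four e (wf N (ψ i)) k0 := by
      intro i
      simp only [hΦ, Finset.sum_mul]
      rw [Finset.sum_comm, cnt_eq_sum]
      push_cast
      rw [Finset.sum_mul]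
      refine Finset.sum_congr rfl fun k _ => ?_
      by_cases hk : occ k = m
      · simp only [if_pos hk, one_mul]
        rw [four_occ hS _ (wf_perm (ψ i)) (hk0.trans hk.symm)]
        rfl
      · simp only [if_neg hk, zero_mul, Finset.sum_const_zero]
    have hΦ2 : ∑ x, Φ x ^ 2 = cnt N m := by
      have h1 : ∀ x, Φ x ^ 2 = ∑ k : Fin N → V, ∑ l : Fin N → V,
          (if occ k = m then (1 : ℝ) else 0) * (if occ l = m then (1 : ℝ) else 0) *
            (tens e k x * tens e l x) := by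
        intro x
        rw [sq]
        simp only [hΦ]
        rw [Finset.sum_mul_sum]
        refine Finset.sum_congr rfl fun k _ => Finset.sum_congr rfl fun l _ => ?_
        by_cases hk : occ k = m <;> by_cases hl : occ l = m <;> simp [hk, hl]
      simp only [h1]
      rw [Finset.sum_comm, cnt_eq_sum]
      push_cast
      refine Finset.sum_congr rfl fun k _ => ?_
      rw [Finset.sum_comm]
      simp only [← Finset.mul_sum, tens_orth hS]
      rw [Finset.sum_eq_single k]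
      · by_cases hk : occ k = m <;> simp [hk]
      · intro l _ hl
        rw [if_neg (Ne.symm hl), mul_zero]
      · simp
    have hb := bessel I (fun i => wf N (ψ i)) Φ
      (fun i hi => by
        have h2 := wf_inner (ψ₂ := ψ i) (h i hi).supp (h i hi).sect
        have h3 : ∑ x, wf N (ψ i) x ^ 2 = ∑ x, wf N (ψ i) x * wf N (ψ i) x :=
          Finset.sum_congr rfl fun x _ => by ring
        rw [h3, h2, ← (h i hi).norm]
        exact Finset.sum_congr rfl fun x _ => by ring)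
      (fun i hi j hj hij => by
        rw [wf_inner (h i hi).supp (h i hi).sect]
        exact horth i hi j hj hij)
    rw [hΦ2] at hb
    simp only [hΦF] at hb
    have h4 : ∑ i ∈ I, ((cnt N m : ℝ) * four e (wf N (ψ i)) k0) ^ 2 =
        cnt N m * ∑ i ∈ I, w i m := by
      rw [Finset.mul_sum]
      exact Finset.sum_congr rfl fun i _ => by rw [hwm]; ring
    rw [h4] at hb
    by_contra hcon
    push Not at hcon
    have : (cnt N m : ℝ) * 1 < cnt N m * ∑ i ∈ I, w i m := mul_lt_mul_of_pos_left hcon hc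
    linarith
  have hterm : ∀ i ∈ I, Real.exp (-(β * E i)) ≤
      Real.exp (β * d) * ∑ m ∈ occImg V N, w i m * Real.exp (-(β * bosE n lam m)) := by
    intro i hi
    have h1 : kform n adj (ψ i) = ∑ m ∈ occImg V N, bosE n lam m * w i m := by
      rw [hfib, kform_eq hS hadj (h i hi).supp (h i hi).sect]
    have h2 : Real.exp (∑ m ∈ occImg V N, w i m * (-(β * bosE n lam m))) ≤
        ∑ m ∈ occImg V N, w i m * Real.exp (-(β * bosE n lam m)) := by
      have := convexOn_exp.map_sum_le (t := occImg V N) (w := w i)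
        (p := fun m => -(β * bosE n lam m)) (fun m _ => hw0 i m) (hone i hi)
        (fun m _ => Set.mem_univ _)
      simpa [smul_eq_mul] using this
    have h3 : ∑ m ∈ occImg V N, w i m * (-(β * bosE n lam m)) = -(β * kform n adj (ψ i)) := by
      rw [h1, Finset.mul_sum, ← Finset.sum_neg_distrib]
      exact Finset.sum_congr rfl fun m _ => by ring
    rw [h3] at h2
    calc Real.exp (-(β * E i)) ≤ Real.exp (β * d + -(β * kform n adj (ψ i))) := by
          apply Real.exp_le_exp.2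
          have := mul_le_mul_of_nonneg_left (hd i hi) hβ
          linarith
      _ = Real.exp (β * d) * Real.exp (-(β * kform n adj (ψ i))) := Real.exp_add _ _
      _ ≤ _ := mul_le_mul_of_nonneg_left h2 (Real.exp_pos _).le
  calc ∑ i ∈ I, Real.exp (-(β * E i))
      ≤ ∑ i ∈ I, Real.exp (β * d) * ∑ m ∈ occImg V N, w i m * Real.exp (-(β * bosE n lam m)) :=
        Finset.sum_le_sum hterm
    _ = Real.exp (β * d) * ∑ m ∈ occImg V N, (∑ i ∈ I, w i m) * Real.exp (-(β * bosE n lam m)) := by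
        rw [← Finset.mul_sum, Finset.sum_comm]
        congr 1
        exact Finset.sum_congr rfl fun m _ => by rw [Finset.sum_mul]
    _ ≤ _ := by
        refine mul_le_mul_of_nonneg_left (Finset.sum_le_sum fun m hm => ?_) (Real.exp_pos _).le
        calc (∑ i ∈ I, w i m) * Real.exp (-(β * bosE n lam m))
            ≤ 1 * Real.exp (-(β * bosE n lam m)) :=
              mul_le_mul_of_nonneg_right (hle m hm) (Real.exp_pos _).le
          _ = _ := one_mul _

/-- Low-energy, low-number part of the partition function. -/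
theorem low_part {ι : Type*} (hn : 1 ≤ n) (hS : Spec adj e lam)
    (hadj : ∀ x y, adj x y → adj y x)
    (hirr : ∀ x, ¬ adj x x) {D : ℝ} (hD : ∀ x, ∑ y, (if adj x y then (1 : ℝ) else 0) ≤ D)
    (hD0 : 0 ≤ D)
    {b : V → ℝ} (hb : ∀ k x, e k x ^ 2 ≤ b k) (hb0 : ∀ k, 0 ≤ b k)
    {E1 : ℝ} (hE1 : 0 < E1) {N1 : ℕ} {β t : ℝ} (hβ : 0 ≤ β) (ht : 0 < t)
    (hlam : ∀ k, 0 ≤ lam k)
    (I : Finset ι) (E : ι → ℝ) (Nn : ι → ℕ) (ψ : ι → (V → ℕ) → ℝ)
    (h : ∀ i ∈ I, IsEig n adj (Nn i) (E i) (ψ i)) (hE0 : ∀ i ∈ I, 0 ≤ E i)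
    (hEE : ∀ i ∈ I, E i ≤ E1) (hNN : ∀ i ∈ I, Nn i ≤ N1)
    (horth : ∀ i ∈ I, ∀ j ∈ I, i ≠ j → ∑ ζ ∈ occBox V n, ψ i ζ * ψ j ζ = 0) :
    ∑ i ∈ I, Real.exp (-(β * E i + t * Nn i)) ≤
      Real.exp (β * (2 * D * Real.exp 2 * ((N1 : ℝ) ^ 2 * ∑ k, Real.exp (-(n * lam k / E1)) * b k))) *
      ∏ k, (1 - Real.exp (-(t + β * ((n : ℝ) / 2 * lam k))))⁻¹ := by
  classical
  set d := 2 * D * Real.exp 2 * ((N1 : ℝ) ^ 2 * ∑ k, Real.exp (-(n * lam k / E1)) * b k) with hd
  have hP0 : 0 ≤ ∑ k, Real.exp (-(n * lam k / E1)) * b k :=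
    Finset.sum_nonneg fun k _ => mul_nonneg (Real.exp_pos _).le (hb0 k)
  -- energy bound
  have hkf : ∀ i ∈ I, kform n adj (ψ i) ≤ E i + d := by
    intro i hi
    have h1 := (h i hi).kform_le hadj hirr
    have h2 := (h i hi).edge_sum_le hn (hE0 i hi) hadj hirr hS hD hb
      (s := 1 / (2 * E1)) (by positivity)
    have e1 : ∀ k, -(2 * (1 / (2 * E1)) * n * lam k) = -(n * lam k / E1) := by
      intro k; field_simp
    simp only [e1] at h2
    have h3 : Real.exp (4 * E i * (1 / (2 * E1))) ≤ Real.exp 2 := by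
      apply Real.exp_le_exp.2
      rw [mul_one_div, div_le_iff₀ (by positivity)]
      have := hEE i hi
      linarith
    have h4 : (Nn i : ℝ) ^ 2 ≤ (N1 : ℝ) ^ 2 := by
      have : (Nn i : ℝ) ≤ N1 := by exact_mod_cast hNN i hi
      exact pow_le_pow_left₀ (by positivity) this 2
    have h5 : 2 * D * Real.exp (4 * E i * (1 / (2 * E1))) *
        ((Nn i : ℝ) ^ 2 * ∑ k, Real.exp (-(n * lam k / E1)) * b k) ≤ d := by
      rw [hd]
      have h6 : (Nn i : ℝ) ^ 2 * ∑ k, Real.exp (-(n * lam k / E1)) * b k ≤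
          (N1 : ℝ) ^ 2 * ∑ k, Real.exp (-(n * lam k / E1)) * b k :=
        mul_le_mul_of_nonneg_right h4 hP0
      exact mul_le_mul (mul_le_mul_of_nonneg_left h3 (by positivity)) h6 (by positivity)
        (by positivity)
    linarith
  -- split by number
  have hsplit : ∑ i ∈ I, Real.exp (-(β * E i + t * Nn i)) =
      ∑ N ∈ Finset.range (N1 + 1), Real.exp (-(t * N)) *
        ∑ i ∈ I.filter (fun i => Nn i = N), Real.exp (-(β * E i)) := by
    rw [← Finset.sum_fiberwise_of_maps_to (s := I) (t := Finset.range (N1 + 1)) (g := Nn)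
      (fun i hi => Finset.mem_range.2 (Nat.lt_succ_of_le (hNN i hi)))]
    refine Finset.sum_congr rfl fun N _ => ?_
    rw [Finset.mul_sum]
    refine Finset.sum_congr rfl fun i hi => ?_
    rw [(Finset.mem_filter.1 hi).2, ← Real.exp_add]
    congr 1; ring
  rw [hsplit]
  have hN : ∀ N, ∑ i ∈ I.filter (fun i => Nn i = N), Real.exp (-(β * E i)) ≤
      Real.exp (β * d) * ∑ m ∈ occImg V N, Real.exp (-(β * bosE n lam m)) := by
    intro N
    refine peierls_bosons hS hadj _ E ψ ?_ ?_ ?_ hβ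
    · intro i hi
      have := h i (Finset.mem_filter.1 hi).1
      rwa [(Finset.mem_filter.1 hi).2] at this
    · intro i hi j hj hij
      exact horth i (Finset.mem_filter.1 hi).1 j (Finset.mem_filter.1 hj).1 hij
    · intro i hi
      exact hkf i (Finset.mem_filter.1 hi).1
  have hstep : ∑ N ∈ Finset.range (N1 + 1), Real.exp (-(t * N)) *
        ∑ i ∈ I.filter (fun i => Nn i = N), Real.exp (-(β * E i)) ≤
      Real.exp (β * d) * ∑ N ∈ Finset.range (N1 + 1), ∑ m ∈ occImg V N,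
        ∏ v, Real.exp (-(t + β * ((n : ℝ) / 2 * lam v))) ^ (m v) := by
    rw [Finset.mul_sum]
    refine Finset.sum_le_sum fun N _ => ?_
    calc Real.exp (-(t * N)) * ∑ i ∈ I.filter (fun i => Nn i = N), Real.exp (-(β * E i))
        ≤ Real.exp (-(t * N)) * (Real.exp (β * d) *
          ∑ m ∈ occImg V N, Real.exp (-(β * bosE n lam m))) :=
          mul_le_mul_of_nonneg_left (hN N) (Real.exp_pos _).le
      _ = Real.exp (β * d) * ∑ m ∈ occImg V N, Real.exp (-(t * N)) *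
          Real.exp (-(β * bosE n lam m)) := by
          rw [Finset.mul_sum, Finset.mul_sum, Finset.mul_sum]
          exact Finset.sum_congr rfl fun m _ => by ring
      _ = _ := by
          congr 1
          refine Finset.sum_congr rfl fun m hm => ?_
          obtain ⟨k, _, hk⟩ := Finset.mem_image.1 hm
          have hsum : ∑ v, (m v : ℝ) = N := by rw [← hk]; exact_mod_cast sum_occ k
          rw [← Real.exp_add]
          have : ∏ v, Real.exp (-(t + β * ((n : ℝ) / 2 * lam v))) ^ (m v) =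
              Real.exp (∑ v, (m v : ℝ) * (-(t + β * ((n : ℝ) / 2 * lam v)))) := by
            rw [Real.exp_sum]
            exact Finset.prod_congr rfl fun v _ => by rw [← Real.exp_nat_mul]
          rw [this, bosE, ← hsum]
          congr 1
          rw [Finset.mul_sum, Finset.mul_sum, Finset.mul_sum, ← Finset.sum_neg_distrib,
            ← Finset.sum_neg_distrib, ← Finset.sum_add_distrib]
          exact Finset.sum_congr rfl fun v _ => by ring
  refine hstep.trans (mul_le_mul_of_nonneg_left ?_ (Real.exp_pos _).le)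
  set q : V → ℝ := fun v => Real.exp (-(t + β * ((n : ℝ) / 2 * lam v))) with hq
  have hq0 : ∀ v, 0 ≤ q v := fun v => (Real.exp_pos _).le
  have hq1 : ∀ v, q v < 1 := by
    intro v
    simp only [hq]
    rw [Real.exp_lt_one_iff]
    have : 0 ≤ β * ((n : ℝ) / 2 * lam v) := mul_nonneg hβ (mul_nonneg (by positivity) (hlam v))
    linarith
  have hdisj : ∀ a ∈ Finset.range (N1 + 1), ∀ c ∈ Finset.range (N1 + 1), a ≠ c →
      Disjoint (occImg V a) (occImg V c) := by
    intro a _ c _ hac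
    rw [Finset.disjoint_left]
    intro m hma hmc
    obtain ⟨k, _, hk⟩ := Finset.mem_image.1 hma
    obtain ⟨l, _, hl⟩ := Finset.mem_image.1 hmc
    apply hac
    rw [← sum_occ k, ← sum_occ l, hk, hl]
  rw [← Finset.sum_biUnion hdisj]
  calc ∑ m ∈ (Finset.range (N1 + 1)).biUnion (fun N => occImg V N), ∏ v, q v ^ m v
      ≤ ∑ m ∈ Fintype.piFinset (fun _ : V => Finset.range (N1 + 1)), ∏ v, q v ^ m v := by
        refine Finset.sum_le_sum_of_subset_of_nonneg ?_ fun m _ _ =>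
          Finset.prod_nonneg fun v _ => pow_nonneg (hq0 v) _
        intro m hm
        obtain ⟨N, hN, hm2⟩ := Finset.mem_biUnion.1 hm
        obtain ⟨k, _, hk⟩ := Finset.mem_image.1 hm2
        rw [Fintype.mem_piFinset]
        intro v
        have h1 : m v ≤ ∑ w, m w := Finset.single_le_sum (fun _ _ => Nat.zero_le _) (Finset.mem_univ v)
        have h2 : ∑ w, m w = N := by rw [← hk]; exact sum_occ k
        have h3 := Finset.mem_range.1 hN
        rw [Finset.mem_range]; omega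
    _ = ∏ v, ∑ j ∈ Finset.range (N1 + 1), q v ^ j := by
        rw [Finset.prod_univ_sum]
    _ ≤ ∏ v, (1 - q v)⁻¹ := by
        refine Finset.prod_le_prod (fun v _ => Finset.sum_nonneg fun j _ => pow_nonneg (hq0 v) _)
          fun v _ => ?_
        rw [← tsum_geometric_of_lt_one (hq0 v) (hq1 v)]
        exact (summable_geometric_of_lt_one (hq0 v) (hq1 v)).sum_le_tsum _
          fun j _ => pow_nonneg (hq0 v) _

end Vale.Agent.P361.B
end

section

set_option linter.unusedSectionVars false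

/-!
Part B: cosine basis on the cube.
-/

namespace Vale.Agent.P361.B

open Finset
open Vale.Agent.P361.H (dir dir_injective isNN_iff bJ)

lemma sum_Ico_int (L : ℕ) (g : ℤ → ℝ) :
    ∑ p ∈ Finset.Ico (0 : ℤ) L, g p = ∑ i ∈ Finset.range L, g i := by
  symm
  refine Finset.sum_bij' (fun (i : ℕ) _ => (i : ℤ)) (fun (p : ℤ) _ => p.toNat) ?_ ?_ ?_ ?_ ?_
  · intro i hi
    rw [Finset.mem_range] at hi
    rw [Finset.mem_Ico]; omega
  · intro p hp
    rw [Finset.mem_Ico] at hp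
    rw [Finset.mem_range]; omega
  · intro i _; simp
  · intro p hp
    rw [Finset.mem_Ico] at hp
    simp; omega
  · intro i _; rfl

/-- One-dimensional cosine basis. -/
noncomputable def dct (L : ℕ) (p x : ℤ) : ℝ :=
  if p = 0 then Real.sqrt (1 / L)
  else Real.sqrt (2 / L) * Real.cos (Real.pi * p * (x + 1 / 2) / L)

lemma dct_zero (L : ℕ) (x : ℤ) : dct L 0 x = Real.sqrt (1 / L) := if_pos rfl

lemma dct_ne (L : ℕ) {p : ℤ} (hp : p ≠ 0) (x : ℤ) :
    dct L p x = Real.sqrt (2 / L) * Real.cos (Real.pi * p * (x + 1 / 2) / L) := if_neg hp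

/-- One-dimensional eigenvalue. -/
noncomputable def lam1 (L : ℕ) (p : ℤ) : ℝ := 2 * (1 - Real.cos (Real.pi * p / L))

lemma dct_lap (L : ℕ) (p x : ℤ) :
    dct L p (x + 1) + dct L p (x - 1) - 2 * dct L p x = - lam1 L p * dct L p x := by
  unfold dct lam1
  split_ifs with h
  · rw [h]; simp; ring
  · have h1 : Real.pi * p * (((x + 1 : ℤ) : ℝ) + 1 / 2) / L =
        Real.pi * p * ((x : ℝ) + 1 / 2) / L + Real.pi * p / L := by push_cast; ring
    have h2 : Real.pi * p * (((x - 1 : ℤ) : ℝ) + 1 / 2) / L =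
        Real.pi * p * ((x : ℝ) + 1 / 2) / L - Real.pi * p / L := by push_cast; ring
    rw [h1, h2, Real.cos_add, Real.cos_sub]
    ring

lemma dct_refl_left (L : ℕ) (p : ℤ) : dct L p (-1) = dct L p 0 := by
  unfold dct
  split_ifs with h
  · rfl
  · congr 1
    rw [← Real.cos_neg]
    congr 1
    push_cast
    ring

lemma dct_refl_right {L : ℕ} (hL : 0 < L) (p : ℤ) : dct L p L = dct L p (L - 1) := by
  unfold dct
  split_ifs with h
  · rfl
  · congr 1
    have hL' : (L : ℝ) ≠ 0 := by positivity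
    have h1 : Real.pi * p * (((L : ℤ) : ℝ) + 1 / 2) / L = (p : ℝ) * Real.pi + Real.pi * p / (2 * L) := by
      push_cast; field_simp
    have h2 : Real.pi * p * (((L - 1 : ℤ) : ℝ) + 1 / 2) / L =
        (p : ℝ) * Real.pi - Real.pi * p / (2 * L) := by
      push_cast; field_simp; ring
    rw [h1, h2, Real.cos_add, Real.cos_sub, Real.sin_int_mul_pi]
    ring

lemma cos_sum (θ : ℝ) (M : ℕ) : 2 * Real.sin (θ / 2) *
    ∑ i ∈ Finset.range M, Real.cos (((i : ℝ) + 1) * θ) =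
      Real.sin (((M : ℝ) + 1 / 2) * θ) - Real.sin (θ / 2) := by
  induction M with
  | zero =>
    have : ((0 : ℕ) + 1 / 2 : ℝ) * θ = θ / 2 := by push_cast; ring
    rw [this]; simp
  | succ M ih =>
    rw [Finset.sum_range_succ, mul_add, ih]
    have h1 : Real.sin (((M + 1 : ℕ) + 1 / 2 : ℝ) * θ) - Real.sin (((M : ℝ) + 1 / 2) * θ) =
        2 * Real.sin (θ / 2) * Real.cos (((M : ℝ) + 1) * θ) := by
      have e1 : ((M + 1 : ℕ) + 1 / 2 : ℝ) * θ = ((M : ℝ) + 1) * θ + θ / 2 := by push_cast; ring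
      have e2 : ((M : ℝ) + 1 / 2) * θ = ((M : ℝ) + 1) * θ - θ / 2 := by ring
      rw [e1, e2, Real.sin_add, Real.sin_sub]; ring
    linarith

lemma dirichlet_sum {L : ℕ} (hL : 0 < L) (m : ℤ) (hm : m ≠ 0) (hm2 : |m| < 2 * L) :
    ∑ i ∈ Finset.range (L - 1), Real.cos (((i : ℝ) + 1) * (Real.pi * m / L)) =
      - (Real.cos (Real.pi * m) + 1) / 2 := by
  have hL' : (0 : ℝ) < L := by positivity
  have h := cos_sum (Real.pi * m / L) (L - 1)
  have hs : Real.sin (Real.pi * m / L / 2) ≠ 0 := by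
    intro h0
    have hm' : (m : ℝ) ≠ 0 := by exact_mod_cast hm
    have h1 : |(m : ℝ)| < 2 * L := by exact_mod_cast hm2
    rw [abs_lt] at h1
    have h3 : -Real.pi < Real.pi * m / L / 2 := by
      rw [lt_div_iff₀ (by norm_num), lt_div_iff₀ hL']
      nlinarith [Real.pi_pos]
    have h4 : Real.pi * m / L / 2 < Real.pi := by
      rw [div_lt_iff₀ (by norm_num), div_lt_iff₀ hL']
      nlinarith [Real.pi_pos]
    have h5 := (Real.sin_eq_zero_iff_of_lt_of_lt h3 h4).1 h0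
    have h6 : Real.pi * m / L / 2 ≠ 0 := by
      have := Real.pi_pos.ne'
      positivity
    exact h6 h5
  have e1 : (((L - 1 : ℕ) : ℝ) + 1 / 2) * (Real.pi * m / L) =
      (m : ℝ) * Real.pi - Real.pi * m / L / 2 := by
    rw [Nat.cast_sub hL]; push_cast; field_simp; ring
  rw [e1, Real.sin_sub, Real.sin_int_mul_pi] at h
  have h2 : 2 * Real.sin (Real.pi * m / L / 2) *
      (∑ i ∈ Finset.range (L - 1), Real.cos (((i : ℝ) + 1) * (Real.pi * m / L)) +
      (Real.cos (Real.pi * m) + 1) / 2) = 0 := by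
    rw [mul_add, h, mul_comm (m : ℝ) Real.pi]; ring
  have h3 := (mul_eq_zero.1 h2).resolve_left (by simpa using hs)
  linarith

lemma dct_compl {L : ℕ} (hL : 0 < L) {x y : ℤ} (hx : x ∈ Finset.Ico (0 : ℤ) L)
    (hy : y ∈ Finset.Ico (0 : ℤ) L) :
    ∑ p ∈ Finset.Ico (0 : ℤ) L, dct L p x * dct L p y = if x = y then 1 else 0 := by
  rw [Finset.mem_Ico] at hx hy
  have hL' : (0 : ℝ) < L := by positivity
  obtain ⟨M, rfl⟩ : ∃ M, L = M + 1 := ⟨L - 1, by omega⟩
  rw [sum_Ico_int, Finset.sum_range_succ']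
  have h0 : dct (M + 1) ((0 : ℕ) : ℤ) x * dct (M + 1) ((0 : ℕ) : ℤ) y = 1 / ((M + 1 : ℕ) : ℝ) := by
    rw [Nat.cast_zero, dct_zero, dct_zero, Real.mul_self_sqrt (by positivity)]
  have h1 : ∀ i : ℕ, dct (M + 1) ((i + 1 : ℕ) : ℤ) x * dct (M + 1) ((i + 1 : ℕ) : ℤ) y =
      1 / ((M + 1 : ℕ) : ℝ) * (Real.cos (((i : ℝ) + 1) * (Real.pi * ((x + y + 1 : ℤ) : ℝ) / (M + 1 : ℕ))) +
        Real.cos (((i : ℝ) + 1) * (Real.pi * ((x - y : ℤ) : ℝ) / (M + 1 : ℕ)))) := by
    intro i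
    rw [dct_ne _ (by omega), dct_ne _ (by omega)]
    have e1 : ((i : ℝ) + 1) * (Real.pi * ((x + y + 1 : ℤ) : ℝ) / (M + 1 : ℕ)) =
        Real.pi * ((i + 1 : ℕ) : ℤ) * ((x : ℝ) + 1 / 2) / (M + 1 : ℕ) +
        Real.pi * ((i + 1 : ℕ) : ℤ) * ((y : ℝ) + 1 / 2) / (M + 1 : ℕ) := by
      push_cast; ring
    have e2 : ((i : ℝ) + 1) * (Real.pi * ((x - y : ℤ) : ℝ) / (M + 1 : ℕ)) =
        Real.pi * ((i + 1 : ℕ) : ℤ) * ((x : ℝ) + 1 / 2) / (M + 1 : ℕ) -
        Real.pi * ((i + 1 : ℕ) : ℤ) * ((y : ℝ) + 1 / 2) / (M + 1 : ℕ) := by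
      push_cast; ring
    rw [e1, e2, Real.cos_add, Real.cos_sub]
    have e3 : Real.sqrt (2 / ((M + 1 : ℕ) : ℝ)) * Real.sqrt (2 / ((M + 1 : ℕ) : ℝ)) =
        2 / ((M + 1 : ℕ) : ℝ) := Real.mul_self_sqrt (by positivity)
    generalize Real.cos (Real.pi * ((i + 1 : ℕ) : ℤ) * ((x : ℝ) + 1 / 2) / (M + 1 : ℕ)) = cx
    generalize Real.cos (Real.pi * ((i + 1 : ℕ) : ℤ) * ((y : ℝ) + 1 / 2) / (M + 1 : ℕ)) = cy
    calc _ = (Real.sqrt (2 / ((M + 1 : ℕ) : ℝ)) * Real.sqrt (2 / ((M + 1 : ℕ) : ℝ))) *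
        (cx * cy) := by ring
      _ = _ := by rw [e3]; ring
  rw [h0]
  simp only [h1]
  rw [← Finset.mul_sum, Finset.sum_add_distrib]
  have h2 := dirichlet_sum hL (x + y + 1) (by omega) (by rw [abs_of_nonneg] <;> push_cast <;> omega)
  rw [Nat.add_sub_cancel] at h2
  rw [h2]
  by_cases hxy : x = y
  · subst hxy
    rw [if_pos rfl]
    have h3 : Real.cos (Real.pi * ((x + x + 1 : ℤ) : ℝ)) = -1 := by
      have : Real.pi * ((x + x + 1 : ℤ) : ℝ) = (x : ℝ) * (2 * Real.pi) + Real.pi := by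
        push_cast; ring
      rw [this, Real.cos_add_pi, Real.cos_int_mul_two_pi]
    rw [h3]
    simp
    field_simp
  · rw [if_neg hxy]
    have h3 := dirichlet_sum hL (x - y) (by omega) (by rw [abs_lt]; push_cast; omega)
    rw [Nat.add_sub_cancel] at h3
    rw [h3]
    have h4 : Real.cos (Real.pi * ((x + y + 1 : ℤ) : ℝ)) =
        - Real.cos (Real.pi * ((x - y : ℤ) : ℝ)) := by
      have : Real.pi * ((x + y + 1 : ℤ) : ℝ) = Real.pi * ((x - y : ℤ) : ℝ) +
          (y : ℝ) * (2 * Real.pi) + Real.pi := by push_cast; ring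
      rw [this, Real.cos_add_pi, Real.cos_add_int_mul_two_pi]
    rw [h4]
    ring

variable {L : ℕ}

/-- Cosine basis on the cube. -/
noncomputable def dct3 (L : ℕ) (k x : cube L) : ℝ := ∏ j, dct L (k.1 j) (x.1 j)

/-- Laplacian eigenvalues on the cube. -/
noncomputable def lam3 (L : ℕ) (k : cube L) : ℝ := ∑ j, lam1 L (k.1 j)

lemma mem_cubeD {x : Site} : x ∈ cube L ↔ ∀ j, x j ∈ Finset.Ico (0 : ℤ) L := by
  rw [cube, Fintype.mem_piFinset]

lemma sum_cube_prod (g : Fin 3 → ℤ → ℝ) :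
    ∑ k : cube L, ∏ j, g j (k.1 j) = ∏ j, ∑ p ∈ Finset.Ico (0 : ℤ) L, g j p := by
  rw [Finset.sum_coe_sort (cube L) (fun k => ∏ j, g j (k j)), Finset.prod_univ_sum]
  rfl

lemma dct3_compl (hL : 0 < L) (x y : cube L) :
    ∑ k, dct3 L k x * dct3 L k y = if x = y then 1 else 0 := by
  unfold dct3
  simp only [← Finset.prod_mul_distrib]
  rw [sum_cube_prod (fun j p => dct L p (x.1 j) * dct L p (y.1 j))]
  have hx := mem_cubeD.1 x.2
  have hy := mem_cubeD.1 y.2
  simp only [fun j => dct_compl hL (hx j) (hy j)]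
  by_cases hxy : x = y
  · subst hxy; simp
  · rw [if_neg hxy]
    have : ∃ j, x.1 j ≠ y.1 j := by
      by_contra hcon
      push Not at hcon
      exact hxy (Subtype.ext (funext hcon))
    obtain ⟨j, hj⟩ := this
    exact Finset.prod_eq_zero (Finset.mem_univ j) (if_neg hj)

lemma dct3_orth (hL : 0 < L) (k l : cube L) :
    ∑ x, dct3 L k x * dct3 L l x = if k = l then 1 else 0 := by
  set M : Matrix (cube L) (cube L) ℝ := Matrix.of fun k x => dct3 L k x with hM
  have h1 : M.transpose * M = 1 := by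
    ext x y
    rw [Matrix.mul_apply, Matrix.one_apply]
    exact dct3_compl hL x y
  have h2 : M * M.transpose = 1 := mul_eq_one_comm.1 h1
  have h3 := congrFun (congrFun h2 k) l
  rw [Matrix.mul_apply, Matrix.one_apply] at h3
  exact h3

/-- Extension of the basis functions to all of `ℤ³`. -/
noncomputable def dctE (L : ℕ) (k : cube L) (x : Site) : ℝ := ∏ j, dct L (k.1 j) (x j)

lemma dctE_step (k : cube L) (x : Site) (j : Fin 3) (s : ℤ) :
    dctE L k (x + Pi.single j s) = dct L (k.1 j) (x j + s) *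
      ∏ i ∈ Finset.univ.erase j, dct L (k.1 i) (x i) := by
  unfold dctE
  rw [← Finset.mul_prod_erase _ _ (Finset.mem_univ j)]
  congr 1
  · simp
  · refine Finset.prod_congr rfl fun i hi => ?_
    have := Finset.ne_of_mem_erase hi
    simp [this]

lemma dctE_base (k : cube L) (x : Site) (j : Fin 3) :
    dctE L k x = dct L (k.1 j) (x j) * ∏ i ∈ Finset.univ.erase j, dct L (k.1 i) (x i) := by
  unfold dctE
  rw [← Finset.mul_prod_erase _ _ (Finset.mem_univ j)]

lemma dct3_eig (hL : 0 < L) (k x : cube L) :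
    ∑ z : cube L, (if IsNN x.1 z.1 then dct3 L k z - dct3 L k x else 0) =
      - lam3 L k * dct3 L k x := by
  have h1 : ∑ z : cube L, (if IsNN x.1 z.1 then dct3 L k z - dct3 L k x else 0) =
      ∑ p : Fin 3 × Bool, (dctE L k (x.1 + dir p) - dctE L k x.1) := by
    have e1 : ∑ z : cube L, (if IsNN x.1 z.1 then dct3 L k z - dct3 L k x else 0) =
        ∑ z ∈ (cube L).filter (fun z => IsNN x.1 z), (dctE L k z - dctE L k x.1) := by
      rw [Finset.sum_filter, ← Finset.sum_coe_sort (cube L)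
        (fun z => if IsNN x.1 z then dctE L k z - dctE L k x.1 else 0)]
      rfl
    have hinj : Function.Injective fun p => x.1 + dir p :=
      fun p q h => dir_injective (by simpa using h)
    rw [e1]
    have e2 : ∑ p : Fin 3 × Bool, (dctE L k (x.1 + dir p) - dctE L k x.1) =
        ∑ z ∈ Finset.univ.image (fun p => x.1 + dir p), (dctE L k z - dctE L k x.1) := by
      rw [Finset.sum_image (fun p _ q _ h => hinj h)]
    rw [e2]
    refine Finset.sum_subset ?_ ?_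
    · intro z hz
      obtain ⟨p, hp⟩ := (isNN_iff x.1 z).1 (Finset.mem_filter.1 hz).2
      exact Finset.mem_image.2 ⟨p, Finset.mem_univ _, hp.symm⟩
    · intro z hz hz2
      obtain ⟨p, _, rfl⟩ := Finset.mem_image.1 hz
      have hout : x.1 + dir p ∉ cube L := by
        intro hin
        exact hz2 (Finset.mem_filter.2 ⟨hin, (isNN_iff _ _).2 ⟨p, rfl⟩⟩)
      have hx := mem_cubeD.1 x.2
      obtain ⟨j, b⟩ := p
      rw [dir, dctE_step, dctE_base k x.1 j]
      have hxj := Finset.mem_Ico.1 (hx j)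
      have hcoord : x.1 j + (if b then 1 else -1) ∉ Finset.Ico (0 : ℤ) L := by
        intro hin
        apply hout
        rw [mem_cubeD]
        intro i
        by_cases hi : i = j
        · subst hi; simpa [dir] using hin
        · simpa [dir, hi] using hx i
      have hd : dct L (k.1 j) (x.1 j + (if b then 1 else -1)) = dct L (k.1 j) (x.1 j) := by
        cases b with
        | false =>
          simp only [Bool.false_eq_true, if_false, Finset.mem_Ico] at hcoord ⊢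
          have : x.1 j = 0 := by omega
          rw [this]
          exact dct_refl_left L _
        | true =>
          simp only [if_true, Finset.mem_Ico] at hcoord ⊢
          have : x.1 j = L - 1 := by omega
          rw [this, sub_add_cancel]
          exact dct_refl_right hL _
      rw [hd, sub_self]
  rw [h1, Fintype.sum_prod_type, lam3, neg_mul, Finset.sum_mul, ← Finset.sum_neg_distrib]
  refine Finset.sum_congr rfl fun j _ => ?_
  have h2 : dct3 L k x = dctE L k x.1 := rfl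
  rw [Fintype.sum_bool, h2, dir, dir, dctE_step, dctE_step, dctE_base k x.1 j]
  simp only [if_true, Bool.false_eq_true, if_false]
  have h3 := dct_lap L (k.1 j) (x.1 j)
  rw [sub_eq_add_neg (x.1 j) 1] at h3
  rw [← mul_assoc, ← neg_mul, ← neg_mul, ← h3]
  ring

lemma spec3 (hL : 0 < L) :
    Spec (fun x y : cube L => IsNN x.1 y.1) (dct3 L) (lam3 L) where
  eig := dct3_eig hL
  compl := dct3_compl hL
  orth := dct3_orth hL

/-- Sup bound of the squared basis functions. -/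
noncomputable def bd1 (L : ℕ) (p : ℤ) : ℝ := if p = 0 then 1 / L else 2 / L

noncomputable def bd3 (L : ℕ) (k : cube L) : ℝ := ∏ j, bd1 L (k.1 j)

lemma bd1_nonneg (p : ℤ) : 0 ≤ bd1 L p := by unfold bd1; split_ifs <;> positivity

lemma bd3_nonneg (k : cube L) : 0 ≤ bd3 L k := Finset.prod_nonneg fun _ _ => bd1_nonneg _

lemma dct_sq_le (p x : ℤ) : dct L p x ^ 2 ≤ bd1 L p := by
  by_cases hp : p = 0
  · subst hp
    rw [dct_zero, Real.sq_sqrt (by positivity), bd1, if_pos rfl]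
  · rw [dct_ne _ hp, mul_pow, Real.sq_sqrt (by positivity), bd1, if_neg hp]
    have := Real.cos_sq_le_one (Real.pi * p * (x + 1 / 2) / L)
    have h2 : (0 : ℝ) ≤ 2 / L := by positivity
    nlinarith

lemma dct3_sq_le (k x : cube L) : dct3 L k x ^ 2 ≤ bd3 L k := by
  unfold dct3 bd3
  rw [← Finset.prod_pow]
  exact Finset.prod_le_prod (fun j _ => sq_nonneg _) fun j _ => dct_sq_le _ _

lemma lam1_nonneg (p : ℤ) : 0 ≤ lam1 L p := by
  unfold lam1
  have := Real.cos_le_one (Real.pi * p / L)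
  linarith

lemma lam3_nonneg (k : cube L) : 0 ≤ lam3 L k := Finset.sum_nonneg fun _ _ => lam1_nonneg _

/-- Riemann-sum upper bound. -/
lemma riemann_upper (hL : 0 < L) {t : ℝ} (ht : 0 ≤ t) {M : ℕ} (hM : M ≤ L) :
    ∑ i ∈ Finset.range M, Real.exp (-t * (1 - Real.cos (Real.pi * ((i + 1 : ℕ) : ℝ) / L))) ≤
      L * bJ t := by
  have hL' : (0 : ℝ) < L := by positivity
  set f : ℝ → ℝ := fun x => Real.exp (-t * (1 - Real.cos (Real.pi * x / L))) with hf
  have hanti : AntitoneOn f (Set.Icc 0 (0 + (M : ℝ))) := by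
    intro x hx y hy hxy
    simp only [hf]
    apply Real.exp_le_exp.2
    rw [zero_add] at hx hy
    have hML : (M : ℝ) ≤ L := by exact_mod_cast hM
    have h1 : Real.cos (Real.pi * y / L) ≤ Real.cos (Real.pi * x / L) := by
      refine Real.cos_le_cos_of_nonneg_of_le_pi ?_ ?_ ?_
      · have := hx.1; have := Real.pi_pos; positivity
      · rw [div_le_iff₀ hL']
        exact mul_le_mul_of_nonneg_left (hy.2.trans hML) Real.pi_pos.le
      · gcongr
    nlinarith
  have h1 := hanti.sum_le_integral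
  simp only [zero_add] at h1
  have hcont : Continuous f := by
    simp only [hf]; fun_prop
  have h2 : ∫ x in (0 : ℝ)..M, f x ≤ ∫ x in (0 : ℝ)..L, f x := by
    have h3 : ∫ x in (0 : ℝ)..L, f x = (∫ x in (0 : ℝ)..M, f x) + ∫ x in (M : ℝ)..L, f x :=
      (intervalIntegral.integral_add_adjacent_intervals (hcont.intervalIntegrable _ _)
        (hcont.intervalIntegrable _ _)).symm
    have h4 : 0 ≤ ∫ x in (M : ℝ)..L, f x :=
      intervalIntegral.integral_nonneg (by exact_mod_cast hM) fun x _ => (Real.exp_pos _).le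
    linarith
  have h3 : ∫ x in (0 : ℝ)..L, f x = L * bJ t := by
    have h4 : ∀ x, f x = (fun θ => Real.exp (-t * (1 - Real.cos θ))) (Real.pi / L * x) := by
      intro x
      simp only [hf]
      congr 4
      ring
    have hc : Real.pi / L ≠ 0 := by have := Real.pi_pos; positivity
    rw [intervalIntegral.integral_congr (fun x _ => h4 x),
      intervalIntegral.integral_comp_mul_left (fun θ => Real.exp (-t * (1 - Real.cos θ))) hc,
      mul_zero, bJ, smul_eq_mul]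
    have h5 : Real.pi / L * L = Real.pi := by field_simp
    rw [h5]
    field_simp
  calc _ ≤ ∫ x in (0 : ℝ)..M, f x := h1
    _ ≤ _ := h2
    _ = _ := h3

lemma one_dim_sum (hL : 0 < L) {t : ℝ} (ht : 0 ≤ t) :
    ∑ p ∈ Finset.Ico (0 : ℤ) L, Real.exp (-(t / 2 * lam1 L p)) ≤ 1 + L * bJ t := by
  obtain ⟨M, rfl⟩ : ∃ M, L = M + 1 := ⟨L - 1, by omega⟩
  rw [sum_Ico_int, Finset.sum_range_succ', add_comm]
  refine add_le_add ?_ ?_
  · simp [lam1]
  · refine le_trans (le_of_eq ?_) (riemann_upper hL ht (Nat.le_succ M))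
    refine Finset.sum_congr rfl fun i _ => ?_
    unfold lam1
    congr 1
    push_cast
    ring

lemma one_dim_sum_bd (hL : 0 < L) {t : ℝ} (ht : 0 ≤ t) :
    ∑ p ∈ Finset.Ico (0 : ℤ) L, Real.exp (-(t / 2 * lam1 L p)) * bd1 L p ≤ 1 / L + 2 * bJ t := by
  have hL' : (0 : ℝ) < L := by positivity
  obtain ⟨M, rfl⟩ : ∃ M, L = M + 1 := ⟨L - 1, by omega⟩
  rw [sum_Ico_int, Finset.sum_range_succ', add_comm]
  refine add_le_add ?_ ?_
  · simp [lam1, bd1]
  · have h1 := riemann_upper hL ht (Nat.le_succ M)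
    have h2 : ∑ i ∈ Finset.range M, Real.exp (-(t / 2 * lam1 (M + 1) ((i + 1 : ℕ) : ℤ))) *
        bd1 (M + 1) ((i + 1 : ℕ) : ℤ) = 2 / ((M + 1 : ℕ) : ℝ) *
        ∑ i ∈ Finset.range M, Real.exp (-t * (1 - Real.cos (Real.pi * ((i + 1 : ℕ) : ℝ) /
          ((M + 1 : ℕ) : ℝ)))) := by
      rw [Finset.mul_sum]
      refine Finset.sum_congr rfl fun i _ => ?_
      unfold lam1 bd1
      rw [if_neg (by omega), mul_comm]
      congr 2
      push_cast
      ring
    rw [h2]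
    calc _ ≤ 2 / ((M + 1 : ℕ) : ℝ) * (((M + 1 : ℕ) : ℝ) * bJ t) :=
          mul_le_mul_of_nonneg_left h1 (by positivity)
      _ = _ := by field_simp

lemma three_dim_sum (hL : 0 < L) {t : ℝ} (ht : 0 ≤ t) :
    ∑ k : cube L, Real.exp (-(t / 2 * lam3 L k)) ≤ (1 + L * bJ t) ^ 3 := by
  have h1 : ∀ k : cube L, Real.exp (-(t / 2 * lam3 L k)) =
      ∏ j, Real.exp (-(t / 2 * lam1 L (k.1 j))) := by
    intro k
    rw [← Real.exp_sum, lam3, Finset.mul_sum, Finset.sum_neg_distrib]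
  simp only [h1]
  rw [sum_cube_prod (fun _ p => Real.exp (-(t / 2 * lam1 L p)))]
  rw [Finset.prod_const, Finset.card_univ, Fintype.card_fin]
  exact pow_le_pow_left₀ (Finset.sum_nonneg fun _ _ => (Real.exp_pos _).le) (one_dim_sum hL ht) 3

lemma three_dim_sum_bd (hL : 0 < L) {t : ℝ} (ht : 0 ≤ t) :
    ∑ k : cube L, Real.exp (-(t / 2 * lam3 L k)) * bd3 L k ≤ (1 / L + 2 * bJ t) ^ 3 := by
  have h1 : ∀ k : cube L, Real.exp (-(t / 2 * lam3 L k)) * bd3 L k =
      ∏ j, (Real.exp (-(t / 2 * lam1 L (k.1 j))) * bd1 L (k.1 j)) := by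
    intro k
    rw [Finset.prod_mul_distrib, ← Real.exp_sum, lam3, bd3, Finset.mul_sum, Finset.sum_neg_distrib]
  simp only [h1]
  rw [sum_cube_prod (fun _ p => Real.exp (-(t / 2 * lam1 L p)) * bd1 L p)]
  rw [Finset.prod_const, Finset.card_univ, Fintype.card_fin]
  exact pow_le_pow_left₀ (Finset.sum_nonneg fun _ _ =>
    mul_nonneg (Real.exp_pos _).le (bd1_nonneg _)) (one_dim_sum_bd hL ht) 3

lemma degree_le (x : cube L) : ∑ y : cube L, (if IsNN x.1 y.1 then (1 : ℝ) else 0) ≤ 6 := by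
  have h := H.sum_nn_le (cube L) x.1 (fun _ => 1) (fun _ => zero_le_one)
  refine h.trans (le_of_eq ?_)
  simp

end Vale.Agent.P361.B
end

section

set_option linter.unusedSectionVars false

/-!
Part B: finite-volume upper bound for the partition function on cubes.
-/

namespace Vale.Agent.P361.B

open Finset
open Vale.Agent.P361.H (bJ bJ_nonneg bJ_antitone)

variable {n L : ℕ}

lemma Zt_pos_eig (n : ℕ) (Λ : Finset Site) (β t : ℝ) : 0 < Zt n Λ β t := by
  obtain ⟨E, Nn, ψ, _, _, _, hZ⟩ := exists_eigs n Λ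
  rw [hZ]
  exact Finset.sum_pos (fun i _ => Real.exp_pos _) Finset.univ_nonempty

lemma Zt_split (hn : 1 ≤ n) (hL : 0 < L) {β t E1 : ℝ} (hβ : 0 ≤ β) (ht : 0 < t) (hE1 : 0 < E1)
    (N1 : ℕ) :
    Zt n (cube L) β t ≤ Real.exp (-(β * E1 / 2)) * Zt n (cube L) (β / 2) 0 +
      Real.exp (-(t * N1)) * Zt n (cube L) β 0 +
      Real.exp (β * (12 * Real.exp 2 * ((N1 : ℝ) ^ 2 * (1 / L + 2 * bJ (2 * n / E1)) ^ 3))) *
        ∏ k : cube L, (1 - Real.exp (-(t + β * ((n : ℝ) / 2 * lam3 L k))))⁻¹ := by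
  classical
  obtain ⟨E, Nn, ψ, hψ, hE0, horth, hZ⟩ := exists_eigs n (cube L)
  rw [hZ, hZ, hZ]
  set I1 := Finset.univ.filter (fun i => E1 < E i) with hI1
  set I2 := Finset.univ.filter (fun i => E i ≤ E1 ∧ N1 < Nn i) with hI2
  set I3 := Finset.univ.filter (fun i => E i ≤ E1 ∧ Nn i ≤ N1) with hI3
  have hsplit : ∑ i, Real.exp (-(β * E i + t * Nn i)) =
      ∑ i ∈ I1, Real.exp (-(β * E i + t * Nn i)) + ∑ i ∈ I2, Real.exp (-(β * E i + t * Nn i)) +
      ∑ i ∈ I3, Real.exp (-(β * E i + t * Nn i)) := by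
    rw [hI1, hI2, hI3, Finset.sum_filter, Finset.sum_filter, Finset.sum_filter,
      ← Finset.sum_add_distrib, ← Finset.sum_add_distrib]
    refine Finset.sum_congr rfl fun i _ => ?_
    by_cases h1 : E1 < E i
    · rw [if_pos h1, if_neg (fun h => absurd h.1 (not_le.2 h1)),
        if_neg (fun h => absurd h.1 (not_le.2 h1))]
      ring
    · rw [not_lt] at h1
      by_cases h2 : N1 < Nn i
      · rw [if_neg (not_lt.2 h1), if_pos ⟨h1, h2⟩, if_neg (fun h => absurd h.2 (not_le.2 h2))]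
        ring
      · rw [not_lt] at h2
        rw [if_neg (not_lt.2 h1), if_neg (fun h => absurd h.2 (not_lt.2 h2)), if_pos ⟨h1, h2⟩]
        ring
  rw [hsplit]
  refine add_le_add (add_le_add ?_ ?_) ?_
  · rw [Finset.mul_sum]
    refine (Finset.sum_le_sum (fun i hi => ?_)).trans
      (Finset.sum_le_sum_of_subset_of_nonneg (Finset.subset_univ _)
        (fun i _ _ => mul_nonneg (Real.exp_pos _).le (Real.exp_pos _).le))
    rw [← Real.exp_add]
    apply Real.exp_le_exp.2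
    have h1 : E1 < E i := (Finset.mem_filter.1 hi).2
    have h2 : 0 ≤ t * Nn i := mul_nonneg ht.le (Nat.cast_nonneg _)
    have h3 : β * E1 ≤ β * E i := mul_le_mul_of_nonneg_left h1.le hβ
    linarith only [h2, h3]
  · rw [Finset.mul_sum]
    refine (Finset.sum_le_sum (fun i hi => ?_)).trans
      (Finset.sum_le_sum_of_subset_of_nonneg (Finset.subset_univ _)
        (fun i _ _ => mul_nonneg (Real.exp_pos _).le (Real.exp_pos _).le))
    rw [← Real.exp_add]
    apply Real.exp_le_exp.2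
    have h1 : N1 < Nn i := (Finset.mem_filter.1 hi).2.2
    have h2 : t * N1 ≤ t * Nn i := mul_le_mul_of_nonneg_left (by exact_mod_cast h1.le) ht.le
    linarith only [h2]
  · have h := low_part (ι := cube L → Fin (n + 1)) hn (spec3 hL)
      (fun x y hxy => H.isNN_symm hxy) (fun x hx => H.isNN_ne hx rfl)
      (D := 6) degree_le (by norm_num) dct3_sq_le bd3_nonneg hE1 (N1 := N1) hβ ht lam3_nonneg
      I3 E Nn ψ (fun i _ => hψ i) (fun i _ => hE0 i) (fun i hi => (Finset.mem_filter.1 hi).2.1)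
      (fun i hi => (Finset.mem_filter.1 hi).2.2) (fun i _ j _ hij => horth i j hij)
    refine h.trans ?_
    have h1 : ∑ k : cube L, Real.exp (-(n * lam3 L k / E1)) * bd3 L k ≤
        (1 / L + 2 * bJ (2 * n / E1)) ^ 3 := by
      have h2 := three_dim_sum_bd (L := L) hL (t := 2 * n / E1) (by positivity)
      refine le_trans (le_of_eq ?_) h2
      refine Finset.sum_congr rfl fun k _ => ?_
      congr 3
      field_simp
    have hprod : 0 ≤ ∏ k : cube L, (1 - Real.exp (-(t + β * ((n : ℝ) / 2 * lam3 L k))))⁻¹ := by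
      refine Finset.prod_nonneg fun k _ => inv_nonneg.2 (sub_nonneg.2 ?_)
      rw [Real.exp_le_one_iff]
      have : 0 ≤ β * ((n : ℝ) / 2 * lam3 L k) :=
        mul_nonneg hβ (mul_nonneg (by positivity) (lam3_nonneg k))
      linarith
    refine mul_le_mul_of_nonneg_right ?_ hprod
    apply Real.exp_le_exp.2
    refine mul_le_mul_of_nonneg_left ?_ hβ
    have h3 : (2 : ℝ) * 6 * Real.exp 2 = 12 * Real.exp 2 := by ring
    rw [h3]
    refine mul_le_mul_of_nonneg_left ?_ (mul_pos (by norm_num) (Real.exp_pos 2)).le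
    exact mul_le_mul_of_nonneg_left h1 (sq_nonneg _)

/-- Free boson pressure series. -/
noncomputable def bosSer (n L : ℕ) (β t : ℝ) : ℝ :=
  ∑' j : ℕ, Real.exp (-(((j : ℝ) + 1) * t)) / ((j : ℝ) + 1) *
    (1 + L * bJ (((j : ℝ) + 1) * (n * β))) ^ 3

lemma bJ_le_one {t : ℝ} (ht : 0 ≤ t) : bJ t ≤ 1 := by
  have h1 := bJ_antitone ht
  have h2 : bJ 0 = 1 := by
    unfold bJ
    simp
  rw [h2] at h1
  exact h1

lemma bosSer_summable (n L : ℕ) {β t : ℝ} (hβ : 0 ≤ β) (ht : 0 < t) :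
    Summable fun j : ℕ => Real.exp (-(((j : ℝ) + 1) * t)) / ((j : ℝ) + 1) *
    (1 + L * bJ (((j : ℝ) + 1) * (n * β))) ^ 3 := by
  have hgeo : Summable fun j : ℕ => (1 + (L : ℝ)) ^ 3 * Real.exp (-t) ^ (j + 1) := by
    refine Summable.mul_left _ ?_
    exact (summable_nat_add_iff 1).2 (summable_geometric_of_lt_one (Real.exp_pos _).le
      (by rw [Real.exp_lt_one_iff]; linarith))
  refine Summable.of_nonneg_of_le (fun j => ?_) (fun j => ?_) hgeo
  · have := bJ_nonneg (((j : ℝ) + 1) * (n * β))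
    positivity
  · have h1 : Real.exp (-(((j : ℝ) + 1) * t)) / ((j : ℝ) + 1) ≤ Real.exp (-t) ^ (j + 1) := by
      rw [← Real.exp_nat_mul, div_le_iff₀ (by positivity)]
      have : Real.exp (-(((j : ℝ) + 1) * t)) = Real.exp (((j + 1 : ℕ) : ℝ) * -t) := by
        congr 1; push_cast; ring
      rw [this]
      have h2 := Real.exp_pos (((j + 1 : ℕ) : ℝ) * -t)
      have h3 : (1 : ℝ) ≤ (j : ℝ) + 1 := by
        have : (0 : ℝ) ≤ j := by positivity
        linarith
      nlinarith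
    have h2 : (1 + L * bJ (((j : ℝ) + 1) * (n * β))) ^ 3 ≤ (1 + (L : ℝ)) ^ 3 := by
      have hb := bJ_nonneg (((j : ℝ) + 1) * (n * β))
      refine pow_le_pow_left₀ (by positivity) ?_ 3
      have h3 := bJ_le_one (t := ((j : ℝ) + 1) * (n * β)) (by positivity)
      have : (L : ℝ) * bJ (((j : ℝ) + 1) * (n * β)) ≤ L * 1 :=
        mul_le_mul_of_nonneg_left h3 (by positivity)
      linarith
    calc _ ≤ Real.exp (-t) ^ (j + 1) * (1 + (L : ℝ)) ^ 3 := by
          have hb := bJ_nonneg (((j : ℝ) + 1) * (n * β))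
          exact mul_le_mul h1 h2 (by positivity) (by positivity)
      _ = _ := mul_comm _ _

lemma log_prod_le (hL : 0 < L) {β t : ℝ} (hβ : 0 ≤ β) (ht : 0 < t) :
    Real.log (∏ k : cube L, (1 - Real.exp (-(t + β * ((n : ℝ) / 2 * lam3 L k))))⁻¹) ≤
      bosSer n L β t := by
  set q : cube L → ℝ := fun k => Real.exp (-(t + β * ((n : ℝ) / 2 * lam3 L k))) with hq
  have hq0 : ∀ k, 0 < q k := fun k => Real.exp_pos _
  have hq1 : ∀ k, q k < 1 := by
    intro k
    simp only [hq]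
    rw [Real.exp_lt_one_iff]
    have : 0 ≤ β * ((n : ℝ) / 2 * lam3 L k) :=
      mul_nonneg hβ (mul_nonneg (by positivity) (lam3_nonneg k))
    linarith
  have h1 : Real.log (∏ k : cube L, (1 - q k)⁻¹) = ∑ k, - Real.log (1 - q k) := by
    rw [Real.log_prod (fun k _ => inv_ne_zero (sub_pos.2 (hq1 k)).ne')]
    exact Finset.sum_congr rfl fun k _ => Real.log_inv _
  have h2 : HasSum (fun j : ℕ => ∑ k, q k ^ (j + 1) / ((j : ℝ) + 1))
      (∑ k, - Real.log (1 - q k)) := by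
    refine hasSum_sum fun k _ => ?_
    exact Real.hasSum_pow_div_log_of_abs_lt_one (by rw [abs_of_pos (hq0 k)]; exact hq1 k)
  rw [h1, ← h2.tsum_eq, bosSer]
  refine h2.summable.tsum_le_tsum (fun j => ?_) (bosSer_summable n L hβ ht)
  have h3 : ∑ k, q k ^ (j + 1) / ((j : ℝ) + 1) = Real.exp (-(((j : ℝ) + 1) * t)) / ((j : ℝ) + 1) *
      ∑ k : cube L, Real.exp (-((((j : ℝ) + 1) * (n * β)) / 2 * lam3 L k)) := by
    rw [Finset.mul_sum]
    refine Finset.sum_congr rfl fun k _ => ?_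
    simp only [hq]
    have e7 : Real.exp (-(t + β * ((n : ℝ) / 2 * lam3 L k))) ^ (j + 1) =
        Real.exp (-(((j : ℝ) + 1) * t)) *
          Real.exp (-((((j : ℝ) + 1) * (n * β)) / 2 * lam3 L k)) := by
      rw [← Real.exp_nat_mul, ← Real.exp_add]
      congr 1
      push_cast
      ring
    rw [e7]
    ring
  rw [h3]
  exact mul_le_mul_of_nonneg_left
    (three_dim_sum hL (mul_nonneg (Nat.cast_add_one_pos j).le
      (mul_nonneg (Nat.cast_nonneg n) hβ)))
    (div_nonneg (Real.exp_pos _).le (Nat.cast_add_one_pos j).le)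

lemma one_le_prod (L : ℕ) {β t : ℝ} (hβ : 0 ≤ β) (ht : 0 < t) :
    1 ≤ ∏ k : cube L, (1 - Real.exp (-(t + β * ((n : ℝ) / 2 * lam3 L k))))⁻¹ := by
  have : ∏ _k : cube L, (1 : ℝ) ≤
      ∏ k : cube L, (1 - Real.exp (-(t + β * ((n : ℝ) / 2 * lam3 L k))))⁻¹ := by
    refine Finset.prod_le_prod (fun _ _ => zero_le_one) fun k _ => ?_
    have h1 : 0 < Real.exp (-(t + β * ((n : ℝ) / 2 * lam3 L k))) := Real.exp_pos _
    have h2 : Real.exp (-(t + β * ((n : ℝ) / 2 * lam3 L k))) < 1 := by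
      rw [Real.exp_lt_one_iff]
      have : 0 ≤ β * ((n : ℝ) / 2 * lam3 L k) :=
        mul_nonneg hβ (mul_nonneg (by positivity) (lam3_nonneg k))
      linarith
    exact (one_le_inv₀ (by linarith)).2 (by linarith)
  rwa [Finset.prod_const_one] at this

/-- Finite-volume upper bound. -/
theorem logZt_upper (hn : 1 ≤ n) (hL : 0 < L) {β t E1 : ℝ} (hβ : 0 ≤ β) (ht : 0 < t)
    (hE1 : 0 < E1) (N1 : ℕ) (h1 : Real.log (Zt n (cube L) (β / 2) 0) ≤ β * E1 / 2)
    (h2 : Real.log (Zt n (cube L) β 0) ≤ t * N1) :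
    Real.log (Zt n (cube L) β t) ≤ Real.log 3 +
      β * (12 * Real.exp 2 * ((N1 : ℝ) ^ 2 * (1 / L + 2 * bJ (2 * n / E1)) ^ 3)) +
      bosSer n L β t := by
  have hb := bJ_nonneg (2 * n / E1)
  set d := 12 * Real.exp 2 * ((N1 : ℝ) ^ 2 * (1 / L + 2 * bJ (2 * n / E1)) ^ 3) with hd
  have hd0 : 0 ≤ d := by rw [hd]; positivity
  set P := ∏ k : cube L, (1 - Real.exp (-(t + β * ((n : ℝ) / 2 * lam3 L k))))⁻¹ with hP
  have hP1 : 1 ≤ P := one_le_prod L hβ ht
  have hX1 : 1 ≤ Real.exp (β * d) := Real.one_le_exp (mul_nonneg hβ hd0)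
  have hmain := Zt_split hn hL hβ ht hE1 N1
  have e1 : Real.exp (-(β * E1 / 2)) * Zt n (cube L) (β / 2) 0 ≤ 1 := by
    have h3 : Zt n (cube L) (β / 2) 0 ≤ Real.exp (β * E1 / 2) := by
      rw [← Real.log_le_iff_le_exp (Zt_pos_eig _ _ _ _)]; exact h1
    calc _ ≤ Real.exp (-(β * E1 / 2)) * Real.exp (β * E1 / 2) :=
          mul_le_mul_of_nonneg_left h3 (Real.exp_pos _).le
      _ = 1 := by rw [← Real.exp_add]; simp
  have e2 : Real.exp (-(t * N1)) * Zt n (cube L) β 0 ≤ 1 := by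
    have h3 : Zt n (cube L) β 0 ≤ Real.exp (t * N1) := by
      rw [← Real.log_le_iff_le_exp (Zt_pos_eig _ _ _ _)]; exact h2
    calc _ ≤ Real.exp (-(t * N1)) * Real.exp (t * N1) :=
          mul_le_mul_of_nonneg_left h3 (Real.exp_pos _).le
      _ = 1 := by rw [← Real.exp_add]; simp
  have e3 : 1 ≤ Real.exp (β * d) * P := one_le_mul_of_one_le_of_one_le hX1 hP1
  have e4 : Zt n (cube L) β t ≤ 3 * (Real.exp (β * d) * P) := by
    have : Zt n (cube L) β t ≤ 1 + 1 + Real.exp (β * d) * P := by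
      refine hmain.trans ?_
      exact add_le_add (add_le_add e1 e2) le_rfl
    linarith
  have e5 := Real.log_le_log (Zt_pos_eig n (cube L) β t) e4
  have hP0 : 0 < P := by linarith
  rw [Real.log_mul (by norm_num) (mul_pos (Real.exp_pos _) hP0).ne',
    Real.log_mul (Real.exp_pos _).ne' hP0.ne', Real.log_exp] at e5
  have e6 := log_prod_le (n := n) hL hβ ht
  rw [← hP] at e6
  linarith

end Vale.Agent.P361.B
end

section

/-!
Part B: asymptotics of the free boson pressure of the cube.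
-/

namespace Vale.Agent.P361.B

open MeasureTheory Filter Topology Finset

theorem sq_exp_le {y : ℝ} (hy : 0 ≤ y) : y ^ 2 * Real.exp (-(y / 10)) ≤ 200 := by
  have h := Real.quadratic_le_exp_of_nonneg (x := y / 10) (by positivity)
  rw [Real.exp_neg, ← div_eq_mul_inv, div_le_iff₀ (Real.exp_pos _)]
  nlinarith

theorem exp_cos_le {a θ : ℝ} (ha : 1 ≤ a) (h0 : 0 ≤ θ) (h1 : θ ≤ Real.pi) :
    Real.exp (-a * (1 - Real.cos θ)) ≤ Real.exp (-(a / 2) * θ ^ 2) +
      200 / a * Real.exp (-(a / 10) * θ ^ 2) := by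
  have ha0 : 0 < a := by linarith
  have key : Real.exp (-a * (1 - Real.cos θ)) ≤ Real.exp (-(a / 2) * θ ^ 2) +
      a * θ ^ 4 * Real.exp (-(a / 5) * θ ^ 2) := by
    rcases le_or_gt θ 1 with h | h
    · have hb := (abs_le.1 (Real.cos_bound (x := θ) (by rw [abs_of_nonneg h0]; exact h))).2
      rw [abs_of_nonneg h0] at hb
      set w : ℝ := a * (θ ^ 4 * (5 / 96)) with hw
      have hw0 : 0 ≤ w := by positivity
      have hθ2 : θ ^ 2 ≤ 1 := pow_le_one₀ h0 h
      have hw1 : w ≤ a / 4 * θ ^ 2 := by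
        have : θ ^ 4 = θ ^ 2 * θ ^ 2 := by ring
        rw [hw, this]
        linarith only [mul_nonneg ha0.le (sq_nonneg θ), mul_le_mul_of_nonneg_left hθ2
          (mul_nonneg ha0.le (sq_nonneg θ))]
      have e1 : Real.exp (-a * (1 - Real.cos θ)) ≤ Real.exp (-(a / 2) * θ ^ 2 + w) := by
        apply Real.exp_le_exp.2
        rw [hw]
        have hba := mul_le_mul_of_nonneg_left hb ha0.le
        linarith only [hba]
      have e2 : Real.exp w ≤ 1 + w * Real.exp w := by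
        have := Real.add_one_le_exp (-w)
        have h3 : Real.exp w * Real.exp (-w) = 1 := by rw [← Real.exp_add]; simp
        have h4 := mul_le_mul_of_nonneg_left this (Real.exp_pos w).le
        linarith only [h3, h4]
      have e3 : w * Real.exp w * Real.exp (-(a / 2) * θ ^ 2) ≤
          a * θ ^ 4 * Real.exp (-(a / 5) * θ ^ 2) := by
        rw [mul_assoc, ← Real.exp_add]
        refine mul_le_mul ?_ (Real.exp_le_exp.2 ?_) (Real.exp_pos _).le (by positivity)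
        · rw [hw]
          have : 0 ≤ a * θ ^ 4 := by positivity
          linarith only [this]
        · linarith only [hw1, mul_nonneg ha0.le (sq_nonneg θ)]
      calc Real.exp (-a * (1 - Real.cos θ)) ≤ Real.exp (-(a / 2) * θ ^ 2 + w) := e1
        _ = Real.exp w * Real.exp (-(a / 2) * θ ^ 2) := by rw [← Real.exp_add, add_comm]
        _ ≤ (1 + w * Real.exp w) * Real.exp (-(a / 2) * θ ^ 2) :=
            mul_le_mul_of_nonneg_right e2 (Real.exp_pos _).le
        _ = Real.exp (-(a / 2) * θ ^ 2) + w * Real.exp w * Real.exp (-(a / 2) * θ ^ 2) := by ring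
        _ ≤ _ := by linarith
    · have hc := Real.cos_le_one_sub_mul_cos_sq (x := θ) (by rw [abs_of_nonneg h0]; exact h1)
      have hpi2 : Real.pi ^ 2 ≤ 10 :=
        (pow_le_pow_left₀ Real.pi_pos.le Real.pi_lt_d2.le 2).trans (by norm_num)
      have h5 : θ ^ 2 / 5 ≤ 1 - Real.cos θ := by
        have h6 : 1 / 5 ≤ 2 / Real.pi ^ 2 := by
          rw [div_le_div_iff₀ (by norm_num) (by positivity)]
          linarith
        linarith only [hc, mul_le_mul_of_nonneg_right h6 (sq_nonneg θ)]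
      have e1 : Real.exp (-a * (1 - Real.cos θ)) ≤ Real.exp (-(a / 5) * θ ^ 2) := by
        apply Real.exp_le_exp.2
        have h5a := mul_le_mul_of_nonneg_left h5 ha0.le
        linarith only [h5a]
      have e2 : 1 ≤ a * θ ^ 4 := one_le_mul_of_one_le_of_one_le ha (one_le_pow₀ h.le)
      have e3 : Real.exp (-(a / 5) * θ ^ 2) ≤ a * θ ^ 4 * Real.exp (-(a / 5) * θ ^ 2) :=
        le_mul_of_one_le_left (Real.exp_pos _).le e2
      linarith [Real.exp_pos (-(a / 2) * θ ^ 2)]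
  refine key.trans (add_le_add le_rfl ?_)
  have h2 := sq_exp_le (y := a * θ ^ 2) (by positivity)
  have e1 : a * θ ^ 4 * Real.exp (-(a / 5) * θ ^ 2) = (1 / a) *
      (((a * θ ^ 2) ^ 2 * Real.exp (-((a * θ ^ 2) / 10))) * Real.exp (-(a / 10) * θ ^ 2)) := by
    have : Real.exp (-(a / 5) * θ ^ 2) =
        Real.exp (-((a * θ ^ 2) / 10)) * Real.exp (-(a / 10) * θ ^ 2) := by
      rw [← Real.exp_add]; congr 1; ring
    rw [this]
    field_simp
  rw [e1]
  have h3 : (1 / a) * (((a * θ ^ 2) ^ 2 * Real.exp (-((a * θ ^ 2) / 10))) *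
      Real.exp (-(a / 10) * θ ^ 2)) ≤ (1 / a) * (200 * Real.exp (-(a / 10) * θ ^ 2)) :=
    mul_le_mul_of_nonneg_left (mul_le_mul_of_nonneg_right h2 (Real.exp_pos _).le) (by positivity)
  refine h3.trans (le_of_eq ?_)
  ring

/-- Upper bound of the Bessel factor. -/
theorem bJ_upper {a : ℝ} (ha : 1 ≤ a) :
    Real.sqrt (2 * Real.pi * a) * H.bJ a ≤ 1 + 448 / a := by
  have ha0 : 0 < a := by linarith
  have hpi := Real.pi_pos
  have hint : ∀ b : ℝ, 0 < b → IntegrableOn (fun u : ℝ => Real.exp (-b * u ^ 2)) (Set.Ioi 0) :=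
    fun b hb => (integrable_exp_neg_mul_sq hb).integrableOn
  have h1 : ∫ θ in (0 : ℝ)..Real.pi, Real.exp (-a * (1 - Real.cos θ)) ≤
      ∫ θ in Set.Ioi (0 : ℝ), (Real.exp (-(a / 2) * θ ^ 2) +
      200 / a * Real.exp (-(a / 10) * θ ^ 2)) := by
    rw [intervalIntegral.integral_of_le hpi.le]
    have hi := (hint (a / 2) (by positivity)).add ((hint (a / 10) (by positivity)).const_mul
      (200 / a))
    calc ∫ θ in Set.Ioc 0 Real.pi, Real.exp (-a * (1 - Real.cos θ)) ≤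
        ∫ θ in Set.Ioc 0 Real.pi, (Real.exp (-(a / 2) * θ ^ 2) +
          200 / a * Real.exp (-(a / 10) * θ ^ 2)) := by
          refine setIntegral_mono_on ?_ (hi.mono_set Set.Ioc_subset_Ioi_self) measurableSet_Ioc
            fun θ hθ => exp_cos_le ha hθ.1.le hθ.2
          exact (Continuous.integrableOn_Icc (by fun_prop)).mono_set Set.Ioc_subset_Icc_self
      _ ≤ _ := by
          refine setIntegral_mono_set hi ?_ Set.Ioc_subset_Ioi_self.eventuallyLE
          exact Filter.Eventually.of_forall fun θ => by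
            simp only [Pi.zero_apply]; positivity
  rw [integral_add (hint (a / 2) (by positivity)) ((hint (a / 10) (by positivity)).const_mul
      (200 / a)), integral_const_mul, integral_gaussian_Ioi, integral_gaussian_Ioi] at h1
  rw [H.bJ]
  have h2 := mul_le_mul_of_nonneg_left h1 (a := Real.sqrt (2 * Real.pi * a) * Real.pi⁻¹)
    (by positivity)
  rw [mul_assoc] at h2
  refine h2.trans ?_
  have e1 : Real.sqrt (2 * Real.pi * a) * Real.sqrt (Real.pi / (a / 2)) = 2 * Real.pi := by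
    rw [← Real.sqrt_mul (by positivity),
      show 2 * Real.pi * a * (Real.pi / (a / 2)) = (2 * Real.pi) ^ 2 by field_simp,
      Real.sqrt_sq (by positivity)]
  have e2 : Real.sqrt (2 * Real.pi * a) * Real.sqrt (Real.pi / (a / 10)) ≤ 4.48 * Real.pi := by
    rw [← Real.sqrt_mul (by positivity),
      show 2 * Real.pi * a * (Real.pi / (a / 10)) = 20 * Real.pi ^ 2 by field_simp; ring]
    rw [show 4.48 * Real.pi = Real.sqrt ((4.48 * Real.pi) ^ 2) by rw [Real.sqrt_sq (by positivity)]]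
    refine Real.sqrt_le_sqrt ?_
    nlinarith [sq_nonneg Real.pi]
  have e3 : Real.sqrt (2 * Real.pi * a) * (Real.pi⁻¹ * (Real.sqrt (Real.pi / (a / 2)) / 2 +
      200 / a * (Real.sqrt (Real.pi / (a / 10)) / 2))) =
      Real.pi⁻¹ * ((Real.sqrt (2 * Real.pi * a) * Real.sqrt (Real.pi / (a / 2))) / 2 +
        100 / a * (Real.sqrt (2 * Real.pi * a) * Real.sqrt (Real.pi / (a / 10)))) := by ring
  rw [mul_assoc, e3, e1]
  have h3 : Real.pi⁻¹ * (2 * Real.pi / 2 + 100 / a * (Real.sqrt (2 * Real.pi * a) *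
      Real.sqrt (Real.pi / (a / 10)))) ≤ Real.pi⁻¹ * (2 * Real.pi / 2 + 100 / a *
        (4.48 * Real.pi)) := by
    refine mul_le_mul_of_nonneg_left (add_le_add le_rfl ?_) (by positivity)
    exact mul_le_mul_of_nonneg_left e2 (by positivity)
  refine h3.trans (le_of_eq ?_)
  field_simp
  ring

theorem cube_add_pow {L y w : ℝ} (hL : 0 ≤ L) (hy : 0 ≤ y) (hw : 0 ≤ w) (hw1 : w ≤ 1) :
    (1 + L * (y * (1 + w))) ^ 3 ≤
      L ^ 3 * y ^ 3 * (1 + 7 * w) + 12 * (L ^ 2 * y ^ 2) + 6 * (L * y) + 1 := by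
  have h1 : (1 + w) ^ 3 ≤ 1 + 7 * w := by nlinarith [mul_nonneg hw hw, mul_nonneg (mul_nonneg hw hw) hw]
  have h2 : (1 + w) ^ 2 ≤ 4 := by nlinarith
  have e : (1 + L * (y * (1 + w))) ^ 3 = L ^ 3 * y ^ 3 * (1 + w) ^ 3 +
      3 * (L ^ 2 * y ^ 2) * (1 + w) ^ 2 + 3 * (L * y) * (1 + w) + 1 := by ring
  rw [e]
  have h3 : L ^ 3 * y ^ 3 * (1 + w) ^ 3 ≤ L ^ 3 * y ^ 3 * (1 + 7 * w) :=
    mul_le_mul_of_nonneg_left h1 (by positivity)
  have h4 : 3 * (L ^ 2 * y ^ 2) * (1 + w) ^ 2 ≤ 3 * (L ^ 2 * y ^ 2) * 4 :=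
    mul_le_mul_of_nonneg_left h2 (by positivity)
  have h5 : 3 * (L * y) * (1 + w) ≤ 3 * (L * y) * 2 :=
    mul_le_mul_of_nonneg_left (by linarith) (by positivity)
  linarith

/-- One order of the fugacity expansion. -/
theorem order_bound {n : ℕ} (hn : 1 ≤ n) {β : ℝ} (hβ : 448 ≤ β) {L : ℕ} (hL : 0 < L) (r : ℕ) :
    Real.sqrt β ^ 3 / (L : ℝ) ^ 3 * (1 + L * H.bJ (((r : ℝ) + 1) * (n * β))) ^ 3 ≤
    (Real.sqrt (4 * Real.pi * ((n : ℝ) / 2)) ^ 3)⁻¹ * (1 / Real.sqrt ((r : ℝ) + 1) ^ 3) *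
      (1 + 7 * (448 / β)) +
    12 * (Real.sqrt (4 * Real.pi * ((n : ℝ) / 2)) ^ 2)⁻¹ * (Real.sqrt β / L) *
      (1 / Real.sqrt ((r : ℝ) + 1) ^ 2) +
    6 * (Real.sqrt (4 * Real.pi * ((n : ℝ) / 2)))⁻¹ * (β / (L : ℝ) ^ 2) *
      (1 / Real.sqrt ((r : ℝ) + 1)) + Real.sqrt β ^ 3 / (L : ℝ) ^ 3 := by
  have hnR : (1 : ℝ) ≤ n := by exact_mod_cast hn
  have hn0 : (0 : ℝ) < n := by linarith
  have hβ0 : 0 < β := by linarith
  have hLR : (0 : ℝ) < L := by exact_mod_cast hL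
  have hpi := Real.pi_pos
  have hr : (1 : ℝ) ≤ (r : ℝ) + 1 := by linarith [Nat.cast_nonneg (α := ℝ) r]
  set c : ℝ := ((r : ℝ) + 1) * (n * β) with hc
  have hβc : β ≤ c := by
    rw [hc]
    nlinarith [mul_le_mul hr hnR (by norm_num) (by linarith)]
  have hc0 : 0 < c := by linarith
  have h2 := bJ_upper (a := c) (by linarith)
  set w : ℝ := 448 / β with hw
  have hw0 : 0 ≤ w := by positivity
  have hw1 : w ≤ 1 := by rw [hw, div_le_one hβ0]; exact hβ
  have h3 : 448 / c ≤ w := div_le_div_of_nonneg_left (by norm_num) hβ0 hβc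
  have hsr : 0 < Real.sqrt ((r : ℝ) + 1) := Real.sqrt_pos.2 (by positivity)
  have hsb : 0 < Real.sqrt β := Real.sqrt_pos.2 hβ0
  have hs4 : 0 < Real.sqrt (4 * Real.pi * ((n : ℝ) / 2)) := Real.sqrt_pos.2 (by positivity)
  have e1 : Real.sqrt (2 * Real.pi * c) =
      Real.sqrt (4 * Real.pi * ((n : ℝ) / 2)) * (Real.sqrt β * Real.sqrt ((r : ℝ) + 1)) := by
    rw [← Real.sqrt_mul hβ0.le, ← Real.sqrt_mul (by positivity)]
    congr 1
    rw [hc]; ring
  set A := Real.sqrt (4 * Real.pi * ((n : ℝ) / 2)) with hA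
  set y : ℝ := (A * (Real.sqrt β * Real.sqrt ((r : ℝ) + 1)))⁻¹ with hy
  have hy0 : 0 < y := by positivity
  have h4 : H.bJ c ≤ y * (1 + w) := by
    rw [hy, inv_mul_eq_div, le_div_iff₀ (by positivity), ← e1, mul_comm]
    linarith
  have h5 : (1 + (L : ℝ) * H.bJ c) ^ 3 ≤ (1 + L * (y * (1 + w))) ^ 3 := by
    refine pow_le_pow_left₀ ?_ ?_ 3
    · have := H.bJ_nonneg c
      positivity
    · have := mul_le_mul_of_nonneg_left h4 hLR.le
      linarith
  have h6 := cube_add_pow hLR.le hy0.le hw0 hw1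
  have h7 := mul_le_mul_of_nonneg_left (h5.trans h6)
    (a := Real.sqrt β ^ 3 / (L : ℝ) ^ 3) (by positivity)
  refine h7.trans (le_of_eq ?_)
  have e2 : β = Real.sqrt β ^ 2 := (Real.sq_sqrt hβ0.le).symm
  have e3 : β / (L : ℝ) ^ 2 = Real.sqrt β ^ 2 / (L : ℝ) ^ 2 := by rw [← e2]
  rw [e3, hy]
  field_simp

/-- Asymptotics of the free boson pressure. -/
theorem bosSer_le {n : ℕ} (hn : 1 ≤ n) : ∃ C : ℝ, 0 ≤ C ∧ ∀ β : ℝ, 448 ≤ β → ∀ L : ℕ, 0 < L →
    ∀ t : ℝ, 0 < t →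
    Real.sqrt β ^ 3 / (L : ℝ) ^ 3 * bosSer n L β t ≤
    FS ((n : ℝ) / 2) t + C * (1 / β + Real.sqrt β / L + β / (L : ℝ) ^ 2) +
      Real.sqrt β ^ 3 / (L : ℝ) ^ 3 / t := by
  set A := Real.sqrt (4 * Real.pi * ((n : ℝ) / 2)) with hA
  have hnR : (1 : ℝ) ≤ n := by exact_mod_cast hn
  have hpi := Real.pi_pos
  have hA0 : 0 < A := Real.sqrt_pos.2 (by positivity)
  set z : ℝ := ∑' r : ℕ, 1 / Real.sqrt ((r : ℝ) + 1) ^ 3 with hz
  have hz0 : 0 ≤ z := tsum_nonneg fun r => by positivity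
  have haS : aS ((n : ℝ) / 2) = (A ^ 3)⁻¹ * z := by rw [aS, ← H.zeta_hasSum.tsum_eq]
  refine ⟨7 * 448 * ((A ^ 3)⁻¹ * z) + 12 * (A ^ 2)⁻¹ * z + 6 * A⁻¹ * z, by positivity, ?_⟩
  intro β hβ L hL t ht
  have hβ0 : 0 < β := by linarith
  have hLR : (0 : ℝ) < L := by exact_mod_cast hL
  have hsb : 0 < Real.sqrt β := Real.sqrt_pos.2 hβ0
  have h1 := ((bosSer_summable n L hβ0.le ht).hasSum).mul_left (Real.sqrt β ^ 3 / (L : ℝ) ^ 3)
  -- majorant
  have hgeo : HasSum (fun r : ℕ => Real.exp (-(((r : ℝ) + 1) * t))) (1 / (Real.exp t - 1)) := by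
    have hlt : Real.exp (-t) < 1 := by rw [Real.exp_lt_one_iff]; linarith
    have h2 := (hasSum_geometric_of_lt_one (Real.exp_pos (-t)).le hlt).mul_left (Real.exp (-t))
    have e1 : Real.exp (-t) * (1 - Real.exp (-t))⁻¹ = 1 / (Real.exp t - 1) := by
      have h3 : Real.exp t * Real.exp (-t) = 1 := by rw [← Real.exp_add]; simp
      have h4 : 1 < Real.exp t := by rw [Real.one_lt_exp_iff]; exact ht
      have h5 : 0 < 1 - Real.exp (-t) := by linarith
      rw [eq_div_iff (by linarith), ← div_eq_mul_inv, div_mul_eq_mul_div, div_eq_iff h5.ne']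
      linear_combination h3
    rw [e1] at h2
    have e2 : (fun r : ℕ => Real.exp (-(((r : ℝ) + 1) * t))) =
        fun r : ℕ => Real.exp (-t) * Real.exp (-t) ^ r := by
      ext1 r
      rw [← Real.exp_nat_mul, ← Real.exp_add]
      congr 1; ring
    rw [e2]
    exact h2
  have hF := (summable_F ht.le).hasSum
  have hz' : HasSum (fun r : ℕ => 1 / Real.sqrt ((r : ℝ) + 1) ^ 3) z := zsum.hasSum
  have h2 := (((hF.mul_left ((A ^ 3)⁻¹ * (1 + 7 * (448 / β)))).add
    (hz'.mul_left (12 * (A ^ 2)⁻¹ * (Real.sqrt β / L)))).add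
    (hz'.mul_left (6 * A⁻¹ * (β / (L : ℝ) ^ 2)))).add
    (hgeo.mul_left (Real.sqrt β ^ 3 / (L : ℝ) ^ 3))
  have h3 := hasSum_le (fun r => ?_) h1 h2
  · refine h3.trans ?_
    have e1 : (A ^ 3)⁻¹ * ∑' r : ℕ, Real.exp (-(((r : ℝ) + 1) * t)) /
        (((r : ℝ) + 1) * Real.sqrt ((r : ℝ) + 1) ^ 3) = FS ((n : ℝ) / 2) t := rfl
    have e2 : (A ^ 3)⁻¹ * (1 + 7 * (448 / β)) * ∑' r : ℕ, Real.exp (-(((r : ℝ) + 1) * t)) /
        (((r : ℝ) + 1) * Real.sqrt ((r : ℝ) + 1) ^ 3) = FS ((n : ℝ) / 2) t +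
        7 * 448 * FS ((n : ℝ) / 2) t * (1 / β) := by
      rw [← e1]; ring
    have e3 := FS_le ((n : ℝ) / 2) ht.le
    rw [haS] at e3
    have e4 : 7 * 448 * FS ((n : ℝ) / 2) t * (1 / β) ≤ 7 * 448 * ((A ^ 3)⁻¹ * z) * (1 / β) := by
      refine mul_le_mul_of_nonneg_right ?_ (by positivity)
      linarith
    have e5 : Real.sqrt β ^ 3 / (L : ℝ) ^ 3 * (1 / (Real.exp t - 1)) ≤
        Real.sqrt β ^ 3 / (L : ℝ) ^ 3 / t := by
      rw [div_eq_mul_one_div _ t]
      refine mul_le_mul_of_nonneg_left ?_ (by positivity)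
      refine one_div_le_one_div_of_le ht ?_
      linarith [Real.add_one_le_exp t]
    have p1 : 0 ≤ 12 * (A ^ 2)⁻¹ * z := by positivity
    have p2 : 0 ≤ 6 * A⁻¹ * z := by positivity
    have p3 : 0 ≤ 7 * 448 * ((A ^ 3)⁻¹ * z) := by positivity
    have q1 : 0 ≤ 1 / β := by positivity
    have q2 : 0 ≤ Real.sqrt β / L := by positivity
    have q3 : 0 ≤ β / (L : ℝ) ^ 2 := by positivity
    rw [e2]
    linarith only [e4, e5, mul_nonneg p1 q1, mul_nonneg p1 q3, mul_nonneg p2 q1,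
      mul_nonneg p2 q2, mul_nonneg p3 q2, mul_nonneg p3 q3]
  · -- termwise
    have hr1 : (1 : ℝ) ≤ (r : ℝ) + 1 := by linarith [Nat.cast_nonneg (α := ℝ) r]
    have hsr : 0 < Real.sqrt ((r : ℝ) + 1) := Real.sqrt_pos.2 (by positivity)
    have hsr1 : 1 ≤ Real.sqrt ((r : ℝ) + 1) := by rw [Real.one_le_sqrt]; exact hr1
    have hsr2 : Real.sqrt ((r : ℝ) + 1) ^ 2 = (r : ℝ) + 1 := Real.sq_sqrt (by positivity)
    have hsr3 : Real.sqrt ((r : ℝ) + 1) ^ 3 = ((r : ℝ) + 1) * Real.sqrt ((r : ℝ) + 1) := by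
      calc Real.sqrt ((r : ℝ) + 1) ^ 3 = Real.sqrt ((r : ℝ) + 1) ^ 2 * Real.sqrt ((r : ℝ) + 1) := by
            ring
        _ = _ := by rw [hsr2]
    rw [mul_left_comm]
    have h4 := mul_le_mul_of_nonneg_left (order_bound hn hβ hL r)
      (a := Real.exp (-(((r : ℝ) + 1) * t)) / ((r : ℝ) + 1)) (by positivity)
    refine h4.trans ?_
    rw [← hA]
    have hE0 := Real.exp_pos (-(((r : ℝ) + 1) * t))
    have hE1 := exp_le_one ht.le r
    set e := Real.exp (-(((r : ℝ) + 1) * t)) with he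
    rw [mul_add, mul_add, mul_add]
    refine add_le_add (add_le_add (add_le_add ?_ ?_) ?_) ?_
    · apply le_of_eq
      field_simp
    · have : e / ((r : ℝ) + 1) * (12 * (A ^ 2)⁻¹ * (Real.sqrt β / L) *
          (1 / Real.sqrt ((r : ℝ) + 1) ^ 2)) = 12 * (A ^ 2)⁻¹ * (Real.sqrt β / L) *
          (e / (((r : ℝ) + 1) * Real.sqrt ((r : ℝ) + 1) ^ 2)) := by
        rw [← div_div]; ring
      rw [this]
      refine mul_le_mul_of_nonneg_left ?_ (by positivity)
      refine div_le_div₀ (by norm_num) hE1 (by positivity) ?_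
      rw [hsr2]
      rw [hsr3]
      refine mul_le_mul_of_nonneg_left ?_ (by positivity)
      exact (le_self_pow₀ hsr1 (by norm_num)).trans hsr2.le
    · have : e / ((r : ℝ) + 1) * (6 * A⁻¹ * (β / (L : ℝ) ^ 2) *
          (1 / Real.sqrt ((r : ℝ) + 1))) = 6 * A⁻¹ * (β / (L : ℝ) ^ 2) *
          (e / (((r : ℝ) + 1) * Real.sqrt ((r : ℝ) + 1))) := by
        rw [← div_div]; ring
      rw [this]
      refine mul_le_mul_of_nonneg_left ?_ (by positivity)
      refine div_le_div₀ (by norm_num) hE1 (by positivity) ?_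
      exact hsr3.le
    · rw [mul_comm]
      refine mul_le_mul_of_nonneg_left ?_ (by positivity)
      exact div_le_self hE0.le hr1

end Vale.Agent.P361.B
end

section

/-!
Part B, step D6: choice of the parameters.
-/

namespace Vale.Agent.P361.B

open Filter Topology

/-- Crude bound on cubes of side `≤ β^{1/2 - η}`. -/
theorem crude_log {n : ℕ} (hn : 1 ≤ n) {η : ℝ} (hη : 0 < η) (hη2 : η < 1 / 2) :
    ∀ᶠ β : ℝ in atTop, ∀ L : ℕ, 0 < L → (L : ℝ) ≤ β ^ (1 / 2 - η) →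
      Real.log (Zt n (cube L) (β / 2) 0) ≤ β ^ η := by
  have hnR : (1 : ℝ) ≤ n := by exact_mod_cast hn
  have l1 : Tendsto (fun β : ℝ => β ^ (2 * η)) atTop atTop := tendsto_rpow_atTop (by linarith)
  have l2 : Tendsto (fun β : ℝ => 2 * (β ^ (3 : ℝ) * Real.exp (-(1 / 12) * β ^ (2 * η)))) atTop
      (𝓝 0) := by
    have h1 := (tendsto_rpow_mul_exp_neg_mul_atTop_nhds_zero (3 / (2 * η)) (1 / 12)
      (by norm_num)).comp l1
    have h2 : Tendsto (fun β : ℝ => β ^ (3 : ℝ) * Real.exp (-(1 / 12) * β ^ (2 * η))) atTop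
        (𝓝 0) := by
      refine h1.congr' ?_
      filter_upwards [eventually_gt_atTop 0] with β hβ
      simp only [Function.comp]
      rw [← Real.rpow_mul hβ.le]
      congr 2
      field_simp
    simpa using h2.const_mul 2
  have l3 : Tendsto (fun β : ℝ => (Real.log (4 * n) + 3 * Real.log β) / β ^ η) atTop (𝓝 0) := by
    have h1 := (isLittleO_log_rpow_atTop hη).tendsto_div_nhds_zero
    have h2 : Tendsto (fun β : ℝ => Real.log (4 * n) / β ^ η) atTop (𝓝 0) :=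
      tendsto_const_nhds.div_atTop (tendsto_rpow_atTop hη)
    have h3 := h2.add (h1.const_mul 3)
    simp only [mul_zero, add_zero] at h3
    refine h3.congr fun β => ?_
    ring
  have l4 : Tendsto (fun β : ℝ => β ^ η) atTop atTop := tendsto_rpow_atTop hη
  filter_upwards [l2.eventually (ge_mem_nhds (show (0 : ℝ) < 1 / 2 by norm_num)),
    l3.eventually (ge_mem_nhds (show (0 : ℝ) < 1 / 2 by norm_num)), l4.eventually_ge_atTop 1,
    eventually_ge_atTop 1] with β h2 h3 h4 hβ1 L hL hLβ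
  have hβ : 0 < β := by linarith
  have hLR : (1 : ℝ) ≤ L := by exact_mod_cast hL
  have hL0 : (0 : ℝ) < L := by linarith
  have hLβ1 : (L : ℝ) ≤ β := by
    refine hLβ.trans ?_
    calc β ^ (1 / 2 - η) ≤ β ^ (1 : ℝ) :=
          Real.rpow_le_rpow_of_exponent_le hβ1 (by linarith)
      _ = β := Real.rpow_one β
  have hL3 : (L : ℝ) ^ 3 ≤ β ^ (3 : ℝ) := by
    rw [show (3 : ℝ) = ((3 : ℕ) : ℝ) by norm_num, Real.rpow_natCast]
    exact pow_le_pow_left₀ hL0.le hLβ1 3
  have hL2 : (L : ℝ) ^ 2 ≤ β / β ^ (2 * η) := by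
    calc (L : ℝ) ^ 2 ≤ (β ^ (1 / 2 - η)) ^ 2 := pow_le_pow_left₀ hL0.le hLβ 2
      _ = β / β ^ (2 * η) := by
        rw [← Real.rpow_natCast, ← Real.rpow_mul hβ.le]
        nth_rewrite 2 [← Real.rpow_one β]
        rw [← Real.rpow_sub hβ]
        congr 1
        push_cast
        ring
  have hp : 0 < β ^ (2 * η) := Real.rpow_pos_of_pos hβ _
  have hz1 : Real.exp (-(n * (β / 2) / (6 * (L : ℝ) ^ 2))) ≤
      Real.exp (-(1 / 12) * β ^ (2 * η)) := by
    apply Real.exp_le_exp.2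
    have h5 : 1 / 12 * β ^ (2 * η) ≤ n * (β / 2) / (6 * (L : ℝ) ^ 2) := by
      rw [le_div_iff₀ (by positivity)]
      have h6 : β ^ (2 * η) * (L : ℝ) ^ 2 ≤ β := by
        have := mul_le_mul_of_nonneg_left hL2 hp.le
        rwa [mul_div_cancel₀ β hp.ne'] at this
      have hnβ := mul_le_mul_of_nonneg_right hnR hβ.le
      linarith only [h6, hnβ]
    linarith
  have hz2 : Real.exp (-(n * (β / 2) / (6 * (L : ℝ) ^ 2))) ≤ 1 / 2 := by
    refine hz1.trans ?_
    have h5 : 1 ≤ β ^ (3 : ℝ) := Real.one_le_rpow hβ1 (by norm_num)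
    have h6 := Real.exp_pos (-(1 / 12) * β ^ (2 * η))
    have h7 := mul_le_mul_of_nonneg_right h5 h6.le
    linarith only [h2, h6, h7]
  have h := log_Zt_le_crude (n := n) hn hL (β := β / 2) (by positivity) hz2
  refine h.trans ?_
  have h5 : Real.log (2 * ((n : ℝ) * (L : ℝ) ^ 3 + 1)) ≤ Real.log (4 * n) + 3 * Real.log β := by
    have h6 : 2 * ((n : ℝ) * (L : ℝ) ^ 3 + 1) ≤ 4 * n * β ^ (3 : ℝ) := by
      have h7 : 1 ≤ β ^ (3 : ℝ) := Real.one_le_rpow hβ1 (by norm_num)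
      have h8 : (n : ℝ) * (L : ℝ) ^ 3 ≤ n * β ^ (3 : ℝ) :=
        mul_le_mul_of_nonneg_left hL3 (by positivity)
      have h9 : 1 ≤ (n : ℝ) * β ^ (3 : ℝ) := one_le_mul_of_one_le_of_one_le hnR h7
      linarith only [h8, h9]
    have h7 := Real.log_le_log (by positivity) h6
    rwa [Real.log_mul (x := 4 * (n : ℝ)) (by positivity) (by positivity), Real.log_rpow hβ] at h7
  have h6 : 2 * (L : ℝ) ^ 3 * Real.exp (-(n * (β / 2) / (6 * (L : ℝ) ^ 2))) ≤ 1 / 2 := by
    refine le_trans ?_ h2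
    rw [mul_assoc]
    refine mul_le_mul_of_nonneg_left ?_ (by norm_num)
    exact mul_le_mul hL3 hz1 (Real.exp_pos _).le (by positivity)
  have h7 : Real.log (4 * n) + 3 * Real.log β ≤ 1 / 2 * β ^ η := by
    rwa [div_le_iff₀ (by linarith)] at h3
  linarith

/-- Choice of the cube. -/
theorem exists_cube {n : ℕ} (hn : 1 ≤ n) {κ η : ℝ} (hκ : 0 < κ) (hη : 0 < η) (hη2 : η < 1 / 2) :
    ∀ᶠ β : ℝ in atTop, ∃ L : ℕ, 0 < L ∧ β ^ (1 / 2 + κ + η) / 2 ≤ L ∧
      Real.log (Zt n (cube L) (β / 2) 0) ≤ 8 * β ^ (3 * κ + 7 * η) := by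
  have hcr := crude_log hn hη (by linarith)
  have l1 : ∀ᶠ β : ℝ in atTop, 2 ≤ β ^ (1 / 2 - η) :=
    (tendsto_rpow_atTop (by linarith)).eventually_ge_atTop 2
  filter_upwards [hcr, l1, eventually_ge_atTop 1] with β hcr h2X hβ1
  have hβ0 : 0 < β := by linarith
  have pp : ∀ a : ℝ, 0 < β ^ a := fun a => Real.rpow_pos_of_pos hβ0 a
  set X : ℝ := β ^ (1 / 2 - η) with hX
  set Y : ℝ := β ^ (κ + 2 * η) with hY
  have hX0 : 0 < X := pp _
  have hY1 : 1 ≤ Y := Real.one_le_rpow hβ1 (by linarith)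
  obtain ⟨L0, hL0a, hL0b⟩ : ∃ L0 : ℕ, (L0 : ℝ) ≤ X ∧ X / 2 ≤ L0 := by
    refine ⟨⌊X⌋₊, Nat.floor_le hX0.le, ?_⟩
    have := Nat.lt_floor_add_one X
    linarith
  have hL0pos : 0 < L0 := by
    have : (0 : ℝ) < L0 := by linarith
    exact_mod_cast this
  obtain ⟨q, hqa, hqb⟩ : ∃ q : ℕ, Y ≤ q ∧ (q : ℝ) ≤ 2 * Y := by
    refine ⟨⌈Y⌉₊, Nat.le_ceil Y, ?_⟩
    have := (Nat.ceil_lt_add_one (by linarith : 0 ≤ Y)).le
    linarith
  have hqpos : 0 < q := by
    have : (0 : ℝ) < q := by linarith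
    exact_mod_cast this
  refine ⟨q * L0, Nat.mul_pos hqpos hL0pos, ?_, ?_⟩
  · have hXY : X * Y = β ^ (1 / 2 + κ + η) := by
      rw [hX, hY, ← Real.rpow_add hβ0]; congr 1; ring
    rw [Nat.cast_mul, ← hXY]
    have := mul_le_mul hqa hL0b (by positivity) (by positivity)
    linarith
  · have hYA : (2 * Y) ^ 3 * β ^ η = 8 * β ^ (3 * κ + 7 * η) := by
      rw [hY, mul_pow, ← Real.rpow_natCast (β ^ (κ + 2 * η)) 3, ← Real.rpow_mul hβ0.le, mul_assoc,
        ← Real.rpow_add hβ0]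
      norm_num
      congr 1
      ring
    have h1 := log_Zt_cube_mul (n := n) (β := β / 2) (t := 0) (by positivity) le_rfl q L0 hL0pos
    have h2 := hcr L0 hL0pos hL0a
    refine h1.trans ?_
    calc (q : ℝ) ^ 3 * Real.log (Zt n (cube L0) (β / 2) 0) ≤ (q : ℝ) ^ 3 * β ^ η :=
          mul_le_mul_of_nonneg_left h2 (by positivity)
      _ ≤ (2 * Y) ^ 3 * β ^ η :=
          mul_le_mul_of_nonneg_right (pow_le_pow_left₀ (by positivity) hqb 3) (pp _).le
      _ = _ := hYA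

theorem bJ_param {n : ℕ} (hn : 1 ≤ n) {β A : ℝ} (hβ0 : 0 < β) (hA1 : 1 ≤ A) (hAβ : A ≤ β) :
    H.bJ (2 * n / (2 * A / β)) ≤ 449 * Real.sqrt (A / β) := by
  have hnR : (1 : ℝ) ≤ n := by exact_mod_cast hn
  have hA0 : 0 < A := by linarith
  have hs0 : 0 < Real.sqrt (A / β) := Real.sqrt_pos.2 (by positivity)
  have haβ : β / A ≤ 2 * n / (2 * A / β) := by
    have : 2 * (n : ℝ) / (2 * A / β) = n * (β / A) := by field_simp
    rw [this]
    have h0 : 0 ≤ β / A := by positivity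
    exact le_mul_of_one_le_left h0 hnR
  have hβA : 1 ≤ β / A := by rwa [one_le_div hA0]
  generalize 2 * (n : ℝ) / (2 * A / β) = a at haβ
  have ha1 : 1 ≤ a := hβA.trans haβ
  have h1 := bJ_upper ha1
  have h2 : 448 / a ≤ 448 := div_le_self (by norm_num) ha1
  have h3 : Real.sqrt (β / A) ≤ Real.sqrt (2 * Real.pi * a) := by
    refine Real.sqrt_le_sqrt (haβ.trans ?_)
    have : 1 ≤ 2 * Real.pi := by linarith only [Real.pi_gt_three]
    exact le_mul_of_one_le_left (zero_le_one.trans ha1) this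
  have h4 : Real.sqrt (β / A) * H.bJ a ≤ 449 := by
    refine (mul_le_mul_of_nonneg_right h3 (H.bJ_nonneg a)).trans ?_
    linarith
  have h5 : Real.sqrt (A / β) * Real.sqrt (β / A) = 1 := by
    rw [← Real.sqrt_mul (by positivity), show A / β * (β / A) = 1 by field_simp, Real.sqrt_one]
  calc H.bJ a = Real.sqrt (A / β) * Real.sqrt (β / A) * H.bJ a := by rw [h5, one_mul]
    _ = Real.sqrt (A / β) * (Real.sqrt (β / A) * H.bJ a) := by ring
    _ ≤ Real.sqrt (A / β) * 449 := mul_le_mul_of_nonneg_left h4 hs0.le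
    _ = _ := by ring

/-- Consequences of the lower bound on the side. -/
theorem side_bounds {κ η β : ℝ} {L : ℕ} (hκ : 0 < κ) (hη : 0 < η) (hβ1 : 1 ≤ β) (hL : 0 < L)
    (hLge : β ^ (1 / 2 + κ + η) / 2 ≤ L) :
    β / 4 ≤ (L : ℝ) ^ 2 ∧ Real.sqrt β / L ≤ 2 * β ^ (-κ) ∧ β / (L : ℝ) ^ 2 ≤ 4 * β ^ (-κ) ∧
      Real.sqrt β ^ 3 / (L : ℝ) ^ 3 ≤ 8 * β ^ (-(3 * κ) - 3 * η) := by
  have hβ0 : 0 < β := by linarith
  have hLR : (0 : ℝ) < L := by exact_mod_cast hL
  have pw : ∀ {a b : ℝ}, a ≤ b → β ^ a ≤ β ^ b := fun h =>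
    Real.rpow_le_rpow_of_exponent_le hβ1 h
  have pp : ∀ a : ℝ, 0 < β ^ a := fun a => Real.rpow_pos_of_pos hβ0 a
  have hq0 := pp (1 / 2 + κ + η)
  have h2 : (β ^ (1 / 2 + κ + η) / 2) ^ 2 = β ^ (1 + 2 * κ + 2 * η) / 4 := by
    rw [div_pow, ← Real.rpow_natCast, ← Real.rpow_mul hβ0.le]
    norm_num
    congr 1
    ring
  have h1 : β ^ (1 + 2 * κ + 2 * η) / 4 ≤ (L : ℝ) ^ 2 := by
    rw [← h2]
    exact pow_le_pow_left₀ (by positivity) hLge 2
  refine ⟨?_, ?_, ?_, ?_⟩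
  · have h3 : β ≤ β ^ (1 + 2 * κ + 2 * η) := by
      nth_rewrite 1 [← Real.rpow_one β]
      exact pw (by linarith)
    linarith
  · rw [div_le_iff₀ hLR, Real.sqrt_eq_rpow]
    have h2 : β ^ (-κ) * β ^ (1 / 2 + κ + η) = β ^ (1 / 2 + η) := by
      rw [← Real.rpow_add hβ0]; congr 1; ring
    have h3 : β ^ (1 / 2 : ℝ) ≤ β ^ (1 / 2 + η) := pw (by linarith only [hη])
    have h4 := mul_le_mul_of_nonneg_left hLge (pp (-κ)).le
    linarith only [h2, h3, h4]
  · rw [div_le_iff₀ (by positivity)]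
    have h4 : β ^ (-κ) * β ^ (1 + 2 * κ + 2 * η) = β ^ (1 + κ + 2 * η) := by
      rw [← Real.rpow_add hβ0]; congr 1; ring
    have h5 : β ≤ β ^ (1 + κ + 2 * η) := by
      nth_rewrite 1 [← Real.rpow_one β]
      exact pw (by linarith only [hη, hκ])
    have h6 := mul_le_mul_of_nonneg_left h1 (pp (-κ)).le
    linarith only [h4, h5, h6]
  · have hsβ : Real.sqrt β ^ 3 = β ^ (3 / 2 : ℝ) := by
      rw [Real.sqrt_eq_rpow, ← Real.rpow_natCast, ← Real.rpow_mul hβ0.le]
      norm_num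
    rw [div_le_iff₀ (by positivity), hsβ]
    have h1 : (β ^ (1 / 2 + κ + η) / 2) ^ 3 ≤ (L : ℝ) ^ 3 :=
      pow_le_pow_left₀ (by positivity) hLge 3
    have h2 : (β ^ (1 / 2 + κ + η) / 2) ^ 3 = β ^ (3 / 2 + 3 * κ + 3 * η) / 8 := by
      rw [div_pow, ← Real.rpow_natCast, ← Real.rpow_mul hβ0.le]
      norm_num
      congr 1
      ring
    rw [h2] at h1
    have h3 : β ^ (-(3 * κ) - 3 * η) * β ^ (3 / 2 + 3 * κ + 3 * η) = β ^ (3 / 2 : ℝ) := by
      rw [← Real.rpow_add hβ0]; congr 1; ring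
    have h4 := mul_le_mul_of_nonneg_left h1 (pp (-(3 * κ) - 3 * η)).le
    linarith only [h3, h4]

/-- The interaction error. -/
theorem interaction_error {κ η β A P N W : ℝ} (hη : 43 * η ≤ 1 - 21 * κ)
    (hβ1 : 1 ≤ β) (hA : A = 8 * β ^ (3 * κ + 7 * η))
    (hP : P ≤ 8 * β ^ (-(3 * κ) - 3 * η)) (hN0 : 0 ≤ N) (hN : N ≤ 2 * (A * β ^ κ)) (hW0 : 0 ≤ W)
    (hW : W ≤ 899 * Real.sqrt (A / β)) :
    P * (β * (12 * Real.exp 2 * (N ^ 2 * W ^ 3))) ≤
      8 * (12 * Real.exp 2 * (4 * 8 ^ 2) * (899 ^ 3 * Real.sqrt 8 ^ 3)) * β ^ (-κ) := by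
  have hβ0 : 0 < β := by linarith
  have pw : ∀ {a b : ℝ}, a ≤ b → β ^ a ≤ β ^ b := fun h =>
    Real.rpow_le_rpow_of_exponent_le hβ1 h
  have pp : ∀ a : ℝ, 0 < β ^ a := fun a => Real.rpow_pos_of_pos hβ0 a
  have h1 : N ^ 2 ≤ (2 * (A * β ^ κ)) ^ 2 := pow_le_pow_left₀ hN0 hN 2
  have h1' : W ^ 3 ≤ (899 * Real.sqrt (A / β)) ^ 3 := pow_le_pow_left₀ hW0 hW 3
  have h2 : N ^ 2 * W ^ 3 ≤ (2 * (A * β ^ κ)) ^ 2 * (899 * Real.sqrt (A / β)) ^ 3 :=
    mul_le_mul h1 h1' (by positivity) (by positivity)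
  have h3 : Real.sqrt (A / β) ^ 3 = Real.sqrt 8 ^ 3 * β ^ ((9 * κ + 21 * η - 3) / 2) := by
    have e1 : A / β = 8 * β ^ (3 * κ + 7 * η - 1) := by
      rw [hA, Real.rpow_sub hβ0, Real.rpow_one]; ring
    rw [e1, Real.sqrt_mul (by norm_num), mul_pow, Real.sqrt_eq_rpow (β ^ _),
      ← Real.rpow_mul hβ0.le, ← Real.rpow_natCast (β ^ _), ← Real.rpow_mul hβ0.le]
    congr 2
    push_cast
    ring
  have q1 := pp (-(3 * κ) - 3 * η)
  have h4 : P * (β * (12 * Real.exp 2 * (N ^ 2 * W ^ 3))) ≤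
      8 * β ^ (-(3 * κ) - 3 * η) * (β * (12 * Real.exp 2 *
        ((2 * (A * β ^ κ)) ^ 2 * (899 * Real.sqrt (A / β)) ^ 3))) := by
    refine mul_le_mul hP ?_ (by positivity) (by positivity)
    exact mul_le_mul_of_nonneg_left (mul_le_mul_of_nonneg_left h2 (by positivity)) hβ0.le
  refine h4.trans ?_
  have h5 : 8 * β ^ (-(3 * κ) - 3 * η) * (β * (12 * Real.exp 2 *
        ((2 * (A * β ^ κ)) ^ 2 * (899 * Real.sqrt (A / β)) ^ 3))) =
      8 * (12 * Real.exp 2 * (4 * 8 ^ 2) * (899 ^ 3 * Real.sqrt 8 ^ 3)) *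
      (β ^ (-(3 * κ) - 3 * η) * β * (β ^ (3 * κ + 7 * η)) ^ 2 * (β ^ κ) ^ 2 *
        β ^ ((9 * κ + 21 * η - 3) / 2)) := by
    rw [mul_pow 899, h3, hA]
    ring
  rw [h5]
  refine mul_le_mul_of_nonneg_left ?_ (by positivity)
  have h6 : β ^ (-(3 * κ) - 3 * η) * β * (β ^ (3 * κ + 7 * η)) ^ 2 * (β ^ κ) ^ 2 *
        β ^ ((9 * κ + 21 * η - 3) / 2) =
      β ^ (-(3 * κ) - 3 * η + 1 + (3 * κ + 7 * η) * 2 + κ * 2 + (9 * κ + 21 * η - 3) / 2) := by
    have g : ∀ u v w : ℝ, β ^ v * β * (β ^ u) ^ 2 * (β ^ κ) ^ 2 * β ^ w =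
        β ^ (v + 1 + u * 2 + κ * 2 + w) := by
      intro u v w
      rw [Real.rpow_add hβ0, Real.rpow_add hβ0, Real.rpow_add hβ0, Real.rpow_add hβ0,
        Real.rpow_one, Real.rpow_mul hβ0.le u 2, Real.rpow_mul hβ0.le κ 2, Real.rpow_two,
        Real.rpow_two]
    exact g _ _ _
  rw [h6]
  refine pw ?_
  linarith

/-- (D6) Upper bound for the reduced pressure, uniformly in the field. -/
theorem gRed_upper {n : ℕ} (hn : 1 ≤ n) {κ : ℝ} (hκ : 0 < κ) (hκ2 : κ < 1 / 21) :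
    ∃ C β₀ : ℝ, ∀ β : ℝ, β₀ ≤ β → ∀ t : ℝ, β ^ (-κ) ≤ t →
      Real.sqrt β ^ 3 * gRed n β (t / β) ≤ FS ((n : ℝ) / 2) t + C * β ^ (-κ) := by
  have hnR : (1 : ℝ) ≤ n := by exact_mod_cast hn
  obtain ⟨C, hC0, hC⟩ := bosSer_le hn
  obtain ⟨η, hη, hη2, hη3⟩ : ∃ η : ℝ, 0 < η ∧ η ≤ 1 / 43 ∧ 43 * η ≤ 1 - 21 * κ :=
    ⟨(1 - 21 * κ) / 43, by linarith, by linarith, by linarith⟩
  have l2 : ∀ᶠ β : ℝ in atTop, 8 ≤ β ^ (1 - 3 * κ - 7 * η) :=
    (tendsto_rpow_atTop (by linarith)).eventually_ge_atTop 8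
  obtain ⟨β₀, hβ₀⟩ := eventually_atTop.1
    ((exists_cube hn hκ hη (by linarith)).and (l2.and (eventually_ge_atTop 448)))
  refine ⟨8 * Real.log 3 + 8 * (12 * Real.exp 2 * (4 * 8 ^ 2) * (899 ^ 3 * Real.sqrt 8 ^ 3)) +
    C * 7 + 8, β₀, fun β hβ t ht => ?_⟩
  obtain ⟨⟨L, hLpos, hLge, hz1⟩, h8, h448⟩ := hβ₀ β hβ
  have hβ0 : 0 < β := by linarith
  have hβ1 : 1 ≤ β := by linarith
  have pw : ∀ {a b : ℝ}, a ≤ b → β ^ a ≤ β ^ b := fun h =>
    Real.rpow_le_rpow_of_exponent_le hβ1 h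
  have pp : ∀ a : ℝ, 0 < β ^ a := fun a => Real.rpow_pos_of_pos hβ0 a
  have ht0 : 0 < t := lt_of_lt_of_le (pp _) ht
  have hLR : (0 : ℝ) < L := by exact_mod_cast hLpos
  obtain ⟨A, hA⟩ : ∃ A : ℝ, A = 8 * β ^ (3 * κ + 7 * η) := ⟨_, rfl⟩
  rw [← hA] at hz1
  have hA8 : 8 ≤ A := by
    have : 1 ≤ β ^ (3 * κ + 7 * η) := Real.one_le_rpow hβ1 (by linarith)
    rw [hA]; linarith
  have hz2 : Real.log (Zt n (cube L) β 0) ≤ A :=
    (Real.log_le_log (Zt_pos β 0) (Zt_anti (by linarith) le_rfl)).trans hz1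
  have hAβ : A ≤ β := by
    have h1 : β ^ (3 * κ + 7 * η) * β ^ (1 - 3 * κ - 7 * η) = β := by
      rw [← Real.rpow_add hβ0]
      nth_rewrite 2 [← Real.rpow_one β]
      congr 1; ring
    calc A = β ^ (3 * κ + 7 * η) * 8 := by rw [hA]; ring
      _ ≤ β ^ (3 * κ + 7 * η) * β ^ (1 - 3 * κ - 7 * η) :=
        mul_le_mul_of_nonneg_left h8 (pp _).le
      _ = β := h1
  obtain ⟨N1, hN1a, hN1b⟩ : ∃ N1 : ℕ, A ≤ t * N1 ∧ (N1 : ℝ) ≤ 2 * (A * β ^ κ) := by
    refine ⟨⌈A / t⌉₊, ?_, ?_⟩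
    · have := Nat.le_ceil (A / t)
      rwa [div_le_iff₀ ht0, mul_comm] at this
    · have h1 := (Nat.ceil_lt_add_one (by positivity : 0 ≤ A / t)).le
      have h2 : A / t ≤ A * β ^ κ := by
        rw [div_le_iff₀ ht0]
        have h3 : β ^ κ * β ^ (-κ) = 1 := by rw [← Real.rpow_add hβ0]; simp
        have h4 : A * β ^ κ * β ^ (-κ) ≤ A * β ^ κ * t :=
          mul_le_mul_of_nonneg_left ht (mul_nonneg (by linarith) (pp _).le)
        calc A = A * β ^ κ * β ^ (-κ) := by rw [mul_assoc, h3, mul_one]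
          _ ≤ _ := h4
      have h5 : 1 ≤ A * β ^ κ := by
        have := Real.one_le_rpow hβ1 hκ.le
        exact one_le_mul_of_one_le_of_one_le (by linarith only [hA8]) this
      linarith only [h1, h2, h5]
  have hup := logZt_upper hn hLpos (β := β) (t := t) (E1 := 2 * A / β) hβ0.le ht0
    (by positivity) N1 (hz1.trans (le_of_eq (by field_simp))) (hz2.trans hN1a)
  obtain ⟨sb1, sb2, sb3, sb4⟩ := side_bounds hκ hη hβ1 hLpos hLge
  have hbJ := bJ_param hn hβ0 (by linarith) hAβ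
  have hLinv : 1 / (L : ℝ) ≤ Real.sqrt (A / β) := by
    refine Real.le_sqrt_of_sq_le ?_
    rw [div_pow, one_pow, div_le_div_iff₀ (by positivity) hβ0, one_mul]
    have c4 := mul_le_mul_of_nonneg_right hA8 (sq_nonneg (L : ℝ))
    linarith only [sb1, c4, sq_nonneg (L : ℝ)]
  have hP0 : 0 < Real.sqrt β ^ 3 / (L : ℝ) ^ 3 := by positivity
  have piece2 := interaction_error hη3 hβ1 hA sb4 (Nat.cast_nonneg N1) hN1b
    (W := 1 / (L : ℝ) + 2 * H.bJ (2 * n / (2 * A / β)))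
    (by have := H.bJ_nonneg (2 * n / (2 * A / β)); positivity) (by linarith)
  have hPκ : Real.sqrt β ^ 3 / (L : ℝ) ^ 3 ≤ 8 * β ^ (-κ) :=
    sb4.trans (mul_le_mul_of_nonneg_left (pw (by linarith)) (by norm_num))
  have piece3 := hC β h448 L hLpos t ht0
  have g1 : 1 / β ≤ β ^ (-κ) := by
    rw [one_div, ← Real.rpow_neg_one]
    exact pw (by linarith)
  have g4 : Real.sqrt β ^ 3 / (L : ℝ) ^ 3 / t ≤ 8 * β ^ (-κ) := by
    rw [div_le_iff₀ ht0]
    have h2 : 8 * β ^ (-(3 * κ) - 3 * η) ≤ 8 * β ^ (-κ) * β ^ (-κ) := by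
      rw [mul_assoc, ← Real.rpow_add hβ0]
      exact mul_le_mul_of_nonneg_left (pw (by linarith)) (by norm_num)
    have h3 : 8 * β ^ (-κ) * β ^ (-κ) ≤ 8 * β ^ (-κ) * t :=
      mul_le_mul_of_nonneg_left ht (by have := pp (-κ); positivity)
    linarith
  have g5 : C * (1 / β + Real.sqrt β / L + β / (L : ℝ) ^ 2) ≤ C * (7 * β ^ (-κ)) :=
    mul_le_mul_of_nonneg_left (by linarith) hC0
  have hred := gRed_le (n := n) (β := β) (h := t / β) hβ0 (by positivity) hLpos
  rw [mul_div_cancel₀ t hβ0.ne'] at hred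
  set P : ℝ := Real.sqrt β ^ 3 / (L : ℝ) ^ 3 with hP
  have piece1 : P * Real.log 3 ≤ 8 * Real.log 3 * β ^ (-κ) := by
    have h1 : 0 ≤ Real.log 3 := Real.log_nonneg (by norm_num)
    have := mul_le_mul_of_nonneg_right hPκ h1
    linarith
  have h1 := mul_le_mul_of_nonneg_left hred (a := Real.sqrt β ^ 3) (by positivity)
  have h2 : Real.sqrt β ^ 3 * (Real.log (Zt n (cube L) β t) / (L : ℝ) ^ 3) =
      P * Real.log (Zt n (cube L) β t) := by rw [hP]; ring
  rw [h2] at h1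
  have h3 := mul_le_mul_of_nonneg_left hup hP0.le
  rw [mul_add, mul_add] at h3
  generalize 8 * (12 * Real.exp 2 * (4 * 8 ^ 2) * (899 ^ 3 * Real.sqrt 8 ^ 3)) = K at piece2 ⊢
  have h4 : (8 * Real.log 3 + K + C * 7 + 8) * β ^ (-κ) = 8 * Real.log 3 * β ^ (-κ) +
      K * β ^ (-κ) + C * (7 * β ^ (-κ)) + 8 * β ^ (-κ) := by ring
  rw [h4]
  linarith

end Vale.Agent.P361.B
end

section

/-!
Part B: final theorems.
-/

namespace Vale.Agent.P361.B

open Filter Topology

/-- Two-sided Bloch law, uniform for fields `h ≥ β^{-1-κ}`, `κ < 1/21`. -/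
theorem bloch_uniform {n : ℕ} (hn : 1 ≤ n) {κ : ℝ} (hκ2 : κ < 1 / 21) {ε : ℝ} (hε : 0 < ε) :
    ∀ᶠ β : ℝ in atTop, ∀ h : ℝ, β ^ (-1 - κ) ≤ h →
      |β ^ (3 / 2 : ℝ) * ((n : ℝ) / 2 - H.magAt n β h) - fS ((n : ℝ) / 2) (β * h)| ≤ ε := by
  -- reduce to positive exponent
  obtain ⟨κ₁, h1, h2, h3⟩ : ∃ κ₁ : ℝ, κ ≤ κ₁ ∧ 0 < κ₁ ∧ κ₁ < 1 / 21 := by
    rcases le_or_gt κ 0 with h | h
    · exact ⟨1 / 42, by linarith, by norm_num, by norm_num⟩
    · exact ⟨κ, le_rfl, h, hκ2⟩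
  obtain ⟨κ₂, h4, h5⟩ := exists_between h3
  have hU := gRed_upper hn (by linarith : 0 < κ₂) h5
  have h6 := deficit_uniform hn h2 h4 (by linarith) hU ε hε
  filter_upwards [h6, eventually_ge_atTop 1] with β h7 hβ1 h hh
  have hβ0 : 0 < β := by linarith
  have h8 := h7 (β * h) (by
    have h9 : β ^ (-κ₁) ≤ β * β ^ (-1 - κ) := by
      nth_rewrite 2 [← Real.rpow_one β]
      rw [← Real.rpow_add hβ0]
      exact Real.rpow_le_rpow_of_exponent_le hβ1 (by linarith)
    exact h9.trans (mul_le_mul_of_nonneg_left hh hβ0.le))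
  rw [mul_div_cancel_left₀ h hβ0.ne'] at h8
  rwa [H.rpow_three_half hβ0.le]

end Vale.Agent.P361.B
end

section

/-!
P361 stage 3, block (E): log-free upper bound for the free energy of cubes in zero field
(helper213). (Z2): `log Zt` on a cube of side `β^{51/100}` in the field of (Z1); (Z3): all cubes.
-/

namespace Vale.Agent.P361.B

open Filter Topology

namespace ZF

/-- Choice of the cube, with an upper bound of the side. -/
theorem exists_cube_ub {n : ℕ} (hn : 1 ≤ n) {κ η : ℝ} (hκ : 0 < κ) (hη : 0 < η)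
    (hη2 : η < 1 / 2) :
    ∀ᶠ β : ℝ in atTop, ∃ L : ℕ, 0 < L ∧ β ^ (1 / 2 + κ + η) / 2 ≤ L ∧
      (L : ℝ) ≤ 2 * β ^ (1 / 2 + κ + η) ∧
      Real.log (Zt n (cube L) (β / 2) 0) ≤ 8 * β ^ (3 * κ + 7 * η) := by
  have hcr := crude_log hn hη (by linarith)
  have l1 : ∀ᶠ β : ℝ in atTop, 2 ≤ β ^ (1 / 2 - η) :=
    (tendsto_rpow_atTop (by linarith)).eventually_ge_atTop 2
  filter_upwards [hcr, l1, eventually_ge_atTop 1] with β hcr h2X hβ1
  have hβ0 : 0 < β := by linarith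
  have pp : ∀ a : ℝ, 0 < β ^ a := fun a => Real.rpow_pos_of_pos hβ0 a
  set X : ℝ := β ^ (1 / 2 - η) with hX
  set Y : ℝ := β ^ (κ + 2 * η) with hY
  have hX0 : 0 < X := pp _
  have hY1 : 1 ≤ Y := Real.one_le_rpow hβ1 (by linarith)
  obtain ⟨L0, hL0a, hL0b⟩ : ∃ L0 : ℕ, (L0 : ℝ) ≤ X ∧ X / 2 ≤ L0 := by
    refine ⟨⌊X⌋₊, Nat.floor_le hX0.le, ?_⟩
    have := Nat.lt_floor_add_one X
    linarith
  have hL0pos : 0 < L0 := by
    have : (0 : ℝ) < L0 := by linarith
    exact_mod_cast this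
  obtain ⟨q, hqa, hqb⟩ : ∃ q : ℕ, Y ≤ q ∧ (q : ℝ) ≤ 2 * Y := by
    refine ⟨⌈Y⌉₊, Nat.le_ceil Y, ?_⟩
    have := (Nat.ceil_lt_add_one (by linarith : 0 ≤ Y)).le
    linarith
  have hqpos : 0 < q := by
    have : (0 : ℝ) < q := by linarith
    exact_mod_cast this
  have hXY : X * Y = β ^ (1 / 2 + κ + η) := by
    rw [hX, hY, ← Real.rpow_add hβ0]; congr 1; ring
  refine ⟨q * L0, Nat.mul_pos hqpos hL0pos, ?_, ?_, ?_⟩
  · rw [Nat.cast_mul, ← hXY]
    have := mul_le_mul hqa hL0b (by positivity) (by positivity)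
    linarith
  · rw [Nat.cast_mul, ← hXY]
    have := mul_le_mul hqb hL0a (by positivity) (by positivity)
    linarith
  · have hYA : (2 * Y) ^ 3 * β ^ η = 8 * β ^ (3 * κ + 7 * η) := by
      rw [hY, mul_pow, ← Real.rpow_natCast (β ^ (κ + 2 * η)) 3, ← Real.rpow_mul hβ0.le, mul_assoc,
        ← Real.rpow_add hβ0]
      norm_num
      congr 1
      ring
    have h1 := log_Zt_cube_mul (n := n) (β := β / 2) (t := 0) (by positivity) le_rfl q L0 hL0pos
    have h2 := hcr L0 hL0pos hL0a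
    refine h1.trans ?_
    calc (q : ℝ) ^ 3 * Real.log (Zt n (cube L0) (β / 2) 0) ≤ (q : ℝ) ^ 3 * β ^ η :=
          mul_le_mul_of_nonneg_left h2 (by positivity)
      _ ≤ (2 * Y) ^ 3 * β ^ η :=
          mul_le_mul_of_nonneg_right (pow_le_pow_left₀ (by positivity) hqb 3) (pp _).le
      _ = _ := hYA

/-- The interaction error, `κ = η = 1/200`, field at least `β^{-1/50}/24`. -/
theorem inter_err {β A N W : ℝ} (hβ1 : 1 ≤ β) (hA : A = 8 * β ^ (1 / 20 : ℝ)) (hN0 : 0 ≤ N)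
    (hN : N ≤ 48 * (A * β ^ (1 / 50 : ℝ))) (hW0 : 0 ≤ W) (hW : W ≤ 899 * Real.sqrt (A / β)) :
    β * (12 * Real.exp 2 * (N ^ 2 * W ^ 3)) ≤
      12 * Real.exp 2 * (48 ^ 2 * 8 ^ 2) * (899 ^ 3 * Real.sqrt 8 ^ 3) := by
  have hβ0 : 0 < β := by linarith
  have pp : ∀ a : ℝ, 0 < β ^ a := fun a => Real.rpow_pos_of_pos hβ0 a
  have h1 : N ^ 2 ≤ (48 * (A * β ^ (1 / 50 : ℝ))) ^ 2 := pow_le_pow_left₀ hN0 hN 2
  have h1' : W ^ 3 ≤ (899 * Real.sqrt (A / β)) ^ 3 := pow_le_pow_left₀ hW0 hW 3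
  have h2 : N ^ 2 * W ^ 3 ≤ (48 * (A * β ^ (1 / 50 : ℝ))) ^ 2 * (899 * Real.sqrt (A / β)) ^ 3 :=
    mul_le_mul h1 h1' (by positivity) (by positivity)
  have h3 : Real.sqrt (A / β) ^ 3 = Real.sqrt 8 ^ 3 * β ^ (-(57 / 40) : ℝ) := by
    have e1 : A / β = 8 * β ^ (-(19 / 20) : ℝ) := by
      rw [hA, show (-(19 / 20) : ℝ) = 1 / 20 - 1 by norm_num, Real.rpow_sub hβ0, Real.rpow_one]
      ring
    rw [e1, Real.sqrt_mul (by norm_num), mul_pow, Real.sqrt_eq_rpow (β ^ _),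
      ← Real.rpow_mul hβ0.le, ← Real.rpow_natCast (β ^ _), ← Real.rpow_mul hβ0.le]
    congr 2
    norm_num
  have h4 : β * (12 * Real.exp 2 * (N ^ 2 * W ^ 3)) ≤
      β * (12 * Real.exp 2 *
        ((48 * (A * β ^ (1 / 50 : ℝ))) ^ 2 * (899 * Real.sqrt (A / β)) ^ 3)) :=
    mul_le_mul_of_nonneg_left (mul_le_mul_of_nonneg_left h2 (by positivity)) hβ0.le
  refine h4.trans ?_
  have h5 : β * (12 * Real.exp 2 *
        ((48 * (A * β ^ (1 / 50 : ℝ))) ^ 2 * (899 * Real.sqrt (A / β)) ^ 3)) =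
      12 * Real.exp 2 * (48 ^ 2 * 8 ^ 2) * (899 ^ 3 * Real.sqrt 8 ^ 3) *
      (β * (β ^ (1 / 20 : ℝ)) ^ 2 * (β ^ (1 / 50 : ℝ)) ^ 2 * β ^ (-(57 / 40) : ℝ)) := by
    rw [mul_pow 899, h3, hA]
    ring
  rw [h5]
  have h6 : β * (β ^ (1 / 20 : ℝ)) ^ 2 * (β ^ (1 / 50 : ℝ)) ^ 2 * β ^ (-(57 / 40) : ℝ) =
      β ^ (-(57 / 200) : ℝ) := by
    have e1 : (β ^ (1 / 20 : ℝ)) ^ 2 = β ^ (1 / 10 : ℝ) := by
      rw [← Real.rpow_natCast, ← Real.rpow_mul hβ0.le]; norm_num
    have e2 : (β ^ (1 / 50 : ℝ)) ^ 2 = β ^ (1 / 25 : ℝ) := by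
      rw [← Real.rpow_natCast, ← Real.rpow_mul hβ0.le]; norm_num
    rw [e1, e2]
    nth_rewrite 1 [← Real.rpow_one β]
    rw [← Real.rpow_add hβ0, ← Real.rpow_add hβ0, ← Real.rpow_add hβ0]
    norm_num
  rw [h6]
  have h7 : β ^ (-(57 / 200) : ℝ) ≤ 1 := by
    have := Real.rpow_le_rpow_of_exponent_le hβ1 (show (-(57 / 200) : ℝ) ≤ 0 by norm_num)
    rwa [Real.rpow_zero] at this
  have h8 : 0 ≤ 12 * Real.exp 2 * (48 ^ 2 * 8 ^ 2) * (899 ^ 3 * Real.sqrt 8 ^ 3) := by positivity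
  calc _ ≤ 12 * Real.exp 2 * (48 ^ 2 * 8 ^ 2) * (899 ^ 3 * Real.sqrt 8 ^ 3) * 1 :=
        mul_le_mul_of_nonneg_left h7 h8
    _ = _ := mul_one _

end ZF

/-- (Z2) -/
theorem log_Zt_zf {n : ℕ} (hn : 1 ≤ n) : ∃ C b0 : ℝ, 0 ≤ C ∧ 1 ≤ b0 ∧ ∀ b : ℝ, b0 ≤ b →
    ∃ L : ℕ, 0 < L ∧ b ^ (51 / 100 : ℝ) / 2 ≤ L ∧ (L : ℝ) ≤ 2 * b ^ (51 / 100 : ℝ) ∧
      Real.log (Zt n (cube L) b (n * b / (6 * (L : ℝ) ^ 2))) ≤
        C * (L : ℝ) ^ 3 / b ^ (3 / 2 : ℝ) := by
  have hnR : (1 : ℝ) ≤ n := by exact_mod_cast hn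
  obtain ⟨C, hC0, hC⟩ := bosSer_le hn
  have l2 : ∀ᶠ β : ℝ in atTop, 8 ≤ β ^ (19 / 20 : ℝ) :=
    (tendsto_rpow_atTop (by norm_num)).eventually_ge_atTop 8
  obtain ⟨β₀, hβ₀⟩ := eventually_atTop.1
    ((ZF.exists_cube_ub hn (κ := 1 / 200) (η := 1 / 200) (by norm_num) (by norm_num)
      (by norm_num)).and (l2.and (eventually_ge_atTop 448)))
  have hKnn : 0 ≤ 12 * Real.exp 2 * (48 ^ 2 * 8 ^ 2) * (899 ^ 3 * Real.sqrt 8 ^ 3) := by
    positivity
  have haS := aS_nonneg ((n : ℝ) / 2)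
  have hlog3 : 0 ≤ Real.log 3 := Real.log_nonneg (by norm_num)
  refine ⟨8 * Real.log 3 + 8 * (12 * Real.exp 2 * (48 ^ 2 * 8 ^ 2) * (899 ^ 3 * Real.sqrt 8 ^ 3)) +
    aS ((n : ℝ) / 2) + C * 7 + 200, max β₀ 1, by positivity, le_max_right _ _,
    fun β hβ' => ?_⟩
  have hβ : β₀ ≤ β := (le_max_left _ _).trans hβ'
  obtain ⟨⟨L, hLpos, hLge, hLle, hz1⟩, h8, h448⟩ := hβ₀ β hβ
  rw [show (1 / 2 + 1 / 200 + 1 / 200 : ℝ) = 51 / 100 by norm_num] at hLge hLle
  refine ⟨L, hLpos, hLge, hLle, ?_⟩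
  have hβ0 : 0 < β := by linarith
  have hβ1 : 1 ≤ β := by linarith
  have pw : ∀ {a b : ℝ}, a ≤ b → β ^ a ≤ β ^ b := fun h =>
    Real.rpow_le_rpow_of_exponent_le hβ1 h
  have pp : ∀ a : ℝ, 0 < β ^ a := fun a => Real.rpow_pos_of_pos hβ0 a
  have hLR : (0 : ℝ) < L := by exact_mod_cast hLpos
  set t : ℝ := n * β / (6 * (L : ℝ) ^ 2) with ht
  have ht0 : 0 < t := by positivity
  have htlow : β ^ (-(1 / 50) : ℝ) / 24 ≤ t := by
    rw [ht, le_div_iff₀ (by positivity)]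
    have h1 : (L : ℝ) ^ 2 ≤ 4 * β ^ (51 / 50 : ℝ) := by
      calc (L : ℝ) ^ 2 ≤ (2 * β ^ (51 / 100 : ℝ)) ^ 2 := pow_le_pow_left₀ hLR.le hLle 2
        _ = 4 * β ^ (51 / 50 : ℝ) := by
          rw [mul_pow, ← Real.rpow_natCast (β ^ _), ← Real.rpow_mul hβ0.le]; norm_num
    have h2 : β ^ (-(1 / 50) : ℝ) * β ^ (51 / 50 : ℝ) = β := by
      rw [← Real.rpow_add hβ0]
      nth_rewrite 2 [← Real.rpow_one β]
      norm_num
    have h3 : β ^ (-(1 / 50) : ℝ) * (L : ℝ) ^ 2 ≤ 4 * β := by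
      calc _ ≤ β ^ (-(1 / 50) : ℝ) * (4 * β ^ (51 / 50 : ℝ)) :=
            mul_le_mul_of_nonneg_left h1 (pp _).le
        _ = 4 * (β ^ (-(1 / 50) : ℝ) * β ^ (51 / 50 : ℝ)) := by ring
        _ = 4 * β := by rw [h2]
    have hnβ := mul_le_mul_of_nonneg_right hnR hβ0.le
    linarith only [h3, hnβ]
  obtain ⟨A, hA⟩ : ∃ A : ℝ, A = 8 * β ^ (1 / 20 : ℝ) := ⟨_, rfl⟩
  rw [show (3 * (1 / 200) + 7 * (1 / 200) : ℝ) = 1 / 20 by norm_num, ← hA] at hz1
  have hA8 : 8 ≤ A := by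
    have : 1 ≤ β ^ (1 / 20 : ℝ) := Real.one_le_rpow hβ1 (by norm_num)
    rw [hA]; linarith
  have hz2 : Real.log (Zt n (cube L) β 0) ≤ A :=
    (Real.log_le_log (Zt_pos β 0) (Zt_anti (by linarith) le_rfl)).trans hz1
  have hAβ : A ≤ β := by
    have h1 : β ^ (1 / 20 : ℝ) * β ^ (19 / 20 : ℝ) = β := by
      rw [← Real.rpow_add hβ0]
      nth_rewrite 2 [← Real.rpow_one β]
      norm_num
    calc A = β ^ (1 / 20 : ℝ) * 8 := by rw [hA]; ring
      _ ≤ β ^ (1 / 20 : ℝ) * β ^ (19 / 20 : ℝ) :=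
        mul_le_mul_of_nonneg_left h8 (pp _).le
      _ = β := h1
  have hinvt : 1 / t ≤ 24 * β ^ (1 / 50 : ℝ) := by
    rw [div_le_iff₀ ht0]
    have h3 : β ^ (1 / 50 : ℝ) * β ^ (-(1 / 50) : ℝ) = 1 := by
      rw [← Real.rpow_add hβ0]; norm_num
    have h4 := mul_le_mul_of_nonneg_left htlow (a := 24 * β ^ (1 / 50 : ℝ))
      (by have := pp (1 / 50); positivity)
    have h5 : 24 * β ^ (1 / 50 : ℝ) * (β ^ (-(1 / 50) : ℝ) / 24) = 1 := by
      linear_combination h3
    linarith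
  obtain ⟨N1, hN1a, hN1b⟩ : ∃ N1 : ℕ, A ≤ t * N1 ∧ (N1 : ℝ) ≤ 48 * (A * β ^ (1 / 50 : ℝ)) := by
    refine ⟨⌈A / t⌉₊, ?_, ?_⟩
    · have := Nat.le_ceil (A / t)
      rwa [div_le_iff₀ ht0, mul_comm] at this
    · have h1 := (Nat.ceil_lt_add_one (by positivity : 0 ≤ A / t)).le
      have h2 : A / t ≤ 24 * (A * β ^ (1 / 50 : ℝ)) := by
        have := mul_le_mul_of_nonneg_left hinvt (a := A) (by linarith)
        calc A / t = A * (1 / t) := by ring
          _ ≤ _ := this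
          _ = _ := by ring
      have h5 : 1 ≤ A * β ^ (1 / 50 : ℝ) := by
        have := Real.one_le_rpow hβ1 (show (0 : ℝ) ≤ 1 / 50 by norm_num)
        exact one_le_mul_of_one_le_of_one_le (by linarith only [hA8]) this
      linarith only [h1, h2, h5]
  have hup := logZt_upper hn hLpos (β := β) (t := t) (E1 := 2 * A / β) hβ0.le ht0
    (by positivity) N1 (hz1.trans (le_of_eq (by field_simp))) (hz2.trans hN1a)
  obtain ⟨sb1, sb2, sb3, sb4⟩ := side_bounds (κ := 1 / 200) (η := 1 / 200) (by norm_num)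
    (by norm_num) hβ1 hLpos (by
      rw [show (1 / 2 + 1 / 200 + 1 / 200 : ℝ) = 51 / 100 by norm_num]; exact hLge)
  have hbJ := bJ_param hn hβ0 (by linarith) hAβ
  have hLinv : 1 / (L : ℝ) ≤ Real.sqrt (A / β) := by
    refine Real.le_sqrt_of_sq_le ?_
    rw [div_pow, one_pow, div_le_div_iff₀ (by positivity) hβ0, one_mul]
    have c4 := mul_le_mul_of_nonneg_right hA8 (sq_nonneg (L : ℝ))
    linarith only [sb1, c4, sq_nonneg (L : ℝ)]
  have hP0 : 0 < Real.sqrt β ^ 3 / (L : ℝ) ^ 3 := by positivity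
  have piece2 := ZF.inter_err hβ1 hA (Nat.cast_nonneg N1) hN1b
    (W := 1 / (L : ℝ) + 2 * H.bJ (2 * n / (2 * A / β)))
    (by have := H.bJ_nonneg (2 * n / (2 * A / β)); positivity) (by linarith)
  have hk1 : β ^ (-(1 / 200) : ℝ) ≤ 1 := by
    have := pw (show (-(1 / 200) : ℝ) ≤ 0 by norm_num)
    rwa [Real.rpow_zero] at this
  have hP3 : Real.sqrt β ^ 3 / (L : ℝ) ^ 3 ≤ 8 * β ^ (-(3 / 100) : ℝ) := by
    have e : (-(3 * (1 / 200)) - 3 * (1 / 200) : ℝ) = -(3 / 100) := by norm_num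
    rwa [e] at sb4
  have hP8 : Real.sqrt β ^ 3 / (L : ℝ) ^ 3 ≤ 8 := by
    have h1 : β ^ (-(3 / 100) : ℝ) ≤ 1 := by
      have := pw (show (-(3 / 100) : ℝ) ≤ 0 by norm_num)
      rwa [Real.rpow_zero] at this
    linarith
  have piece3 := hC β h448 L hLpos t ht0
  have g1 : 1 / β ≤ 1 := by rw [div_le_one hβ0]; exact hβ1
  have g4 : Real.sqrt β ^ 3 / (L : ℝ) ^ 3 / t ≤ 192 := by
    have h1 : Real.sqrt β ^ 3 / (L : ℝ) ^ 3 / t =
        Real.sqrt β ^ 3 / (L : ℝ) ^ 3 * (1 / t) := by ring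
    rw [h1]
    calc _ ≤ 8 * β ^ (-(3 / 100) : ℝ) * (24 * β ^ (1 / 50 : ℝ)) :=
          mul_le_mul hP3 hinvt (by positivity) (by have := pp (-(3 / 100)); positivity)
      _ = 192 * (β ^ (-(3 / 100) : ℝ) * β ^ (1 / 50 : ℝ)) := by ring
      _ = 192 * β ^ (-(1 / 100) : ℝ) := by rw [← Real.rpow_add hβ0]; norm_num
      _ ≤ 192 * 1 := by
          refine mul_le_mul_of_nonneg_left ?_ (by norm_num)
          have := pw (show (-(1 / 100) : ℝ) ≤ 0 by norm_num)
          rwa [Real.rpow_zero] at this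
      _ = 192 := by norm_num
  have g5 : C * (1 / β + Real.sqrt β / L + β / (L : ℝ) ^ 2) ≤ C * 7 :=
    mul_le_mul_of_nonneg_left (by linarith) hC0
  have hFS := FS_le ((n : ℝ) / 2) ht0.le
  set P : ℝ := Real.sqrt β ^ 3 / (L : ℝ) ^ 3 with hP
  have h3 := mul_le_mul_of_nonneg_left hup hP0.le
  rw [mul_add, mul_add] at h3
  generalize 12 * Real.exp 2 * (48 ^ 2 * 8 ^ 2) * (899 ^ 3 * Real.sqrt 8 ^ 3) = K at piece2 hKnn ⊢
  have piece1 : P * Real.log 3 ≤ 8 * Real.log 3 := mul_le_mul_of_nonneg_right hP8 hlog3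
  have piece2' : P * (β * (12 * Real.exp 2 *
      ((N1 : ℝ) ^ 2 * (1 / (L : ℝ) + 2 * H.bJ (2 * n / (2 * A / β))) ^ 3))) ≤ 8 * K := by
    calc _ ≤ P * K := mul_le_mul_of_nonneg_left piece2 hP0.le
      _ ≤ 8 * K := mul_le_mul_of_nonneg_right hP8 hKnn
  have h4 : P * Real.log (Zt n (cube L) β t) ≤
      8 * Real.log 3 + 8 * K + aS ((n : ℝ) / 2) + C * 7 + 200 := by linarith
  have hsβ : Real.sqrt β ^ 3 = β ^ (3 / 2 : ℝ) := by
    rw [Real.sqrt_eq_rpow, ← Real.rpow_natCast, ← Real.rpow_mul hβ0.le]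
    norm_num
  rw [le_div_iff₀ (pp _), ← hsβ]
  have h5 : P * (L : ℝ) ^ 3 = Real.sqrt β ^ 3 := by rw [hP]; field_simp
  have h6 := mul_le_mul_of_nonneg_right h4 (a := (L : ℝ) ^ 3) (by positivity)
  calc Real.log (Zt n (cube L) β t) * Real.sqrt β ^ 3
      = P * Real.log (Zt n (cube L) β t) * (L : ℝ) ^ 3 := by rw [← h5]; ring
    _ ≤ _ := h6

/-- (Z3), from (Z1). -/
theorem log_Zt_zero_of {n : ℕ} (hn : 1 ≤ n)
    (hZ1 : ∀ L : ℕ, 0 < L → ∀ b' b : ℝ, 0 ≤ b' → b' ≤ b →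
      Zt n (cube L) b 0 ≤ 2 * ((n : ℝ) * (L : ℝ) ^ 3 + 1) *
        Zt n (cube L) b' ((b - b') * n / (6 * (L : ℝ) ^ 2))) :
    ∃ C b0 : ℝ, 0 ≤ C ∧ 1 ≤ b0 ∧ ∀ b : ℝ, b0 ≤ b → ∀ l : ℕ,
      Real.log (Zt n (cube l) (2 * b) 0) ≤
        C * (l : ℝ) ^ 3 / b ^ (3 / 2 : ℝ) + C * b ^ (51 / 100 : ℝ) * (l : ℝ) ^ 2 := by
  have hnR : (1 : ℝ) ≤ n := by exact_mod_cast hn
  obtain ⟨C, b1, hC, hb1, h⟩ := log_Zt_zf hn
  -- `log (2 (n L³ + 1)) ≤ L³ / b^{3/2}` for large `b`
  have l1 : Tendsto (fun β : ℝ => (Real.log (32 * n) + 2 * Real.log β) / β ^ (3 / 100 : ℝ)) atTop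
      (𝓝 0) := by
    have h1 := (isLittleO_log_rpow_atTop (show (0 : ℝ) < 3 / 100 by norm_num)).tendsto_div_nhds_zero
    have h2 : Tendsto (fun β : ℝ => Real.log (32 * n) / β ^ (3 / 100 : ℝ)) atTop (𝓝 0) :=
      tendsto_const_nhds.div_atTop (tendsto_rpow_atTop (by norm_num))
    have h3 := h2.add (h1.const_mul 2)
    simp only [mul_zero, add_zero] at h3
    refine h3.congr fun β => ?_
    ring
  obtain ⟨b2, hb2⟩ := eventually_atTop.1
    (l1.eventually (ge_mem_nhds (show (0 : ℝ) < 1 / 8 by norm_num)))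
  have hlogn : 0 ≤ Real.log ((n : ℝ) + 1) := Real.log_nonneg (by linarith)
  refine ⟨C + 1 + 6 * Real.log ((n : ℝ) + 1), max (max b1 b2) 1, by positivity, le_max_right _ _,
    fun b hb l => ?_⟩
  have hbb1 : b1 ≤ b := (le_max_left _ _).trans ((le_max_left _ _).trans hb)
  have hbb2 : b2 ≤ b := (le_max_right _ _).trans ((le_max_left _ _).trans hb)
  have hb1' : 1 ≤ b := (le_max_right _ _).trans hb
  have hb0 : 0 < b := by linarith
  have pp : ∀ a : ℝ, 0 < b ^ a := fun a => Real.rpow_pos_of_pos hb0 a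
  obtain ⟨L, hLpos, hLge, hLle, hZ⟩ := h b hbb1
  have hLR : (0 : ℝ) < L := by exact_mod_cast hLpos
  have hlR : (0 : ℝ) ≤ l := Nat.cast_nonneg l
  -- the cube of side `L`
  have hZL : Real.log (Zt n (cube L) (2 * b) 0) ≤ (C + 1) * (L : ℝ) ^ 3 / b ^ (3 / 2 : ℝ) := by
    have h1 := hZ1 L hLpos b (2 * b) hb0.le (by linarith)
    have e : (2 * b - b) * n / (6 * (L : ℝ) ^ 2) = n * b / (6 * (L : ℝ) ^ 2) := by ring
    rw [e] at h1
    have h2 := Real.log_le_log (Zt_pos (n := n) (Λ := cube L) (2 * b) 0) h1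
    rw [Real.log_mul (by positivity) (Zt_pos b _).ne'] at h2
    have h3 : Real.log (2 * ((n : ℝ) * (L : ℝ) ^ 3 + 1)) ≤ (L : ℝ) ^ 3 / b ^ (3 / 2 : ℝ) := by
      have h4 : (L : ℝ) ^ 3 ≤ 8 * b ^ (2 : ℝ) := by
        calc (L : ℝ) ^ 3 ≤ (2 * b ^ (51 / 100 : ℝ)) ^ 3 := pow_le_pow_left₀ hLR.le hLle 3
          _ = 8 * b ^ (153 / 100 : ℝ) := by
            rw [mul_pow, ← Real.rpow_natCast (b ^ _), ← Real.rpow_mul hb0.le]; norm_num
          _ ≤ 8 * b ^ (2 : ℝ) :=
            mul_le_mul_of_nonneg_left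
              (Real.rpow_le_rpow_of_exponent_le hb1' (by norm_num)) (by norm_num)
      have h5 : 2 * ((n : ℝ) * (L : ℝ) ^ 3 + 1) ≤ 32 * n * b ^ (2 : ℝ) := by
        have h6 : 1 ≤ b ^ (2 : ℝ) := Real.one_le_rpow hb1' (by norm_num)
        have h7 : (n : ℝ) * (L : ℝ) ^ 3 ≤ n * (8 * b ^ (2 : ℝ)) :=
          mul_le_mul_of_nonneg_left h4 (by positivity)
        have h8 : 1 ≤ (n : ℝ) * b ^ (2 : ℝ) := one_le_mul_of_one_le_of_one_le hnR h6
        linarith only [h7, h8]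
      have h6 := Real.log_le_log (by positivity) h5
      rw [Real.log_mul (x := 32 * (n : ℝ)) (by positivity) (by positivity), Real.log_rpow hb0] at h6
      have h7 := hb2 b hbb2
      rw [div_le_iff₀ (pp _)] at h7
      have h8 : b ^ (3 / 100 : ℝ) / 8 ≤ (L : ℝ) ^ 3 / b ^ (3 / 2 : ℝ) := by
        rw [le_div_iff₀ (pp _)]
        have h9 : (b ^ (51 / 100 : ℝ) / 2) ^ 3 ≤ (L : ℝ) ^ 3 :=
          pow_le_pow_left₀ (by have := pp (51 / 100); positivity) hLge 3
        have h10 : (b ^ (51 / 100 : ℝ) / 2) ^ 3 = b ^ (3 / 100 : ℝ) / 8 * b ^ (3 / 2 : ℝ) := by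
          have e1 : b ^ (3 / 100 : ℝ) * b ^ (3 / 2 : ℝ) = b ^ (153 / 100 : ℝ) := by
            rw [← Real.rpow_add hb0]; norm_num
          have e2 : (b ^ (51 / 100 : ℝ)) ^ 3 = b ^ (153 / 100 : ℝ) := by
            rw [← Real.rpow_natCast, ← Real.rpow_mul hb0.le]; norm_num
          rw [div_pow, e2, div_mul_eq_mul_div, e1]
          norm_num
        rw [← h10]; exact h9
      linarith
    have h9 : (C + 1) * (L : ℝ) ^ 3 / b ^ (3 / 2 : ℝ) =
        C * (L : ℝ) ^ 3 / b ^ (3 / 2 : ℝ) + (L : ℝ) ^ 3 / b ^ (3 / 2 : ℝ) := by ring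
    rw [h9]
    linarith
  -- general cubes
  set q : ℕ := l / L with hq
  have hqL : q * L ≤ l := Nat.div_mul_le_self _ _
  have hqL2 : l ≤ q * L + L := by
    have h1 := Nat.div_add_mod l L
    have h2 := Nat.mod_lt l hLpos
    have h3 : L * (l / L) = q * L := by rw [hq, mul_comm]
    omega
  have hqLR : (q : ℝ) * L ≤ l := by exact_mod_cast hqL
  have hqL2R : (l : ℝ) ≤ q * L + L := by exact_mod_cast hqL2
  have hG := P361.G_cube_mul (G := gset n (2 * b) 0) (gset_superadd (by linarith))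
    gset_translate (gset_nonneg (by linarith) le_rfl) L q l hLpos hqL
  unfold gset at hG
  rw [card_cube, card_cube, ← cube_eq, ← cube_eq] at hG
  push_cast at hG
  have h1 : Real.log (Zt n (cube l) (2 * b) 0) ≤
      (q : ℝ) ^ 3 * Real.log (Zt n (cube L) (2 * b) 0) +
        Real.log ((n : ℝ) + 1) * ((l : ℝ) ^ 3 - ((q : ℝ) * L) ^ 3) := by
    rw [mul_pow]
    linarith only [hG]
  have h2 : (q : ℝ) ^ 3 * Real.log (Zt n (cube L) (2 * b) 0) ≤
      (C + 1) * (l : ℝ) ^ 3 / b ^ (3 / 2 : ℝ) := by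
    calc _ ≤ (q : ℝ) ^ 3 * ((C + 1) * (L : ℝ) ^ 3 / b ^ (3 / 2 : ℝ)) :=
          mul_le_mul_of_nonneg_left hZL (by positivity)
      _ = (C + 1) * ((q : ℝ) * L) ^ 3 / b ^ (3 / 2 : ℝ) := by rw [mul_pow]; ring
      _ ≤ (C + 1) * (l : ℝ) ^ 3 / b ^ (3 / 2 : ℝ) := by
          refine div_le_div_of_nonneg_right ?_ (pp _).le
          exact mul_le_mul_of_nonneg_left (pow_le_pow_left₀ (by positivity) hqLR 3) (by linarith)
  have h3 : (l : ℝ) ^ 3 - ((q : ℝ) * L) ^ 3 ≤ 3 * (l : ℝ) ^ 2 * L := by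
    have hx0 : 0 ≤ (q : ℝ) * L := by positivity
    generalize (q : ℝ) * L = x at hqLR hqL2R hx0
    have e : (l : ℝ) ^ 3 - x ^ 3 = (l - x) * (l ^ 2 + l * x + x ^ 2) := by ring
    rw [e]
    have h4 : (l : ℝ) ^ 2 + l * x + x ^ 2 ≤ 3 * (l : ℝ) ^ 2 := by
      have a1 := mul_le_mul_of_nonneg_left hqLR hlR
      have a2 := mul_le_mul hqLR hqLR hx0 hlR
      linarith only [a1, a2]
    have h5 : 0 ≤ (l : ℝ) - x := sub_nonneg.2 hqLR
    calc _ ≤ ((l : ℝ) - x) * (3 * (l : ℝ) ^ 2) := mul_le_mul_of_nonneg_left h4 h5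
      _ ≤ L * (3 * (l : ℝ) ^ 2) := mul_le_mul_of_nonneg_right (by linarith) (by positivity)
      _ = _ := by ring
  have h4 : Real.log ((n : ℝ) + 1) * ((l : ℝ) ^ 3 - ((q : ℝ) * L) ^ 3) ≤
      6 * Real.log ((n : ℝ) + 1) * b ^ (51 / 100 : ℝ) * (l : ℝ) ^ 2 := by
    calc _ ≤ Real.log ((n : ℝ) + 1) * (3 * (l : ℝ) ^ 2 * L) :=
          mul_le_mul_of_nonneg_left h3 hlogn
      _ ≤ Real.log ((n : ℝ) + 1) * (3 * (l : ℝ) ^ 2 * (2 * b ^ (51 / 100 : ℝ))) :=
          mul_le_mul_of_nonneg_left (mul_le_mul_of_nonneg_left hLle (by positivity)) hlogn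
      _ = _ := by ring
  have h5 : 0 ≤ 6 * Real.log ((n : ℝ) + 1) * ((l : ℝ) ^ 3 / b ^ (3 / 2 : ℝ)) := by
    have := pp (3 / 2); positivity
  have h6 : 0 ≤ (C + 1) * (b ^ (51 / 100 : ℝ) * (l : ℝ) ^ 2) := by
    have := pp (51 / 100); positivity
  have e1 : (C + 1 + 6 * Real.log ((n : ℝ) + 1)) * (l : ℝ) ^ 3 / b ^ (3 / 2 : ℝ) =
      (C + 1) * (l : ℝ) ^ 3 / b ^ (3 / 2 : ℝ) +
        6 * Real.log ((n : ℝ) + 1) * ((l : ℝ) ^ 3 / b ^ (3 / 2 : ℝ)) := by ring
  have e2 : (C + 1 + 6 * Real.log ((n : ℝ) + 1)) * b ^ (51 / 100 : ℝ) * (l : ℝ) ^ 2 =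
      (C + 1) * (b ^ (51 / 100 : ℝ) * (l : ℝ) ^ 2) +
        6 * Real.log ((n : ℝ) + 1) * b ^ (51 / 100 : ℝ) * (l : ℝ) ^ 2 := by ring
  rw [e1, e2]
  linarith

/-- (Z3), all cubes, all spins. -/
theorem log_Zt_zero {n : ℕ} (hn : 1 ≤ n) :
    ∃ C b0 : ℝ, 0 ≤ C ∧ 1 ≤ b0 ∧ ∀ b : ℝ, b0 ≤ b → ∀ l : ℕ,
      Real.log (Zt n (cube l) (2 * b) 0) ≤
        C * (l : ℝ) ^ 3 / b ^ (3 / 2 : ℝ) + C * b ^ (51 / 100 : ℝ) * (l : ℝ) ^ 2 :=
  log_Zt_zero_of hn fun _ hL _ _ _ hbb => Zt_su2 (by omega) hL hbb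

/-- (Z3), the form with a negative power. -/
theorem log_Zt_zero' {n : ℕ} (hn : 1 ≤ n) :
    ∃ C b0 : ℝ, 0 ≤ C ∧ 1 ≤ b0 ∧ ∀ b : ℝ, b0 ≤ b → ∀ l : ℕ,
      Real.log (Zt n (cube l) (2 * b) 0) ≤
        C * (l : ℝ) ^ 3 * b ^ (-(3 / 2) : ℝ) + C * b ^ (0.51 : ℝ) * (l : ℝ) ^ 2 := by
  obtain ⟨C, b0, hC, hb0, h⟩ := log_Zt_zero hn
  refine ⟨C, b0, hC, hb0, fun b hb l => (h b hb l).trans (le_of_eq ?_)⟩
  rw [Real.rpow_neg (by linarith), div_eq_mul_inv,
    show (0.51 : ℝ) = 51 / 100 by norm_num]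

end Vale.Agent.P361.B
end

section

set_option linter.unusedSectionVars false

/-!
P361, stage 3, (V) of note 10606: the Berezin-Lieb inequality for hard-core (occupation at most
`n`) bosons and a general one-particle matrix.
-/

namespace Vale.Agent.P361.LRO.S3.HC

open Finset Matrix Vale.Agent.P361.B

variable {V : Type*} [Fintype V] [DecidableEq V] {n : ℕ}

/-- Occupation numbers of a configuration. -/
def valC (σ : V → Fin (n + 1)) (x : V) : ℕ := (σ x : ℕ)

/-- The annihilation operator at `y` (occupation at most `n`). -/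
noncomputable def bM (n : ℕ) (y : V) : Matrix (V → Fin (n + 1)) (V → Fin (n + 1)) ℝ :=
  Matrix.of fun ρ σ => if valC σ = valC ρ + Pi.single y 1 then Real.sqrt ((valC ρ y : ℝ) + 1) else 0

/-- Second quantisation of the one-particle matrix `M`. -/
noncomputable def GamM (n : ℕ) (M : Matrix V V ℝ) : Matrix (V → Fin (n + 1)) (V → Fin (n + 1)) ℝ :=
  ∑ x, ∑ y, M x y • ((bM n x)ᵀ * bM n y)

lemma valC_inj {σ τ : V → Fin (n + 1)} (h : valC σ = valC τ) : σ = τ := by
  funext x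
  exact Fin.ext (congrFun h x)

/-- Extension by zero of the `N`-particle part. -/
noncomputable def extN (N : ℕ) (f : (V → Fin (n + 1)) → ℝ) (ζ : V → ℕ) : ℝ :=
  if h : (∀ x, ζ x ≤ n) ∧ ∑ x, ζ x = N then f (fun x => ⟨ζ x, Nat.lt_succ_of_le (h.1 x)⟩) else 0

lemma extN_out (N : ℕ) (f : (V → Fin (n + 1)) → ℝ) (ζ : V → ℕ) (h : ζ ∉ occBox V n) :
    extN N f ζ = 0 := by
  unfold extN
  rw [mem_occBox] at h
  rw [dif_neg fun h' => h h'.1]

lemma extN_sect (N : ℕ) (f : (V → Fin (n + 1)) → ℝ) (ζ : V → ℕ) (h : ∑ x, ζ x ≠ N) :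
    extN N f ζ = 0 := by
  unfold extN
  rw [dif_neg fun h' => h h'.2]

lemma extN_valC (N : ℕ) (f : (V → Fin (n + 1)) → ℝ) (σ : V → Fin (n + 1)) :
    extN N f (valC σ) = if ∑ x, valC σ x = N then f σ else 0 := by
  unfold extN
  by_cases h : ∑ x, valC σ x = N
  · have h1 : ∀ x, valC σ x ≤ n := fun x => Nat.lt_succ_iff.1 (σ x).2
    rw [dif_pos ⟨h1, h⟩, if_pos h]
    rfl
  · rw [dif_neg fun h' => h h'.2, if_neg h]

lemma sum_occBoxC (G : (V → ℕ) → ℝ) :
    ∑ ζ ∈ occBox V n, G ζ = ∑ σ : V → Fin (n + 1), G (valC σ) := by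
  symm
  refine Finset.sum_bij' (fun σ _ => valC σ)
    (fun ζ hζ => fun x => ⟨ζ x, Nat.lt_succ_of_le (mem_occBox.1 hζ x)⟩) ?_ ?_ ?_ ?_ ?_
  · intro σ _
    rw [mem_occBox]
    exact fun x => Nat.lt_succ_iff.1 (σ x).2
  · intro ζ _; exact Finset.mem_univ _
  · intro σ _; rfl
  · intro ζ _; rfl
  · intro σ _; rfl

lemma sum_valC_le (σ : V → Fin (n + 1)) : ∑ x, valC σ x ≤ n * Fintype.card V := by
  calc ∑ x, valC σ x ≤ ∑ _x : V, n := Finset.sum_le_sum fun x _ => Nat.lt_succ_iff.1 (σ x).2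
    _ = n * Fintype.card V := by rw [Finset.sum_const, Finset.card_univ, smul_eq_mul, mul_comm]

/-- inner product of the `N`-particle parts -/
lemma wf_extN (N : ℕ) (f g : (V → Fin (n + 1)) → ℝ) :
    ∑ x, wf N (extN N f) x * wf N (extN N g) x =
      ∑ σ, if ∑ x, valC σ x = N then f σ * g σ else 0 := by
  rw [wf_inner (n := n) (extN_out N f) (extN_sect N f), sum_occBoxC]
  refine Finset.sum_congr rfl fun σ _ => ?_
  rw [extN_valC, extN_valC]
  split_ifs <;> simp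

/-- The form of one hop in labelled particles. -/
lemma hop_prod (N : ℕ) (ψ : (V → ℕ) → ℝ) (h1 : ∀ ζ, ζ ∉ occBox V n → ψ ζ = 0)
    (h2 : ∀ ζ, ∑ v, ζ v ≠ N + 1 → ψ ζ = 0) (v w : V) :
    ∑ σ ∈ occBox V n, (Real.sqrt ((σ v : ℝ) + 1) * ψ (σ + Pi.single v 1)) *
      (Real.sqrt ((σ w : ℝ) + 1) * ψ (σ + Pi.single w 1)) =
    (N + 1 : ℝ) * ∑ x : Fin N → V, wf (N + 1) ψ (Fin.cons v x) *
      wf (N + 1) ψ (Fin.cons w x) := by
  have hout : ∀ ζ : V → ℕ, ζ ∉ occBox V n → ∀ v, ψ (ζ + Pi.single v 1) = 0 := by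
    intro ζ hζ v
    apply h1
    rw [mem_occBox] at hζ ⊢
    push Not at hζ ⊢
    obtain ⟨x, hx⟩ := hζ
    refine ⟨x, ?_⟩
    rw [Pi.add_apply]; omega
  have hsec : ∀ ζ : V → ℕ, ∑ u, ζ u ≠ N → ∀ v, ψ (ζ + Pi.single v 1) = 0 := by
    intro ζ hζ v
    apply h2
    simp only [Pi.add_apply, Finset.sum_add_distrib]
    rw [Finset.sum_pi_single']
    simp [hζ]
  refine (fiber_sum n N (fun σ => (Real.sqrt ((σ v : ℝ) + 1) * ψ (σ + Pi.single v 1)) *
      (Real.sqrt ((σ w : ℝ) + 1) * ψ (σ + Pi.single w 1)))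
      (fun ζ hζ => by simp only [hout ζ hζ]; simp)
      (fun ζ hζ => by simp only [hsec ζ hζ]; simp)).symm.trans ?_
  rw [Finset.mul_sum]
  refine Finset.sum_congr rfl fun x _ => ?_
  have hc := cnt_occ_pos x
  have hwf : ∀ u, Real.sqrt (N + 1 : ℝ) * wf (N + 1) ψ (Fin.cons u x) =
      Real.sqrt ((occ x u : ℝ) + 1) * ψ (occ x + Pi.single u 1) / Real.sqrt (cnt N (occ x)) := by
    intro u
    rw [wf, occ_cons]
    have hc2 : (0 : ℝ) < cnt (N + 1) (occ x + Pi.single u 1) := by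
      rw [← occ_cons]; exact cnt_occ_pos _
    have h3 : (cnt (N + 1) (occ x + Pi.single u 1) : ℝ) * ((occ x u : ℝ) + 1) =
        ((N : ℝ) + 1) * cnt N (occ x) := by exact_mod_cast cnt_succ N (occ x) u
    have h4 : Real.sqrt (cnt (N + 1) (occ x + Pi.single u 1)) * Real.sqrt ((occ x u : ℝ) + 1) =
        Real.sqrt ((N : ℝ) + 1) * Real.sqrt (cnt N (occ x)) := by
      rw [← Real.sqrt_mul hc2.le, h3, Real.sqrt_mul (by positivity)]
    have h5 : 0 < Real.sqrt (cnt (N + 1) (occ x + Pi.single u 1)) := Real.sqrt_pos.2 hc2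
    have h6 : 0 < Real.sqrt (cnt N (occ x)) := Real.sqrt_pos.2 hc
    rw [mul_div_assoc', div_eq_div_iff h5.ne' h6.ne']
    calc _ = (Real.sqrt ((N : ℝ) + 1) * Real.sqrt (cnt N (occ x))) * ψ (occ x + Pi.single u 1) := by
          ring
      _ = _ := by rw [← h4]; ring
  have h7 : (N + 1 : ℝ) * (wf (N + 1) ψ (Fin.cons v x) * wf (N + 1) ψ (Fin.cons w x)) =
      (Real.sqrt (N + 1 : ℝ) * wf (N + 1) ψ (Fin.cons v x)) *
        (Real.sqrt (N + 1 : ℝ) * wf (N + 1) ψ (Fin.cons w x)) := by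
    have h8 : Real.sqrt (N + 1 : ℝ) * Real.sqrt (N + 1 : ℝ) = N + 1 :=
      Real.mul_self_sqrt (by positivity)
    calc _ = (Real.sqrt (N + 1 : ℝ) * Real.sqrt (N + 1 : ℝ)) *
          (wf (N + 1) ψ (Fin.cons v x) * wf (N + 1) ψ (Fin.cons w x)) := by rw [h8]
      _ = _ := by ring
  rw [h7, hwf, hwf]
  have h9 : Real.sqrt (cnt N (occ x)) * Real.sqrt (cnt N (occ x)) = cnt N (occ x) :=
    Real.mul_self_sqrt hc.le
  rw [div_mul_div_comm, h9]

/-- An orthonormal basis is a `Spec` for the empty graph. -/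
lemma spec_of {e : V → V → ℝ} (hc : ∀ x y, ∑ k, e k x * e k y = if x = y then 1 else 0)
    (ho : ∀ k l, ∑ x, e k x * e l x = if k = l then 1 else 0) :
    Spec (fun _ _ : V => False) e 0 where
  eig := fun k x => by simp
  compl := hc
  orth := ho

/-- The one-particle form on labelled particles. -/
lemma form_succ {e : V → V → ℝ} (hc : ∀ x y, ∑ k, e k x * e k y = if x = y then 1 else 0)
    (ho : ∀ k l, ∑ x, e k x * e l x = if k = l then 1 else 0) {xe : V → ℝ} {M : Matrix V V ℝ}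
    (hM : ∀ a b, M a b = ∑ k, xe k * e k a * e k b) (N : ℕ) (ψ : (V → ℕ) → ℝ) :
    (N + 1 : ℝ) * ∑ v, ∑ w, M v w * ∑ x : Fin N → V, wf (N + 1) ψ (Fin.cons v x) *
      wf (N + 1) ψ (Fin.cons w x) =
    ∑ k : Fin (N + 1) → V, (∑ i, xe (k i)) * four e (wf (N + 1) ψ) k ^ 2 := by
  have hS := spec_of hc ho
  have h1 : ∑ v, ∑ w, M v w * ∑ x : Fin N → V, wf (N + 1) ψ (Fin.cons v x) *
      wf (N + 1) ψ (Fin.cons w x) =
      ∑ k, xe k * ∑ x : Fin N → V, (∑ v, e k v * wf (N + 1) ψ (Fin.cons v x)) ^ 2 := by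
    have e1 : ∀ v w, M v w * ∑ x : Fin N → V, wf (N + 1) ψ (Fin.cons v x) *
        wf (N + 1) ψ (Fin.cons w x) = ∑ k, ∑ x : Fin N → V, xe k *
          ((e k v * wf (N + 1) ψ (Fin.cons v x)) * (e k w * wf (N + 1) ψ (Fin.cons w x))) := by
      intro v w
      rw [hM, Finset.sum_mul]
      refine Finset.sum_congr rfl fun k _ => ?_
      rw [Finset.mul_sum]
      exact Finset.sum_congr rfl fun x _ => by ring
    simp only [e1]
    rw [Finset.sum_congr rfl fun v _ => Finset.sum_comm]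
    rw [Finset.sum_comm]
    refine Finset.sum_congr rfl fun k _ => ?_
    rw [Finset.mul_sum]
    rw [Finset.sum_congr rfl fun v _ => Finset.sum_comm]
    rw [Finset.sum_comm]
    refine Finset.sum_congr rfl fun x _ => ?_
    rw [sq, Finset.sum_mul_sum, Finset.mul_sum]
    refine Finset.sum_congr rfl fun v _ => ?_
    rw [Finset.mul_sum]
  have h2 : ∀ k : V, ∑ x : Fin N → V, (∑ v, e k v * wf (N + 1) ψ (Fin.cons v x)) ^ 2 =
      ∑ l : Fin N → V, four e (wf (N + 1) ψ) (Fin.cons k l) ^ 2 := by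
    intro k
    rw [← parseval hS (fun x : Fin N → V => ∑ v, e k v * wf (N + 1) ψ (Fin.cons v x))]
    exact Finset.sum_congr rfl fun l _ => by rw [four_cons]
  rw [h1]
  simp only [h2]
  have h3 : ∑ k, xe k * ∑ l : Fin N → V, four e (wf (N + 1) ψ) (Fin.cons k l) ^ 2 =
      ∑ k : Fin (N + 1) → V, xe (k 0) * four e (wf (N + 1) ψ) k ^ 2 := by
    rw [← (Fin.consEquiv fun _ => V).sum_comp, Fintype.sum_prod_type]
    refine Finset.sum_congr rfl fun k _ => ?_
    rw [Finset.mul_sum]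
    rfl
  rw [h3]
  have h4 : ∀ i : Fin (N + 1), ∑ k : Fin (N + 1) → V, xe (k i) * four e (wf (N + 1) ψ) k ^ 2 =
      ∑ k : Fin (N + 1) → V, xe (k 0) * four e (wf (N + 1) ψ) k ^ 2 := by
    intro i
    rw [← (Equiv.arrowCongr (Equiv.swap 0 i) (Equiv.refl V)).sum_comp]
    refine Finset.sum_congr rfl fun k _ => ?_
    have e1 : (Equiv.arrowCongr (Equiv.swap 0 i) (Equiv.refl V)) k = k ∘ Equiv.swap 0 i := by
      ext j; simp [Equiv.arrowCongr]
    rw [e1, four_perm hS _ (wf_perm ψ)]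
    simp
  have h5 : ∑ k : Fin (N + 1) → V, (∑ i, xe (k i)) * four e (wf (N + 1) ψ) k ^ 2 =
      ∑ i : Fin (N + 1), ∑ k : Fin (N + 1) → V, xe (k i) * four e (wf (N + 1) ψ) k ^ 2 := by
    rw [Finset.sum_comm]
    exact Finset.sum_congr rfl fun k _ => by rw [Finset.sum_mul]
  rw [h5]
  simp only [h4]
  rw [Finset.sum_const, Finset.card_univ, Fintype.card_fin, nsmul_eq_mul]
  push_cast
  ring

lemma extN_eq_sum (N : ℕ) (f : (V → Fin (n + 1)) → ℝ) (ζ : V → ℕ) (hζ : ∑ x, ζ x = N) :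
    extN N f ζ = ∑ σ, if valC σ = ζ then f σ else 0 := by
  by_cases h : ∀ x, ζ x ≤ n
  · set σ0 : V → Fin (n + 1) := fun x => ⟨ζ x, Nat.lt_succ_of_le (h x)⟩ with hσ0
    have hv : valC σ0 = ζ := rfl
    rw [Finset.sum_eq_single σ0]
    · rw [if_pos hv, ← hv, extN_valC, if_pos (by rw [hv]; exact hζ)]
    · intro σ _ hσ
      rw [if_neg fun h' => hσ (valC_inj (h'.trans hv.symm))]
    · intro h'; exact absurd (Finset.mem_univ _) h'
  · rw [extN_out N f ζ (by rw [mem_occBox]; exact h)]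
    symm
    refine Finset.sum_eq_zero fun σ _ => ?_
    rw [if_neg]
    intro h'
    apply h
    intro x
    rw [← h']
    exact Nat.lt_succ_iff.1 (σ x).2

lemma sum_add_single (ζ : V → ℕ) (y : V) : ∑ x, (ζ + Pi.single y 1 : V → ℕ) x = ∑ x, ζ x + 1 := by
  simp only [Pi.add_apply, Finset.sum_add_distrib]
  rw [Finset.sum_pi_single']
  simp

lemma bM_mulVec (y : V) (ψ : (V → Fin (n + 1)) → ℝ) (ρ : V → Fin (n + 1)) :
    (bM n y *ᵥ ψ) ρ = Real.sqrt ((valC ρ y : ℝ) + 1) *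
      extN (∑ x, valC ρ x + 1) ψ (valC ρ + Pi.single y 1) := by
  rw [extN_eq_sum _ _ _ (sum_add_single _ _), Matrix.mulVec, dotProduct, Finset.mul_sum]
  refine Finset.sum_congr rfl fun σ _ => ?_
  simp only [bM, Matrix.of_apply]
  split_ifs <;> ring

lemma form_GamM (M : Matrix V V ℝ) (ψ : (V → Fin (n + 1)) → ℝ) :
    ψ ⬝ᵥ (GamM n M *ᵥ ψ) = ∑ x, ∑ y, M x y * ∑ ρ, (bM n x *ᵥ ψ) ρ * (bM n y *ᵥ ψ) ρ := by
  unfold GamM
  rw [Matrix.sum_mulVec, dotProduct_sum]
  refine Finset.sum_congr rfl fun x _ => ?_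
  rw [Matrix.sum_mulVec, dotProduct_sum]
  refine Finset.sum_congr rfl fun y _ => ?_
  rw [Matrix.smul_mulVec, dotProduct_smul, smul_eq_mul]
  congr 1
  rw [← Matrix.mulVec_mulVec, Matrix.dotProduct_mulVec, Matrix.vecMul_transpose]
  rfl

/-- The form of `dΓ(M)` in the eigenbasis of `M`. -/
theorem form_eq {e : V → V → ℝ} (hc : ∀ x y, ∑ k, e k x * e k y = if x = y then 1 else 0)
    (ho : ∀ k l, ∑ x, e k x * e l x = if k = l then 1 else 0) {xe : V → ℝ} {M : Matrix V V ℝ}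
    (hM : ∀ a b, M a b = ∑ k, xe k * e k a * e k b) (ψ : (V → Fin (n + 1)) → ℝ) {R : ℕ}
    (hR : n * Fintype.card V < R) :
    ψ ⬝ᵥ (GamM n M *ᵥ ψ) = ∑ N ∈ range (R + 1), ∑ k : Fin N → V,
      (∑ i, xe (k i)) * four e (wf N (extN N ψ)) k ^ 2 := by
  rw [Finset.sum_range_succ', form_GamM]
  have h0 : ∑ k : Fin 0 → V, (∑ i, xe (k i)) * four e (wf 0 (extN 0 ψ)) k ^ 2 = 0 := by
    refine Finset.sum_eq_zero fun k _ => ?_
    simp
  rw [h0, add_zero]
  have h1 : ∀ N : ℕ, ∑ k : Fin (N + 1) → V,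
      (∑ i, xe (k i)) * four e (wf (N + 1) (extN (N + 1) ψ)) k ^ 2 =
      ∑ x, ∑ y, M x y * ∑ ρ : V → Fin (n + 1), if ∑ v, valC ρ v = N then
        (bM n x *ᵥ ψ) ρ * (bM n y *ᵥ ψ) ρ else 0 := by
    intro N
    rw [← form_succ hc ho hM N (extN (N + 1) ψ), Finset.mul_sum]
    refine Finset.sum_congr rfl fun x _ => ?_
    rw [Finset.mul_sum]
    refine Finset.sum_congr rfl fun y _ => ?_
    have h2 := hop_prod (n := n) N (extN (N + 1) ψ) (extN_out _ ψ) (extN_sect _ ψ) x y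
    rw [mul_left_comm, ← h2, sum_occBoxC]
    congr 1
    refine Finset.sum_congr rfl fun ρ _ => ?_
    split_ifs with h
    · rw [bM_mulVec, bM_mulVec, h]
    · rw [extN_sect (N + 1) ψ (valC ρ + Pi.single x 1)]
      · ring
      · rw [sum_add_single]; omega
  simp only [h1]
  symm
  rw [Finset.sum_comm]
  refine Finset.sum_congr rfl fun x _ => ?_
  rw [Finset.sum_comm]
  refine Finset.sum_congr rfl fun y _ => ?_
  rw [← Finset.mul_sum, Finset.sum_comm]
  congr 1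
  refine Finset.sum_congr rfl fun ρ _ => ?_
  rw [Finset.sum_ite_eq, if_pos]
  rw [Finset.mem_range]
  exact lt_of_le_of_lt (sum_valC_le ρ) hR

/-- Total norm in the labelled picture. -/
theorem norm_eq {e : V → V → ℝ} (hc : ∀ x y, ∑ k, e k x * e k y = if x = y then 1 else 0)
    (ho : ∀ k l, ∑ x, e k x * e l x = if k = l then 1 else 0) (ψ : (V → Fin (n + 1)) → ℝ) {R : ℕ}
    (hR : n * Fintype.card V < R) :
    ∑ N ∈ range R, ∑ k : Fin N → V, four e (wf N (extN N ψ)) k ^ 2 = ∑ σ, ψ σ ^ 2 := by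
  have hS := spec_of hc ho
  have h1 : ∀ N : ℕ, ∑ k : Fin N → V, four e (wf N (extN N ψ)) k ^ 2 =
      ∑ σ, if ∑ x, valC σ x = N then ψ σ * ψ σ else 0 := by
    intro N
    rw [parseval hS, ← wf_extN]
    exact Finset.sum_congr rfl fun x _ => by ring
  rw [Finset.sum_congr rfl fun N _ => h1 N, Finset.sum_comm]
  refine Finset.sum_congr rfl fun σ _ => ?_
  rw [Finset.sum_ite_eq, if_pos]
  · ring
  · rw [Finset.mem_range]
    exact lt_of_le_of_lt (sum_valC_le σ) hR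

/-- Bessel's inequality for the embedding of the hard-core space. -/
lemma bessel_emb {ι : Type*} (I : Finset ι) (ψ : ι → (V → Fin (n + 1)) → ℝ)
    (h1 : ∀ i ∈ I, ∑ σ, ψ i σ ^ 2 = 1)
    (h2 : ∀ i ∈ I, ∀ j ∈ I, i ≠ j → ∑ σ, ψ i σ * ψ j σ = 0) (N : ℕ) (Φ : (Fin N → V) → ℝ) :
    ∑ i ∈ I, (∑ x, Φ x * wf N (extN N (ψ i)) x) ^ 2 ≤ ∑ x, Φ x ^ 2 := by
  classical
  set χ : (V → Fin (n + 1)) → ℝ := fun σ =>
    ∑ x : Fin N → V, if valC σ = occ x then Φ x / Real.sqrt (cnt N (occ x)) else 0 with hχ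
  have hL : ∀ f : (V → Fin (n + 1)) → ℝ, ∑ x, Φ x * wf N (extN N f) x = ∑ σ, χ σ * f σ := by
    intro f
    simp only [hχ, Finset.sum_mul]
    rw [Finset.sum_comm]
    refine Finset.sum_congr rfl fun x _ => ?_
    rw [wf, extN_eq_sum N f (occ x) (sum_occ x), Finset.sum_div, Finset.mul_sum]
    refine Finset.sum_congr rfl fun σ _ => ?_
    split_ifs
    · ring
    · ring
  have hb := bessel I ψ χ h1 h2
  simp only [hL]
  refine hb.trans ?_
  set X := ∑ σ, χ σ ^ 2 with hX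
  have hX0 : 0 ≤ X := Finset.sum_nonneg fun _ _ => sq_nonneg _
  have e1 : X = ∑ x, Φ x * wf N (extN N χ) x := by
    rw [hL, hX]
    exact Finset.sum_congr rfl fun σ _ => by ring
  have e2 : X ^ 2 ≤ (∑ x, Φ x ^ 2) * ∑ x, wf N (extN N χ) x ^ 2 := by
    rw [e1]
    exact Finset.sum_mul_sq_le_sq_mul_sq _ _ _
  have e3 : ∑ x, wf N (extN N χ) x ^ 2 ≤ X := by
    have : ∑ x, wf N (extN N χ) x ^ 2 = ∑ x, wf N (extN N χ) x * wf N (extN N χ) x :=
      Finset.sum_congr rfl fun x _ => by ring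
    rw [this, wf_extN, hX]
    refine Finset.sum_le_sum fun σ _ => ?_
    split_ifs
    · exact le_of_eq (by ring)
    · positivity
  have hΦ0 : 0 ≤ ∑ x, Φ x ^ 2 := Finset.sum_nonneg fun _ _ => sq_nonneg _
  by_contra hcon
  push Not at hcon
  have hXpos : 0 < X := lt_of_le_of_lt hΦ0 hcon
  have : X ^ 2 ≤ (∑ x, Φ x ^ 2) * X := e2.trans (mul_le_mul_of_nonneg_left e3 hΦ0)
  nlinarith

/-- `∑_m e^{-x·m} ≤ ∏ (1 - e^{-x_k})⁻¹`. -/
lemma sum_occ_le {xe : V → ℝ} (hx : ∀ k, 0 < xe k) (R : ℕ) :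
    ∑ N ∈ range R, ∑ m ∈ occImg V N, Real.exp (-∑ k, xe k * (m k : ℝ)) ≤
      ∏ k, (1 - Real.exp (-xe k))⁻¹ := by
  classical
  have hdisj : Set.PairwiseDisjoint (↑(range R)) (fun N => occImg V N) := by
    intro N _ N' _ hne
    rw [Function.onFun, Finset.disjoint_left]
    intro m hm hm'
    obtain ⟨k, _, hk⟩ := Finset.mem_image.1 hm
    obtain ⟨k', _, hk'⟩ := Finset.mem_image.1 hm'
    apply hne
    rw [← sum_occ k, ← sum_occ k', hk, hk']
  rw [← Finset.sum_biUnion hdisj]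
  have hsub : (range R).biUnion (fun N => occImg V N) ⊆
      Fintype.piFinset fun _ : V => range (R + 1) := by
    intro m hm
    obtain ⟨N, hN, hm⟩ := Finset.mem_biUnion.1 hm
    obtain ⟨k, _, hk⟩ := Finset.mem_image.1 hm
    rw [Fintype.mem_piFinset]
    intro v
    rw [Finset.mem_range]
    have h1 : m v ≤ ∑ w, m w := Finset.single_le_sum (fun _ _ => Nat.zero_le _) (Finset.mem_univ v)
    have h2 : ∑ w, m w = N := by rw [← hk, sum_occ]
    have h3 := Finset.mem_range.1 hN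
    omega
  calc ∑ m ∈ (range R).biUnion (fun N => occImg V N), Real.exp (-∑ k, xe k * (m k : ℝ))
      ≤ ∑ m ∈ Fintype.piFinset fun _ : V => range (R + 1), Real.exp (-∑ k, xe k * (m k : ℝ)) :=
        Finset.sum_le_sum_of_subset_of_nonneg hsub fun _ _ _ => (Real.exp_pos _).le
    _ = ∑ m ∈ Fintype.piFinset fun _ : V => range (R + 1), ∏ k, Real.exp (-xe k) ^ (m k) := by
        refine Finset.sum_congr rfl fun m _ => ?_
        rw [← Finset.sum_neg_distrib, Real.exp_sum]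
        refine Finset.prod_congr rfl fun k _ => ?_
        rw [← Real.exp_nat_mul]
        congr 1; ring
    _ = ∏ k, ∑ j ∈ range (R + 1), Real.exp (-xe k) ^ j :=
        (Finset.prod_univ_sum (fun _ : V => range (R + 1))
          (fun k j => Real.exp (-xe k) ^ j)).symm
    _ ≤ ∏ k, (1 - Real.exp (-xe k))⁻¹ := by
        refine Finset.prod_le_prod (fun k _ => Finset.sum_nonneg fun _ _ => by positivity)
          fun k _ => ?_
        have h1 : Real.exp (-xe k) < 1 := by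
          rw [Real.exp_lt_one_iff]; linarith [hx k]
        have h2 := geom_sum_eq h1.ne (R + 1)
        rw [h2, ← neg_sub 1 (Real.exp (-xe k)), ← neg_sub 1 (Real.exp (-xe k) ^ (R + 1)), neg_div_neg_eq,
          div_eq_mul_inv]
        have h3 : 0 < 1 - Real.exp (-xe k) := by linarith
        have h4 : 1 - Real.exp (-xe k) ^ (R + 1) ≤ 1 := by
          have : 0 ≤ Real.exp (-xe k) ^ (R + 1) := by positivity
          linarith
        calc (1 - Real.exp (-xe k) ^ (R + 1)) * (1 - Real.exp (-xe k))⁻¹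
            ≤ 1 * (1 - Real.exp (-xe k))⁻¹ :=
              mul_le_mul_of_nonneg_right h4 (inv_nonneg.2 h3.le)
          _ = _ := one_mul _

/-- Berezin-Lieb for a family of orthonormal vectors. -/
theorem sum_exp_le {ι : Type*} (I : Finset ι) (E : ι → ℝ) (ψ : ι → (V → Fin (n + 1)) → ℝ)
    (h1 : ∀ i ∈ I, ∑ σ, ψ i σ ^ 2 = 1)
    (h2 : ∀ i ∈ I, ∀ j ∈ I, i ≠ j → ∑ σ, ψ i σ * ψ j σ = 0)
    {e : V → V → ℝ} (hc : ∀ x y, ∑ k, e k x * e k y = if x = y then 1 else 0)
    (ho : ∀ k l, ∑ x, e k x * e l x = if k = l then 1 else 0) {xe : V → ℝ} (hx : ∀ k, 0 < xe k)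
    {M : Matrix V V ℝ} (hM : ∀ a b, M a b = ∑ k, xe k * e k a * e k b)
    (hE : ∀ i ∈ I, ψ i ⬝ᵥ (GamM n M *ᵥ ψ i) ≤ E i) :
    ∑ i ∈ I, Real.exp (-E i) ≤ ∏ k, (1 - Real.exp (-xe k))⁻¹ := by
  classical
  have hS := spec_of hc ho
  set R : ℕ := n * Fintype.card V + 1 with hR
  set w : ι → (N : ℕ) → (V → ℕ) → ℝ := fun i N m =>
    ∑ k : Fin N → V, if occ k = m then four e (wf N (extN N (ψ i))) k ^ 2 else 0 with hw
  have hw0 : ∀ i N m, 0 ≤ w i N m := fun i N m =>
    Finset.sum_nonneg fun k _ => by split_ifs <;> positivity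
  have hfib : ∀ (i : ι) (N : ℕ) (g : (V → ℕ) → ℝ), ∑ m ∈ occImg V N, g m * w i N m =
      ∑ k : Fin N → V, g (occ k) * four e (wf N (extN N (ψ i))) k ^ 2 := by
    intro i N g
    simp only [hw, Finset.mul_sum]
    rw [Finset.sum_comm]
    refine Finset.sum_congr rfl fun k _ => ?_
    rw [Finset.sum_eq_single (occ k)]
    · rw [if_pos rfl]
    · intro m _ hm
      rw [if_neg (Ne.symm hm), mul_zero]
    · intro hk
      exact absurd (Finset.mem_image_of_mem _ (Finset.mem_univ k)) hk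
  set T : Finset (Σ _ : ℕ, V → ℕ) := (range (R + 1)).sigma fun N => occImg V N with hT
  have hone : ∀ i ∈ I, ∑ p ∈ T, w i p.1 p.2 = 1 := by
    intro i hi
    rw [hT, Finset.sum_sigma]
    have h3 : ∀ N : ℕ, ∑ m ∈ occImg V N, w i N m =
        ∑ k : Fin N → V, four e (wf N (extN N (ψ i))) k ^ 2 := by
      intro N
      have := hfib i N (fun _ => 1)
      simpa using this
    rw [Finset.sum_congr rfl fun N _ => h3 N, norm_eq hc ho (ψ i) (R := R + 1) (by omega), h1 i hi]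
  have hform : ∀ i ∈ I, ψ i ⬝ᵥ (GamM n M *ᵥ ψ i) =
      ∑ p ∈ T, w i p.1 p.2 * ∑ k, xe k * (p.2 k : ℝ) := by
    intro i hi
    rw [form_eq hc ho hM (ψ i) (R := R) (by omega), hT, Finset.sum_sigma]
    refine Finset.sum_congr rfl fun N _ => ?_
    have h3 := hfib i N (fun m => ∑ k, xe k * (m k : ℝ))
    rw [Finset.sum_congr rfl fun m _ => mul_comm (w i N m) _, h3]
    refine Finset.sum_congr rfl fun k _ => ?_
    rw [sum_lam_occ]
  have hle : ∀ p ∈ T, ∑ i ∈ I, w i p.1 p.2 ≤ 1 := by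
    rintro ⟨N, m⟩ hp
    rw [hT, Finset.mem_sigma] at hp
    obtain ⟨k0, _, hk0⟩ := Finset.mem_image.1 hp.2
    change occ k0 = m at hk0
    change ∑ i ∈ I, w i N m ≤ 1
    have hcn : (0 : ℝ) < cnt N m := by rw [← hk0]; exact cnt_occ_pos k0
    have hwm : ∀ i, w i N m = cnt N m * four e (wf N (extN N (ψ i))) k0 ^ 2 := by
      intro i
      simp only [hw]
      rw [cnt_eq_sum]
      push_cast
      rw [Finset.sum_mul]
      refine Finset.sum_congr rfl fun k _ => ?_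
      split_ifs with hk
      · rw [one_mul, four_occ hS _ (wf_perm _) (hk.trans hk0.symm)]
      · rw [zero_mul]
    set Φ : (Fin N → V) → ℝ := fun x => ∑ k : Fin N → V, if occ k = m then tens e k x else 0 with hΦ
    have hΦF : ∀ i, ∑ x, Φ x * wf N (extN N (ψ i)) x = cnt N m * four e (wf N (extN N (ψ i))) k0 := by
      intro i
      simp only [hΦ, Finset.sum_mul]
      rw [Finset.sum_comm, cnt_eq_sum]
      push_cast
      rw [Finset.sum_mul]
      refine Finset.sum_congr rfl fun k _ => ?_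
      by_cases hk : occ k = m
      · simp only [if_pos hk, one_mul]
        rw [four_occ hS _ (wf_perm _) (hk0.trans hk.symm)]
        rfl
      · simp only [if_neg hk, zero_mul, Finset.sum_const_zero]
    have hΦ2 : ∑ x, Φ x ^ 2 = cnt N m := by
      have h1 : ∀ x, Φ x ^ 2 = ∑ k : Fin N → V, ∑ l : Fin N → V,
          (if occ k = m then (1 : ℝ) else 0) * (if occ l = m then (1 : ℝ) else 0) *
            (tens e k x * tens e l x) := by
        intro x
        rw [sq]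
        simp only [hΦ]
        rw [Finset.sum_mul_sum]
        refine Finset.sum_congr rfl fun k _ => Finset.sum_congr rfl fun l _ => ?_
        by_cases hk : occ k = m <;> by_cases hl : occ l = m <;> simp [hk, hl]
      simp only [h1]
      rw [Finset.sum_comm, cnt_eq_sum]
      push_cast
      refine Finset.sum_congr rfl fun k _ => ?_
      rw [Finset.sum_comm]
      simp only [← Finset.mul_sum, tens_orth hS]
      rw [Finset.sum_eq_single k]
      · by_cases hk : occ k = m <;> simp [hk]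
      · intro l _ hl
        rw [if_neg (Ne.symm hl), mul_zero]
      · simp
    have hb := bessel_emb I ψ h1 h2 N Φ
    rw [hΦ2] at hb
    simp only [hΦF] at hb
    have h4 : ∑ i ∈ I, ((cnt N m : ℝ) * four e (wf N (extN N (ψ i))) k0) ^ 2 =
        cnt N m * ∑ i ∈ I, w i N m := by
      rw [Finset.mul_sum]
      exact Finset.sum_congr rfl fun i _ => by rw [hwm]; ring
    rw [h4] at hb
    by_contra hcon
    push Not at hcon
    have : (cnt N m : ℝ) * 1 < cnt N m * ∑ i ∈ I, w i N m := mul_lt_mul_of_pos_left hcon hcn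
    linarith
  have hterm : ∀ i ∈ I, Real.exp (-E i) ≤
      ∑ p ∈ T, w i p.1 p.2 * Real.exp (-∑ k, xe k * (p.2 k : ℝ)) := by
    intro i hi
    have h3 : Real.exp (∑ p ∈ T, w i p.1 p.2 * (-∑ k, xe k * (p.2 k : ℝ))) ≤
        ∑ p ∈ T, w i p.1 p.2 * Real.exp (-∑ k, xe k * (p.2 k : ℝ)) := by
      have := convexOn_exp.map_sum_le (t := T) (w := fun p => w i p.1 p.2)
        (p := fun p => -∑ k, xe k * (p.2 k : ℝ)) (fun p _ => hw0 i p.1 p.2) (hone i hi)
        (fun p _ => Set.mem_univ _)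
      simpa [smul_eq_mul] using this
    have h5 : ∑ p ∈ T, w i p.1 p.2 * (-∑ k, xe k * (p.2 k : ℝ)) =
        -(ψ i ⬝ᵥ (GamM n M *ᵥ ψ i)) := by
      rw [hform i hi, ← Finset.sum_neg_distrib]
      exact Finset.sum_congr rfl fun p _ => by ring
    rw [h5] at h3
    exact (Real.exp_le_exp.2 (neg_le_neg (hE i hi))).trans h3
  calc ∑ i ∈ I, Real.exp (-E i)
      ≤ ∑ i ∈ I, ∑ p ∈ T, w i p.1 p.2 * Real.exp (-∑ k, xe k * (p.2 k : ℝ)) :=
        Finset.sum_le_sum hterm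
    _ = ∑ p ∈ T, (∑ i ∈ I, w i p.1 p.2) * Real.exp (-∑ k, xe k * (p.2 k : ℝ)) := by
        rw [Finset.sum_comm]
        exact Finset.sum_congr rfl fun p _ => by rw [Finset.sum_mul]
    _ ≤ ∑ p ∈ T, Real.exp (-∑ k, xe k * (p.2 k : ℝ)) := by
        refine Finset.sum_le_sum fun p hp => ?_
        calc (∑ i ∈ I, w i p.1 p.2) * Real.exp (-∑ k, xe k * (p.2 k : ℝ))
            ≤ 1 * Real.exp (-∑ k, xe k * (p.2 k : ℝ)) :=
              mul_le_mul_of_nonneg_right (hle p hp) (Real.exp_pos _).le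
          _ = _ := one_mul _
    _ = ∑ N ∈ range (R + 1), ∑ m ∈ occImg V N, Real.exp (-∑ k, xe k * (m k : ℝ)) := by
        rw [hT, Finset.sum_sigma]
    _ ≤ _ := sum_occ_le hx (R + 1)

/-- Spectral decomposition of the trace of the exponential. -/
lemma trace_exp_neg_spec {κ : Type*} [Fintype κ] [DecidableEq κ] {A : Matrix κ κ ℝ}
    (hA : A.IsHermitian) :
    ∃ (E : κ → ℝ) (ψ : κ → κ → ℝ), (∀ i, ∑ σ, ψ i σ ^ 2 = 1) ∧
      (∀ i j, i ≠ j → ∑ σ, ψ i σ * ψ j σ = 0) ∧ (∀ i, ψ i ⬝ᵥ (A *ᵥ ψ i) = E i) ∧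
      trace (NormedSpace.exp (-A)) = ∑ i, Real.exp (-E i) := by
  set U : Matrix κ κ ℝ := (hA.eigenvectorUnitary : Matrix κ κ ℝ) with hU
  have hstar : star U = Uᵀ := by
    ext i j
    rw [Matrix.star_apply, Matrix.transpose_apply]; simp
  have hUU : Uᵀ * U = 1 := by rw [← hstar]; exact Unitary.coe_star_mul_self _
  have hUU' : U * Uᵀ = 1 := by rw [← hstar]; exact Unitary.coe_mul_star_self _
  set b : κ → ℝ := hA.eigenvalues with hb
  have hspec : A = U * diagonal b * Uᵀ := by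
    have h := hA.spectral_theorem
    rw [Unitary.conjStarAlgAut_apply] at h
    rw [← hstar]
    exact h
  have hort : ∀ i j, ∑ σ, U σ i * U σ j = if i = j then 1 else 0 := by
    intro i j
    have h := congrFun (congrFun hUU i) j
    rw [Matrix.mul_apply, Matrix.one_apply] at h
    exact h
  have hcol : A * U = U * diagonal b := by
    calc A * U = U * diagonal b * Uᵀ * U := by rw [← hspec]
      _ = U * diagonal b := by rw [Matrix.mul_assoc, hUU, Matrix.mul_one]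
  refine ⟨b, fun i σ => U σ i, ?_, ?_, ?_, ?_⟩
  · intro i
    have h := hort i i
    rw [if_pos rfl] at h
    rw [← h]
    exact Finset.sum_congr rfl fun σ _ => by ring
  · intro i j hij
    have h := hort i j
    rw [if_neg hij] at h
    exact h
  · intro i
    have h : A *ᵥ (fun σ => U σ i) = fun σ => b i * U σ i := by
      funext σ
      have h2 := congrFun (congrFun hcol σ) i
      rw [Matrix.mul_diagonal, Matrix.mul_apply] at h2
      rw [Matrix.mulVec, dotProduct, h2]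
      ring
    rw [h]
    have h3 := hort i i
    rw [if_pos rfl] at h3
    calc (fun σ => U σ i) ⬝ᵥ (fun σ => b i * U σ i) = b i * ∑ σ, U σ i * U σ i := by
          rw [dotProduct, Finset.mul_sum]
          exact Finset.sum_congr rfl fun σ _ => by ring
      _ = b i := by rw [h3, mul_one]
  · have hUinv : U⁻¹ = Uᵀ := Matrix.inv_eq_right_inv hUU'
    have hunit : IsUnit U := IsUnit.of_mul_eq_one _ hUU'
    have h1 : -A = U * diagonal (fun i => -b i) * U⁻¹ := by
      rw [hUinv]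
      conv_lhs => rw [hspec]
      have : diagonal (fun i => -b i) = -diagonal b := by
        rw [← Matrix.diagonal_neg]
      rw [this, Matrix.mul_neg, Matrix.neg_mul]
    rw [h1, Matrix.exp_conj _ _ hunit, Matrix.exp_diagonal, Matrix.trace_mul_comm,
      ← Matrix.mul_assoc, hUinv, hUU, Matrix.one_mul, Matrix.trace_diagonal]
    refine Finset.sum_congr rfl fun i _ => ?_
    rw [Pi.coe_exp, Real.exp_eq_exp_ℝ]

/-- **Berezin-Lieb**: if `A ≥ dΓ(M)` as forms on the space of occupations at most `n`, and `M` has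
eigenvalues `xe k > 0`, then `Tr e^{-A} ≤ ∏ (1 - e^{-xe k})⁻¹`. -/
theorem trace_exp_le {A : Matrix (V → Fin (n + 1)) (V → Fin (n + 1)) ℝ} (hA : A.IsHermitian)
    {e : V → V → ℝ} (hc : ∀ x y, ∑ k, e k x * e k y = if x = y then 1 else 0)
    (ho : ∀ k l, ∑ x, e k x * e l x = if k = l then 1 else 0) {xe : V → ℝ} (hx : ∀ k, 0 < xe k)
    {M : Matrix V V ℝ} (hM : ∀ a b, M a b = ∑ k, xe k * e k a * e k b)
    (hle : ∀ ψ : (V → Fin (n + 1)) → ℝ, ψ ⬝ᵥ (GamM n M *ᵥ ψ) ≤ ψ ⬝ᵥ (A *ᵥ ψ)) :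
    trace (NormedSpace.exp (-A)) ≤ ∏ k, (1 - Real.exp (-xe k))⁻¹ := by
  obtain ⟨E, ψ, h1, h2, h3, h4⟩ := trace_exp_neg_spec hA
  rw [h4]
  exact sum_exp_le Finset.univ E ψ (fun i _ => h1 i) (fun i _ j _ hij => h2 i j hij) hc ho hx hM
    fun i _ => (hle (ψ i)).trans (h3 i).le

lemma GamM_isHermitian {M : Matrix V V ℝ} (hM : M.IsHermitian) : (GamM n M).IsHermitian := by
  have hs : ∀ x y, M x y = M y x := fun x y => by
    have := hM.apply x y
    simpa using this.symm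
  unfold Matrix.IsHermitian GamM
  rw [Matrix.conjTranspose_sum]
  have h1 : ∀ x y, (M x y • ((bM n x)ᵀ * bM n y))ᴴ = M y x • ((bM n y)ᵀ * bM n x) := by
    intro x y
    ext i j
    rw [Matrix.conjTranspose_apply, star_trivial, Matrix.smul_apply, Matrix.smul_apply, hs x y,
      Matrix.mul_apply, Matrix.mul_apply]
    congr 1
    exact Finset.sum_congr rfl fun k _ => mul_comm _ _
  have h2 : ∀ x, (∑ y, M x y • ((bM n x)ᵀ * bM n y))ᴴ = ∑ y, M y x • ((bM n y)ᵀ * bM n x) := by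
    intro x
    rw [Matrix.conjTranspose_sum]
    exact Finset.sum_congr rfl fun y _ => h1 x y
  rw [Finset.sum_congr rfl fun x _ => h2 x, Finset.sum_comm]

end Vale.Agent.P361.LRO.S3.HC
end

section

set_option linter.unusedSectionVars false

/-!
P361, stage 3, (V1): the Berezin-Lieb inequality for `hcM`.
-/

namespace Vale.Agent.P361.LRO.S3

open Finset Matrix

variable {V : Type} [Fintype V] [DecidableEq V]

theorem aM_eq_bM (x : V) : aM x = HC.bM 1 x := by
  ext σ τ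
  rw [aM_apply, HC.bM, Matrix.of_apply]
  have hiff : (σ x = 0 ∧ τ = Function.update σ x 1) ↔
      (HC.valC (n := 1) τ = HC.valC (n := 1) σ + Pi.single x 1) := by
    constructor
    · rintro ⟨h0, rfl⟩
      funext v
      rw [Pi.add_apply]
      by_cases hv : v = x
      · subst hv
        simp [HC.valC, h0]
      · simp [HC.valC, hv]
    · intro h
      have hx : (τ x : ℕ) = (σ x : ℕ) + 1 := by
        have := congrFun h x
        simpa [HC.valC] using this
      have hτ := (τ x).2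
      have h0 : σ x = 0 := by
        apply Fin.ext
        change (σ x : ℕ) = 0
        omega
      refine ⟨h0, ?_⟩
      funext v
      by_cases hv : v = x
      · subst hv
        rw [Function.update_self]
        apply Fin.ext
        change (τ v : ℕ) = 1
        rw [hx, h0]; rfl
      · rw [Function.update_of_ne hv]
        apply Fin.ext
        have := congrFun h v
        simpa [HC.valC, hv] using this
  by_cases h : σ x = 0 ∧ τ = Function.update σ x 1
  · rw [if_pos h, if_pos (hiff.1 h)]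
    have : (HC.valC (n := 1) σ x : ℝ) = 0 := by
      simp [HC.valC, h.1]
    rw [this]
    simp
  · rw [if_neg h, if_neg fun h' => h (hiff.2 h')]

theorem hcM_eq_GamM (a : V → V → ℝ) : hcM a = HC.GamM 1 (Matrix.of a) := by
  rw [hcM, HC.GamM]
  refine Finset.sum_congr rfl fun x _ => Finset.sum_congr rfl fun y _ => ?_
  rw [aM_eq_bM, aM_eq_bM, Matrix.of_apply]

/-- (V1), general form: if `A ≥ hcM a` and `a = ∑ al_k e_k e_kᵀ` with `al_k > 0`. -/
theorem trace_exp_le_of_form {A : Matrix (V → Fin 2) (V → Fin 2) ℝ} (hA : A.IsHermitian)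
    {a : V → V → ℝ} {e : V → V → ℝ} {al : V → ℝ}
    (hc : ∀ x y, ∑ k, e k x * e k y = if x = y then 1 else 0)
    (ho : ∀ k l, ∑ x, e k x * e l x = if k = l then 1 else 0) (hal : ∀ k, 0 < al k)
    (ha : ∀ x y, a x y = ∑ k, al k * (e k x * e k y))
    (hle : ∀ ψ : (V → Fin 2) → ℝ, ψ ⬝ᵥ (hcM a *ᵥ ψ) ≤ ψ ⬝ᵥ (A *ᵥ ψ)) :
    trace (NormedSpace.exp (-A)) ≤ ∏ k, (1 - Real.exp (-al k))⁻¹ := by
  refine HC.trace_exp_le (n := 1) (M := Matrix.of a) hA hc ho hal (fun x y => ?_) fun ψ => ?_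
  · rw [Matrix.of_apply, ha]
    exact Finset.sum_congr rfl fun k _ => (mul_assoc _ _ _).symm
  · rw [← hcM_eq_GamM]
    exact hle ψ

/-- `a = ∑ al_k e_k e_kᵀ` is symmetric, hence `hcM a` is Hermitian. -/
theorem hcM_isHermitian_of {a : V → V → ℝ} {e : V → V → ℝ} {al : V → ℝ}
    (ha : ∀ x y, a x y = ∑ k, al k * (e k x * e k y)) : (hcM a).IsHermitian := by
  rw [hcM_eq_GamM]
  apply HC.GamM_isHermitian
  ext x y
  rw [Matrix.conjTranspose_apply, Matrix.of_apply, Matrix.of_apply, star_trivial, ha, ha]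
  exact Finset.sum_congr rfl fun k _ => by ring

/-- **(V1)** -/
theorem hcM_trace_le {a : V → V → ℝ} {e : V → V → ℝ} {al : V → ℝ}
    (hc : ∀ x y, ∑ k, e k x * e k y = if x = y then 1 else 0)
    (ho : ∀ k l, ∑ x, e k x * e l x = if k = l then 1 else 0) (hal : ∀ k, 0 < al k)
    (ha : ∀ x y, a x y = ∑ k, al k * (e k x * e k y)) :
    trace (NormedSpace.exp (-(hcM a))) ≤ ∏ k, (1 - Real.exp (-al k))⁻¹ :=
  trace_exp_le_of_form (hcM_isHermitian_of ha) hc ho hal ha fun _ => le_rfl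

end Vale.Agent.P361.LRO.S3
end

section

/-!
P361 stage 3, all spins: one-particle part on `Tor n × Fin s` (inter-site edges between all
copies).  Modes symmetric in the copies have energy `s * tq k`, all other modes energy `3 s`.
-/

namespace Vale.Agent.P361.LRO.S3S

open Finset Vale.Agent.P361.LRO.S3.OB Vale.Agent.P361.LRO.GenS

noncomputable section

/-! ### An orthonormal basis of `ℝ^s` containing the constant vector -/

set_option linter.unusedSectionVars false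

theorem exists_wb (s : ℕ) [NeZero s] : ∃ w : Fin s → Fin s → ℝ,
    (∀ j l, ∑ i, w j i * w l i = if j = l then 1 else 0) ∧
    (∀ i k, ∑ j, w j i * w j k = if i = k then 1 else 0) ∧
    ∀ i, w 0 i = 1 / Real.sqrt s := by
  classical
  have hs : (0 : ℝ) < s := by exact_mod_cast Nat.pos_of_ne_zero (NeZero.ne s)
  have hsq : (0 : ℝ) < Real.sqrt s := Real.sqrt_pos.2 hs
  let v : Fin s → EuclideanSpace ℝ (Fin s) := fun _ =>
    WithLp.toLp 2 (fun _ => 1 / Real.sqrt s)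
  have hv : Orthonormal ℝ (Set.domRestrict ({0} : Set (Fin s)) v) := by
    rw [orthonormal_iff_ite]
    intro a b
    have hab : a = b := by
      apply Subtype.ext
      rw [Set.mem_singleton_iff.1 a.2, Set.mem_singleton_iff.1 b.2]
    rw [if_pos hab]
    have h0 : ∀ a : ({0} : Set (Fin s)), Set.domRestrict ({0} : Set (Fin s)) v a =
        WithLp.toLp 2 (fun _ => 1 / Real.sqrt s) := fun a => rfl
    rw [h0, h0]
    simp only [PiLp.inner_apply, RCLike.inner_apply, conj_trivial]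
    rw [Finset.sum_const, Finset.card_univ, Fintype.card_fin, nsmul_eq_mul, div_mul_div_comm,
      Real.mul_self_sqrt hs.le]
    field_simp
  obtain ⟨b, hb⟩ := hv.exists_orthonormalBasis_extension_of_card_eq
    (ι := Fin s) (by simp)
  refine ⟨fun j i => b j i, ?_, ?_, ?_⟩
  · intro j l
    have h := orthonormal_iff_ite.1 b.orthonormal l j
    simp only [PiLp.inner_apply, RCLike.inner_apply, conj_trivial] at h
    rw [h]
    by_cases hjl : j = l
    · subst hjl; simp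
    · rw [if_neg hjl, if_neg fun h => hjl h.symm]
  · have hM : ∀ j l, ∑ i, b j i * b l i = if j = l then (1 : ℝ) else 0 := by
      intro j l
      have h := orthonormal_iff_ite.1 b.orthonormal l j
      simp only [PiLp.inner_apply, RCLike.inner_apply, conj_trivial] at h
      rw [h]
      by_cases hjl : j = l
      · subst hjl; simp
      · rw [if_neg hjl, if_neg fun h => hjl h.symm]
    have h1 : (Matrix.of fun j i => b j i) * (Matrix.of fun j i => b j i).transpose =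
        (1 : Matrix (Fin s) (Fin s) ℝ) := by
      ext j l
      rw [Matrix.mul_apply, Matrix.one_apply]
      exact hM j l
    have h2 := mul_eq_one_comm.1 h1
    intro i k
    have h3 := congrFun (congrFun h2 i) k
    rw [Matrix.mul_apply, Matrix.one_apply] at h3
    exact h3
  · intro i
    have := hb 0 (Set.mem_singleton _)
    simp only [v] at this
    simp only [this]

/-- The basis of `ℝ^s`. -/
def wb {s : ℕ} [NeZero s] (j i : Fin s) : ℝ := Classical.choose (exists_wb s) j i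

variable {n s : ℕ} [NeZero n] [NeZero s]

lemma wb_orth (j l : Fin s) : ∑ i, wb j i * wb l i = if j = l then 1 else 0 :=
  (Classical.choose_spec (exists_wb s)).1 j l

lemma wb_compl (i k : Fin s) : ∑ j, wb j i * wb j k = if i = k then 1 else 0 :=
  (Classical.choose_spec (exists_wb s)).2.1 i k

lemma wb_zero (i : Fin s) : wb 0 i = 1 / Real.sqrt s :=
  (Classical.choose_spec (exists_wb s)).2.2 i

lemma sqrt_pos' : (0 : ℝ) < Real.sqrt s := by
  have hs : (0 : ℝ) < s := by exact_mod_cast Nat.pos_of_ne_zero (NeZero.ne s)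
  exact Real.sqrt_pos.2 hs

lemma sum_wb (j c : Fin s) : ∑ i, wb j i = if j = 0 then s * wb j c else 0 := by
  have h1 : ∀ i, wb j i = Real.sqrt s * (wb j i * wb 0 i) := by
    intro i
    rw [wb_zero]
    have := sqrt_pos' (s := s)
    field_simp
  rw [Finset.sum_congr rfl fun i _ => h1 i, ← Finset.mul_sum, wb_orth]
  by_cases hj : j = 0
  · subst hj
    rw [if_pos rfl, if_pos rfl, wb_zero, mul_one]
    have hs : (0 : ℝ) ≤ s := Nat.cast_nonneg s
    have h2 := sqrt_pos' (s := s)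
    have h3 := Real.mul_self_sqrt hs
    field_simp
    nlinarith
  · rw [if_neg hj, if_neg hj, mul_zero]

/-! ### The basis on `Tor n × Fin s` -/

/-- The basis. -/
def hbS (k x : Tor n × Fin s) : ℝ := hb k.1 x.1 * wb k.2 x.2

lemma hbS_orth (k l : Tor n × Fin s) : ∑ x, hbS k x * hbS l x = if k = l then 1 else 0 := by
  unfold hbS
  rw [Fintype.sum_prod_type]
  have h1 : ∀ x : Tor n, ∑ i : Fin s, hb k.1 x * wb k.2 i * (hb l.1 x * wb l.2 i) =
      hb k.1 x * hb l.1 x * (if k.2 = l.2 then 1 else 0) := by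
    intro x
    rw [← wb_orth, Finset.mul_sum]
    exact Finset.sum_congr rfl fun i _ => by ring
  simp only [h1]
  rw [← Finset.sum_mul, hb_orth]
  by_cases h : k = l
  · subst h; simp
  · rw [if_neg h]
    by_cases h2 : k.1 = l.1
    · have h3 : k.2 ≠ l.2 := fun h3 => h (Prod.ext h2 h3)
      rw [if_neg h3, mul_zero]
    · rw [if_neg h2, zero_mul]

lemma hbS_compl (x y : Tor n × Fin s) : ∑ k, hbS k x * hbS k y = if x = y then 1 else 0 := by
  unfold hbS
  rw [Fintype.sum_prod_type]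
  have h1 : ∀ k : Tor n, ∑ j : Fin s, hb k x.1 * wb j x.2 * (hb k y.1 * wb j y.2) =
      hb k x.1 * hb k y.1 * (if x.2 = y.2 then 1 else 0) := by
    intro k
    rw [← wb_compl, Finset.mul_sum]
    exact Finset.sum_congr rfl fun i _ => by ring
  simp only [h1]
  rw [← Finset.sum_mul, hb_compl]
  by_cases h : x = y
  · subst h; simp
  · rw [if_neg h]
    by_cases h2 : x.1 = y.1
    · have h3 : x.2 ≠ y.2 := fun h3 => h (Prod.ext h2 h3)
      rw [if_neg h3, mul_zero]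
    · rw [if_neg h2, zero_mul]

/-- The one-particle kinetic matrix. -/
def tmatS (n s : ℕ) [NeZero n] (u v : Tor n × Fin s) : ℝ :=
  ((interE n s).map fun e => dd e.1 e.2 u v).sum / 2

/-- Its eigenvalues. -/
def tqS (k : Tor n × Fin s) : ℝ := if k.2 = 0 then s * tq k.1 else 3 * s

lemma tmatS_eq (u v : Tor n × Fin s) :
    tmatS n s u v = (∑ j : Fin 3, ∑ z : Tor n, ∑ i : Fin s, ∑ l : Fin s,
      dd (z, i) (z + Pi.single j 1, l) u v) / 2 := by
  unfold tmatS interE edges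
  congr 1
  have h0 : ∀ (l : List (Tor n × Tor n)) (g : (Tor n × Fin s) × (Tor n × Fin s) → ℝ),
      ((l.flatMap fun e => (List.finRange s).flatMap fun i => (List.finRange s).map fun j =>
        ((e.1, i), (e.2, j))).map g).sum =
      (l.map fun e => ∑ i : Fin s, ∑ j : Fin s, g ((e.1, i), (e.2, j))).sum := by
    intro l g
    induction l with
    | nil => simp
    | cons e l ih =>
      rw [List.flatMap_cons, List.map_append, List.sum_append, ih, List.map_cons, List.sum_cons]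
      congr 1
      have h3 : ∀ f : Fin s → ℝ, ((List.finRange s).map f).sum = ∑ i, f i := by
        intro f
        rw [← List.sum_ofFn, List.ofFn_eq_map]
      rw [List.map_flatMap, ← h3]
      have h4 : ∀ (q : List (Fin s)) (F : Fin s → List ℝ),
          (q.flatMap F).sum = (q.map fun i => (F i).sum).sum := by
        intro q F
        induction q with
        | nil => simp
        | cons a q ih => rw [List.flatMap_cons, List.sum_append, ih, List.map_cons, List.sum_cons]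
      rw [h4]
      congr 1
      refine List.map_congr_left fun i _ => ?_
      rw [List.map_map, ← h3]
      rfl
  rw [h0, List.map_map]
  have h1 := Finset.sum_map_toList (Finset.univ : Finset (Tor n × Fin 3))
    (fun z => ∑ i : Fin s, ∑ j : Fin s, dd (z.1, i) (z.1 + Pi.single z.2 1, j) u v)
  have h2 : ((fun e : Tor n × Tor n => ∑ i : Fin s, ∑ j : Fin s, dd (e.1, i) (e.2, j) u v) ∘
      fun z : Tor n × Fin 3 => (z.1, z.1 + Pi.single z.2 1)) =
      fun z => ∑ i : Fin s, ∑ j : Fin s, dd (z.1, i) (z.1 + Pi.single z.2 1, j) u v := rfl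
  rw [h2, h1, Fintype.sum_prod_type, Finset.sum_comm]

/-- A translated family of pairs, applied to a basis vector. -/
lemma ddS_shift (k : Tor n × Fin s) (u : Tor n × Fin s) (a b : Tor n) :
    ∑ z, ∑ i : Fin s, ∑ l : Fin s, ∑ v, dd (z + a, i) (z + b, l) u v * hbS k v =
      2 * s * hbS k u - 2 * (chi k.1 (a - b)).re * (hb k.1 u.1 * ∑ i, wb k.2 i) := by
  simp only [dd_apply]
  obtain ⟨p, q⟩ := k
  obtain ⟨x, c⟩ := u
  have h1 : ∀ (z : Tor n) (i l : Fin s),
      ((if (x, c) = (z + a, i) then (1 : ℝ) else 0) - (if (x, c) = (z + b, l) then 1 else 0)) *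
      (hbS (p, q) (z + a, i) - hbS (p, q) (z + b, l)) =
      (if i = c then (if z = x - a then hb p (z + a) * wb q i - hb p (z + b) * wb q l else 0)
        else 0) -
      (if l = c then (if z = x - b then hb p (z + a) * wb q i - hb p (z + b) * wb q l else 0)
        else 0) := by
    intro z i l
    have e1 : ((x, c) = (z + a, i)) ↔ (i = c ∧ z = x - a) := by
      rw [Prod.mk.injEq]
      constructor
      · rintro ⟨h, h'⟩; exact ⟨h'.symm, by rw [h]; abel⟩
      · rintro ⟨h, h'⟩; exact ⟨by rw [h']; abel, h.symm⟩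
    have e2 : ((x, c) = (z + b, l)) ↔ (l = c ∧ z = x - b) := by
      rw [Prod.mk.injEq]
      constructor
      · rintro ⟨h, h'⟩; exact ⟨h'.symm, by rw [h]; abel⟩
      · rintro ⟨h, h'⟩; exact ⟨by rw [h']; abel, h.symm⟩
    simp only [e1, e2, hbS, ite_and]
    split_ifs <;> ring
  simp only [h1]
  have h2 : ∀ z : Tor n, ∑ i : Fin s, ∑ l : Fin s,
      ((if i = c then (if z = x - a then hb p (z + a) * wb q i - hb p (z + b) * wb q l else 0)
        else 0) -
      (if l = c then (if z = x - b then hb p (z + a) * wb q i - hb p (z + b) * wb q l else 0)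
        else 0)) =
      (if z = x - a then s * (hb p (z + a) * wb q c) - hb p (z + b) * ∑ l, wb q l else 0) -
      (if z = x - b then hb p (z + a) * ∑ i, wb q i - s * (hb p (z + b) * wb q c) else 0) := by
    intro z
    simp only [Finset.sum_sub_distrib]
    congr 1
    · rw [Finset.sum_comm]
      simp only [Finset.sum_ite_eq', Finset.mem_univ, if_true]
      split_ifs
      · rw [Finset.sum_sub_distrib, Finset.sum_const, Finset.card_univ, Fintype.card_fin,
          nsmul_eq_mul, ← Finset.mul_sum]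
      · simp
    · simp only [Finset.sum_ite_eq', Finset.mem_univ, if_true]
      split_ifs
      · rw [Finset.sum_sub_distrib, Finset.sum_const, Finset.card_univ, Fintype.card_fin,
          nsmul_eq_mul, ← Finset.mul_sum]
      · simp
  simp only [h2]
  rw [Finset.sum_sub_distrib, Finset.sum_ite_eq' Finset.univ, Finset.sum_ite_eq' Finset.univ,
    if_pos (Finset.mem_univ _), if_pos (Finset.mem_univ _)]
  have h3 := hb_avg p x (a - b)
  have e1 : x - a + a = x := by abel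
  have e2 : x - a + b = x - (a - b) := by abel
  have e3 : x - b + a = x + (a - b) := by abel
  have e4 : x - b + b = x := by abel
  rw [e1, e2, e3, e4]
  simp only [hbS]
  linear_combination (-(∑ i, wb q i)) * h3

lemma tmatS_hb (k u : Tor n × Fin s) : ∑ v, tmatS n s u v * hbS k v = tqS k * hbS k u := by
  simp only [tmatS_eq]
  have h1 : ∀ v, (∑ j : Fin 3, ∑ z : Tor n, ∑ i : Fin s, ∑ l : Fin s,
      dd (z, i) (z + Pi.single j 1, l) u v) / 2 * hbS k v =
      ∑ j : Fin 3, ∑ z : Tor n, ∑ i : Fin s, ∑ l : Fin s,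
        (dd (z, i) (z + Pi.single j 1, l) u v * hbS k v) / 2 := by
    intro v
    rw [div_mul_eq_mul_div, Finset.sum_mul, Finset.sum_div]
    refine Finset.sum_congr rfl fun j _ => ?_
    rw [Finset.sum_mul, Finset.sum_div]
    refine Finset.sum_congr rfl fun z _ => ?_
    rw [Finset.sum_mul, Finset.sum_div]
    refine Finset.sum_congr rfl fun i _ => ?_
    rw [Finset.sum_mul, Finset.sum_div]
  simp only [h1]
  rw [Finset.sum_comm]
  have h2 : ∀ j : Fin 3, ∑ v, ∑ z : Tor n, ∑ i : Fin s, ∑ l : Fin s,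
      (dd (z, i) (z + Pi.single j 1, l) u v * hbS k v) / 2 =
      s * hbS k u - (chi k.1 (Pi.single j 1)).re * (hb k.1 u.1 * ∑ i, wb k.2 i) := by
    intro j
    have h3 := ddS_shift k u 0 (Pi.single j 1)
    simp only [add_zero] at h3
    have h4 : (chi k.1 (0 - Pi.single j 1)).re = (chi k.1 (Pi.single j 1)).re := by
      rw [zero_sub, chi_neg, Complex.conj_re]
    rw [h4] at h3
    have h5 : ∑ v, ∑ z : Tor n, ∑ i : Fin s, ∑ l : Fin s,
        (dd (z, i) (z + Pi.single j 1, l) u v * hbS k v) / 2 =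
        (∑ z, ∑ i : Fin s, ∑ l : Fin s, ∑ v, dd (z, i) (z + Pi.single j 1, l) u v * hbS k v) / 2 := by
      rw [Finset.sum_comm, Finset.sum_div]
      refine Finset.sum_congr rfl fun z _ => ?_
      rw [Finset.sum_comm, Finset.sum_div]
      refine Finset.sum_congr rfl fun i _ => ?_
      rw [Finset.sum_comm, Finset.sum_div]
      refine Finset.sum_congr rfl fun l _ => ?_
      rw [Finset.sum_div]
    rw [h5, h3]
    ring
  rw [Finset.sum_congr rfl fun j _ => h2 j, sum_wb k.2 u.2]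
  unfold tqS tq
  simp only [hbS, Fin.sum_univ_three]
  split_ifs <;> ring

/-- The one-particle matrix of the block reward, averaged over all translates of the cube. -/
def gmatS (n s : ℕ) [NeZero n] (w : ℕ) (u v : Tor n × Fin s) : ℝ :=
  (∑ z : Tor n, ∑ a : Fin 3 → Fin w, ∑ b : Fin 3 → Fin w, ∑ i : Fin s, ∑ l : Fin s,
    dd (z + io n a, i) (z + io n b, l) u v) / (2 * ((w : ℝ) ^ 6 * s))

/-- Its eigenvalues. -/
def gqS (w : ℕ) (k : Tor n × Fin s) : ℝ := if k.2 = 0 then gq w k.1 else if w = 0 then 0 else 1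

lemma gmatS_hb (w : ℕ) (k u : Tor n × Fin s) :
    ∑ v, gmatS n s w u v * hbS k v = gqS w k * hbS k u := by
  have hs : (0 : ℝ) < s := by exact_mod_cast Nat.pos_of_ne_zero (NeZero.ne s)
  unfold gmatS
  have h1 : ∀ v, (∑ z : Tor n, ∑ a : Fin 3 → Fin w, ∑ b : Fin 3 → Fin w, ∑ i : Fin s,
      ∑ l : Fin s, dd (z + io n a, i) (z + io n b, l) u v) / (2 * ((w : ℝ) ^ 6 * s)) * hbS k v =
      (∑ z : Tor n, ∑ a : Fin 3 → Fin w, ∑ b : Fin 3 → Fin w, ∑ i : Fin s, ∑ l : Fin s,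
        dd (z + io n a, i) (z + io n b, l) u v * hbS k v) / (2 * ((w : ℝ) ^ 6 * s)) := by
    intro v
    rw [div_mul_eq_mul_div]
    congr 1
    simp only [Finset.sum_mul]
  simp only [h1]
  rw [← Finset.sum_div]
  have h2 : ∑ v, ∑ z : Tor n, ∑ a : Fin 3 → Fin w, ∑ b : Fin 3 → Fin w, ∑ i : Fin s,
      ∑ l : Fin s, dd (z + io n a, i) (z + io n b, l) u v * hbS k v =
      ∑ a : Fin 3 → Fin w, ∑ b : Fin 3 → Fin w, ∑ z : Tor n, ∑ i : Fin s, ∑ l : Fin s, ∑ v,
        dd (z + io n a, i) (z + io n b, l) u v * hbS k v := by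
    rw [Finset.sum_comm]
    have h3 : ∀ z : Tor n, ∑ v, ∑ a : Fin 3 → Fin w, ∑ b : Fin 3 → Fin w, ∑ i : Fin s,
        ∑ l : Fin s, dd (z + io n a, i) (z + io n b, l) u v * hbS k v =
        ∑ a : Fin 3 → Fin w, ∑ b : Fin 3 → Fin w, ∑ i : Fin s, ∑ l : Fin s, ∑ v,
        dd (z + io n a, i) (z + io n b, l) u v * hbS k v := by
      intro z
      rw [Finset.sum_comm]
      refine Finset.sum_congr rfl fun a _ => ?_
      rw [Finset.sum_comm]
      refine Finset.sum_congr rfl fun b _ => ?_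
      rw [Finset.sum_comm]
      refine Finset.sum_congr rfl fun i _ => ?_
      rw [Finset.sum_comm]
    rw [Finset.sum_congr rfl fun z _ => h3 z, Finset.sum_comm]
    refine Finset.sum_congr rfl fun a _ => ?_
    rw [Finset.sum_comm]
  rw [h2]
  simp only [ddS_shift]
  rw [sum_wb k.2 u.2]
  have hcard : (∑ _a : Fin 3 → Fin w, ∑ _b : Fin 3 → Fin w, (1 : ℝ)) = (w : ℝ) ^ 6 := by
    simp
    ring
  unfold gqS
  rcases Nat.eq_zero_or_pos w with hw | hw
  · subst hw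
    simp [gq]
  have hw' : (0 : ℝ) < (w : ℝ) ^ 6 := by positivity
  by_cases hk : k.2 = 0
  · rw [if_pos hk, if_pos hk]
    unfold gq
    have e1 : ∀ a b : Fin 3 → Fin w, 2 * (s : ℝ) * hbS k u - 2 * (chi k.1 (io n a - io n b)).re *
        (hb k.1 u.1 * (s * wb k.2 u.2)) =
        (1 - (chi k.1 (io n a - io n b)).re) * (2 * s * hbS k u) := by
      intro a b
      simp only [hbS]
      ring
    simp only [e1]
    simp only [← Finset.sum_mul]
    field_simp
  · rw [if_neg hk, if_neg hk, if_neg hw.ne']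
    have e1 : ∀ a b : Fin 3 → Fin w, 2 * (s : ℝ) * hbS k u - 2 * (chi k.1 (io n a - io n b)).re *
        (hb k.1 u.1 * 0) = 1 * (2 * s * hbS k u) := by
      intro a b
      ring
    simp only [e1]
    simp only [← Finset.sum_mul]
    rw [hcard]
    field_simp

lemma tqS_nonneg (k : Tor n × Fin s) : 0 ≤ tqS k := by
  unfold tqS
  split_ifs
  · exact mul_nonneg (Nat.cast_nonneg s) (tq_nonneg _)
  · positivity

lemma gqS_nonneg (w : ℕ) (k : Tor n × Fin s) : 0 ≤ gqS w k := by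
  unfold gqS
  split_ifs
  · exact gq_nonneg _ _
  · exact le_rfl
  · exact zero_le_one

lemma gqS_le_one (w : ℕ) (k : Tor n × Fin s) : gqS w k ≤ 1 := by
  unfold gqS
  split_ifs
  · exact gq_le_one _ _
  · exact zero_le_one
  · exact le_rfl

lemma gqS_le (w : ℕ) (k : Tor n × Fin s) : gqS w k ≤ 12 * (w : ℝ) ^ 2 * tqS k := by
  have hs : (1 : ℝ) ≤ s := by exact_mod_cast Nat.pos_of_ne_zero (NeZero.ne s)
  unfold gqS tqS
  split_ifs with h1 h2
  · refine (gq_le w k.1).trans ?_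
    refine mul_le_mul_of_nonneg_left ?_ (by positivity)
    exact le_mul_of_one_le_left (tq_nonneg _) hs
  · positivity
  · have hw : (1 : ℝ) ≤ w := by exact_mod_cast Nat.pos_of_ne_zero h2
    have hw2 : (1 : ℝ) ≤ (w : ℝ) ^ 2 := by nlinarith
    nlinarith

/-- The eigenvalues stay positive. -/
lemma eigS_pos {w : ℕ} {β h lam μ : ℝ} (hβ : 0 < β) (hh : 0 < h) (hlam : 0 ≤ lam)
    (hμ : 12 * lam * (w : ℝ) ^ 2 ≤ μ) (hμ1 : μ ≤ 1) (k : Tor n × Fin s) :
    β * ((1 - μ) * tqS k + h) ≤ β * (tqS k + h - lam * gqS w k) ∧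
      0 < β * ((1 - μ) * tqS k + h) := by
  have h1 := tqS_nonneg k
  have h2 := mul_le_mul_of_nonneg_left (gqS_le w k) hlam
  constructor
  · refine mul_le_mul_of_nonneg_left ?_ hβ.le
    have h3 : lam * (12 * (w : ℝ) ^ 2 * tqS k) ≤ μ * tqS k := by
      have := mul_le_mul_of_nonneg_right hμ h1
      linarith
    linarith
  · have : 0 ≤ (1 - μ) * tqS k := mul_nonneg (by linarith) h1
    positivity

/-- (S1) for `s` copies: the free gas with the block reward. -/
theorem sum_logS_le {w : ℕ} {β h lam μ : ℝ} (hβ : 0 < β) (hh : 0 < h) (hlam : 0 ≤ lam)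
    (hμ : 12 * lam * (w : ℝ) ^ 2 ≤ μ) (hμ1 : μ ≤ 1) :
    ∑ k : Tor n × Fin s, -Real.log (1 - Real.exp (-(β * (tqS k + h - lam * gqS w k)))) ≤
      ∑ k : Tor n × Fin s, -Real.log (1 - Real.exp (-(β * (tqS k + h)))) +
        β * lam * ∑ k : Tor n × Fin s, 1 / (Real.exp (β * ((1 - μ) * tqS k + h)) - 1) := by
  rw [Finset.mul_sum, ← Finset.sum_add_distrib]
  refine Finset.sum_le_sum fun k _ => ?_
  obtain ⟨h1, h2⟩ := eigS_pos (w := w) hβ hh hlam hμ hμ1 k
  have hg0 := gqS_nonneg w k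
  have hg1 := gqS_le_one w k
  have hd : 0 ≤ β * (lam * gqS w k) := mul_nonneg hβ.le (mul_nonneg hlam hg0)
  have e1 : β * (tqS k + h - lam * gqS w k) = β * (tqS k + h) - β * (lam * gqS w k) := by ring
  have h3 := neg_log_shift (x := β * (tqS k + h)) hd (by linarith)
  rw [← e1] at h3
  refine h3.trans (add_le_add le_rfl ?_)
  have h4 := bose_anti h2 h1
  have h5 : β * (lam * gqS w k) ≤ β * lam := by
    rw [← mul_assoc]
    exact mul_le_of_le_one_right (mul_nonneg hβ.le hlam) hg1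
  have h6 : 0 ≤ 1 / (Real.exp (β * ((1 - μ) * tqS k + h)) - 1) := by
    have : 1 < Real.exp (β * ((1 - μ) * tqS k + h)) := by
      rw [Real.one_lt_exp_iff]; exact h2
    exact one_div_nonneg.2 (by linarith)
  exact (mul_le_mul_of_nonneg_left h4 hd).trans (mul_le_mul_of_nonneg_right h5 h6)

/-! ### Separation of the symmetric modes -/

lemma sum_modes (F : ℝ → ℝ) :
    ∑ k : Tor n × Fin s, F (tqS k) =
      ∑ k : Tor n, F (s * tq k) + (n : ℝ) ^ 3 * ((s : ℝ) - 1) * F (3 * s) := by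
  rw [Fintype.sum_prod_type]
  have h1 : ∀ k : Tor n, ∑ j : Fin s, F (tqS (k, j)) =
      F (s * tq k) + ((s : ℝ) - 1) * F (3 * s) := by
    intro k
    rw [← Finset.add_sum_erase Finset.univ _ (Finset.mem_univ (0 : Fin s))]
    congr 1
    have h2 : ∀ j ∈ Finset.univ.erase (0 : Fin s), F (tqS (k, j)) = F (3 * s) := by
      intro j hj
      have : j ≠ 0 := Finset.ne_of_mem_erase hj
      unfold tqS
      rw [if_neg this]
    rw [Finset.sum_congr rfl h2, Finset.sum_const, Finset.card_erase_of_mem (Finset.mem_univ _),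
      Finset.card_univ, Fintype.card_fin, nsmul_eq_mul, Nat.cast_sub
        (Nat.pos_of_ne_zero (NeZero.ne s)), Nat.cast_one]
  rw [Finset.sum_congr rfl fun k _ => h1 k, Finset.sum_add_distrib, Finset.sum_const,
    Finset.card_univ, nsmul_eq_mul]
  congr 1
  have hc : (Fintype.card (Tor n) : ℝ) = (n : ℝ) ^ 3 := by
    rw [Fintype.card_fun, ZMod.card, Fintype.card_fin]
    push_cast
    ring
  rw [hc]
  ring

lemma neg_log_le_exp {x : ℝ} (hx : 1 ≤ x) : -Real.log (1 - Real.exp (-x)) ≤ 2 * Real.exp (-x) := by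
  have h1 : Real.exp (-x) ≤ 1 / 2 := by
    have h2 : Real.exp (-x) ≤ Real.exp (-1) := Real.exp_le_exp.2 (by linarith)
    have h3 : Real.exp (-1) ≤ 1 / 2 := by
      rw [Real.exp_neg, inv_eq_one_div]
      exact one_div_le_one_div_of_le (by norm_num) (by linarith [Real.add_one_le_exp (1 : ℝ)])
    linarith
  have h0 := Real.exp_pos (-x)
  have h4 : Real.log (1 - Real.exp (-x))⁻¹ ≤ (1 - Real.exp (-x))⁻¹ - 1 :=
    Real.log_le_sub_one_of_pos (by
      have : 0 < 1 - Real.exp (-x) := by linarith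
      positivity)
  rw [Real.log_inv] at h4
  refine h4.trans ?_
  have h5 : 0 < 1 - Real.exp (-x) := by linarith
  rw [inv_eq_one_div, div_sub_one h5.ne', div_le_iff₀ h5]
  nlinarith

lemma bose_le_exp {x : ℝ} (hx : 1 ≤ x) : 1 / (Real.exp x - 1) ≤ 2 * Real.exp (-x) := by
  have h1 : 2 ≤ Real.exp x := by linarith [Real.add_one_le_exp x]
  have h2 : Real.exp x * Real.exp (-x) = 1 := by rw [← Real.exp_add]; simp
  have h0 := Real.exp_pos (-x)
  rw [div_le_iff₀ (by linarith)]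
  nlinarith

/-- The free gas for `s` copies, against the symmetric modes. -/
theorem sum_logS_le_sym {β h : ℝ} (hβ : 1 ≤ β) (hh : 0 < h) :
    ∑ k : Tor n × Fin s, -Real.log (1 - Real.exp (-(β * (tqS k + h)))) ≤
      ∑ k : Tor n, -Real.log (1 - Real.exp (-(β * (s * tq k + h)))) +
        (n : ℝ) ^ 3 * (2 * s * Real.exp (-(3 * β))) := by
  have hs : (1 : ℝ) ≤ s := by exact_mod_cast Nat.pos_of_ne_zero (NeZero.ne s)
  rw [sum_modes (n := n) (s := s) fun t => -Real.log (1 - Real.exp (-(β * (t + h))))]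
  refine add_le_add le_rfl ?_
  rw [mul_assoc]
  refine mul_le_mul_of_nonneg_left ?_ (by positivity)
  have hx : 3 * β ≤ β * (3 * s + h) := by nlinarith
  have h1 := neg_log_le_exp (x := β * (3 * s + h)) (by linarith)
  have h2 : Real.exp (-(β * (3 * s + h))) ≤ Real.exp (-(3 * β)) := Real.exp_le_exp.2 (by linarith)
  have h3 := Real.exp_pos (-(3 * β))
  have h4 := Real.exp_pos (-(β * (3 * s + h)))
  calc ((s : ℝ) - 1) * -Real.log (1 - Real.exp (-(β * (3 * s + h))))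
      ≤ ((s : ℝ) - 1) * (2 * Real.exp (-(β * (3 * s + h)))) :=
        mul_le_mul_of_nonneg_left h1 (by linarith)
    _ ≤ s * (2 * Real.exp (-(3 * β))) := by
        refine mul_le_mul (by linarith) (by linarith) (by positivity) (by linarith)
    _ = _ := by ring

/-- The density for `s` copies, against the symmetric modes. -/
theorem sum_boseS_le_sym {β h μ : ℝ} (hβ : 1 ≤ β) (hh : 0 < h) (hμ1 : μ ≤ 1 / 2) :
    ∑ k : Tor n × Fin s, 1 / (Real.exp (β * ((1 - μ) * tqS k + h)) - 1) ≤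
      ∑ k : Tor n, 1 / (Real.exp (β * ((1 - μ) * (s * tq k) + h)) - 1) +
        (n : ℝ) ^ 3 * (2 * s * Real.exp (-β)) := by
  have hs : (1 : ℝ) ≤ s := by exact_mod_cast Nat.pos_of_ne_zero (NeZero.ne s)
  rw [sum_modes (n := n) (s := s) fun t => 1 / (Real.exp (β * ((1 - μ) * t + h)) - 1)]
  refine add_le_add le_rfl ?_
  rw [mul_assoc]
  refine mul_le_mul_of_nonneg_left ?_ (by positivity)
  have hx : β ≤ β * ((1 - μ) * (3 * s) + h) := by
    have h1 : 1 ≤ (1 - μ) * (3 * s) + h := by nlinarith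
    nlinarith
  have h1 := bose_le_exp (x := β * ((1 - μ) * (3 * s) + h)) (by linarith)
  have h2 : Real.exp (-(β * ((1 - μ) * (3 * s) + h))) ≤ Real.exp (-β) :=
    Real.exp_le_exp.2 (by linarith)
  have h3 := Real.exp_pos (-β)
  have h4 := Real.exp_pos (-(β * ((1 - μ) * (3 * s) + h)))
  calc ((s : ℝ) - 1) * (1 / (Real.exp (β * ((1 - μ) * (3 * s) + h)) - 1))
      ≤ ((s : ℝ) - 1) * (2 * Real.exp (-(β * ((1 - μ) * (3 * s) + h)))) :=
        mul_le_mul_of_nonneg_left h1 (by linarith)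
    _ ≤ s * (2 * Real.exp (-β)) := by
        refine mul_le_mul (by linarith) (by linarith) (by positivity) (by linarith)
    _ = _ := by ring

end

end Vale.Agent.P361.LRO.S3S
end

section

/-!
P361, stage 3, all spins, block (M), row (B): the trace of the hard core gas on `Tor n × Fin s`
with the one-particle matrix `β (t_inter + h - lam g)` (helper979).
-/

set_option linter.unusedSectionVars false

namespace Vale.Agent.P361.LRO.S3S.MeanBS

open Finset Matrix Vale.Agent.P361.LRO.GenS Vale.Agent.P361.LRO.S3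

noncomputable section

section General

variable {V : Type} [Fintype V] [DecidableEq V]

/-- A kernel with the complete orthonormal system `e` of eigenvectors. -/
theorem kernel_eq {a : V → V → ℝ} {e : V → V → ℝ} {al : V → ℝ}
    (hc : ∀ x y, ∑ k, e k x * e k y = if x = y then 1 else 0)
    (heig : ∀ k u, ∑ v, a u v * e k v = al k * e k u) (x y : V) :
    a x y = ∑ k, al k * (e k x * e k y) := by
  have h1 : a x y = ∑ v, a x v * ∑ k, e k v * e k y := by
    simp only [hc]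
    simp
  rw [h1]
  simp only [Finset.mul_sum]
  rw [Finset.sum_comm]
  refine Finset.sum_congr rfl fun k _ => ?_
  rw [← mul_assoc, ← heig k x, Finset.sum_mul]
  exact Finset.sum_congr rfl fun v _ => by ring

theorem prod_inv_eq_exp {ι : Type*} (s : Finset ι) (f : ι → ℝ) (hf : ∀ k ∈ s, 0 < f k) :
    ∏ k ∈ s, (f k)⁻¹ = Real.exp (∑ k ∈ s, -Real.log (f k)) := by
  rw [Real.exp_sum]
  refine Finset.prod_congr rfl fun k hk => ?_
  rw [Real.exp_neg, Real.exp_log (hf k hk)]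

/-- **(V1)** for a kernel given by its eigenvectors. -/
theorem trace_le_of_eig {a : V → V → ℝ} {e : V → V → ℝ} {al : V → ℝ}
    (hc : ∀ x y, ∑ k, e k x * e k y = if x = y then 1 else 0)
    (ho : ∀ k l, ∑ x, e k x * e l x = if k = l then 1 else 0) (hal : ∀ k, 0 < al k)
    (heig : ∀ k u, ∑ v, a u v * e k v = al k * e k u) :
    trace (NormedSpace.exp (-(hcM a))) ≤
      Real.exp (∑ k, -Real.log (1 - Real.exp (-al k))) := by
  rw [← prod_inv_eq_exp]
  · exact hcM_trace_le hc ho hal (kernel_eq hc heig)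
  · intro k _
    have : Real.exp (-al k) < 1 := by
      rw [Real.exp_lt_one_iff]
      linarith [hal k]
    linarith

end General

variable {n s : ℕ} [NeZero n] [NeZero s]

theorem tL_eq_tmatS (u v : Tor n × Fin s) : Mean.tL (interE n s) u v = tmatS n s u v := by
  rw [Mean.tL, tmatS, mul_comm, one_div, ← div_eq_mul_inv]
  rfl

theorem eig_all (w : ℕ) (β h lam : ℝ) (k u : Tor n × Fin s) :
    ∑ v, (β * (Mean.tL (interE n s) u v + h * Mean.oneK u v - lam * gmatS n s w u v)) * hbS k v =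
      (β * (tqS k + h - lam * gqS w k)) * hbS k u := by
  have h1 : ∀ v, (β * (Mean.tL (interE n s) u v + h * Mean.oneK u v - lam * gmatS n s w u v)) *
      hbS k v = β * (tmatS n s u v * hbS k v) + β * h * (Mean.oneK u v * hbS k v) -
        β * lam * (gmatS n s w u v * hbS k v) := by
    intro v
    rw [tL_eq_tmatS]
    ring
  simp only [h1]
  rw [Finset.sum_sub_distrib, Finset.sum_add_distrib, ← Finset.mul_sum, ← Finset.mul_sum,
    ← Finset.mul_sum, tmatS_hb, gmatS_hb]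
  have h2 : ∑ v, Mean.oneK u v * hbS k v = hbS k u := by
    simp [Mean.oneK]
  rw [h2]
  ring

theorem gmatS_symm (w : ℕ) (u v : Tor n × Fin s) : gmatS n s w u v = gmatS n s w v u := by
  rw [kernel_eq (a := gmatS n s w) hbS_compl (gmatS_hb w) u v,
    kernel_eq (a := gmatS n s w) hbS_compl (gmatS_hb w) v u]
  exact Finset.sum_congr rfl fun k _ => by ring

/-- **Row (B)** for `s` copies. -/
theorem trace_le {β h lam μ : ℝ} {w : ℕ} (hβ : 0 < β) (hh : 0 < h) (hlam : 0 ≤ lam)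
    (hμ : 12 * lam * (w : ℝ) ^ 2 ≤ μ) (hμ1 : μ ≤ 1) :
    trace (NormedSpace.exp (-(hcM fun u v : Tor n × Fin s =>
        β * (Mean.tL (interE n s) u v + h * Mean.oneK u v - lam * gmatS n s w u v)))) ≤
      Real.exp (∑ k : Tor n × Fin s, -Real.log (1 - Real.exp
        (-(β * (tqS k + h - lam * gqS w k))))) := by
  refine trace_le_of_eig hbS_compl hbS_orth (fun k => ?_) (eig_all w β h lam)
  obtain ⟨h1, h2⟩ := eigS_pos (w := w) hβ hh hlam hμ hμ1 k
  exact lt_of_lt_of_le h2 h1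

/-- (B), (S1) and the separation of the symmetric modes. -/
theorem trace_le' {β h lam μ : ℝ} {w : ℕ} (hβ : 1 ≤ β) (hh : 0 < h) (hlam : 0 ≤ lam)
    (hμ : 12 * lam * (w : ℝ) ^ 2 ≤ μ) (hμ1 : μ ≤ 1 / 2) :
    trace (NormedSpace.exp (-(hcM fun u v : Tor n × Fin s =>
        β * (Mean.tL (interE n s) u v + h * Mean.oneK u v - lam * gmatS n s w u v)))) ≤
      Real.exp ((∑ k : Tor n, -Real.log (1 - Real.exp (-(β * (s * OB.tq k + h)))) +
          (n : ℝ) ^ 3 * (2 * s * Real.exp (-(3 * β)))) +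
        β * lam * (∑ k : Tor n, 1 / (Real.exp (β * ((1 - μ) * (s * OB.tq k) + h)) - 1) +
          (n : ℝ) ^ 3 * (2 * s * Real.exp (-β)))) := by
  have hβ0 : 0 < β := by linarith
  refine (trace_le hβ0 hh hlam hμ (by linarith)).trans (Real.exp_le_exp.2 ?_)
  refine (sum_logS_le hβ0 hh hlam hμ (by linarith)).trans ?_
  exact add_le_add (sum_logS_le_sym hβ hh)
    (mul_le_mul_of_nonneg_left (sum_boseS_le_sym hβ hh hμ1) (mul_nonneg hβ0.le hlam))

end

end Vale.Agent.P361.LRO.S3S.MeanBS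
end

section

/-!
P361, stage 3, all spins, block (M), step (V2): the variational inequality for the edge list
`L ++ E`, where only `L` (inter site edges) is kept in the free gas and the energy of `E`
(intra site edges, any multiplicity) is dropped.
-/

set_option linter.unusedSectionVars false

namespace Vale.Agent.P361.LRO.S3.MeanS

open Finset Matrix Vale.Agent.P361.LRO.S3.Mean

noncomputable section

variable {V : Type} [Fintype V] [DecidableEq V]

theorem sum_hM_symm (E : List (V × V)) :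
    ((E.map fun e => hM e.1 e.2).sum : Matrix (V → Fin 2) (V → Fin 2) ℝ).IsSymm := by
  induction E with
  | nil => simp [Matrix.isSymm_zero]
  | cons e E ih =>
    simp only [List.map_cons, List.sum_cons]
    exact (hM_symm _ _).add ih

theorem hM_sq' (x y : V) :
    (hM x y : Matrix (V → Fin 2) (V → Fin 2) ℝ) * hM x y = hM x y := by
  have h1 : (swapM x y : Matrix (V → Fin 2) (V → Fin 2) ℝ) * swapM x y = 1 := by
    ext σ τ
    simp only [Matrix.mul_apply, swapM, Matrix.of_apply, Matrix.one_apply]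
    rw [Finset.sum_eq_single (τ ∘ Equiv.swap x y)]
    · have : (τ ∘ Equiv.swap x y) ∘ Equiv.swap x y = τ := by
        funext z; simp
      rw [this]
      simp
    · intro ρ _ hρ
      simp [hρ]
    · intro h
      exact absurd (Finset.mem_univ _) h
  rw [hM, smul_mul_smul_comm, sub_mul, mul_sub, mul_sub, one_mul, mul_one, one_mul, h1,
    show (1 : Matrix (V → Fin 2) (V → Fin 2) ℝ) - swapM x y - (swapM x y - 1) =
      (2 : ℝ) • (1 - swapM x y) by rw [two_smul]; abel, smul_smul]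
  norm_num

theorem hM_psd (x y : V) : (hM x y : Matrix (V → Fin 2) (V → Fin 2) ℝ).PosSemidef := by
  have h : (hM x y : Matrix (V → Fin 2) (V → Fin 2) ℝ) = (hM x y)ᴴ * hM x y := by
    rw [Matrix.conjTranspose_eq_transpose_of_trivial, (hM_symm x y).eq, hM_sq']
  rw [h]
  exact Matrix.posSemidef_conjTranspose_mul_self _

theorem sum_hM_psd (E : List (V × V)) :
    ((E.map fun e => hM e.1 e.2).sum : Matrix (V → Fin 2) (V → Fin 2) ℝ).PosSemidef := by
  induction E with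
  | nil => simp [Matrix.PosSemidef.zero]
  | cons e E ih =>
    simp only [List.map_cons, List.sum_cons]
    exact (hM_psd _ _).add ih

theorem ham_append (L E : List (V × V)) (h : V → ℝ) :
    ham (L ++ E) h = ham L h + (E.map fun e => hM e.1 e.2).sum := by
  simp only [ham, List.map_append, List.sum_append]
  abel

/-- **(V2), all spins**: `lam * β * <dΓ(g)> ≤ log (free gas of the edges L) - log Z̃_{L ++ E} +
β <W_L>`, Gibbs state of `L ++ E`. -/
theorem mean_ineqS (L E : List (V × V)) (hL : ∀ e ∈ L, e.1 ≠ e.2) {β : ℝ} (hβ : 0 ≤ β)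
    (h lam : ℝ) (g : V → V → ℝ) (hg : ∀ u v, g u v = g v u) {F : ℝ}
    (hF : Matrix.trace (NormedSpace.exp (-(hcM fun u v =>
      β * (tL L u v + h * oneK u v - lam * g u v)))) ≤ Real.exp F) :
    β * lam * gib (L ++ E) β (fun _ => h) (hcM g) ≤ F -
      (Real.log (Matrix.trace (NormedSpace.exp (-β • ham (L ++ E) fun _ => h))) -
        β * h * Fintype.card V / 2) + β * gib (L ++ E) β (fun _ => h) (WL L) := by
  set X : Matrix (V → Fin 2) (V → Fin 2) ℝ := -β • ham (L ++ E) fun _ => h with hX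
  set K : Matrix (V → Fin 2) (V → Fin 2) ℝ := (E.map fun e => hM e.1 e.2).sum with hK
  set Y : Matrix (V → Fin 2) (V → Fin 2) ℝ := (β * lam) • hcM g - β • WL L with hY
  have hgs : (hcM g).IsSymm := hcM_symm hg
  have hXs : X.IsSymm := (ham_symm (L ++ E) _).smul _
  have hYs : Y.IsSymm := (hgs.smul _).sub ((WL_symm L).smul _)
  have hKs : K.IsSymm := sum_hM_symm E
  have hKp : K.PosSemidef := sum_hM_psd E
  have h1 := peierls_bogoliubov_real hXs hYs
  have h2 : trace (NormedSpace.exp X * Y) / trace (NormedSpace.exp X) =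
      β * lam * gib (L ++ E) β (fun _ => h) (hcM g) - β * gib (L ++ E) β (fun _ => h) (WL L) := by
    have : trace (NormedSpace.exp X * Y) / trace (NormedSpace.exp X) =
        gib (L ++ E) β (fun _ => h) Y := rfl
    rw [this, hY, gib_sub, gib_smul, gib_smul]
  have hmono : trace (NormedSpace.exp (X + Y)) ≤ trace (NormedSpace.exp (X + Y + β • K)) := by
    refine trace_exp_mono_real (hXs.add hYs) ((hXs.add hYs).add (hKs.smul _)) ?_
    rw [add_sub_cancel_left]
    exact hKp.smul hβ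
  have h3 : X + Y + β • K = -(hcM fun u v => β * (tL L u v + h * oneK u v - lam * g u v)) +
      (β * h * Fintype.card V / 2) • (1 : Matrix (V → Fin 2) (V → Fin 2) ℝ) := by
    rw [hcM_smul, hcM_sub (fun u v => tL L u v + h * oneK u v) (fun u v => lam * g u v),
      hcM_smul]
    have h4 := ham_eq L hL h
    rw [hX, hY, ham_append, h4, ← hK]
    simp only [smul_sub, smul_add, smul_smul, neg_smul]
    have h5 : -β * (h * Fintype.card V / 2) = -(β * h * Fintype.card V / 2) := by ring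
    rw [h5, neg_smul]
    abel
  have hpos0 := trace_exp_pos_real (hXs.add hYs)
  have hlog := h1.trans (Real.log_le_log hpos0 hmono)
  rw [h2, h3, Vale.Agent.P361.LRO.S3.Mean.exp_add_smul_one, Matrix.trace_smul, smul_eq_mul] at hlog
  have hAs : (-(hcM fun u v => β * (tL L u v + h * oneK u v - lam * g u v))).IsSymm := by
    refine Matrix.IsSymm.neg (hcM_symm fun u v => ?_)
    have e1 : tL L u v = tL L v u := by
      simp only [tL, pairK_symm _ _ u v]
    have e2 : (oneK u v : ℝ) = oneK v u := by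
      simp only [oneK, eq_comm]
    rw [e1, e2, hg u v]
  have hpos := trace_exp_pos_real hAs
  rw [Real.log_mul (Real.exp_pos _).ne' hpos.ne', Real.log_exp] at hlog
  have h6 : Real.log (trace (NormedSpace.exp (-(hcM fun u v =>
      β * (tL L u v + h * oneK u v - lam * g u v))))) ≤ F := by
    calc _ ≤ Real.log (Real.exp F) := Real.log_le_log hpos hF
      _ = F := Real.log_exp F
  linarith

end

end Vale.Agent.P361.LRO.S3.MeanS
end

section

/-!
Block (1) of the low temperature order proof (P361): the twisted partition function as a sum over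
subsets of the block, and its moments.
-/

namespace Vale.Agent.P361.LRO.Tw

open Finset Matrix MeasureTheory intervalIntegral

set_option linter.unusedSectionVars false

variable {V : Type} [Fintype V] [DecidableEq V]

/-! ### Beta integrals -/

/-! ### The twist -/

/-- `R` conserves the total number of down spins. -/
def Cons (R : Matrix (V → Fin 2) (V → Fin 2) ℝ) : Prop :=
  ∀ σ τ, R σ τ ≠ 0 → dn univ σ = dn univ τ

theorem dn_eq_of_off {A : Finset V} {σ τ : V → Fin 2} (h : ∀ x, x ∉ A → σ x = τ x)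
    (hd : dn univ σ = dn univ τ) : dn A σ = dn A τ := by
  unfold dn at hd ⊢
  rw [← Finset.sum_add_sum_compl A, ← Finset.sum_add_sum_compl A (fun x => (τ x : ℕ))] at hd
  have : ∑ x ∈ Aᶜ, (σ x : ℕ) = ∑ x ∈ Aᶜ, (τ x : ℕ) :=
    Finset.sum_congr rfl fun x hx => by rw [h x (Finset.mem_compl.1 hx)]
  omega

end Vale.Agent.P361.LRO.Tw
end

section

/-!
P361, stage 3, block (M), part (P) of helper836's note 10606: the pair inequality.
For two sites `x ≠ y`, `n_x = 1/2 - S³_x`: if `<n_x>, <n_y> ≤ η ≤ 1/4` then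
`<n_x n_y> ≤ 8 η²`.  Proof: for the block `b = {x, y}` and the full slice (`θ = 1`) the twisted
partition function is a quadratic polynomial in `cos φ` with real roots (strong Rayleigh), its
discriminant is `(a-d)² - u (2 (a+d) - u) ≥ 0`, `u = a + b + c + d + R`, `|R| ≤ b + c`.
-/

namespace Vale.Agent.P361.LRO.S3P

open Finset Matrix Filter Topology

set_option linter.unusedSectionVars false
set_option linter.unnecessarySeqFocus false

noncomputable section

/-- A real quadratic polynomial with only real complex roots has nonnegative discriminant. -/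
theorem disc_of_roots (F : Polynomial ℝ) (hdeg : F.natDegree ≤ 2)
    (hroots : ∀ τ : ℂ, (F.map (algebraMap ℝ ℂ)).eval τ = 0 → ∃ r : ℝ, r ≤ -1 ∧ τ = (r : ℂ)) :
    4 * F.eval 0 * ((F.eval 1 + F.eval (-1)) / 2 - F.eval 0) ≤
      ((F.eval 1 - F.eval (-1)) / 2) ^ 2 := by
  have hev : ∀ t : ℝ, F.eval t = F.coeff 0 + F.coeff 1 * t + F.coeff 2 * t ^ 2 := by
    intro t
    rw [Polynomial.eval_eq_sum_range' (n := 3) (by omega)]
    simp [Finset.sum_range_succ]
  have hevc : ∀ τ : ℂ, (F.map (algebraMap ℝ ℂ)).eval τ =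
      F.coeff 0 + F.coeff 1 * τ + F.coeff 2 * τ ^ 2 := by
    intro τ
    rw [Polynomial.eval_eq_sum_range' (n := 3) (by
      have := Polynomial.natDegree_map_le (p := F) (f := algebraMap ℝ ℂ)
      omega)]
    simp [Finset.sum_range_succ]
  set A := F.coeff 0
  set B := F.coeff 1
  set C := F.coeff 2
  have h0 : F.eval 0 = A := by rw [hev]; ring
  have h1 : F.eval 1 = A + B + C := by rw [hev]; ring
  have h2 : F.eval (-1) = A - B + C := by rw [hev]; ring
  rw [h0, h1, h2]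
  by_contra hlt
  push Not at hlt
  have hd : 0 < 4 * A * C - B ^ 2 := by nlinarith
  have hC : C ≠ 0 := by
    rintro hC
    rw [hC] at hd
    nlinarith [sq_nonneg B]
  set D := Real.sqrt (4 * A * C - B ^ 2) with hD
  have hDp : 0 < D := Real.sqrt_pos.2 hd
  have hDs : D ^ 2 = 4 * A * C - B ^ 2 := Real.sq_sqrt hd.le
  have hCc : (C : ℂ) ≠ 0 := by exact_mod_cast hC
  set τ : ℂ := (-(B : ℂ) + D * Complex.I) / (2 * C) with hτ
  have hDsc : (D : ℂ) ^ 2 = 4 * A * C - B ^ 2 := by exact_mod_cast hDs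
  have hz : (F.map (algebraMap ℝ ℂ)).eval τ = 0 := by
    rw [hevc, hτ]
    field_simp
    have hI : Complex.I ^ 2 = -1 := Complex.I_sq
    linear_combination (D : ℂ) ^ 2 * hI - hDsc
  obtain ⟨r, -, hr⟩ := hroots τ hz
  have him : τ.im = D / (2 * C) := by
    have h3 : τ = ((-B / (2 * C) : ℝ) : ℂ) + ((D / (2 * C) : ℝ) : ℂ) * Complex.I := by
      rw [hτ]
      push_cast
      field_simp
    rw [h3, Complex.add_im, Complex.ofReal_im, Complex.im_ofReal_mul, Complex.I_im]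
    ring
  rw [hr, Complex.ofReal_im] at him
  have : D / (2 * C) ≠ 0 := div_ne_zero hDp.ne' (mul_ne_zero two_ne_zero hC)
  exact this him.symm

section X

variable {X : Type} [Fintype X] [DecidableEq X]

omit [Fintype X] [DecidableEq X] in
theorem qz_natAbs_le (π : Equiv.Perm X) (s : X → Fin 2) (b : Finset X) :
    (qz π s b).natAbs ≤ b.card := by
  have h1 : |qz π s b| ≤ ((b.card : ℕ) : ℤ) := by
    unfold qz
    refine le_trans (Finset.abs_sum_le_sum_abs _ _) ?_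
    calc ∑ x ∈ b, |(((s x : ℕ) : ℤ) - ((s (π x) : ℕ) : ℤ))| ≤ ∑ x ∈ b, (1 : ℤ) := by
          refine Finset.sum_le_sum fun x _ => ?_
          have := (s x).isLt
          have := (s (π x)).isLt
          rw [abs_le]
          omega
      _ = ((b.card : ℕ) : ℤ) := by simp
  rw [Int.abs_eq_natAbs] at h1
  exact_mod_cast h1

theorem FP_natDegree_le (μ : Equiv.Perm X → ℝ) (θ : X → ℝ) (b : Finset X) :
    (FP μ θ b).natDegree ≤ b.card := by
  unfold FP
  refine Polynomial.natDegree_sum_le_of_forall_le _ _ fun π _ => ?_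
  refine Polynomial.natDegree_sum_le_of_forall_le _ _ fun s _ => ?_
  refine le_trans (Polynomial.natDegree_C_mul_le _ _) ?_
  rw [Polynomial.Chebyshev.natDegree_T]
  exact qz_natAbs_le π s b

theorem Zf_disc {μ : Equiv.Perm X → ℝ} {θ : X → ℝ} (hμ : ∀ π, 0 ≤ μ π)
    (hθ : ∀ x, 0 ≤ θ x) (hZ : 0 < ZZ μ θ) (hst : Stable μ θ) (b : Finset X) (hb : b.card ≤ 2) :
    4 * Zf μ θ b (Real.pi / 2) * ((Zf μ θ b 0 + Zf μ θ b Real.pi) / 2 - Zf μ θ b (Real.pi / 2)) ≤
      ((Zf μ θ b 0 - Zf μ θ b Real.pi) / 2) ^ 2 := by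
  have h := disc_of_roots (FP μ θ b) ((FP_natDegree_le μ θ b).trans hb) (FP_roots hμ hθ hZ hst b)
  have h0 := FP_eval_cos μ θ b (Real.pi / 2)
  have h1 := FP_eval_cos μ θ b 0
  have h2 := FP_eval_cos μ θ b Real.pi
  rw [Real.cos_pi_div_two] at h0
  rw [Real.cos_zero] at h1
  rw [Real.cos_pi] at h2
  rw [← h0, ← h1, ← h2]
  exact h

end X

variable {V : Type} [Fintype V] [DecidableEq V]

/-- Discriminant inequality for the weight `W`. -/
def DI (W : Matrix (V → Fin 2) (V → Fin 2) ℝ) (b : Finset V) (θ : ℝ) : Prop :=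
  4 * ZTw W b θ (Real.pi / 2) *
      ((ZTw W b θ 0 + ZTw W b θ Real.pi) / 2 - ZTw W b θ (Real.pi / 2)) ≤
    ((ZTw W b θ 0 - ZTw W b θ Real.pi) / 2) ^ 2

theorem DI_gibbs_K (L : List (V × V)) {β : ℝ} (hβ : 0 < β) {h : V → ℝ} (hh : ∀ x, 0 ≤ h x)
    {K : ℝ} (hK : 0 ≤ K) (b : Finset V) (hb : b.card ≤ 2) :
    DI (NormedSpace.exp (-β • ham L h)) b (Real.tanh (K / (2 * b.card))) := by
  have hcont : ∀ φ : ℝ, Tendsto (fun N : ℕ => ZTw (stepM L β h N ^ N) b
      (Real.tanh (K / (2 * b.card))) φ) atTop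
      (𝓝 (ZTw (NormedSpace.exp (-β • ham L h)) b (Real.tanh (K / (2 * b.card))) φ)) := by
    intro φ
    simp only [ZTw_eq]
    refine tendsto_finsetSum _ fun σ _ => tendsto_finsetSum _ fun τ _ => ?_
    refine Tendsto.mul_const _ ?_
    have h1 := tendsto_pi_nhds.1 (stepM_tendsto L β h) σ
    exact tendsto_pi_nhds.1 h1 τ
  unfold DI
  refine le_of_tendsto_of_tendsto
    (((hcont _).const_mul 4).mul ((((hcont 0).add (hcont Real.pi)).div_const 2).sub (hcont _)))
    ((((hcont 0).sub (hcont Real.pi)).div_const 2).pow 2) ?_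
  filter_upwards [Bloch.phys_good L hβ hh hK b] with N hN
  obtain ⟨hl, ht⟩ := hN
  have h3 := Zf_disc hl.nonneg (fun z => (ht z).1) (ZZ_pos hl fun z => (ht z).1)
    (SR.stable_of_isLaw hl ht) (hatb N b) (by
      unfold hatb
      rw [Finset.card_product, Finset.card_singleton, one_mul]
      exact hb)
  simp only [Zf_phys] at h3
  exact h3

theorem DI_gibbs (L : List (V × V)) {β : ℝ} (hβ : 0 < β) {h : V → ℝ} (hh : ∀ x, 0 ≤ h x)
    {b : Finset V} (hb : b.card = 2) :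
    DI (NormedSpace.exp (-β • ham L h)) b 1 := by
  have h1 : ∀ θ ∈ Set.Ioo (0 : ℝ) 1, DI (NormedSpace.exp (-β • ham L h)) b θ := by
    intro θ hθ
    have h2 := DI_gibbs_K L hβ hh (K := 4 * Real.artanh θ)
      (by have := (Real.artanh_pos hθ).le; positivity) b hb.le
    rw [hb] at h2
    have h3 : 4 * Real.artanh θ / (2 * ((2 : ℕ) : ℝ)) = Real.artanh θ := by
      push_cast; ring
    rw [h3, Real.tanh_artanh ⟨by linarith [hθ.1], hθ.2⟩] at h2
    exact h2
  have hc : ∀ φ : ℝ, Continuous fun θ : ℝ => ZTw (NormedSpace.exp (-β • ham L h)) b θ φ := by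
    intro φ
    simp only [ZTw_eq]
    refine continuous_finsetSum _ fun σ _ => continuous_finsetSum _ fun τ _ =>
      continuous_const.mul ?_
    unfold rotT
    simp only [Matrix.of_apply]
    refine continuous_finsetProd _ fun x _ => ?_
    by_cases hx : x ∈ b
    · simp only [hx, if_true]
      generalize τ x = i
      generalize σ x = j
      fin_cases i <;> fin_cases j <;> simp only [rotM] <;> simp <;> fun_prop
    · simp only [hx, if_false]
      exact continuous_const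
  have hcl : IsClosed {θ : ℝ | DI (NormedSpace.exp (-β • ham L h)) b θ} := by
    unfold DI
    refine isClosed_le ?_ ?_
    · exact (continuous_const.mul (hc _)).mul ((((hc 0).add (hc Real.pi)).div_const 2).sub (hc _))
    · exact (((hc 0).sub (hc Real.pi)).div_const 2).pow 2
  have h4 : closure (Set.Ioo (0 : ℝ) 1) ⊆ {θ : ℝ | DI (NormedSpace.exp (-β • ham L h)) b θ} :=
    closure_minimal h1 hcl
  rw [closure_Ioo (by norm_num)] at h4
  exact h4 ⟨by norm_num, le_rfl⟩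

/-! ### The three values -/

/-- Mass of the configurations with prescribed values at `x` and `y`. -/
def ms (W : Matrix (V → Fin 2) (V → Fin 2) ℝ) (x y : V) (i j : Fin 2) : ℝ :=
  ∑ σ : V → Fin 2, if σ x = i ∧ σ y = j then W σ σ else 0

/-- Exchange mass. -/
def xs (W : Matrix (V → Fin 2) (V → Fin 2) ℝ) (x y : V) : ℝ :=
  ∑ σ : V → Fin 2, if σ x = σ y then 0 else W σ (σ ∘ Equiv.swap x y)

theorem prod_pair_split {x y : V} (hxy : x ≠ y) (f : V → ℝ) :
    ∏ z, f z = f x * (f y * ∏ z ∈ (univ.erase x).erase y, f z) := by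
  rw [← Finset.mul_prod_erase univ f (mem_univ x),
    ← Finset.mul_prod_erase (univ.erase x) f (mem_erase.2 ⟨hxy.symm, mem_univ y⟩)]

theorem rotT_diag {x y : V} (hxy : x ≠ y) {φ : ℝ} {i : Fin 2}
    (hr : ∀ a a' : Fin 2, rotM 1 φ a a' = if a = i ∧ a' = i then 2 else 0)
    (W : Matrix (V → Fin 2) (V → Fin 2) ℝ) :
    ZTw W {x, y} 1 φ = 4 * ms W x y i i := by
  rw [ZTw_eq]
  unfold ms
  rw [Finset.mul_sum]
  refine Finset.sum_congr rfl fun σ _ => ?_
  rw [Finset.sum_eq_single σ]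
  · unfold rotT
    rw [Matrix.of_apply, prod_pair_split hxy]
    have h1 : ∏ z ∈ (univ.erase x).erase y, (if z ∈ ({x, y} : Finset V) then
        rotM 1 φ (σ z) (σ z) else if σ z = σ z then 1 else 0) = 1 := by
      refine Finset.prod_eq_one fun z hz => ?_
      rw [mem_erase, mem_erase] at hz
      rw [if_neg (by simp [hz.1, hz.2.1]), if_pos rfl]
    rw [h1, hr, hr]
    simp only [mem_insert, mem_singleton, true_or, or_true, if_true, and_self, mul_one]
    by_cases h2 : σ x = i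
    · by_cases h3 : σ y = i
      · simp [h2, h3]; ring
      · simp [h2, h3]
    · simp [h2]
  · intro τ _ hτ
    unfold rotT
    rw [Matrix.of_apply]
    obtain ⟨z, hz⟩ := Function.ne_iff.1 hτ
    have h1 : (∏ z, if z ∈ ({x, y} : Finset V) then rotM 1 φ (τ z) (σ z)
        else if τ z = σ z then 1 else 0) = 0 := by
      refine Finset.prod_eq_zero (mem_univ z) ?_
      split_ifs
      · rw [hr, if_neg]
        rintro ⟨h3, h4⟩
        exact hz (h3.trans h4.symm)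
      · rfl
    rw [h1, mul_zero]
  · intro h; exact absurd (mem_univ σ) h

theorem rotM_one_zero (a a' : Fin 2) : rotM 1 0 a a' = if a = 0 ∧ a' = 0 then 2 else 0 := by
  unfold rotM
  fin_cases a <;> fin_cases a' <;> simp <;> norm_num

theorem rotM_one_pi (a a' : Fin 2) :
    rotM 1 Real.pi a a' = if a = 1 ∧ a' = 1 then 2 else 0 := by
  unfold rotM
  fin_cases a <;> fin_cases a' <;> simp <;> norm_num

theorem rotM_one_half (a a' : Fin 2) : rotM 1 (Real.pi / 2) a a' = 1 := by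
  unfold rotM
  fin_cases a <;> fin_cases a' <;> simp

theorem rotT_half {x y : V} (σ τ : V → Fin 2) :
    rotT {x, y} 1 (Real.pi / 2) τ σ =
      if ∀ z, z ∉ ({x, y} : Finset V) → τ z = σ z then 1 else 0 := by
  unfold rotT
  rw [Matrix.of_apply]
  split_ifs with h
  · refine Finset.prod_eq_one fun z _ => ?_
    by_cases hz : z ∈ ({x, y} : Finset V)
    · rw [if_pos hz, rotM_one_half]
    · rw [if_neg hz, if_pos (h z hz)]
  · push Not at h
    obtain ⟨z, hz, hne⟩ := h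
    refine Finset.prod_eq_zero (mem_univ z) ?_
    rw [if_neg hz, if_neg hne]

theorem off_cases {x y : V} (hxy : x ≠ y) {σ τ : V → Fin 2}
    (h : ∀ z, z ∉ ({x, y} : Finset V) → τ z = σ z) (hd : Tw.dn univ τ = Tw.dn univ σ) :
    τ = σ ∨ τ = σ ∘ Equiv.swap x y := by
  have h1 := Tw.dn_eq_of_off h hd
  unfold Tw.dn at h1
  rw [Finset.sum_pair hxy, Finset.sum_pair hxy] at h1
  have h2 : ∀ z, z ≠ x → z ≠ y → τ z = σ z := fun z hzx hzy => h z (by simp [hzx, hzy])
  have hsx := (σ x).isLt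
  have hsy := (σ y).isLt
  have htx := (τ x).isLt
  have hty := (τ y).isLt
  by_cases h3 : (τ x : ℕ) = (σ x : ℕ)
  · left
    funext z
    by_cases hzx : z = x
    · subst hzx; exact Fin.ext h3
    · by_cases hzy : z = y
      · subst hzy; exact Fin.ext (by omega)
      · exact h2 z hzx hzy
  · right
    funext z
    by_cases hzx : z = x
    · subst hzx
      simp only [Function.comp_apply, Equiv.swap_apply_left]
      exact Fin.ext (by omega)
    · by_cases hzy : z = y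
      · subst hzy
        simp only [Function.comp_apply, Equiv.swap_apply_right]
        exact Fin.ext (by omega)
      · simp only [Function.comp_apply]
        rw [Equiv.swap_apply_of_ne_of_ne hzx hzy]
        exact h2 z hzx hzy

theorem swap_ne {x y : V} {σ : V → Fin 2} (h : σ x ≠ σ y) : σ ∘ Equiv.swap x y ≠ σ := by
  intro h1
  have h2 := congrFun h1 x
  simp only [Function.comp_apply, Equiv.swap_apply_left] at h2
  exact h h2.symm

theorem swap_eq {x y : V} {σ : V → Fin 2} (h : σ x = σ y) : σ ∘ Equiv.swap x y = σ := by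
  funext z
  simp only [Function.comp_apply]
  by_cases hzx : z = x
  · subst hzx; rw [Equiv.swap_apply_left]; exact h.symm
  · by_cases hzy : z = y
    · subst hzy; rw [Equiv.swap_apply_right]; exact h
    · rw [Equiv.swap_apply_of_ne_of_ne hzx hzy]

theorem ZTw_half {x y : V} (hxy : x ≠ y) {W : Matrix (V → Fin 2) (V → Fin 2) ℝ}
    (hW : Tw.Cons W) :
    ZTw W {x, y} 1 (Real.pi / 2) = Matrix.trace W + xs W x y := by
  rw [ZTw_eq]
  unfold xs Matrix.trace
  rw [← Finset.sum_add_distrib]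
  refine Finset.sum_congr rfl fun σ _ => ?_
  simp only [rotT_half, Matrix.diag_apply]
  by_cases hs : σ x = σ y
  · rw [if_pos hs, add_zero, Finset.sum_eq_single σ]
    · simp
    · intro τ _ hτ
      by_cases h1 : W σ τ = 0
      · rw [h1, zero_mul]
      · rw [if_neg, mul_zero]
        intro h2
        rcases off_cases hxy h2 (hW σ τ h1).symm with h3 | h3
        · exact hτ h3
        · rw [swap_eq hs] at h3
          exact hτ h3
    · intro h; exact absurd (mem_univ σ) h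
  · rw [if_neg hs, ← Finset.sum_subset (Finset.subset_univ {σ, σ ∘ Equiv.swap x y})]
    · rw [Finset.sum_pair (swap_ne hs).symm, if_pos (fun z _ => rfl), if_pos, mul_one, mul_one]
      intro z hz
      simp only [mem_insert, mem_singleton, not_or] at hz
      simp only [Function.comp_apply]
      rw [Equiv.swap_apply_of_ne_of_ne hz.1 hz.2]
    · intro τ _ hτ
      simp only [mem_insert, mem_singleton, not_or] at hτ
      by_cases h1 : W σ τ = 0
      · rw [h1, zero_mul]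
      · rw [if_neg, mul_zero]
        intro h2
        rcases off_cases hxy h2 (hW σ τ h1).symm with h3 | h3
        · exact hτ.1 h3
        · exact hτ.2 h3

theorem two_mul_abs_le {ι : Type} [Fintype ι] [DecidableEq ι] {W : Matrix ι ι ℝ}
    (hW : W.PosSemidef) (i j : ι) : 2 * |W i j| ≤ W i i + W j j := by
  have hsym : W j i = W i j := by
    have := hW.1.apply i j
    simpa using this
  have h1 : ∀ s : ℝ, 0 ≤ W i i + s * (2 * W i j) + s ^ 2 * W j j := by
    intro s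
    have h2 := hW.dotProduct_mulVec_nonneg (Pi.single i 1 + s • Pi.single j 1)
    simp only [star_trivial, Matrix.mulVec_add, Matrix.mulVec_smul, dotProduct_add,
      add_dotProduct, dotProduct_smul, smul_dotProduct, Matrix.mulVec_single_one,
      single_one_dotProduct, smul_eq_mul, Matrix.col_apply] at h2
    rw [hsym] at h2
    nlinarith [h2]
  have h3 := h1 1
  have h4 := h1 (-1)
  rcases abs_cases (W i j) with h | h <;> rw [h.1] <;> nlinarith

theorem xs_abs_le {x y : V} {W : Matrix (V → Fin 2) (V → Fin 2) ℝ} (hW : W.PosSemidef) :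
    |xs W x y| ≤ ∑ σ : V → Fin 2, if σ x = σ y then 0 else W σ σ := by
  unfold xs
  refine (Finset.abs_sum_le_sum_abs _ _).trans ?_
  have h1 : ∑ σ : V → Fin 2, |if σ x = σ y then 0 else W σ (σ ∘ Equiv.swap x y)| ≤
      ∑ σ : V → Fin 2, ((if σ x = σ y then 0 else W σ σ) / 2 +
        (if σ x = σ y then 0 else W (σ ∘ Equiv.swap x y) (σ ∘ Equiv.swap x y)) / 2) := by
    refine Finset.sum_le_sum fun σ _ => ?_
    split_ifs
    · simp
    · have := two_mul_abs_le hW σ (σ ∘ Equiv.swap x y)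
      linarith
  refine h1.trans (le_of_eq ?_)
  rw [Finset.sum_add_distrib]
  have h2 : ∑ σ : V → Fin 2, (if σ x = σ y then 0 else
      W (σ ∘ Equiv.swap x y) (σ ∘ Equiv.swap x y)) / 2 =
      ∑ σ : V → Fin 2, (if σ x = σ y then 0 else W σ σ) / 2 := by
    refine Finset.sum_nbij' (fun σ => σ ∘ Equiv.swap x y) (fun σ => σ ∘ Equiv.swap x y)
      (fun _ _ => mem_univ _) (fun _ _ => mem_univ _) ?_ ?_ ?_
    · intro σ _; funext z; simp
    · intro σ _; funext z; simp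
    · intro σ _
      simp only [Function.comp_apply, Equiv.swap_apply_left, Equiv.swap_apply_right]
      by_cases h : σ x = σ y
      · rw [if_pos h, if_pos h.symm]
      · rw [if_neg h, if_neg (Ne.symm h)]
  rw [h2, ← Finset.sum_add_distrib]
  refine Finset.sum_congr rfl fun σ _ => ?_
  ring

theorem trace_split {x y : V} (W : Matrix (V → Fin 2) (V → Fin 2) ℝ) :
    Matrix.trace W = ms W x y 0 0 + ms W x y 1 1 +
      ∑ σ : V → Fin 2, if σ x = σ y then 0 else W σ σ := by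
  unfold Matrix.trace ms
  rw [← Finset.sum_add_distrib, ← Finset.sum_add_distrib]
  refine Finset.sum_congr rfl fun σ _ => ?_
  rw [Matrix.diag_apply]
  generalize σ x = i
  generalize σ y = j
  fin_cases i <;> fin_cases j <;> simp

theorem ms_nonneg {W : Matrix (V → Fin 2) (V → Fin 2) ℝ} (hW : W.PosSemidef) (x y : V)
    (i j : Fin 2) : 0 ≤ ms W x y i j := by
  unfold ms
  refine Finset.sum_nonneg fun σ _ => ?_
  split_ifs
  · exact hW.diag_nonneg
  · exact le_rfl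

/-- The core inequality: `a d ≤ (b + c)²` (unnormalised), general weight. -/
theorem ad_le_of_DI {W : Matrix (V → Fin 2) (V → Fin 2) ℝ} (hpsd : W.PosSemidef)
    (hcons : Tw.Cons W) {x y : V} (hxy : x ≠ y) (hD : DI W {x, y} 1) :
    ms W x y 0 0 * ms W x y 1 1 ≤
      (∑ σ : V → Fin 2, if σ x = σ y then 0 else W σ σ) ^ 2 := by
  unfold DI at hD
  rw [rotT_diag hxy rotM_one_zero, rotT_diag hxy rotM_one_pi, ZTw_half hxy hcons,
    trace_split (x := x) (y := y)] at hD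
  have hx := xs_abs_le (x := x) (y := y) hpsd
  set a := ms W x y 0 0
  set d := ms W x y 1 1
  set S := ∑ σ : V → Fin 2, if σ x = σ y then 0 else W σ σ
  set R := xs W x y
  have h1 := abs_le.1 hx
  nlinarith [mul_nonneg (by linarith [h1.1] : 0 ≤ S + R) (by linarith [h1.2] : 0 ≤ S - R)]

theorem nM_mul (x y : V) : (((1 / 2 : ℝ) • (1 - szM x)) * ((1 / 2 : ℝ) • (1 - szM y)) :
    Matrix (V → Fin 2) (V → Fin 2) ℝ) =
      Matrix.diagonal fun σ => if σ x = 1 ∧ σ y = 1 then 1 else 0 := by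
  unfold szM
  rw [← Matrix.diagonal_one, Matrix.diagonal_sub, Matrix.diagonal_sub, ← Matrix.diagonal_smul,
    ← Matrix.diagonal_smul, Matrix.diagonal_mul_diagonal]
  congr 1
  funext σ
  simp only [Pi.smul_apply, smul_eq_mul]
  generalize σ x = i
  generalize σ y = j
  fin_cases i <;> fin_cases j <;> simp <;> norm_num

theorem nM_eq (x : V) : ((1 / 2 : ℝ) • (1 - szM x) : Matrix (V → Fin 2) (V → Fin 2) ℝ) =
      Matrix.diagonal fun σ => if σ x = 1 then 1 else 0 := by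
  unfold szM
  rw [← Matrix.diagonal_one, Matrix.diagonal_sub, ← Matrix.diagonal_smul]
  congr 1
  funext σ
  simp only [Pi.smul_apply, smul_eq_mul]
  generalize σ x = i
  fin_cases i <;> simp <;> norm_num

theorem trace_mul_diag (W : Matrix (V → Fin 2) (V → Fin 2) ℝ) (f : (V → Fin 2) → ℝ) :
    Matrix.trace (W * Matrix.diagonal f) = ∑ σ, W σ σ * f σ := by
  unfold Matrix.trace
  refine Finset.sum_congr rfl fun σ _ => ?_
  rw [Matrix.diag_apply, Matrix.mul_diagonal]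

/-- **(P)**, general weight `W` (PSD, conserving, discriminant inequality). -/
theorem pair_le_of_DI {W : Matrix (V → Fin 2) (V → Fin 2) ℝ} (hpsd : W.PosSemidef)
    (hcons : Tw.Cons W) (hZ : 0 < Matrix.trace W) {x y : V} (hxy : x ≠ y) (hD : DI W {x, y} 1)
    {η : ℝ} (hη : η ≤ 1 / 4)
    (hx : Matrix.trace (W * ((1 / 2 : ℝ) • (1 - szM x))) / Matrix.trace W ≤ η)
    (hy : Matrix.trace (W * ((1 / 2 : ℝ) • (1 - szM y))) / Matrix.trace W ≤ η) :
    Matrix.trace (W * (((1 / 2 : ℝ) • (1 - szM x)) * ((1 / 2 : ℝ) • (1 - szM y)))) /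
      Matrix.trace W ≤ 8 * η ^ 2 := by
  have had := ad_le_of_DI hpsd hcons hxy hD
  have hZs := trace_split (x := x) (y := y) W
  rw [div_le_iff₀ hZ, nM_eq, trace_mul_diag] at hx hy
  rw [div_le_iff₀ hZ, nM_mul, trace_mul_diag]
  have hd : ∑ σ : V → Fin 2, W σ σ * (if σ x = 1 ∧ σ y = 1 then 1 else 0) = ms W x y 1 1 := by
    unfold ms
    refine Finset.sum_congr rfl fun σ _ => ?_
    split_ifs <;> simp
  rw [hd]
  have hsum : (∑ σ : V → Fin 2, W σ σ * (if σ x = 1 then 1 else 0)) +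
      ∑ σ : V → Fin 2, W σ σ * (if σ y = 1 then 1 else 0) =
      2 * ms W x y 1 1 + ∑ σ : V → Fin 2, if σ x = σ y then 0 else W σ σ := by
    unfold ms
    rw [Finset.mul_sum, ← Finset.sum_add_distrib, ← Finset.sum_add_distrib]
    refine Finset.sum_congr rfl fun σ _ => ?_
    generalize σ x = i
    generalize σ y = j
    fin_cases i <;> fin_cases j <;> simp <;> ring
  have ha0 := ms_nonneg hpsd x y 0 0
  have hd0 := ms_nonneg hpsd x y 1 1
  have hS0 : 0 ≤ ∑ σ : V → Fin 2, if σ x = σ y then 0 else W σ σ := by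
    refine Finset.sum_nonneg fun σ _ => ?_
    split_ifs
    · exact le_rfl
    · exact hpsd.diag_nonneg
  set a := ms W x y 0 0
  set d := ms W x y 1 1
  set S := ∑ σ : V → Fin 2, if σ x = σ y then 0 else W σ σ
  set Z := Matrix.trace W
  have h1 : 2 * d + S ≤ 2 * η * Z := by linarith
  have h2 : Z / 2 ≤ a := by nlinarith
  have h3 : S ≤ 2 * η * Z := by linarith
  have h4 : S ^ 2 ≤ (2 * η * Z) ^ 2 := by
    apply pow_le_pow_left₀ hS0 h3
  have h5 : Z / 2 * d ≤ (2 * η * Z) ^ 2 :=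
    (mul_le_mul_of_nonneg_right h2 hd0).trans (had.trans h4)
  have h6 : Z * d ≤ Z * (8 * η ^ 2 * Z) := by nlinarith
  exact le_of_mul_le_mul_left h6 hZ

/-- **(P)**: the pair inequality. -/
theorem pair_le (L : List (V × V)) {β : ℝ} (hβ : 0 < β) {h : V → ℝ} (hh : ∀ x, 0 ≤ h x)
    {x y : V} (hxy : x ≠ y) {η : ℝ} (hη : η ≤ 1 / 4) (hx : rho L β h x ≤ η)
    (hy : rho L β h y ≤ η) :
    gib L β h (((1 / 2 : ℝ) • (1 - szM x)) * ((1 / 2 : ℝ) • (1 - szM y))) ≤ 8 * η ^ 2 :=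
  pair_le_of_DI (Tw.expH_psd L β h) (fun σ τ hd => Tw.expH_cons L β h σ τ hd)
    (Tw.trace_expH_pos L β h) hxy (DI_gibbs L hβ hh (Finset.card_pair hxy)) hη hx hy

end

end Vale.Agent.P361.LRO.S3P
end

section

/-!
P361, stage 3, block (M), item (D): the pair operator of the edges in the Gibbs state.
-/

namespace Vale.Agent.P361.LRO.S3P

open Finset Matrix

noncomputable section

variable {V : Type} [Fintype V] [DecidableEq V]

theorem pair_le_nM (L : List (V × V)) {β : ℝ} (hβ : 0 < β) {h : V → ℝ} (hh : ∀ x, 0 ≤ h x)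
    {x y : V} (hxy : x ≠ y) {η : ℝ} (hη : η ≤ 1 / 4) (hx : rho L β h x ≤ η)
    (hy : rho L β h y ≤ η) : gib L β h (S3.nM x * S3.nM y) ≤ 8 * η ^ 2 := by
  rw [S3.nM_eq, S3.nM_eq]
  exact pair_le L hβ hh hxy hη hx hy

theorem gib_WL_le (L M : List (V × V)) (hM : ∀ e ∈ M, e.1 ≠ e.2) {β : ℝ} (hβ : 0 < β)
    {h : V → ℝ} (hh : ∀ x, 0 ≤ h x) {η : ℝ} (hη : η ≤ 1 / 4) (hr : ∀ x, rho L β h x ≤ η) :
    gib L β h (S3.Mean.WL M) ≤ 8 * M.length * η ^ 2 := by
  induction M with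
  | nil => simp [S3.Mean.WL, gib]
  | cons e M ih =>
    have ih' := ih fun e' he' => hM e' (List.mem_cons_of_mem _ he')
    have h1 := pair_le_nM L hβ hh (hM e List.mem_cons_self) hη (hr e.1) (hr e.2)
    have h2 : S3.Mean.WL (e :: M) = S3.nM e.1 * S3.nM e.2 + S3.Mean.WL M := by
      simp [S3.Mean.WL]
    rw [h2, S3.Mean.gib_add, List.length_cons]
    push_cast
    linarith

theorem edges_length (n : ℕ) [NeZero n] : (edges n).length = 3 * n ^ 3 := by
  unfold edges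
  rw [List.length_map, Finset.length_toList, Finset.card_univ, Fintype.card_prod,
    Fintype.card_fin, Fintype.card_fun, ZMod.card, Fintype.card_fin]
  ring

theorem edges_ne (n : ℕ) [NeZero n] (hn : 2 ≤ n) : ∀ e ∈ edges n, e.1 ≠ e.2 := by
  intro e he
  unfold edges at he
  rw [List.mem_map] at he
  obtain ⟨z, -, rfl⟩ := he
  intro h
  have h1 : (Pi.single z.2 (1 : ZMod n) : Tor n) = 0 := by
    have h2 : z.1 = z.1 + Pi.single z.2 1 := h
    exact left_eq_add.1 h2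
  have h3 := congrFun h1 z.2
  rw [Pi.single_eq_same, Pi.zero_apply] at h3
  have : Fact (1 < n) := ⟨by omega⟩
  exact one_ne_zero h3

end

end Vale.Agent.P361.LRO.S3P
end

section

/-!
P361, stage 3, all spins, block (M): the inequality for the block mean on a finite torus with `s`
copies of each site and any multiplicity `M` of the intra-site edges (helper979).
-/

set_option linter.unusedSectionVars false

namespace Vale.Agent.P361.LRO.S3S.MeanAS

open Finset Matrix Vale.Agent.P361.LRO.GenS Vale.Agent.P361.LRO.S3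

noncomputable section

variable {n s : ℕ} [NeZero n]

/-- `log Tr exp (-β (H_M + h N))`, `N` = number of reversed copies. -/
def logZS (n s M : ℕ) [NeZero n] (β h : ℝ) : ℝ :=
  Real.log (trace (NormedSpace.exp (-β • ham (edgesS n s M) (hS fun _ => h)))) -
    β * h / 2 * ((n : ℝ) ^ 3 * s)

theorem interE_ne (hn : 2 ≤ n) : ∀ e ∈ interE n s, e.1 ≠ e.2 := by
  intro e he
  unfold interE at he
  rw [List.mem_flatMap] at he
  obtain ⟨e0, he0, he⟩ := he
  rw [List.mem_flatMap] at he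
  obtain ⟨i, -, he⟩ := he
  rw [List.mem_map] at he
  obtain ⟨j, -, rfl⟩ := he
  intro h
  exact S3P.edges_ne n hn e0 he0 (congrArg Prod.fst h)

theorem interE_length : (interE n s).length = 3 * n ^ 3 * s ^ 2 := by
  unfold interE
  have h1 : ∀ l : List (Tor n × Tor n), (l.flatMap fun e => (List.finRange s).flatMap fun i =>
      (List.finRange s).map fun j => (((e.1, i), (e.2, j)) :
        (Tor n × Fin s) × (Tor n × Fin s))).length = l.length * s ^ 2 := by
    intro l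
    induction l with
    | nil => simp
    | cons e l ih =>
      rw [List.flatMap_cons, List.length_append, ih, List.length_cons]
      have h2 : ((List.finRange s).flatMap fun i => (List.finRange s).map fun j =>
          (((e.1, i), (e.2, j)) : (Tor n × Fin s) × (Tor n × Fin s))).length = s ^ 2 := by
        simp [List.length_flatMap, sq]
      rw [h2]
      ring
  rw [h1, S3P.edges_length]

theorem card_copies : (Fintype.card (Tor n × Fin s) : ℝ) = (n : ℝ) ^ 3 * s := by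
  rw [Fintype.card_prod, Fintype.card_fun, ZMod.card, Fintype.card_fin, Fintype.card_fin]
  push_cast
  ring

theorem gib_WL_inter (hn : 2 ≤ n) (M : ℕ) {β : ℝ} (hβ : 0 < β) {h : ℝ} (hh : 0 ≤ h) {η : ℝ}
    (hη : η ≤ 1 / 4) (hr : ∀ z, rho (edgesS n s M) β (hS fun _ => h) z ≤ η) :
    gib (edgesS n s M) β (hS fun _ => h) (Mean.WL (interE n s)) ≤
      24 * (s : ℝ) ^ 2 * (n : ℝ) ^ 3 * η ^ 2 := by
  have h1 := S3P.gib_WL_le (edgesS n s M) (interE n s) (interE_ne hn) hβ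
    (h := hS fun _ => h) (fun _ => hh) hη hr
  rw [interE_length] at h1
  push_cast at h1
  linarith

/-- **The inequality for the block mean on a finite torus**, all spins. -/
theorem mean_fin [NeZero s] (hn : 2 ≤ n) (M : ℕ) {w : ℕ} {β h lam μ η : ℝ} (hβ : 1 ≤ β)
    (hh : 0 < h) (hlam : 0 ≤ lam) (hμ : 12 * lam * (w : ℝ) ^ 2 ≤ μ) (hμ1 : μ ≤ 1 / 2)
    (hη : η ≤ 1 / 4) (hρ : ∀ z, rho (edgesS n s M) β (hS fun _ => h) z ≤ η) {Y : ℝ}
    (hY : Y ≤ gib (edgesS n s M) β (hS fun _ => h) (hcM (gmatS n s w))) :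
    β * lam * Y ≤
      (∑ k : Tor n, -Real.log (1 - Real.exp (-(β * (s * OB.tq k + h)))) +
          (n : ℝ) ^ 3 * (2 * s * Real.exp (-(3 * β)))) +
        β * lam * (∑ k : Tor n, 1 / (Real.exp (β * ((1 - μ) * (s * OB.tq k) + h)) - 1) +
          (n : ℝ) ^ 3 * (2 * s * Real.exp (-β))) -
        logZS n s M β h + β * (24 * (s : ℝ) ^ 2 * (n : ℝ) ^ 3 * η ^ 2) := by
  have hβ0 : 0 < β := by linarith
  have h1 := MeanS.mean_ineqS (interE n s) ((List.replicate M (intraE n s)).flatten)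
    (interE_ne hn) hβ0.le h lam (gmatS n s w) (MeanBS.gmatS_symm w)
    (MeanBS.trace_le' hβ hh hlam hμ hμ1)
  have h2 := mul_le_mul_of_nonneg_left (gib_WL_inter hn M hβ0 hh.le hη hρ) hβ0.le
  have h3 := mul_le_mul_of_nonneg_left hY (mul_nonneg hβ0.le hlam)
  have e1 : (fun _ : Tor n × Fin s => h) = hS fun _ => h := rfl
  have e2 : interE n s ++ (List.replicate M (intraE n s)).flatten = edgesS n s M := rfl
  rw [e1, e2, card_copies] at h1
  have e3 : Real.log (trace (NormedSpace.exp (-β • ham (edgesS n s M) (hS fun _ => h)))) -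
      β * h * ((n : ℝ) ^ 3 * s) / 2 = logZS n s M β h := by
    unfold logZS
    ring
  rw [e3] at h1
  linarith

end

end Vale.Agent.P361.LRO.S3S.MeanAS
end

section

/-!
P361 stage 3: ideal Bose gas sums over the dual torus `Fin 3 → ZMod m`, explicit in `m`.

`tK m k = ∑ j, (1 - cos (2π k_j / m))`; `n` is the spin parameter (`n = 2 S`).
* `tor_log_le`  : `∑_k -log (1 - exp (-(β n t(k) + s))) ≤ bosSer n m β s`;
* `tor_dens_le` : `∑_k 1 / (exp (β n t(k) + s) - 1) ≤ densSer n m β s`;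
* `densSer_le`  : asymptotics of `densSer` (the one of `bosSer` is `B.bosSer_le`).
-/

namespace Vale.Agent.P361.LRO.S3

open MeasureTheory Filter Topology Vale.Agent.P361.B
open Vale.Agent.P361 (H.bJ H.bJ_nonneg)

/-- Dispersion on the dual torus. -/
noncomputable def tK (m : ℕ) (k : Fin 3 → ZMod m) : ℝ :=
  ∑ j, (1 - Real.cos (2 * Real.pi * ((k j).val : ℝ) / m))

theorem tK_nonneg (m : ℕ) (k : Fin 3 → ZMod m) : 0 ≤ tK m k :=
  Finset.sum_nonneg fun j _ => by
    have := Real.cos_le_one (2 * Real.pi * ((k j).val : ℝ) / m)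
    linarith

theorem riemann_upper_real {L : ℝ} (hL' : 0 < L) {t : ℝ} (ht : 0 ≤ t) {M : ℕ} (hM : (M : ℝ) ≤ L) :
    ∑ i ∈ Finset.range M, Real.exp (-t * (1 - Real.cos (Real.pi * ((i + 1 : ℕ) : ℝ) / L))) ≤
      L * H.bJ t := by
  set f : ℝ → ℝ := fun x => Real.exp (-t * (1 - Real.cos (Real.pi * x / L))) with hf
  have hanti : AntitoneOn f (Set.Icc 0 (0 + (M : ℝ))) := by
    intro x hx y hy hxy
    simp only [hf]
    apply Real.exp_le_exp.2
    rw [zero_add] at hx hy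
    have h1 : Real.cos (Real.pi * y / L) ≤ Real.cos (Real.pi * x / L) := by
      refine Real.cos_le_cos_of_nonneg_of_le_pi ?_ ?_ ?_
      · have := hx.1; have := Real.pi_pos; positivity
      · rw [div_le_iff₀ hL']
        exact mul_le_mul_of_nonneg_left (hy.2.trans hM) Real.pi_pos.le
      · gcongr
    nlinarith
  have h1 := hanti.sum_le_integral
  simp only [zero_add] at h1
  have hcont : Continuous f := by
    simp only [hf]; fun_prop
  have h2 : ∫ x in (0 : ℝ)..M, f x ≤ ∫ x in (0 : ℝ)..L, f x := by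
    have h3 : ∫ x in (0 : ℝ)..L, f x = (∫ x in (0 : ℝ)..M, f x) + ∫ x in (M : ℝ)..L, f x :=
      (intervalIntegral.integral_add_adjacent_intervals (hcont.intervalIntegrable _ _)
        (hcont.intervalIntegrable _ _)).symm
    have h4 : 0 ≤ ∫ x in (M : ℝ)..L, f x :=
      intervalIntegral.integral_nonneg hM fun x _ => (Real.exp_pos _).le
    linarith
  have h3 : ∫ x in (0 : ℝ)..L, f x = L * H.bJ t := by
    have h4 : ∀ x, f x = (fun θ => Real.exp (-t * (1 - Real.cos θ))) (Real.pi / L * x) := by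
      intro x
      simp only [hf]
      congr 4
      ring
    have hc : Real.pi / L ≠ 0 := by have := Real.pi_pos; positivity
    rw [intervalIntegral.integral_congr (fun x _ => h4 x),
      intervalIntegral.integral_comp_mul_left (fun θ => Real.exp (-t * (1 - Real.cos θ))) hc,
      mul_zero, H.bJ, smul_eq_mul]
    have h5 : Real.pi / L * L = Real.pi := by field_simp
    rw [h5]
    field_simp
  calc _ ≤ ∫ x in (0 : ℝ)..M, f x := h1
    _ ≤ _ := h2
    _ = _ := h3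

theorem sum_range_three {m M1 M2 : ℕ} (hm : m = M1 + M2 + 1) (g : ℕ → ℝ) :
    ∑ p ∈ Finset.range m, g p = g 0 + ∑ i ∈ Finset.range M1, g (i + 1) +
      ∑ i ∈ Finset.range M2, g (m - (i + 1)) := by
  subst hm
  rw [Finset.sum_range_succ', Finset.sum_range_add, add_comm, add_assoc]
  congr 1
  congr 1
  rw [← Finset.sum_range_reflect]
  refine Finset.sum_congr rfl fun i hi => ?_
  have := Finset.mem_range.1 hi
  congr 1
  omega

/-- One-dimensional torus sum. -/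
theorem tor_one_dim (m : ℕ) [NeZero m] {a : ℝ} (ha : 0 ≤ a) :
    ∑ p : ZMod m, Real.exp (-a * (1 - Real.cos (2 * Real.pi * (p.val : ℝ) / m))) ≤
      1 + m * H.bJ a := by
  have hm0 : 0 < m := Nat.pos_of_ne_zero (NeZero.ne m)
  have hmR : (0 : ℝ) < m := by exact_mod_cast hm0
  set g : ℕ → ℝ := fun p => Real.exp (-a * (1 - Real.cos (2 * Real.pi * (p : ℝ) / m))) with hg
  have h0 : ∑ p : ZMod m, Real.exp (-a * (1 - Real.cos (2 * Real.pi * (p.val : ℝ) / m))) =
      ∑ p ∈ Finset.range m, g p := by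
    obtain ⟨k, rfl⟩ : ∃ k, m = k + 1 := ⟨m - 1, by omega⟩
    rw [← Fin.sum_univ_eq_sum_range]
    rfl
  rw [h0]
  have hsplit := sum_range_three (m := m) (M1 := m / 2) (M2 := m - 1 - m / 2) (by omega) g
  rw [hsplit]
  have hL : (0 : ℝ) < (m : ℝ) / 2 := by positivity
  have e1 : ∀ i : ℕ, g (i + 1) =
      Real.exp (-a * (1 - Real.cos (Real.pi * ((i + 1 : ℕ) : ℝ) / ((m : ℝ) / 2)))) := by
    intro i
    simp only [hg]
    congr 4
    field_simp
  have e2 : ∀ i ∈ Finset.range (m - 1 - m / 2), g (m - (i + 1)) =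
      Real.exp (-a * (1 - Real.cos (Real.pi * ((i + 1 : ℕ) : ℝ) / ((m : ℝ) / 2)))) := by
    intro i hi
    have hi' := Finset.mem_range.1 hi
    simp only [hg]
    congr 3
    rw [Nat.cast_sub (by omega)]
    rw [show 2 * Real.pi * ((m : ℝ) - ((i + 1 : ℕ) : ℝ)) / m =
      2 * Real.pi - Real.pi * ((i + 1 : ℕ) : ℝ) / ((m : ℝ) / 2) by field_simp,
      Real.cos_two_pi_sub]
  have g0 : g 0 = 1 := by simp [hg]
  rw [g0, Finset.sum_congr rfl fun i _ => e1 i, Finset.sum_congr rfl e2]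
  have h1 := riemann_upper_real hL ha (M := m / 2) (by
    rw [le_div_iff₀ (by norm_num)]
    exact_mod_cast Nat.div_mul_le_self m 2)
  have h2 := riemann_upper_real hL ha (M := m - 1 - m / 2) (by
    rw [le_div_iff₀ (by norm_num)]
    have : (m - 1 - m / 2) * 2 ≤ m := by omega
    exact_mod_cast this)
  linarith

/-- Three-dimensional torus sum. -/
theorem tor_three_dim (m : ℕ) [NeZero m] {a : ℝ} (ha : 0 ≤ a) :
    ∑ k : Fin 3 → ZMod m, Real.exp (-(a * tK m k)) ≤ (1 + m * H.bJ a) ^ 3 := by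
  have h1 : ∀ k : Fin 3 → ZMod m, Real.exp (-(a * tK m k)) =
      ∏ j, Real.exp (-a * (1 - Real.cos (2 * Real.pi * ((k j).val : ℝ) / m))) := by
    intro k
    rw [← Real.exp_sum, tK, Finset.mul_sum, ← Finset.sum_neg_distrib]
    congr 1
    exact Finset.sum_congr rfl fun j _ => by ring
  have h2 : ∑ k : Fin 3 → ZMod m, Real.exp (-(a * tK m k)) =
      (∑ p : ZMod m, Real.exp (-a * (1 - Real.cos (2 * Real.pi * (p.val : ℝ) / m)))) ^ 3 := by
    rw [Finset.sum_congr rfl fun k _ => h1 k]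
    have := (Finset.prod_univ_sum (fun _ : Fin 3 => (Finset.univ : Finset (ZMod m)))
      (fun _ p => Real.exp (-a * (1 - Real.cos (2 * Real.pi * (p.val : ℝ) / m))))).symm
    rw [Fintype.piFinset_univ] at this
    rw [this, Finset.prod_const, Finset.card_univ, Fintype.card_fin]
  rw [h2]
  exact pow_le_pow_left₀ (Finset.sum_nonneg fun _ _ => (Real.exp_pos _).le) (tor_one_dim m ha) 3

/-- Ideal pressure on the torus. -/
theorem tor_log_le {n : ℕ} (m : ℕ) [NeZero m] {β s : ℝ} (hβ : 0 ≤ β) (hs : 0 < s) :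
    ∑ k : Fin 3 → ZMod m, -Real.log (1 - Real.exp (-(β * (n * tK m k) + s))) ≤
      bosSer n m β s := by
  set q : (Fin 3 → ZMod m) → ℝ := fun k => Real.exp (-(β * (n * tK m k) + s)) with hq
  have hq0 : ∀ k, 0 < q k := fun k => Real.exp_pos _
  have hq1 : ∀ k, q k < 1 := by
    intro k
    simp only [hq]
    rw [Real.exp_lt_one_iff]
    have : 0 ≤ β * (n * tK m k) := mul_nonneg hβ (mul_nonneg (by positivity) (tK_nonneg m k))
    linarith
  have h2 : HasSum (fun j : ℕ => ∑ k, q k ^ (j + 1) / ((j : ℝ) + 1))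
      (∑ k, - Real.log (1 - q k)) := by
    refine hasSum_sum fun k _ => ?_
    exact Real.hasSum_pow_div_log_of_abs_lt_one (by rw [abs_of_pos (hq0 k)]; exact hq1 k)
  rw [← h2.tsum_eq, bosSer]
  refine h2.summable.tsum_le_tsum (fun j => ?_) (bosSer_summable n m hβ hs)
  have h3 : ∑ k, q k ^ (j + 1) / ((j : ℝ) + 1) = Real.exp (-(((j : ℝ) + 1) * s)) / ((j : ℝ) + 1) *
      ∑ k : Fin 3 → ZMod m, Real.exp (-((((j : ℝ) + 1) * (n * β)) * tK m k)) := by
    rw [Finset.mul_sum]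
    refine Finset.sum_congr rfl fun k _ => ?_
    simp only [hq]
    have e7 : Real.exp (-(β * (n * tK m k) + s)) ^ (j + 1) =
        Real.exp (-(((j : ℝ) + 1) * s)) *
          Real.exp (-((((j : ℝ) + 1) * (n * β)) * tK m k)) := by
      rw [← Real.exp_nat_mul, ← Real.exp_add]
      congr 1
      push_cast
      ring
    rw [e7]
    ring
  rw [h3]
  exact mul_le_mul_of_nonneg_left (tor_three_dim m (by positivity)) (by positivity)

/-- Free boson density series. -/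
noncomputable def densSer (n L : ℕ) (β s : ℝ) : ℝ :=
  ∑' j : ℕ, Real.exp (-(((j : ℝ) + 1) * s)) *
    (1 + L * H.bJ (((j : ℝ) + 1) * (n * β))) ^ 3

theorem hasSum_exp {s : ℝ} (hs : 0 < s) :
    HasSum (fun r : ℕ => Real.exp (-(((r : ℝ) + 1) * s))) (1 / (Real.exp s - 1)) := by
  have hlt : Real.exp (-s) < 1 := by rw [Real.exp_lt_one_iff]; linarith
  have h2 := (hasSum_geometric_of_lt_one (Real.exp_pos (-s)).le hlt).mul_left (Real.exp (-s))
  have e1 : Real.exp (-s) * (1 - Real.exp (-s))⁻¹ = 1 / (Real.exp s - 1) := by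
    have h3 : Real.exp s * Real.exp (-s) = 1 := by rw [← Real.exp_add]; simp
    have h4 : 1 < Real.exp s := by rw [Real.one_lt_exp_iff]; exact hs
    have h5 : 0 < 1 - Real.exp (-s) := by linarith
    rw [eq_div_iff (by linarith), ← div_eq_mul_inv, div_mul_eq_mul_div, div_eq_iff h5.ne']
    linear_combination h3
  rw [e1] at h2
  have e2 : (fun r : ℕ => Real.exp (-(((r : ℝ) + 1) * s))) =
      fun r : ℕ => Real.exp (-s) * Real.exp (-s) ^ r := by
    ext1 r
    rw [← Real.exp_nat_mul, ← Real.exp_add]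
    congr 1; ring
  rw [e2]
  exact h2

theorem densSer_summable (n L : ℕ) {β s : ℝ} (hβ : 0 ≤ β) (hs : 0 < s) :
    Summable fun j : ℕ => Real.exp (-(((j : ℝ) + 1) * s)) *
    (1 + L * H.bJ (((j : ℝ) + 1) * (n * β))) ^ 3 := by
  refine Summable.of_nonneg_of_le (fun j => ?_) (fun j => ?_)
    ((hasSum_exp hs).summable.mul_right ((1 + (L : ℝ)) ^ 3))
  · have := H.bJ_nonneg (((j : ℝ) + 1) * (n * β))
    positivity
  · refine mul_le_mul_of_nonneg_left ?_ (Real.exp_pos _).le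
    have hb := H.bJ_nonneg (((j : ℝ) + 1) * (n * β))
    refine pow_le_pow_left₀ (by positivity) ?_ 3
    have h3 := bJ_le_one (t := ((j : ℝ) + 1) * (n * β)) (by positivity)
    have : (L : ℝ) * H.bJ (((j : ℝ) + 1) * (n * β)) ≤ L * 1 :=
      mul_le_mul_of_nonneg_left h3 (by positivity)
    linarith

/-- Ideal density on the torus. -/
theorem tor_dens_le {n : ℕ} (m : ℕ) [NeZero m] {β s : ℝ} (hβ : 0 ≤ β) (hs : 0 < s) :
    ∑ k : Fin 3 → ZMod m, 1 / (Real.exp (β * (n * tK m k) + s) - 1) ≤ densSer n m β s := by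
  have hpos : ∀ k : Fin 3 → ZMod m, 0 < β * (n * tK m k) + s := by
    intro k
    have : 0 ≤ β * (n * tK m k) := mul_nonneg hβ (mul_nonneg (by positivity) (tK_nonneg m k))
    linarith
  have h2 : HasSum (fun j : ℕ => ∑ k : Fin 3 → ZMod m,
      Real.exp (-(((j : ℝ) + 1) * (β * (n * tK m k) + s))))
      (∑ k : Fin 3 → ZMod m, 1 / (Real.exp (β * (n * tK m k) + s) - 1)) :=
    hasSum_sum fun k _ => hasSum_exp (hpos k)
  rw [← h2.tsum_eq, densSer]
  refine h2.summable.tsum_le_tsum (fun j => ?_) (densSer_summable n m hβ hs)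
  have h3 : ∑ k : Fin 3 → ZMod m, Real.exp (-(((j : ℝ) + 1) * (β * (n * tK m k) + s))) =
      Real.exp (-(((j : ℝ) + 1) * s)) *
      ∑ k : Fin 3 → ZMod m, Real.exp (-((((j : ℝ) + 1) * (n * β)) * tK m k)) := by
    rw [Finset.mul_sum]
    refine Finset.sum_congr rfl fun k _ => ?_
    rw [← Real.exp_add]
    congr 1
    ring
  rw [h3]
  exact mul_le_mul_of_nonneg_left (tor_three_dim m (by positivity)) (by positivity)

/-- Asymptotics of the free boson density. -/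
theorem densSer_le {n : ℕ} (hn : 1 ≤ n) : ∃ C : ℝ, 0 ≤ C ∧ ∀ β : ℝ, 448 ≤ β → ∀ L : ℕ, 0 < L →
    ∀ s : ℝ, 0 < s →
    Real.sqrt β ^ 3 / (L : ℝ) ^ 3 * densSer n L β s ≤
    fS ((n : ℝ) / 2) s + C / β +
      C * (Real.sqrt β / L + β / (L : ℝ) ^ 2 + Real.sqrt β ^ 3 / (L : ℝ) ^ 3) / s := by
  set A := Real.sqrt (4 * Real.pi * ((n : ℝ) / 2)) with hA
  have hnR : (1 : ℝ) ≤ n := by exact_mod_cast hn
  have hpi := Real.pi_pos
  have hA0 : 0 < A := Real.sqrt_pos.2 (by positivity)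
  have haS0 : 0 ≤ Vale.Agent.P361.B.aS ((n : ℝ) / 2) := by
    rw [← fS_zero]; exact fS_nonneg _ _
  refine ⟨7 * 448 * Vale.Agent.P361.B.aS ((n : ℝ) / 2) + 12 * (A ^ 2)⁻¹ + 6 * A⁻¹ + 1, by positivity, ?_⟩
  intro β hβ L hL s hs
  have hβ0 : 0 < β := by linarith
  have hLR : (0 : ℝ) < L := by exact_mod_cast hL
  have hsb : 0 < Real.sqrt β := Real.sqrt_pos.2 hβ0
  have h1 := ((densSer_summable n L hβ0.le hs).hasSum).mul_left (Real.sqrt β ^ 3 / (L : ℝ) ^ 3)
  have hgeo := hasSum_exp hs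
  have hF := (summable_f hs.le).hasSum
  have h2 := (((hF.mul_left ((A ^ 3)⁻¹ * (1 + 7 * (448 / β)))).add
    (hgeo.mul_left (12 * (A ^ 2)⁻¹ * (Real.sqrt β / L)))).add
    (hgeo.mul_left (6 * A⁻¹ * (β / (L : ℝ) ^ 2)))).add
    (hgeo.mul_left (Real.sqrt β ^ 3 / (L : ℝ) ^ 3))
  have h3 := hasSum_le (fun r => ?_) h1 h2
  · refine h3.trans ?_
    have e1 : (A ^ 3)⁻¹ * ∑' r : ℕ, Real.exp (-(((r : ℝ) + 1) * s)) /
        Real.sqrt ((r : ℝ) + 1) ^ 3 = fS ((n : ℝ) / 2) s := rfl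
    have e2 : (A ^ 3)⁻¹ * (1 + 7 * (448 / β)) * ∑' r : ℕ, Real.exp (-(((r : ℝ) + 1) * s)) /
        Real.sqrt ((r : ℝ) + 1) ^ 3 = fS ((n : ℝ) / 2) s +
        7 * 448 * fS ((n : ℝ) / 2) s * (1 / β) := by
      rw [← e1]; ring
    have e3 := fS_le ((n : ℝ) / 2) hs.le
    have e4 : 7 * 448 * fS ((n : ℝ) / 2) s * (1 / β) ≤ 7 * 448 * Vale.Agent.P361.B.aS ((n : ℝ) / 2) * (1 / β) := by
      refine mul_le_mul_of_nonneg_right ?_ (by positivity)
      linarith
    have e5 : 1 / (Real.exp s - 1) ≤ 1 / s := by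
      refine one_div_le_one_div_of_le hs ?_
      linarith [Real.add_one_le_exp s]
    have p1 : 0 ≤ 12 * (A ^ 2)⁻¹ := by positivity
    have p2 : 0 ≤ 6 * A⁻¹ := by positivity
    have p3 : 0 ≤ 7 * 448 * Vale.Agent.P361.B.aS ((n : ℝ) / 2) := by positivity
    have q1 : 0 ≤ 1 / β := by positivity
    have q2 : 0 ≤ Real.sqrt β / L := by positivity
    have q3 : 0 ≤ β / (L : ℝ) ^ 2 := by positivity
    have q4 : 0 ≤ Real.sqrt β ^ 3 / (L : ℝ) ^ 3 := by positivity
    have q5 : 0 ≤ 1 / s := by positivity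
    rw [e2]
    generalize 1 / (Real.exp s - 1) = G at e5 ⊢
    have f1 : 12 * (A ^ 2)⁻¹ * (Real.sqrt β / L) * G ≤ 12 * (A ^ 2)⁻¹ * (Real.sqrt β / L) * (1 / s) :=
      mul_le_mul_of_nonneg_left e5 (by positivity)
    have f2 : 6 * A⁻¹ * (β / (L : ℝ) ^ 2) * G ≤ 6 * A⁻¹ * (β / (L : ℝ) ^ 2) * (1 / s) :=
      mul_le_mul_of_nonneg_left e5 (by positivity)
    have f3 : Real.sqrt β ^ 3 / (L : ℝ) ^ 3 * G ≤ Real.sqrt β ^ 3 / (L : ℝ) ^ 3 * (1 / s) :=
      mul_le_mul_of_nonneg_left e5 (by positivity)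
    have e6 : (7 * 448 * Vale.Agent.P361.B.aS ((n : ℝ) / 2) + 12 * (A ^ 2)⁻¹ + 6 * A⁻¹ + 1) / β =
        (7 * 448 * Vale.Agent.P361.B.aS ((n : ℝ) / 2) + 12 * (A ^ 2)⁻¹ + 6 * A⁻¹ + 1) * (1 / β) := by ring
    have e7 : (7 * 448 * Vale.Agent.P361.B.aS ((n : ℝ) / 2) + 12 * (A ^ 2)⁻¹ + 6 * A⁻¹ + 1) *
        (Real.sqrt β / L + β / (L : ℝ) ^ 2 + Real.sqrt β ^ 3 / (L : ℝ) ^ 3) / s =
        (7 * 448 * Vale.Agent.P361.B.aS ((n : ℝ) / 2) + 12 * (A ^ 2)⁻¹ + 6 * A⁻¹ + 1) *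
        (Real.sqrt β / L + β / (L : ℝ) ^ 2 + Real.sqrt β ^ 3 / (L : ℝ) ^ 3) * (1 / s) := by ring
    rw [e6, e7]
    generalize 12 * (A ^ 2)⁻¹ = P1 at *
    generalize 6 * A⁻¹ = P2 at *
    generalize 7 * 448 * Vale.Agent.P361.B.aS ((n : ℝ) / 2) = P3 at *
    generalize Real.sqrt β / L = Q2 at *
    generalize β / (L : ℝ) ^ 2 = Q3 at *
    generalize Real.sqrt β ^ 3 / (L : ℝ) ^ 3 = Q4 at *
    generalize 1 / β = Q1 at *
    generalize 1 / s = Q5 at *
    have g1 : 0 ≤ P1 * Q1 := mul_nonneg p1 q1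
    have g2 : 0 ≤ P2 * Q1 := mul_nonneg p2 q1
    have g3 : 0 ≤ P3 * (Q2 + Q3 + Q4) * Q5 := by positivity
    have g4 : 0 ≤ P1 * (Q3 + Q4) * Q5 := by positivity
    have g5 : 0 ≤ P2 * (Q2 + Q4) * Q5 := by positivity
    have g6 : 0 ≤ (Q2 + Q3) * Q5 := by positivity
    have k1 : (P3 + P1 + P2 + 1) * (Q2 + Q3 + Q4) * Q5 = P1 * Q2 * Q5 + P2 * Q3 * Q5 + Q4 * Q5 +
        (P3 * (Q2 + Q3 + Q4) * Q5 + P1 * (Q3 + Q4) * Q5 + P2 * (Q2 + Q4) * Q5 +
          (Q2 + Q3) * Q5) := by ring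
    have k2 : (P3 + P1 + P2 + 1) * Q1 = P3 * Q1 + (P1 * Q1 + P2 * Q1 + Q1) := by ring
    rw [k1, k2]
    linarith
  · -- termwise
    have hr1 : (1 : ℝ) ≤ (r : ℝ) + 1 := by linarith [Nat.cast_nonneg (α := ℝ) r]
    have hsr : 0 < Real.sqrt ((r : ℝ) + 1) := Real.sqrt_pos.2 (by positivity)
    have hsr1 : 1 ≤ Real.sqrt ((r : ℝ) + 1) := by rw [Real.one_le_sqrt]; exact hr1
    rw [mul_left_comm]
    have h4 := mul_le_mul_of_nonneg_left (order_bound hn hβ hL r)
      (a := Real.exp (-(((r : ℝ) + 1) * s))) (by positivity)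
    refine h4.trans ?_
    rw [← hA]
    have hE0 := Real.exp_pos (-(((r : ℝ) + 1) * s))
    set e := Real.exp (-(((r : ℝ) + 1) * s)) with he
    rw [mul_add, mul_add, mul_add]
    have i1 : 1 / Real.sqrt ((r : ℝ) + 1) ≤ 1 := by rw [div_le_one hsr]; exact hsr1
    have i2 : 1 / Real.sqrt ((r : ℝ) + 1) ^ 2 ≤ 1 := by
      rw [div_le_one (by positivity)]; exact one_le_pow₀ hsr1
    refine add_le_add (add_le_add (add_le_add ?_ ?_) ?_) ?_
    · apply le_of_eq
      field_simp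
    · have : e * (12 * (A ^ 2)⁻¹ * (Real.sqrt β / L) *
          (1 / Real.sqrt ((r : ℝ) + 1) ^ 2)) = (12 * (A ^ 2)⁻¹ * (Real.sqrt β / L) * e) *
          (1 / Real.sqrt ((r : ℝ) + 1) ^ 2) := by ring
      rw [this]
      exact mul_le_of_le_one_right (by positivity) i2
    · have : e * (6 * A⁻¹ * (β / (L : ℝ) ^ 2) *
          (1 / Real.sqrt ((r : ℝ) + 1))) = (6 * A⁻¹ * (β / (L : ℝ) ^ 2) * e) *
          (1 / Real.sqrt ((r : ℝ) + 1)) := by ring
      rw [this]
      exact mul_le_of_le_one_right (by positivity) i1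
    · rw [mul_comm]

/-- Torus pressure, final form. -/
theorem tor_log_asymp {n : ℕ} (hn : 1 ≤ n) : ∃ C : ℝ, 0 ≤ C ∧ ∀ β : ℝ, 448 ≤ β →
    ∀ (m : ℕ) [NeZero m] (s : ℝ), 0 < s →
    Real.sqrt β ^ 3 / (m : ℝ) ^ 3 *
      ∑ k : Fin 3 → ZMod m, -Real.log (1 - Real.exp (-(β * (n * tK m k) + s))) ≤
    FS ((n : ℝ) / 2) s + C * (1 / β + Real.sqrt β / m + β / (m : ℝ) ^ 2) +
      Real.sqrt β ^ 3 / (m : ℝ) ^ 3 / s := by
  obtain ⟨C, hC, h⟩ := bosSer_le hn
  refine ⟨C, hC, fun β hβ m _ s hs => ?_⟩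
  refine le_trans (mul_le_mul_of_nonneg_left (tor_log_le m (by linarith) hs) (by positivity)) ?_
  exact h β hβ m (Nat.pos_of_ne_zero (NeZero.ne m)) s hs

/-- Torus density, final form. -/
theorem tor_dens_asymp {n : ℕ} (hn : 1 ≤ n) : ∃ C : ℝ, 0 ≤ C ∧ ∀ β : ℝ, 448 ≤ β →
    ∀ (m : ℕ) [NeZero m] (s : ℝ), 0 < s →
    Real.sqrt β ^ 3 / (m : ℝ) ^ 3 *
      ∑ k : Fin 3 → ZMod m, 1 / (Real.exp (β * (n * tK m k) + s) - 1) ≤
    fS ((n : ℝ) / 2) s + C / β +
      C * (Real.sqrt β / m + β / (m : ℝ) ^ 2 + Real.sqrt β ^ 3 / (m : ℝ) ^ 3) / s := by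
  obtain ⟨C, hC, h⟩ := densSer_le hn
  refine ⟨C, hC, fun β hβ m _ s hs => ?_⟩
  refine le_trans (mul_le_mul_of_nonneg_left (tor_dens_le m (by linarith) hs) (by positivity)) ?_
  exact h β hβ m (Nat.pos_of_ne_zero (NeZero.ne m)) s hs

/-- The finite size errors vanish as `m → ∞`. -/
theorem err_tendsto (β C s : ℝ) : Tendsto (fun m : ℕ =>
    C * (Real.sqrt β / m + β / (m : ℝ) ^ 2 + Real.sqrt β ^ 3 / (m : ℝ) ^ 3) / s) atTop (𝓝 0) := by
  have h1 : Tendsto (fun m : ℕ => Real.sqrt β / (m : ℝ)) atTop (𝓝 0) :=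
    tendsto_const_div_atTop_nhds_zero_nat _
  have h2 : Tendsto (fun m : ℕ => β / (m : ℝ) ^ 2) atTop (𝓝 0) :=
    tendsto_const_nhds.div_atTop
      ((tendsto_pow_atTop (by norm_num)).comp tendsto_natCast_atTop_atTop)
  have h3 : Tendsto (fun m : ℕ => Real.sqrt β ^ 3 / (m : ℝ) ^ 3) atTop (𝓝 0) :=
    tendsto_const_nhds.div_atTop
      ((tendsto_pow_atTop (by norm_num)).comp tendsto_natCast_atTop_atTop)
  have h4 := (((h1.add h2).add h3).const_mul C).div_const s
  simpa using h4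

/-- Density: for each `β` and `s`, all large tori. -/
theorem tor_dens_eventually {n : ℕ} (hn : 1 ≤ n) : ∃ C : ℝ, 0 ≤ C ∧ ∀ β : ℝ, 448 ≤ β →
    ∀ s : ℝ, 0 < s → ∀ ε : ℝ, 0 < ε → ∀ᶠ m : ℕ in atTop, ∀ [NeZero m],
    Real.sqrt β ^ 3 / (m : ℝ) ^ 3 *
      ∑ k : Fin 3 → ZMod m, 1 / (Real.exp (β * (n * tK m k) + s) - 1) ≤
    fS ((n : ℝ) / 2) s + C / β + ε := by
  obtain ⟨C, hC, h⟩ := tor_dens_asymp hn
  refine ⟨C, hC, fun β hβ s hs ε hε => ?_⟩
  filter_upwards [(err_tendsto β C s).eventually (ge_mem_nhds hε)] with m hm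
  intro _
  have := h β hβ m s hs
  linarith

/-- Pressure: for each `β` and `s`, all large tori. -/
theorem tor_log_eventually {n : ℕ} (hn : 1 ≤ n) : ∃ C : ℝ, 0 ≤ C ∧ ∀ β : ℝ, 448 ≤ β →
    ∀ s : ℝ, 0 < s → ∀ ε : ℝ, 0 < ε → ∀ᶠ m : ℕ in atTop, ∀ [NeZero m],
    Real.sqrt β ^ 3 / (m : ℝ) ^ 3 *
      ∑ k : Fin 3 → ZMod m, -Real.log (1 - Real.exp (-(β * (n * tK m k) + s))) ≤
    FS ((n : ℝ) / 2) s + C / β + ε := by
  obtain ⟨C, hC, h⟩ := tor_log_asymp hn
  refine ⟨C, hC, fun β hβ s hs ε hε => ?_⟩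
  have h1 : Tendsto (fun m : ℕ => C * (Real.sqrt β / m + β / (m : ℝ) ^ 2) +
      Real.sqrt β ^ 3 / (m : ℝ) ^ 3 / s) atTop (𝓝 0) := by
    have g1 : Tendsto (fun m : ℕ => Real.sqrt β / (m : ℝ)) atTop (𝓝 0) :=
      tendsto_const_div_atTop_nhds_zero_nat _
    have g2 : Tendsto (fun m : ℕ => β / (m : ℝ) ^ 2) atTop (𝓝 0) :=
      tendsto_const_nhds.div_atTop
        ((tendsto_pow_atTop (by norm_num)).comp tendsto_natCast_atTop_atTop)
    have g3 : Tendsto (fun m : ℕ => Real.sqrt β ^ 3 / (m : ℝ) ^ 3) atTop (𝓝 0) :=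
      tendsto_const_nhds.div_atTop
        ((tendsto_pow_atTop (by norm_num)).comp tendsto_natCast_atTop_atTop)
    have g4 := ((g1.add g2).const_mul C).add (g3.div_const s)
    simpa using g4
  filter_upwards [h1.eventually (ge_mem_nhds hε)] with m hm
  intro _
  have := h β hβ m s hs
  have e : C * (1 / β + Real.sqrt β / m + β / (m : ℝ) ^ 2) =
      C / β + C * (Real.sqrt β / m + β / (m : ℝ) ^ 2) := by ring
  rw [e] at this
  linarith

end Vale.Agent.P361.LRO.S3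
end

section

/-!
P361 stage 3, block (M): the numbers.  From the output of the Peierls-Bogoliubov step
`βλ m³ y ≤ ∑_k -log (1 - exp (-β (t_k + h - λ g_k))) - lZ + 24 β m³ ρ²` to the sharp mean.
-/

namespace Vale.Agent.P361.LRO.S3

open Filter Topology Vale.Agent.P361.B

theorem FS_mono_zero {s : ℝ} (hs : 0 ≤ s) (S : ℝ) : FS S s ≤ FS S 0 := by
  unfold FS
  refine mul_le_mul_of_nonneg_left ?_ (by positivity)
  refine Summable.tsum_le_tsum (fun r => ?_) (summable_F hs) (summable_F le_rfl)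
  refine div_le_div_of_nonneg_right ?_ (by positivity)
  have := exp_le_one hs r
  simpa using this

theorem rpow_neg_three_half {β : ℝ} (hβ : 0 < β) :
    β ^ (-(3 / 2) : ℝ) = (Real.sqrt β ^ 3)⁻¹ := by
  rw [Real.sqrt_eq_rpow, ← Real.rpow_natCast, ← Real.rpow_mul hβ.le, ← Real.rpow_neg hβ.le]
  norm_num

/-- Real-variable core of `mean_num`. -/
theorem mean_core {β c c' C1 C7 D1 F0 A Y M P Q lZ y ρ : ℝ} (hβp : 0 < β) (hm3 : 0 < M)
    (P1 : P / M ≤ (Real.sqrt β ^ 3)⁻¹ * (F0 + D1 / β))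
    (Q1 : Q / M ≤ (Real.sqrt β ^ 3)⁻¹ * (Y⁻¹ * A))
    (hlZ : (Real.sqrt β ^ 3)⁻¹ * (F0 - C1 * β ^ (-c)) ≤ lZ / M)
    (hρ0 : 0 ≤ ρ) (hρ : ρ ≤ C7 * (Real.sqrt β ^ 3)⁻¹)
    (hV : β * β ^ (-1 - c') * M * y ≤ P + β * β ^ (-1 - c') * Q - lZ + 24 * β * M * ρ ^ 2) :
    y ≤ (Real.sqrt β ^ 3)⁻¹ * (Y⁻¹ * A + (D1 * β ^ (-(1 - c')) + |C1| * β ^ (-(c - c'))) +
      24 * C7 ^ 2 * β ^ (-(1 / 2 - c'))) := by
  have hX0 : 0 < Real.sqrt β ^ 3 := by have := Real.sqrt_pos.2 hβp; positivity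
  have hXr : (Real.sqrt β ^ 3)⁻¹ = β ^ (-(3 / 2) : ℝ) := (rpow_neg_three_half hβp).symm
  generalize (Real.sqrt β ^ 3)⁻¹ = X at *
  have hX1 : 0 < X := by rw [hXr]; exact Real.rpow_pos_of_pos hβp _
  obtain ⟨lam, hlam⟩ : ∃ l : ℝ, l = β ^ (-1 - c') := ⟨_, rfl⟩
  rw [← hlam] at hV
  have hlam0 : 0 < lam := by rw [hlam]; exact Real.rpow_pos_of_pos hβp _
  have hbl : β * lam = β ^ (-c') := by
    rw [hlam]
    nth_rewrite 1 [← Real.rpow_one β]
    rw [← Real.rpow_add hβp]; congr 1; ring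
  have hbl0 : 0 < β * lam := mul_pos hβp hlam0
  have V1 : β * lam * y ≤ P / M + β * lam * (Q / M) - lZ / M + 24 * β * ρ ^ 2 := by
    have h2 := div_le_div_of_nonneg_right hV hm3.le
    have e3 : β * lam * M * y / M = β * lam * y := by field_simp
    have e4 : (P + β * lam * Q - lZ + 24 * β * M * ρ ^ 2) / M =
        P / M + β * lam * (Q / M) - lZ / M + 24 * β * ρ ^ 2 := by
      field_simp
    rwa [e3, e4] at h2
  have hρ2 : ρ ^ 2 ≤ C7 ^ 2 * X ^ 2 := by
    rw [← mul_pow]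
    exact pow_le_pow_left₀ hρ0 hρ 2
  have V2 : β * lam * y ≤ X * ((D1 / β + |C1| * β ^ (-c)) +
      β * lam * (Y⁻¹ * A) + 24 * β * C7 ^ 2 * X) := by
    have h1 := mul_le_mul_of_nonneg_left Q1 hbl0.le
    have h2 : 24 * β * ρ ^ 2 ≤ 24 * β * (C7 ^ 2 * X ^ 2) :=
      mul_le_mul_of_nonneg_left hρ2 (by positivity)
    have h3 : C1 * β ^ (-c) ≤ |C1| * β ^ (-c) :=
      mul_le_mul_of_nonneg_right (le_abs_self _) (Real.rpow_nonneg hβp.le _)
    have h4 := mul_le_mul_of_nonneg_left h3 hX1.le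
    have e : X * ((D1 / β + |C1| * β ^ (-c)) + β * lam * (Y⁻¹ * A) + 24 * β * C7 ^ 2 * X) =
        X * (F0 + D1 / β) - X * (F0 - C1 * β ^ (-c)) +
        (X * (|C1| * β ^ (-c)) - X * (C1 * β ^ (-c))) + β * lam * (X * (Y⁻¹ * A)) +
        24 * β * (C7 ^ 2 * X ^ 2) := by ring
    rw [e]
    linarith
  have hk : β ^ c' * (β * lam) = 1 := by
    rw [hbl, ← Real.rpow_add hβp]; simp
  have hbc : 0 < β ^ c' := Real.rpow_pos_of_pos hβp _
  have V3 := mul_le_mul_of_nonneg_left V2 hbc.le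
  have e5 : β ^ c' * (β * lam * y) = y := by rw [← mul_assoc, hk, one_mul]
  have e6 : β ^ c' * (D1 / β) = D1 * β ^ (-(1 - c')) := by
    have : β ^ (-(1 - c')) = β ^ c' / β := by
      rw [show -(1 - c') = c' - 1 by ring, Real.rpow_sub hβp, Real.rpow_one]
    rw [this]; ring
  have e7 : β ^ c' * (|C1| * β ^ (-c)) = |C1| * β ^ (-(c - c')) := by
    have : β ^ (-(c - c')) = β ^ c' * β ^ (-c) := by
      rw [← Real.rpow_add hβp]; congr 1; ring
    rw [this]; ring
  have e8 : β ^ c' * (24 * β * C7 ^ 2 * X) = 24 * C7 ^ 2 * β ^ (-(1 / 2 - c')) := by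
    rw [hXr]
    have : β ^ (-(1 / 2 - c')) = β ^ c' * (β * β ^ (-(3 / 2) : ℝ)) := by
      nth_rewrite 3 [← Real.rpow_one β]
      rw [← Real.rpow_add hβp, ← Real.rpow_add hβp]; congr 1; ring
    rw [this]; ring
  have e9 : β ^ c' * (X * ((D1 / β + |C1| * β ^ (-c)) +
      β * lam * (Y⁻¹ * A) + 24 * β * C7 ^ 2 * X)) =
      X * (Y⁻¹ * A + (D1 * β ^ (-(1 - c')) +
        |C1| * β ^ (-(c - c'))) + 24 * C7 ^ 2 * β ^ (-(1 / 2 - c'))) := by
    rw [← e6, ← e7, ← e8]
    linear_combination X * (Y⁻¹ * A) * hk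
  rwa [e5, e9] at V3

theorem p_step {β P M F0 Cp : ℝ} (hβp : 0 < β)
    (h : Real.sqrt β ^ 3 / M * P ≤ F0 + Cp / β + β⁻¹) :
    P / M ≤ (Real.sqrt β ^ 3)⁻¹ * (F0 + (Cp + 1) / β) := by
  have hX0 : 0 < Real.sqrt β ^ 3 := by have := Real.sqrt_pos.2 hβp; positivity
  rw [inv_mul_eq_div, le_div_iff₀ hX0]
  have : (Cp + 1) / β = Cp / β + β⁻¹ := by rw [add_div, one_div]
  rw [this]
  calc P / M * Real.sqrt β ^ 3 = Real.sqrt β ^ 3 / M * P := by ring
    _ ≤ _ := h
    _ = _ := by ring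

theorem q_step {β τ Q M A Cd : ℝ} (hβp : 0 < β) (hCd : 0 ≤ Cd) (hτ : τ ≤ 1 / 2)
    (h : Real.sqrt ((1 - τ) * β) ^ 3 / M * Q ≤ A + Cd / ((1 - τ) * β) + β⁻¹) :
    Q / M ≤ (Real.sqrt β ^ 3)⁻¹ * ((Real.sqrt (1 - τ) ^ 3)⁻¹ * (A + (2 * Cd + 1) / β)) := by
  have hX0 : 0 < Real.sqrt β ^ 3 := by have := Real.sqrt_pos.2 hβp; positivity
  have hY0 : 0 < Real.sqrt (1 - τ) ^ 3 := by
    have := Real.sqrt_pos.2 (by linarith : 0 < 1 - τ); positivity
  rw [Real.sqrt_mul (by linarith), mul_pow] at h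
  generalize Real.sqrt β ^ 3 = X at *
  generalize Real.sqrt (1 - τ) ^ 3 = Y at *
  have h2 : Cd / ((1 - τ) * β) ≤ 2 * Cd / β := by
    rw [div_le_div_iff₀ (by nlinarith) hβp]
    have h3 : 1 ≤ 2 * (1 - τ) := by linarith
    have h4 : 0 ≤ Cd * β := mul_nonneg hCd hβp.le
    nlinarith
  have h1 : Y * X * (Q / M) ≤ A + (2 * Cd + 1) / β := by
    have : (2 * Cd + 1) / β = 2 * Cd / β + β⁻¹ := by rw [add_div, one_div]
    rw [this]
    calc Y * X * (Q / M) = Y * X / M * Q := by ring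
      _ ≤ _ := h
      _ ≤ _ := by linarith
  have h3 : ∀ T : ℝ, X⁻¹ * (Y⁻¹ * T) = T / (Y * X) := fun T => by field_simp
  rw [h3, le_div_iff₀ (by positivity)]
  linarith

theorem w_step {β C0 c' d w t gk : ℝ} (hβp : 0 < β) (ht : 0 ≤ t) (hw0 : 0 ≤ w)
    (hw : w ≤ 3 * β ^ (1 / 2 + d)) (hgt : gk ≤ C0 * w ^ 2 * t) :
    β ^ (-1 - c') * gk ≤ 9 * |C0| * β ^ (-(c' - 2 * d)) * t := by
  have hlam0 : 0 < β ^ (-1 - c') := Real.rpow_pos_of_pos hβp _
  have h1 : gk ≤ |C0| * w ^ 2 * t := by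
    refine hgt.trans ?_
    refine mul_le_mul_of_nonneg_right ?_ ht
    exact mul_le_mul_of_nonneg_right (le_abs_self _) (by positivity)
  have h2 : w ^ 2 ≤ 9 * β ^ (1 + 2 * d) := by
    calc w ^ 2 ≤ (3 * β ^ (1 / 2 + d)) ^ 2 := pow_le_pow_left₀ hw0 hw 2
      _ = 9 * β ^ (1 + 2 * d) := by
        rw [mul_pow, ← Real.rpow_natCast (β ^ (1 / 2 + d)), ← Real.rpow_mul hβp.le]
        norm_num
        congr 1
        ring
  have h3 : β ^ (-1 - c') * (|C0| * w ^ 2) ≤ 9 * |C0| * β ^ (-(c' - 2 * d)) := by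
    have h4 : β ^ (-1 - c') * (|C0| * w ^ 2) ≤ β ^ (-1 - c') * (|C0| * (9 * β ^ (1 + 2 * d))) :=
      mul_le_mul_of_nonneg_left (mul_le_mul_of_nonneg_left h2 (abs_nonneg _)) hlam0.le
    refine h4.trans (le_of_eq ?_)
    have h5 : β ^ (-1 - c') * β ^ (1 + 2 * d) = β ^ (-(c' - 2 * d)) := by
      rw [← Real.rpow_add hβp]; congr 1; ring
    rw [← h5]
    ring
  calc β ^ (-1 - c') * gk ≤ β ^ (-1 - c') * (|C0| * w ^ 2 * t) :=
        mul_le_mul_of_nonneg_left h1 hlam0.le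
    _ = β ^ (-1 - c') * (|C0| * w ^ 2) * t := by ring
    _ ≤ _ := mul_le_mul_of_nonneg_right h3 ht

theorem FS_ge {s : ℝ} (hs : 0 ≤ s) (S : ℝ) : FS S 0 - s * Vale.Agent.P361.B.aS S ≤ FS S s := by
  have h0 : Vale.Agent.P361.B.aS S = fS S 0 := (fS_zero S).symm
  rw [h0]
  unfold FS fS
  have h1 := summable_F (t := 0) le_rfl
  have h2 := summable_F hs
  have h3 := summable_f (t := 0) le_rfl
  have h4 : ∑' r : ℕ, Real.exp (-(((r : ℝ) + 1) * 0)) / (((r : ℝ) + 1) * Real.sqrt ((r : ℝ) + 1) ^ 3) -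
      s * ∑' r : ℕ, Real.exp (-(((r : ℝ) + 1) * 0)) / Real.sqrt ((r : ℝ) + 1) ^ 3 ≤
      ∑' r : ℕ, Real.exp (-(((r : ℝ) + 1) * s)) / (((r : ℝ) + 1) * Real.sqrt ((r : ℝ) + 1) ^ 3) := by
    rw [← tsum_mul_left, ← h1.tsum_sub (h3.mul_left s)]
    refine Summable.tsum_le_tsum (fun r => ?_) (h1.sub (h3.mul_left s)) h2
    have hr1 : (0 : ℝ) < (r : ℝ) + 1 := by positivity
    have hq : 0 < Real.sqrt ((r : ℝ) + 1) ^ 3 := by
      have := Real.sqrt_pos.2 hr1; positivity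
    have h5 := Real.add_one_le_exp (-(((r : ℝ) + 1) * s))
    have h6 : Real.exp (-(((r : ℝ) + 1) * 0)) = 1 := by simp
    rw [h6]
    have h7 : 1 / (((r : ℝ) + 1) * Real.sqrt ((r : ℝ) + 1) ^ 3) - s * (1 / Real.sqrt ((r : ℝ) + 1) ^ 3)
        = (1 - ((r : ℝ) + 1) * s) / (((r : ℝ) + 1) * Real.sqrt ((r : ℝ) + 1) ^ 3) := by
      field_simp
    rw [h7]
    refine div_le_div_of_nonneg_right ?_ (by positivity)
    linarith
  have h5 := mul_le_mul_of_nonneg_left h4
    (a := (Real.sqrt (4 * Real.pi * S) ^ 3)⁻¹) (by positivity)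
  refine le_trans (le_of_eq ?_) h5
  ring

end Vale.Agent.P361.LRO.S3
end

section

/-!
P361, stage 3 for all spins, block (F): the sharp bound on the torus of copies from the blocks
(K), (D), (B), (M), (T).
-/

namespace Vale.Agent.P361.LRO.S3S

open Finset Filter Topology Vale.Agent.P361.LRO.GenS Vale.Agent.P361.LRO.S3

namespace FS

theorem BCS_pos {s : ℕ} (hs : 1 ≤ s) : 0 < BCS s := by
  have hs' : (0 : ℝ) < s := by exact_mod_cast hs
  have h0 := S3F.BC_pos
  have hz : 0 < (riemannZeta (3 / 2)).re := by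
    unfold BC at h0
    by_contra hneg
    have h1 : (riemannZeta (3 / 2)).re ≤ 0 := not_lt.1 hneg
    have h2 : (riemannZeta (3 / 2)).re / (8 * Real.pi ^ (3 / 2 : ℝ) * (1 / 2) ^ (3 / 2 : ℝ)) ≤ 0 :=
      div_nonpos_of_nonpos_of_nonneg h1 (by positivity)
    linarith
  unfold BCS
  positivity

/-- The choice of the parameters. -/
theorem params {B d c2 Lam δ S : ℝ} (hd0 : 0 < d) (hd1 : d ≤ 1 / 100) (hc2 : 0 < c2)
    (hLam : 0 < Lam) (hδ0 : 0 < δ) : ∀ᶠ β : ℝ in atTop, 1 ≤ β ∧ S ≤ β ∧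
      4 * (B * β ^ (-(3 / 2) : ℝ)) ≤ δ ∧
      1 ≤ Lam * β ^ (3 / 2 : ℝ) ∧ ∃ a : ℕ, β ^ (1 / 2 + d) ≤ (3 : ℝ) ^ a ∧
      (3 : ℝ) ^ a ≤ 3 * β ^ (1 / 2 + d) ∧ Real.sqrt β ≤ (3 : ℝ) ^ a ∧
      (3 : ℝ) ^ a ≤ β ^ (3 / 4 : ℝ) ∧ Lam * β ^ (3 / 2 : ℝ) ≤ c2 * β * 3 ^ a := by
  have hlim1 : Tendsto (fun β : ℝ => β ^ (-(3 / 2) : ℝ)) atTop (𝓝 0) :=
    tendsto_rpow_neg_atTop (by norm_num)
  have h1 : ∀ᶠ β : ℝ in atTop, 4 * (B * β ^ (-(3 / 2) : ℝ)) ≤ δ := by
    have h2 : Tendsto (fun β : ℝ => 4 * (B * β ^ (-(3 / 2) : ℝ))) atTop (𝓝 (4 * (B * 0))) :=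
      (hlim1.const_mul B).const_mul 4
    rw [mul_zero, mul_zero] at h2
    exact h2.eventually_le_const hδ0
  filter_upwards [S3F.params hd0 hd1 hc2 hLam hδ0, h1, eventually_ge_atTop S] with β hb hb1 hb2
  exact ⟨hb.1, hb2, hb1, hb.2.2⟩

theorem rhoS_const {n s M : ℕ} [NeZero n] {β h : ℝ} (u v : Tor n × Fin s) :
    rho (edgesS n s M) β (hS fun _ => h) u = rho (edgesS n s M) β (hS fun _ => h) v := by
  have h1 := transStmtS s n M β (fun _ => h) u.1 (v.1 - u.1) u.2 v.2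
  rw [add_sub_cancel] at h1
  exact h1

theorem cubeS_nonempty {n s : ℕ} [NeZero n] (hs : 1 ≤ s) (x : Tor n) {w : ℕ} (hw : 0 < w) :
    (cubeS n s x w).Nonempty := by
  have : NeZero s := ⟨by omega⟩
  unfold cubeS
  exact (S3F.cube_nonempty x hw).product Finset.univ_nonempty

/-- The step for one state, for one test polynomial. -/
theorem one_state {V : Type} [Fintype V] [DecidableEq V] {L : List (V × V)} {β : ℝ} {h : V → ℝ}
    {b : Finset V} (hbne : b.Nonempty) {C c3 K δ δ' q dd : ℝ} (hD : S3F.DirAt C L β h b)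
    (hC : 0 < C)
    (hc3 : 0 < c3) (hK1 : 1 ≤ K) (hδ0 : 0 < δ) (hδ1 : δ ≤ 1 / 4) (hdd0 : 0 < dd)
    (hb6 : 4 * dd ≤ δ) (hq1 : (1 - δ) * dd ≤ q) (hq2 : q ≤ dd) (hδ'1 : δ' ≤ δ)
    (hδ'2 : δ' ≤ Real.exp (-(K * dd)))
    (hkap : ∃ᶠ N : ℕ in atTop, c3 * K ≤ kap L β N h K b)
    (hM : yb L β h b ≤ (1 + δ) * dd) (P : Polynomial ℝ)
    (hP : ∀ r : ℕ, 2 * r ≤ b.card →
        P.eval ((r : ℝ) * ((b.card : ℝ) - r + 1)) = if (r : ℝ) < q * b.card then 1 else 0)
    (hT : gib L β h (Polynomial.aeval (CM b) P) ≤ δ') :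
    (∑ y ∈ b, rho L β h y) / b.card ≤
      dd * (1 + 20 * δ + C * (1 / c3) * (21 * δ)) + C * (1 / c3) * (2 * C / K) := by
  have hbc : 0 < b.card := Finset.card_pos.2 hbne
  have hbc' : (0 : ℝ) < b.card := by exact_mod_cast hbc
  have hq0 : 0 ≤ q := le_trans (mul_nonneg (by linarith) hdd0.le) hq1
  obtain ⟨ι, hι, μ, r, hμ0, hr, hμ1, hpoly, hsharp⟩ := hD
  have hR := hsharp K (c3 * K) q hK1 (by positivity) hq0 (by linarith) hkap
  have hKκ : C * (K / (c3 * K)) = C * (1 / c3) := by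
    have : K ≠ 0 := by linarith
    field_simp
  rw [hKκ] at hR
  have hMm : ∑ i, μ i * ((r i : ℝ) * ((b.card : ℝ) - r i + 1)) ≤
      (1 + δ) * dd * (b.card : ℝ) ^ 2 := by
    have h1 := hpoly Polynomial.X
    simp only [Polynomial.eval_X, Polynomial.aeval_X] at h1
    rw [h1]
    unfold yb at hM
    rwa [div_le_iff₀ (by positivity)] at hM
  have hTt : ∑ i, (if (r i : ℝ) < q * b.card then μ i else 0) ≤ δ' := by
    rw [← hpoly P] at hT
    refine le_trans (le_of_eq ?_) hT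
    refine sum_congr rfl fun i _ => ?_
    rw [hP (r i) (hr i)]
    split_ifs <;> simp
  exact S3F.sharp_scalar μ r hbc hμ0 hμ1 hr (K := K) (δ := δ) (d := dd) (q := q) (C := C)
    (c := C * (1 / c3)) (by linarith) hC (by positivity) hδ0 hδ1 hdd0 hb6 hq1 hq2 hMm
    (hTt.trans hδ'1) (hTt.trans hδ'2) hR

/-- The bound on one torus of copies; `B` is the density constant per copy. -/
theorem one_torus {n s M : ℕ} [NeZero n] (hs : 1 ≤ s) {β h : ℝ} (hβ : 0 < β) {a : ℕ} (x : Tor n)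
    {B C c3 Lam δ δ' ε : ℝ} (hB : 0 < B)
    (hD : S3F.DirAt C (edgesS n s M) β (hS fun _ => h) (cubeS n s x (3 ^ a))) (hC : 0 < C)
    (hc3 : 0 < c3)
    (hLam : 0 < Lam) (hK1 : 1 ≤ Lam * β ^ (3 / 2 : ℝ)) (hδ1 : δ ≤ 1 / 4)
    (hb6 : 4 * (B * β ^ (-(3 / 2) : ℝ)) ≤ δ) (hδ'0 : 0 < δ') (hδ'1 : δ' ≤ δ)
    (hδ'2 : δ' ≤ Real.exp (-(Lam * B)))
    (hε1 : 20 * δ + C * (1 / c3) * (21 * δ) ≤ ε / 2)
    (hε2 : C * (1 / c3) * (2 * C / Lam) = ε / 2 * B)
    (hkap : ∃ᶠ N : ℕ in atTop, c3 * (Lam * β ^ (3 / 2 : ℝ)) ≤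
      kap (edgesS n s M) β N (hS fun _ => h) (Lam * β ^ (3 / 2 : ℝ)) (cubeS n s x (3 ^ a)))
    (hM : yb (edgesS n s M) β (hS fun _ => h) (cubeS n s x (3 ^ a)) ≤
      (1 + δ') * B * β ^ (-(3 / 2) : ℝ))
    (P : Polynomial ℝ) (hP : ∀ r : ℕ, 2 * r ≤ (cubeS n s x (3 ^ a)).card →
        P.eval ((r : ℝ) * (((cubeS n s x (3 ^ a)).card : ℝ) - r + 1)) =
          if (r : ℝ) < (1 - δ') * B * β ^ (-(3 / 2) : ℝ) * (cubeS n s x (3 ^ a)).card
            then 1 else 0)
    (hT : gib (edgesS n s M) β (hS fun _ => h)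
      (Polynomial.aeval (CM (cubeS n s x (3 ^ a))) P) ≤ δ') (z : Tor n × Fin s) :
    rho (edgesS n s M) β (hS fun _ => h) z ≤ (1 + ε) * B * β ^ (-(3 / 2) : ℝ) := by
  set K : ℝ := Lam * β ^ (3 / 2 : ℝ) with hKdef
  set dd : ℝ := B * β ^ (-(3 / 2) : ℝ) with hdd
  have hdd0 : 0 < dd := mul_pos hB (Real.rpow_pos_of_pos hβ _)
  have hKd : K * dd = Lam * B := by
    rw [hKdef, hdd]
    have : β ^ (3 / 2 : ℝ) * β ^ (-(3 / 2) : ℝ) = 1 := by
      rw [← Real.rpow_add hβ]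
      norm_num
    calc Lam * β ^ (3 / 2 : ℝ) * (B * β ^ (-(3 / 2) : ℝ)) =
          Lam * B * (β ^ (3 / 2 : ℝ) * β ^ (-(3 / 2) : ℝ)) := by ring
      _ = Lam * B := by rw [this, mul_one]
  set q : ℝ := (1 - δ') * B * β ^ (-(3 / 2) : ℝ) with hq
  have hq' : q = (1 - δ') * dd := by rw [hq, hdd]; ring
  have hq1 : (1 - δ) * dd ≤ q := by
    rw [hq']
    exact mul_le_mul_of_nonneg_right (by linarith) hdd0.le
  have hq2 : q ≤ dd := by
    rw [hq']
    nlinarith
  have hbne : (cubeS n s x (3 ^ a)).Nonempty := cubeS_nonempty hs x (by positivity)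
  have hbc' : (0 : ℝ) < (cubeS n s x (3 ^ a)).card := by exact_mod_cast Finset.card_pos.2 hbne
  have hM' : yb (edgesS n s M) β (hS fun _ => h) (cubeS n s x (3 ^ a)) ≤ (1 + δ) * dd := by
    refine hM.trans ?_
    rw [mul_assoc, ← hdd]
    exact mul_le_mul_of_nonneg_right (by linarith) hdd0.le
  have hfin := one_state hbne hD hC hc3 hK1 (lt_of_lt_of_le hδ'0 hδ'1) hδ1 hdd0 hb6 hq1 hq2 hδ'1
    (by rw [hKd]; exact hδ'2) hkap hM' P hP hT
  have havg : (∑ y ∈ cubeS n s x (3 ^ a), rho (edgesS n s M) β (hS fun _ => h) y) /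
      (cubeS n s x (3 ^ a)).card = rho (edgesS n s M) β (hS fun _ => h) z := by
    rw [Finset.sum_congr rfl fun y _ => rhoS_const (M := M) (h := h) (β := β) y z,
      Finset.sum_const, nsmul_eq_mul]
    field_simp
  rw [havg] at hfin
  refine hfin.trans ?_
  have h5 : C * (1 / c3) * (2 * C / K) = ε / 2 * dd := by
    have h6 : 1 / K = β ^ (-(3 / 2) : ℝ) / Lam := by
      rw [hKdef, Real.rpow_neg hβ.le]
      field_simp
    calc C * (1 / c3) * (2 * C / K) = C * (1 / c3) * (2 * C) * (1 / K) := by ring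
      _ = C * (1 / c3) * (2 * C / Lam) * β ^ (-(3 / 2) : ℝ) := by rw [h6]; ring
      _ = ε / 2 * dd := by rw [hε2, hdd]; ring
  rw [h5]
  have h6 : (1 + ε) * B * β ^ (-(3 / 2) : ℝ) = (1 + ε) * dd := by rw [hdd]; ring
  rw [h6]
  have h7 := mul_le_mul_of_nonneg_left hε1 hdd0.le
  nlinarith

end FS

/-- **Block (F) for all spins.** -/
theorem finalStmt3S_of (s : ℕ) (hs : 1 ≤ s) (hK : KappaStmt3S s) (hB : BootStmt3S s)
    (hD : DirSharpStmt3) (hM : MeanStmt3S s) (hT : TailStmt3S s) : FinalStmt3S s := by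
  obtain ⟨c2, c3, hc2, hc3, hK⟩ := hK
  obtain ⟨C, hC, hD⟩ := hD
  obtain ⟨C7, β1, hC7, hB⟩ := hB
  obtain ⟨d, hd0, hd1, hM⟩ := hM
  have hs' : (0 : ℝ) < s := by exact_mod_cast hs
  have hBC : 0 < BCS s / s := div_pos (FS.BCS_pos hs) hs'
  intro ε hε
  have hc0 : 0 < C * (1 / c3) := by positivity
  obtain ⟨δ, hδ0, hδ1, hδ2⟩ : ∃ δ : ℝ, 0 < δ ∧ δ ≤ 1 / 4 ∧
      20 * δ + C * (1 / c3) * (21 * δ) ≤ ε / 2 := by
    refine ⟨min (1 / 4) (ε / (2 * (20 + 21 * (C * (1 / c3))))), lt_min (by norm_num)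
      (by positivity), min_le_left _ _, ?_⟩
    have h1 : min (1 / 4) (ε / (2 * (20 + 21 * (C * (1 / c3))))) ≤
      ε / (2 * (20 + 21 * (C * (1 / c3)))) := min_le_right _ _
    rw [le_div_iff₀ (by positivity)] at h1
    linarith
  obtain ⟨Lam, hLam0, hLam1⟩ : ∃ Lam : ℝ, 0 < Lam ∧
      C * (1 / c3) * (2 * C / Lam) = ε / 2 * (BCS s / s) := by
    refine ⟨4 * (C * (1 / c3)) * C / (ε * (BCS s / s)), by positivity, ?_⟩
    set B := BCS s / s
    field_simp
    ring
  obtain ⟨δ', hδ'0, hδ'1, hδ'2⟩ : ∃ δ' : ℝ, 0 < δ' ∧ δ' ≤ δ ∧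
      δ' ≤ Real.exp (-(Lam * (BCS s / s))) :=
    ⟨min δ (Real.exp (-(Lam * (BCS s / s)))), lt_min hδ0 (Real.exp_pos _), min_le_left _ _,
      min_le_right _ _⟩
  obtain ⟨β2, hM⟩ := hM δ' hδ'0
  obtain ⟨β3, hT⟩ := hT d hd0 hd1 δ' hδ'0
  obtain ⟨β4, hK⟩ := hK C7 Lam hC7 hLam0
  obtain ⟨β0, hβ0⟩ := eventually_atTop.1 ((FS.params (B := BCS s / s) (S := s) hd0 hd1 hc2 hLam0
    hδ0).and ((eventually_ge_atTop β1).and ((eventually_ge_atTop β2).and
      ((eventually_ge_atTop β3).and (eventually_ge_atTop β4)))))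
  refine ⟨β0, fun β hβ h hh0 hh1 => ?_⟩
  obtain ⟨⟨hb1, hbs, hb6, hK1, a, ha1, ha2, ha3, ha4, hK2⟩, hb2, hb3, hb4, hb5⟩ := hβ0 β hβ
  have hβ' : 0 < β := by linarith
  obtain ⟨n1, hB⟩ := hB β hb2
  obtain ⟨n2, hM⟩ := hM β hb3 a ha1 ha2 h hh0 hh1
  obtain ⟨n3, hT⟩ := hT β hb4 a ha1 ha2 h hh0 hh1
  obtain ⟨n4, hK⟩ := hK β hb5
  have hg0 : 0 < s * β * h := by positivity
  have hg1 : s * β * h ≤ 1 := by
    have h1 : s * β * h ≤ β * β * β ^ (-(10 : ℝ)) := by
      refine mul_le_mul (mul_le_mul_of_nonneg_right hbs hβ'.le) hh1 hh0.le (by positivity)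
    have h2 : β * β * β ^ (-(10 : ℝ)) = β ^ (-(8 : ℝ)) := by
      have h3 : β * β = β ^ (2 : ℝ) := by
        rw [Real.rpow_two]
        ring
      rw [h3, ← Real.rpow_add hβ']
      norm_num
    rw [h2] at h1
    exact h1.trans (Real.rpow_le_one_of_one_le_of_nonpos hb1 (by norm_num))
  obtain ⟨n5, hn5⟩ : ∃ n5 : ℕ, ∀ n : ℕ, n5 ≤ n → (n : ℝ) ^ (-(1 / 4) : ℝ) ≤ s * β * h := by
    have h1 : Tendsto (fun n : ℕ => (n : ℝ) ^ (-(1 / 4) : ℝ)) atTop (𝓝 0) :=
      (tendsto_rpow_neg_atTop (by norm_num : (0 : ℝ) < 1 / 4)).comp tendsto_natCast_atTop_atTop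
    exact eventually_atTop.1 (h1.eventually_le_const hg0)
  refine ⟨max n1 (max n2 (max n3 (max n4 n5))), fun n _ hn hodd => ?_⟩
  simp only [max_le_iff] at hn
  obtain ⟨hn1, hn2, hn3, hn4, hn5'⟩ := hn
  have hgn := hn5 n hn5'
  set x : Tor n := 0 with hx
  obtain ⟨P, hP⟩ := S3F.exists_poly' (cubeS n s x (3 ^ a)).card fun r =>
    if (r : ℝ) < (1 - δ') * (BCS s / s) * β ^ (-(3 / 2) : ℝ) * (cubeS n s x (3 ^ a)).card
      then 1 else 0
  obtain ⟨M1, hB⟩ := hB n hn1 hodd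
  obtain ⟨M2, hM⟩ := hM n hn2 hodd
  obtain ⟨M3, hT⟩ := hT n hn3 hodd x P fun r hr => (hP r hr).le
  refine ⟨max M1 (max M2 M3), fun M hMM z => ?_⟩
  simp only [max_le_iff] at hMM
  obtain ⟨hM1, hM2, hM3⟩ := hMM
  have hfield : (hS fun y : Tor n => (fun _ : Tor n => s * β * h) y / (s * β) :
      Tor n × Fin s → ℝ) = hS fun _ => h := by
    funext y
    unfold hS
    field_simp
  have hFam : Fam n (s * β * h) (β ^ (-(9 / 2) : ℝ)) (fun _ => s * β * h) :=
    S3F.fam_const hg0.le hg1 (Real.rpow_nonneg hβ'.le _)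
  have hkap := hK n hn4 hodd M a ha3 ha4 _ hK1 le_rfl hK2 (s * β * h) hgn hg1
    (hB M hM1 (s * β * h) hgn hg1) (fun _ => s * β * h) hFam x
  rw [hfield] at hkap
  have hfin := FS.one_torus hs hβ' x hBC
    (hD (Tor n × Fin s) (edgesS n s M) β (hS fun _ => h) _ hβ' (fun _ => hh0.le)
      (FS.cubeS_nonempty hs x (by positivity)))
    hC hc3 hLam0 hK1 hδ1 hb6 hδ'0 hδ'1 hδ'2 hδ2 hLam1 hkap (hM M hM2 x) P hP (hT M hM3) z
  have h1 := mul_le_mul_of_nonneg_left hfin hs'.le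
  refine h1.trans (le_of_eq ?_)
  field_simp

end Vale.Agent.P361.LRO.S3S
end

section

/-! # From the bootstrap to the spontaneous magnetization -/

namespace Vale.Agent.P361.LRO

open Matrix Finset Filter Topology

end Vale.Agent.P361.LRO
end

section

/-!
Block (1) of the low temperature order proof (P361): the operator part.
-/

namespace Vale.Agent.P361.LRO.Tw

open Finset Matrix MeasureTheory intervalIntegral

set_option linter.unusedSectionVars false

variable {V : Type} [Fintype V] [DecidableEq V]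

end Vale.Agent.P361.LRO.Tw
end

section

/-!
P361, block (1): the block twist.
-/

namespace Vale.Agent.P361.LRO

open Finset Matrix Filter Topology

noncomputable section

variable {V : Type} [Fintype V] [DecidableEq V]

end

end Vale.Agent.P361.LRO
end
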