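import Mathlib
import Vale.Agent.P361.Bd6.B1
import Vale.Agent.P361.Bd6.B2
import Vale.Agent.P361.Bd6.B3
import Vale.Agent.P361.Bd6.B4
import Vale.Agent.P361.Bd6.B5

set_option linter.all false

section

/-!
# P361 LRO, stage 3, V1: the number of nodes with `a < 1/2` over a cube of cells (helper104)
-/

namespace Vale.Agent.P361.LRO.Ind3

open Finset Vale.Agent.P361.LRO _root_.P361.LRO Vale.Agent.P361.LRO.Ind

/-- The number of nodes with `a < 1/2` over a cube of `S³` cells. -/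
theorem card_low_le3 {n N W e : ℕ} [NeZero n] (hW : 0 < W) (hN : N = 4 * W)
    (o : Tor n) (S : ℕ) (hS : 3 ^ e * S ≤ n) (a : Nd n N → ℝ) :
    ((((univ.filter fun k => k ≠ 0) ×ˢ cube n o (3 ^ e * S) : Finset (Nd n N)).filter
      fun z => a z < 1 / 2).card : ℝ) ≤
    64 * DevC n N e o a S + N * 27 ^ e * cnt S 1 (5 / 8) (UT n N e o a) := by
  classical
  have hE : 0 < 3 ^ e := by positivity
  have hNpos : 0 < N := by omega
  set I : Finset ((ℕ × ℕ × ℕ) × (ℕ × ℕ × ℕ × ℕ)) :=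
    (range S ×ˢ range S ×ˢ range S) ×ˢ
      (range (3 ^ e) ×ˢ range (3 ^ e) ×ˢ range (3 ^ e) ×ˢ range N) with hI
  set F : (ℕ × ℕ × ℕ) × (ℕ × ℕ × ℕ × ℕ) → Nd n N := fun p =>
    (lay N N 0 p.2.2.2.2, pt n o (3 ^ e * p.1.1 + p.2.1) (3 ^ e * p.1.2.1 + p.2.2.1)
      (3 ^ e * p.1.2.2 + p.2.2.2.1)) with hF
  have hsub : (((univ.filter fun k => k ≠ 0) ×ˢ cube n o (3 ^ e * S) : Finset (Nd n N)).filter
      fun z => a z < 1 / 2) ⊆ (I.filter fun p => a (F p) < 1 / 2).image F := by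
    intro z hz
    rw [Finset.mem_filter] at hz
    obtain ⟨x, hx, y, hy, c, hc, w, hw, j, hj, rfl⟩ :=
      va655_node hNpos (one_mul N).symm o (3 ^ e * S) hz.1
    obtain rfl : w = 0 := by omega
    have hFz : F ((x / 3 ^ e, y / 3 ^ e, c / 3 ^ e), (x % 3 ^ e, y % 3 ^ e, c % 3 ^ e, j)) =
        (lay N N 0 j, pt n o x y c) := by
      simp only [hF, Nat.div_add_mod]
    rw [Finset.mem_image]
    refine ⟨((x / 3 ^ e, y / 3 ^ e, c / 3 ^ e), (x % 3 ^ e, y % 3 ^ e, c % 3 ^ e, j)), ?_, hFz⟩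
    rw [Finset.mem_filter, hFz]
    refine ⟨?_, hz.2⟩
    have hd : ∀ v, v < 3 ^ e * S → v / 3 ^ e < S := fun v hv =>
      Nat.div_lt_of_lt_mul hv
    simp only [hI, Finset.mem_product, Finset.mem_range]
    exact ⟨⟨hd x hx, hd y hy, hd c hc⟩, Nat.mod_lt _ hE, Nat.mod_lt _ hE, Nat.mod_lt _ hE, hj⟩
  have hcard : ((((univ.filter fun k => k ≠ 0) ×ˢ cube n o (3 ^ e * S) : Finset (Nd n N)).filter
      fun z => a z < 1 / 2).card : ℝ) ≤ ∑ p ∈ I, if a (F p) < 1 / 2 then (1 : ℝ) else 0 := by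
    have h1 := (Finset.card_le_card hsub).trans Finset.card_image_le
    rw [Finset.sum_boole]
    exact_mod_cast h1
  refine hcard.trans ?_
  have hle : ∑ p ∈ I, (if a (F p) < 1 / 2 then (1 : ℝ) else 0) ≤
      ∑ p ∈ I, (64 * (a (F p) - UC n N e o a p.1.1 p.1.2.1 p.1.2.2) ^ 2 +
        if UC n N e o a p.1.1 p.1.2.1 p.1.2.2 < 5 / 8 then 1 else 0) :=
    Finset.sum_le_sum fun p _ => va655_pt
  refine hle.trans (le_of_eq ?_)
  rw [Finset.sum_add_distrib, ← Finset.mul_sum]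
  congr 1
  · congr 1
    unfold DevC
    simp only [hI, Finset.sum_product]
    rfl
  · rw [hI, Finset.sum_product]
    have h27 : (27 : ℝ) ^ e = (3 : ℝ) ^ e * ((3 : ℝ) ^ e * (3 : ℝ) ^ e) := by
      rw [← mul_pow, ← mul_pow]; norm_num
    have hin : ∀ q : ℕ × ℕ × ℕ,
        ∑ _p ∈ range (3 ^ e) ×ˢ range (3 ^ e) ×ˢ range (3 ^ e) ×ˢ range N,
          (if UC n N e o a q.1 q.2.1 q.2.2 < 5 / 8 then (1 : ℝ) else 0) =
        N * 27 ^ e * (if UC n N e o a q.1 q.2.1 q.2.2 < 5 / 8 then (1 : ℝ) else 0) := by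
      intro q
      rw [Finset.sum_const, Finset.card_product, Finset.card_product, Finset.card_product,
        Finset.card_range, Finset.card_range, nsmul_eq_mul, h27]
      push_cast
      ring
    rw [Finset.sum_congr rfl fun q _ => hin q, ← Finset.mul_sum]
    congr 1
    unfold cnt UT
    simp only [Finset.sum_product, Finset.sum_range_one]

end Vale.Agent.P361.LRO.Ind3
end

section

/-!
# P361 LRO, stage 3: sums over cells (helper232)

Nodes of the cell `P = (x, y, z, w)` are `nod P q`, `q ∈ JJ`.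
-/

namespace Vale.Agent.P361.LRO.Ind3

open Finset Vale.Agent.P361.LRO _root_.P361.LRO Vale.Agent.P361.LRO.Ind

namespace Cl

/-- block indices and indices inside a block -/
abbrev Ix : Type := ℕ × ℕ × ℕ × ℕ

/-- The node `q = (i, j, k, t)` of the block `P = (x, y, z, w)`. -/
def nod (n N W e : ℕ) (o : Tor n) (P q : Ix) : Nd n N :=
  (lay N W P.2.2.2 q.2.2.2,
    pt n o (3 ^ e * P.1 + q.1) (3 ^ e * P.2.1 + q.2.1) (3 ^ e * P.2.2.1 + q.2.2.1))

/-- indices inside a block -/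
def JJ (W e : ℕ) : Finset Ix :=
  range (3 ^ e) ×ˢ (range (3 ^ e) ×ˢ (range (3 ^ e) ×ˢ range W))

theorem mem_JJ {W e : ℕ} {q : Ix} : q ∈ JJ W e ↔
    q.1 < 3 ^ e ∧ q.2.1 < 3 ^ e ∧ q.2.2.1 < 3 ^ e ∧ q.2.2.2 < W := by
  simp [JJ]

theorem sum4 (A B C D : ℕ) (f : ℕ → ℕ → ℕ → ℕ → ℝ) :
    ∑ x ∈ range A, ∑ y ∈ range B, ∑ z ∈ range C, ∑ w ∈ range D, f x y z w =
      ∑ P ∈ range A ×ˢ (range B ×ˢ (range C ×ˢ range D)), f P.1 P.2.1 P.2.2.1 P.2.2.2 := by
  rw [sum_product]
  refine sum_congr rfl fun x _ => ?_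
  rw [sum_product]
  refine sum_congr rfl fun y _ => ?_
  rw [sum_product]

/-- Average of `a` over the block `P`. -/
noncomputable def av (n N W e : ℕ) (o : Tor n) (a : Nd n N → ℝ) (P : Ix) : ℝ :=
  (1 / ((W : ℝ) * 27 ^ e)) * ∑ q ∈ JJ W e, a (nod n N W e o P q)

theorem lay_val {N W m w j : ℕ} (hN : N = m * W) (hw : w < m) (hj : j < W) :
    ((lay N W w j : Fin (N + 1)) : ℕ) = 1 + w * W + j := by
  have h : 1 + w * W + j < N + 1 := by
    have : (w + 1) * W ≤ m * W := Nat.mul_le_mul_right _ hw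
    rw [hN]
    nlinarith
  unfold lay
  rw [dif_pos h]

theorem div_unique {W w j w' j' : ℕ} (hj : j < W) (hj' : j' < W)
    (h : w * W + j = w' * W + j') : w = w' ∧ j = j' := by
  have hW : 0 < W := by omega
  have h2 : (w * W + j) / W = w := by
    rw [mul_comm, Nat.mul_add_div hW, Nat.div_eq_of_lt hj, add_zero]
  have h3 : (w' * W + j') / W = w' := by
    rw [mul_comm, Nat.mul_add_div hW, Nat.div_eq_of_lt hj', add_zero]
  have h4 : w = w' := by rw [← h2, ← h3, h]
  subst h4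
  exact ⟨rfl, by omega⟩

theorem pt_inj' {n : ℕ} [NeZero n] (o : Tor n) {a b c a' b' c' : ℕ} (ha : a < n)
    (hb : b < n) (hc : c < n) (ha' : a' < n) (hb' : b' < n) (hc' : c' < n)
    (h : pt n o a b c = pt n o a' b' c') : a = a' ∧ b = b' ∧ c = c' := by
  have h1 : (![(a : ZMod n), (b : ZMod n), (c : ZMod n)] : Fin 3 → ZMod n) =
      ![(a' : ZMod n), (b' : ZMod n), (c' : ZMod n)] := by
    unfold pt at h
    exact add_left_cancel h
  have key : ∀ {u v : ℕ}, u < n → v < n → (u : ZMod n) = v → u = v := by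
    intro u v hu hv h
    have := congrArg ZMod.val h
    rwa [ZMod.val_natCast_of_lt hu, ZMod.val_natCast_of_lt hv] at this
  exact ⟨key ha ha' (congrFun h1 0), key hb hb' (congrFun h1 1), key hc hc' (congrFun h1 2)⟩

/-- block indices in range -/
def Ok (S : ℕ) (P : Ix) : Prop := P.1 < S ∧ P.2.1 < S ∧ P.2.2.1 < S ∧ P.2.2.2 < 4

theorem cell_lt {e S x i : ℕ} (hx : x < S) (hi : i < 3 ^ e) : 3 ^ e * x + i < 3 ^ e * S := by
  have : 3 ^ e * (x + 1) ≤ 3 ^ e * S := Nat.mul_le_mul_left _ hx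
  nlinarith

theorem nod_inj {n N W e : ℕ} [NeZero n] (hN : N = 4 * W) (o : Tor n) {S : ℕ}
    (hS : 3 ^ e * S ≤ n) {P Q q r : Ix} (hP : Ok S P) (hQ : Ok S Q) (hq : q ∈ JJ W e)
    (hr : r ∈ JJ W e) (h : nod n N W e o P q = nod n N W e o Q r) : P = Q ∧ q = r := by
  rw [mem_JJ] at hq hr
  obtain ⟨p1, p2, p3, p4⟩ := P
  obtain ⟨q1, q2, q3, q4⟩ := Q
  obtain ⟨i, j, k, t⟩ := q
  obtain ⟨i', j', k', t'⟩ := r
  obtain ⟨hp1, hp2, hp3, hp4⟩ := hP
  obtain ⟨hq1, hq2, hq3, hq4⟩ := hQ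
  obtain ⟨hi, hj, hk, ht⟩ := hq
  obtain ⟨hi', hj', hk', ht'⟩ := hr
  simp only [nod, Prod.mk.injEq] at h hp1 hp2 hp3 hp4 hq1 hq2 hq3 hq4 hi hj hk ht hi' hj' hk' ht'
  obtain ⟨h1, h2⟩ := h
  have h3 := congrArg Fin.val h1
  rw [lay_val hN hp4 ht, lay_val hN hq4 ht'] at h3
  obtain ⟨e1, e2⟩ := div_unique ht ht' (by omega : p4 * W + t = q4 * W + t')
  obtain ⟨a1, a2, a3⟩ := pt_inj' o ((cell_lt hp1 hi).trans_le hS) ((cell_lt hp2 hj).trans_le hS)
    ((cell_lt hp3 hk).trans_le hS) ((cell_lt hq1 hi').trans_le hS) ((cell_lt hq2 hj').trans_le hS)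
    ((cell_lt hq3 hk').trans_le hS) h2
  obtain ⟨b1, b2⟩ := div_unique (w := p1) (w' := q1) hi hi'
    (by rw [mul_comm p1, mul_comm q1]; exact a1)
  obtain ⟨c1, c2⟩ := div_unique (w := p2) (w' := q2) hj hj'
    (by rw [mul_comm p2, mul_comm q2]; exact a2)
  obtain ⟨d1, d2⟩ := div_unique (w := p3) (w' := q3) hk hk'
    (by rw [mul_comm p3, mul_comm q3]; exact a3)
  rw [e1, e2, b1, b2, c1, c2, d1, d2]
  exact ⟨rfl, rfl⟩

theorem mem_cube_pt {n : ℕ} [NeZero n] (o : Tor n) {S x y z : ℕ} (hx : x < S) (hy : y < S)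
    (hz : z < S) : pt n o x y z ∈ cube n o S := by
  unfold cube pt
  refine Finset.mem_image.2 ⟨![⟨x, hx⟩, ⟨y, hy⟩, ⟨z, hz⟩], Finset.mem_univ _, ?_⟩
  congr 1
  funext i
  fin_cases i <;> rfl

theorem pt_add {n : ℕ} (o : Tor n) (a b c i j k : ℕ) :
    pt n o (a + i) (b + j) (c + k) = pt n (pt n o a b c) i j k := by
  unfold pt
  rw [add_assoc]
  congr 1
  funext t
  fin_cases t <;> simp

/-- the nodes of a cell and its upper neighbours are in the double cube -/
theorem mem_dbl {n : ℕ} [NeZero n] (o : Tor n) {e X Y Z x y z i j k : ℕ} (hx : X ≤ x)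
    (hx' : x ≤ X + 1) (hy : Y ≤ y) (hy' : y ≤ Y + 1) (hz : Z ≤ z) (hz' : z ≤ Z + 1)
    (hi : i < 3 ^ e) (hj : j < 3 ^ e) (hk : k < 3 ^ e) :
    pt n o (3 ^ e * x + i) (3 ^ e * y + j) (3 ^ e * z + k) ∈
      cube n (pt n o (3 ^ e * X) (3 ^ e * Y) (3 ^ e * Z)) (2 * 3 ^ e) := by
  have key : ∀ {X x i : ℕ}, X ≤ x → x ≤ X + 1 → i < 3 ^ e →
      ∃ u, u < 2 * 3 ^ e ∧ 3 ^ e * x + i = 3 ^ e * X + u := by
    intro X x i h1 h2 h3
    rcases (by omega : x = X ∨ x = X + 1) with h | h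
    · exact ⟨i, by omega, by rw [h]⟩
    · exact ⟨3 ^ e + i, by omega, by rw [h]; ring⟩
  obtain ⟨u, hu, hu'⟩ := key hx hx' hi
  obtain ⟨v, hv, hv'⟩ := key hy hy' hj
  obtain ⟨w, hw, hw'⟩ := key hz hz' hk
  rw [hu', hv', hw', pt_add]
  exact mem_cube_pt _ hu hv hw

/-- Jensen for two block sums -/
theorem jensen2 {ι : Type} (J : Finset ι) (f g : ι → ℝ) :
    (∑ q ∈ J, f q - ∑ r ∈ J, g r) ^ 2 ≤ ∑ q ∈ J, ∑ r ∈ J, (f q - g r) ^ 2 := by
  rcases J.eq_empty_or_nonempty with h | h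
  · subst h; simp
  have hJ : (0 : ℝ) < J.card := by exact_mod_cast h.card_pos
  have h1 : ∑ x ∈ J ×ˢ J, (f x.1 - g x.2) =
      J.card * (∑ q ∈ J, f q - ∑ r ∈ J, g r) := by
    rw [sum_product]
    simp only [sum_sub_distrib, sum_const, nsmul_eq_mul]
    rw [← mul_sum]
    ring
  have h2 := sq_sum_le_card_mul_sum_sq (s := J ×ˢ J) (f := fun x : ι × ι => f x.1 - g x.2)
  rw [h1, card_product] at h2
  have h3 : ∑ x ∈ J ×ˢ J, (f x.1 - g x.2) ^ 2 = ∑ q ∈ J, ∑ r ∈ J, (f q - g r) ^ 2 := by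
    rw [sum_product]
  rw [h3] at h2
  push_cast at h2
  have h4 : ((J.card : ℝ) * J.card) * (∑ q ∈ J, f q - ∑ r ∈ J, g r) ^ 2 ≤
      (J.card * J.card) * ∑ q ∈ J, ∑ r ∈ J, (f q - g r) ^ 2 := by
    calc ((J.card : ℝ) * J.card) * (∑ q ∈ J, f q - ∑ r ∈ J, g r) ^ 2
        = (J.card * (∑ q ∈ J, f q - ∑ r ∈ J, g r)) ^ 2 := by ring
      _ ≤ _ := h2
  exact le_of_mul_le_mul_left h4 (by positivity)

/-- Sum over an injective family. -/
theorem sum_inj_le {ι X : Type} [Fintype X] (s : Finset ι) (g : ι → X)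
    (hg : Set.InjOn g s) (F : X → ℝ) (hF : ∀ x, 0 ≤ F x) : ∑ i ∈ s, F (g i) ≤ ∑ x, F x := by
  classical
  rw [← Finset.sum_image (f := F) hg]
  exact Finset.sum_le_univ_sum_of_nonneg hF

section main

variable {n N W e : ℕ} [NeZero n] {K c1 : ℝ} {b : Finset (Tor n)} {h : Tor n → ℝ}
    {c : Nd n N → Nd n N → ℝ}

/-- equal or adjacent cells, quarters at distance at least 2 -/
def Adj (P Q : Ix) : Prop :=
  (∃ X Y Z, X ≤ P.1 ∧ P.1 ≤ X + 1 ∧ X ≤ Q.1 ∧ Q.1 ≤ X + 1 ∧
    Y ≤ P.2.1 ∧ P.2.1 ≤ Y + 1 ∧ Y ≤ Q.2.1 ∧ Q.2.1 ≤ Y + 1 ∧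
    Z ≤ P.2.2.1 ∧ P.2.2.1 ≤ Z + 1 ∧ Z ≤ Q.2.2.1 ∧ Q.2.2.1 ≤ Z + 1) ∧
  (P.2.2.2 + 2 ≤ Q.2.2.2 ∨ Q.2.2.2 + 2 ≤ P.2.2.2)

theorem lay_ne {w t : ℕ} (hN : N = 4 * W) (hw : w < 4) (ht : t < W) :
    (lay N W w t : Fin (N + 1)) ≠ 0 := by
  intro h0
  have h1 := lay_val hN hw ht
  rw [h0] at h1
  simp at h1
  omega

theorem cond_aux (hN : N = 4 * W) (hc : Local3 n N W e K c1 b h c) (o : Tor n) {S : ℕ}
    (h1 : ∀ x ∈ cube n o (3 ^ e * S), h x = 1) {P Q q r : Ix} (hP : Ok S P) (hQ : Ok S Q)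
    (hq : q ∈ JJ W e) (hr : r ∈ JJ W e) (X Y Z : ℕ)
    (hcell : X ≤ P.1 ∧ P.1 ≤ X + 1 ∧ X ≤ Q.1 ∧ Q.1 ≤ X + 1 ∧
      Y ≤ P.2.1 ∧ P.2.1 ≤ Y + 1 ∧ Y ≤ Q.2.1 ∧ Q.2.1 ≤ Y + 1 ∧
      Z ≤ P.2.2.1 ∧ P.2.2.1 ≤ Z + 1 ∧ Z ≤ Q.2.2.1 ∧ Q.2.2.1 ≤ Z + 1)
    (hw : P.2.2.2 + 2 ≤ Q.2.2.2) :
    c1 / ((N : ℝ) ^ 2 * 27 ^ e) ≤ c (nod n N W e o P q) (nod n N W e o Q r) := by
  rw [mem_JJ] at hq hr
  obtain ⟨hp1, hp2, hp3, hp4⟩ := hP
  obtain ⟨hq1, hq2, hq3, hq4⟩ := hQ
  obtain ⟨a1, a2, a3, a4, a5, a6, a7, a8, a9, a10, a11, a12⟩ := hcell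
  have e1 := lay_val hN hp4 hq.2.2.2
  have e2 := lay_val hN hq4 hr.2.2.2
  have m1 : (P.2.2.2 + 2) * W ≤ Q.2.2.2 * W := Nat.mul_le_mul_right _ hw
  rw [add_mul] at m1
  have t1 := hq.2.2.2
  have t2 := hr.2.2.2
  refine hc.long _ _ (pt n o (3 ^ e * X) (3 ^ e * Y) (3 ^ e * Z)) _ _ (lay_ne hN hp4 hq.2.2.2)
    ?_ (mem_dbl o a1 a2 a5 a6 a9 a10 hq.1 hq.2.1 hq.2.2.1)
    (mem_dbl o a3 a4 a7 a8 a11 a12 hr.1 hr.2.1 hr.2.2.1) ?_ ?_
  · rw [e1, e2]; omega
  · exact h1 _ (mem_cube_pt o (cell_lt hp1 hq.1) (cell_lt hp2 hq.2.1) (cell_lt hp3 hq.2.2.1))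
  · exact h1 _ (mem_cube_pt o (cell_lt hq1 hr.1) (cell_lt hq2 hr.2.1) (cell_lt hq3 hr.2.2.1))

theorem cond (hN : N = 4 * W) (hc : Local3 n N W e K c1 b h c) (o : Tor n) {S : ℕ}
    (h1 : ∀ x ∈ cube n o (3 ^ e * S), h x = 1) {P Q q r : Ix} (hP : Ok S P) (hQ : Ok S Q)
    (hq : q ∈ JJ W e) (hr : r ∈ JJ W e) (ha : Adj P Q) :
    c1 / ((N : ℝ) ^ 2 * 27 ^ e) ≤ c (nod n N W e o P q) (nod n N W e o Q r) := by
  obtain ⟨⟨X, Y, Z, hcell⟩, hw | hw⟩ := ha
  · exact cond_aux hN hc o h1 hP hQ hq hr X Y Z hcell hw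
  · rw [hc.symm]
    obtain ⟨a1, a2, a3, a4, a5, a6, a7, a8, a9, a10, a11, a12⟩ := hcell
    exact cond_aux hN hc o h1 hQ hP hr hq X Y Z
      ⟨a3, a4, a1, a2, a7, a8, a5, a6, a11, a12, a9, a10⟩ hw

/-- One pair of blocks. -/
theorem pair_le (hW : 0 < W) (hN : N = 4 * W) (hc1 : 0 < c1) (hc : Local3 n N W e K c1 b h c)
    (o : Tor n) {S : ℕ} (h1 : ∀ x ∈ cube n o (3 ^ e * S), h x = 1) (a : Nd n N → ℝ) {P Q : Ix}
    (hP : Ok S P) (hQ : Ok S Q) (ha : Adj P Q) :
    c1 * 27 ^ e / 16 * (av n N W e o a P - av n N W e o a Q) ^ 2 ≤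
      ∑ q ∈ JJ W e, ∑ r ∈ JJ W e, c (nod n N W e o P q) (nod n N W e o Q r) *
        (a (nod n N W e o P q) - a (nod n N W e o Q r)) ^ 2 := by
  have hW' : (0 : ℝ) < W := by exact_mod_cast hW
  have hN' : (N : ℝ) = 4 * W := by rw [hN]; push_cast; ring
  have h27 : (0 : ℝ) < 27 ^ e := by positivity
  have hJ := jensen2 (JJ W e) (fun q => a (nod n N W e o P q)) (fun q => a (nod n N W e o Q q))
  have e1 : c1 * 27 ^ e / 16 * (av n N W e o a P - av n N W e o a Q) ^ 2 =
      c1 / ((N : ℝ) ^ 2 * 27 ^ e) * (∑ q ∈ JJ W e, a (nod n N W e o P q) -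
        ∑ q ∈ JJ W e, a (nod n N W e o Q q)) ^ 2 := by
    unfold av
    rw [hN']
    field_simp
    ring
  rw [e1]
  have hg : 0 ≤ c1 / ((N : ℝ) ^ 2 * 27 ^ e) := by positivity
  refine (mul_le_mul_of_nonneg_left hJ hg).trans ?_
  rw [mul_sum]
  refine sum_le_sum fun q hq => ?_
  rw [mul_sum]
  refine sum_le_sum fun r hr => ?_
  exact mul_le_mul_of_nonneg_right (cond hN hc o h1 hP hQ hq hr ha) (sq_nonneg _)

/-- A family of pairs of blocks. -/
theorem fam_le (hW : 0 < W) (hN : N = 4 * W) (hc1 : 0 < c1) (hc : Local3 n N W e K c1 b h c)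
    (o : Tor n) {S : ℕ} (hS : 3 ^ e * S ≤ n) (h1 : ∀ x ∈ cube n o (3 ^ e * S), h x = 1)
    (a : Nd n N → ℝ) {ι : Type} (I : Finset ι) (P Q : ι → Ix) (hP : ∀ i ∈ I, Ok S (P i))
    (hQ : ∀ i ∈ I, Ok S (Q i)) (ha : ∀ i ∈ I, Adj (P i) (Q i))
    (hinj : ∀ i ∈ I, ∀ j ∈ I, P i = P j → Q i = Q j → i = j) :
    c1 * 27 ^ e / 16 * ∑ i ∈ I, (av n N W e o a (P i) - av n N W e o a (Q i)) ^ 2 ≤
      2 * netK c a := by
  have htot : 2 * netK c a = ∑ x : Nd n N × Nd n N, c x.1 x.2 * (a x.1 - a x.2) ^ 2 := by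
    unfold netK
    rw [Fintype.sum_prod_type (fun x : Nd n N × Nd n N => c x.1 x.2 * (a x.1 - a x.2) ^ 2)]
    ring
  rw [htot, mul_sum]
  refine (sum_le_sum fun i hi =>
    pair_le hW hN hc1 hc o h1 a (hP i hi) (hQ i hi) (ha i hi)).trans ?_
  have h2 : ∑ i ∈ I, ∑ q ∈ JJ W e, ∑ r ∈ JJ W e, c (nod n N W e o (P i) q) (nod n N W e o (Q i) r) *
        (a (nod n N W e o (P i) q) - a (nod n N W e o (Q i) r)) ^ 2 =
      ∑ t ∈ I ×ˢ (JJ W e ×ˢ JJ W e),
        c (nod n N W e o (P t.1) t.2.1) (nod n N W e o (Q t.1) t.2.2) *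
        (a (nod n N W e o (P t.1) t.2.1) - a (nod n N W e o (Q t.1) t.2.2)) ^ 2 := by
    rw [sum_product]
    refine sum_congr rfl fun i _ => ?_
    rw [sum_product]
  rw [h2]
  refine sum_inj_le (X := Nd n N × Nd n N) _
    (fun t : ι × Ix × Ix => (nod n N W e o (P t.1) t.2.1, nod n N W e o (Q t.1) t.2.2)) ?_
    (fun x => c x.1 x.2 * (a x.1 - a x.2) ^ 2)
    (fun x => mul_nonneg (hc.nonneg _ _) (sq_nonneg _))
  rintro ⟨i, q, r⟩ ht ⟨i', q', r'⟩ ht' heq
  simp only [coe_product, Set.mem_prod, mem_coe] at ht ht'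
  obtain ⟨hi, hq, hr⟩ := ht
  obtain ⟨hi', hq', hr'⟩ := ht'
  simp only [Prod.mk.injEq] at heq
  obtain ⟨e1, e2⟩ := heq
  obtain ⟨f1, f2⟩ := nod_inj hN o hS (hP i hi) (hP i' hi') hq hq' e1
  obtain ⟨g1, g2⟩ := nod_inj hN o hS (hQ i hi) (hQ i' hi') hr hr' e2
  have := hinj i hi i' hi' f1 g1
  rw [this, f2, g2]

end main

end Cl

end Vale.Agent.P361.LRO.Ind3
end

section

/-!
# P361 LRO, stage 3, package E1: energy of the cell averages (helper232)
-/

namespace Vale.Agent.P361.LRO.Ind3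

open Finset Vale.Agent.P361.LRO _root_.P361.LRO Vale.Agent.P361.LRO.Ind

namespace Cl

theorem lay_eq (N W w s : ℕ) : lay N W w s = lay N N 0 (w * W + s) := by
  unfold lay
  by_cases h : 1 + w * W + s < N + 1
  · have h' : 1 + 0 * N + (w * W + s) < N + 1 := by
      rw [Nat.zero_mul]; omega
    rw [dif_pos h, dif_pos h']
    apply Fin.ext
    show 1 + w * W + s = 1 + 0 * N + (w * W + s)
    rw [Nat.zero_mul]
    omega
  · have h' : ¬ (1 + 0 * N + (w * W + s) < N + 1) := by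
      rw [Nat.zero_mul]; omega
    rw [dif_neg h, dif_neg h']

theorem sum_four {N W : ℕ} (hN : N = 4 * W) (f : ℕ → ℝ) :
    ∑ t ∈ range N, f t = ∑ w ∈ range 4, ∑ s ∈ range W, f (w * W + s) := by
  have hN' : N = W + W + W + W := by omega
  rw [hN', sum_range_add, sum_range_add, sum_range_add]
  simp only [sum_range_succ, sum_range_zero, Nat.zero_mul, Nat.one_mul, zero_add]
  have h2 : 2 * W = W + W := by ring
  have h3 : 3 * W = W + W + W := by ring
  rw [h2, h3]

theorem UC_av {n N W e : ℕ} (hW : 0 < W) (hN : N = 4 * W) (o : Tor n) (a : Nd n N → ℝ)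
    (x y z : ℕ) : UC n N e o a x y z =
      (1 / 4) * ∑ w ∈ range 4, av n N W e o a (x, y, z, w) := by
  have hW' : (0 : ℝ) < W := by exact_mod_cast hW
  have hN' : (N : ℝ) = 4 * W := by rw [hN]; push_cast; ring
  have h1 : ∀ w, av n N W e o a (x, y, z, w) = (1 / ((W : ℝ) * 27 ^ e)) *
      ∑ i ∈ range (3 ^ e), ∑ j ∈ range (3 ^ e), ∑ k ∈ range (3 ^ e), ∑ s ∈ range W,
        a (lay N N 0 (w * W + s), pt n o (3 ^ e * x + i) (3 ^ e * y + j) (3 ^ e * z + k)) := by
    intro w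
    unfold av JJ
    rw [sum4 (3 ^ e) (3 ^ e) (3 ^ e) W (fun i j k s =>
      a (lay N N 0 (w * W + s), pt n o (3 ^ e * x + i) (3 ^ e * y + j) (3 ^ e * z + k)))]
    congr 1
    refine sum_congr rfl fun q _ => ?_
    unfold nod
    rw [lay_eq]
  have h2 : ∑ w ∈ range 4, av n N W e o a (x, y, z, w) = (1 / ((W : ℝ) * 27 ^ e)) *
      ∑ i ∈ range (3 ^ e), ∑ j ∈ range (3 ^ e), ∑ k ∈ range (3 ^ e), ∑ t ∈ range N,
        a (lay N N 0 t, pt n o (3 ^ e * x + i) (3 ^ e * y + j) (3 ^ e * z + k)) := by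
    rw [sum_congr rfl (fun w _ => h1 w), ← mul_sum]
    congr 1
    rw [sum_comm]
    refine sum_congr rfl fun i _ => ?_
    rw [sum_comm]
    refine sum_congr rfl fun j _ => ?_
    rw [sum_comm]
    refine sum_congr rfl fun k _ => ?_
    rw [sum_four hN]
  rw [h2]
  unfold UC
  rw [hN', ← mul_assoc]
  congr 1
  field_simp

/-- the opposite quarter -/
def fl (w : ℕ) : ℕ := (w + 2) % 4

theorem fl_lt (w : ℕ) : fl w < 4 := Nat.mod_lt _ (by norm_num)

theorem fl_dist {w : ℕ} (hw : w < 4) : w + 2 ≤ fl w ∨ fl w + 2 ≤ w := by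
  unfold fl
  omega

theorem sum_fl (g : ℕ → ℝ) : ∑ w ∈ range 4, g (fl w) = ∑ w ∈ range 4, g w := by
  simp only [sum_range_succ, sum_range_zero, fl]
  norm_num
  ring

theorem sq4 (a b c d : ℝ) : (1 / 4 * (a + b + c + d)) ^ 2 ≤
    1 / 4 * (a ^ 2 + b ^ 2 + c ^ 2 + d ^ 2) := by
  nlinarith [sq_nonneg (a - b), sq_nonneg (a - c), sq_nonneg (a - d), sq_nonneg (b - c),
    sq_nonneg (b - d), sq_nonneg (c - d)]

theorem diff_le {n N W e : ℕ} (hW : 0 < W) (hN : N = 4 * W) (o : Tor n) (a : Nd n N → ℝ)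
    (x y z x' y' z' : ℕ) :
    (UC n N e o a x' y' z' - UC n N e o a x y z) ^ 2 ≤
      1 / 4 * ∑ w ∈ range 4,
        (av n N W e o a (x, y, z, w) - av n N W e o a (x', y', z', fl w)) ^ 2 := by
  rw [UC_av hW hN, UC_av hW hN, ← sum_fl (fun w => av n N W e o a (x', y', z', w))]
  simp only [sum_range_succ, sum_range_zero, zero_add]
  have h := sq4 (av n N W e o a (x, y, z, 0) - av n N W e o a (x', y', z', fl 0))
    (av n N W e o a (x, y, z, 1) - av n N W e o a (x', y', z', fl 1))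
    (av n N W e o a (x, y, z, 2) - av n N W e o a (x', y', z', fl 2))
    (av n N W e o a (x, y, z, 3) - av n N W e o a (x', y', z', fl 3))
  refine le_trans (le_of_eq ?_) h
  ring

/-- one direction -/
theorem dir_le {n N W e : ℕ} (hW : 0 < W) (hN : N = 4 * W) (o : Tor n) (a : Nd n N → ℝ)
    (A B C i j k : ℕ) :
    ∑ x ∈ range A, ∑ y ∈ range B, ∑ z ∈ range C,
      (UC n N e o a (x + i) (y + j) (z + k) - UC n N e o a x y z) ^ 2 ≤
      1 / 4 * ∑ P ∈ range A ×ˢ (range B ×ˢ (range C ×ˢ range 4)),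
        (av n N W e o a P -
          av n N W e o a (P.1 + i, P.2.1 + j, P.2.2.1 + k, fl P.2.2.2)) ^ 2 := by
  have h := sum4 A B C 4 (fun x y z w => (av n N W e o a (x, y, z, w) -
    av n N W e o a (x + i, y + j, z + k, fl w)) ^ 2)
  have h' : ∑ P ∈ range A ×ˢ (range B ×ˢ (range C ×ˢ range 4)),
        (av n N W e o a P -
          av n N W e o a (P.1 + i, P.2.1 + j, P.2.2.1 + k, fl P.2.2.2)) ^ 2 =
      ∑ x ∈ range A, ∑ y ∈ range B, ∑ z ∈ range C, ∑ w ∈ range 4,
        (av n N W e o a (x, y, z, w) - av n N W e o a (x + i, y + j, z + k, fl w)) ^ 2 :=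
    h.symm
  rw [h']
  simp only [mul_sum (s := range A), mul_sum (s := range B), mul_sum (s := range C)]
  exact sum_le_sum fun x _ => sum_le_sum fun y _ => sum_le_sum fun z _ =>
    diff_le hW hN o a x y z _ _ _

end Cl

open Cl in
/-- Energy of the cell averages (whole circle). -/
theorem E4_le3 {n N W e : ℕ} [NeZero n] {K c1 : ℝ} {b : Finset (Tor n)} {h : Tor n → ℝ}
    {c : Nd n N → Nd n N → ℝ} (hW : 0 < W) (hN : N = 4 * W) (hc1 : 0 < c1)
    (hc : Local3 n N W e K c1 b h c) (o : Tor n) (S : ℕ) (hS : 3 ^ e * S < n)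
    (h1 : ∀ x ∈ cube n o (3 ^ e * S), h x = 1) (a : Nd n N → ℝ) :
    c1 * 27 ^ e * E4 S 1 (UT n N e o a) ≤ 16 * netK c a := by
  have hK0 : 0 ≤ netK c a := netK_nonneg hc.nonneg a
  set R0 : Finset Ix := range (S - 1) ×ˢ (range S ×ˢ (range S ×ˢ range 4)) with hR0
  set R1 : Finset Ix := range S ×ˢ (range (S - 1) ×ˢ (range S ×ˢ range 4)) with hR1
  set R2 : Finset Ix := range S ×ˢ (range S ×ˢ (range (S - 1) ×ˢ range 4)) with hR2
  set sh : ℕ → ℕ → ℕ → Ix → Ix := fun i j k P =>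
    (P.1 + i, P.2.1 + j, P.2.2.1 + k, fl P.2.2.2) with hsh
  have m0 : ∀ {P : Ix}, P ∈ R0 ↔ P.1 < S - 1 ∧ P.2.1 < S ∧ P.2.2.1 < S ∧ P.2.2.2 < 4 := by
    intro P; simp [hR0]
  have m1 : ∀ {P : Ix}, P ∈ R1 ↔ P.1 < S ∧ P.2.1 < S - 1 ∧ P.2.2.1 < S ∧ P.2.2.2 < 4 := by
    intro P; simp [hR1]
  have m2 : ∀ {P : Ix}, P ∈ R2 ↔ P.1 < S ∧ P.2.1 < S ∧ P.2.2.1 < S - 1 ∧ P.2.2.2 < 4 := by
    intro P; simp [hR2]
  have hfam := fam_le hW hN hc1 hc o hS.le h1 a (ι := Ix ⊕ (Ix ⊕ Ix))
    (R0.disjSum (R1.disjSum R2)) (Sum.elim id (Sum.elim id id))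
    (Sum.elim (sh 1 0 0) (Sum.elim (sh 0 1 0) (sh 0 0 1)))
    (by
      rintro (P | P | P) hP
      · rw [inl_mem_disjSum, m0] at hP
        exact ⟨by show P.1 < S; omega, hP.2⟩
      · rw [inr_mem_disjSum, inl_mem_disjSum, m1] at hP
        exact ⟨hP.1, by show P.2.1 < S; omega, hP.2.2⟩
      · rw [inr_mem_disjSum, inr_mem_disjSum, m2] at hP
        exact ⟨hP.1, hP.2.1, by show P.2.2.1 < S; omega, hP.2.2.2⟩)
    (by
      rintro (P | P | P) hP
      · rw [inl_mem_disjSum, m0] at hP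
        exact ⟨by show P.1 + 1 < S; omega, by show P.2.1 + 0 < S; omega,
          by show P.2.2.1 + 0 < S; omega, fl_lt _⟩
      · rw [inr_mem_disjSum, inl_mem_disjSum, m1] at hP
        exact ⟨by show P.1 + 0 < S; omega, by show P.2.1 + 1 < S; omega,
          by show P.2.2.1 + 0 < S; omega, fl_lt _⟩
      · rw [inr_mem_disjSum, inr_mem_disjSum, m2] at hP
        exact ⟨by show P.1 + 0 < S; omega, by show P.2.1 + 0 < S; omega,
          by show P.2.2.1 + 1 < S; omega, fl_lt _⟩)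
    (by
      have key : ∀ (P : Ix) (i j k : ℕ), i ≤ 1 → j ≤ 1 → k ≤ 1 → P.2.2.2 < 4 →
          Adj P (sh i j k P) := by
        intro P i j k hi hj hk hw
        refine ⟨⟨P.1, P.2.1, P.2.2.1, ?_⟩, fl_dist hw⟩
        simp only [hsh]
        omega
      rintro (P | P | P) hP
      · rw [inl_mem_disjSum, m0] at hP
        exact key P 1 0 0 le_rfl (by omega) (by omega) hP.2.2.2
      · rw [inr_mem_disjSum, inl_mem_disjSum, m1] at hP
        exact key P 0 1 0 (by omega) le_rfl (by omega) hP.2.2.2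
      · rw [inr_mem_disjSum, inr_mem_disjSum, m2] at hP
        exact key P 0 0 1 (by omega) (by omega) le_rfl hP.2.2.2)
    (by
      rintro (P | P | P) _ (P' | P' | P') _ e1 e2
      all_goals
        simp only [Sum.elim_inl, Sum.elim_inr, id_eq] at e1 e2
        subst e1
        first
        | rfl
        | (exfalso
           have g1 := congrArg (fun R : Ix => R.1) e2
           have g2 := congrArg (fun R : Ix => R.2.1) e2
           have g3 := congrArg (fun R : Ix => R.2.2.1) e2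
           simp only [hsh] at g1 g2 g3
           omega))
  rw [sum_disjSum, sum_disjSum] at hfam
  simp only [Sum.elim_inl, Sum.elim_inr, id_eq] at hfam
  have d0 := dir_le (e := e) hW hN o a (S - 1) S S 1 0 0
  have d1 := dir_le (e := e) hW hN o a S (S - 1) S 0 1 0
  have d2 := dir_le (e := e) hW hN o a S S (S - 1) 0 0 1
  have hE : E4 S 1 (UT n N e o a) =
      (∑ x ∈ range (S - 1), ∑ y ∈ range S, ∑ z ∈ range S,
        (UC n N e o a (x + 1) (y + 0) (z + 0) - UC n N e o a x y z) ^ 2) +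
      (∑ x ∈ range S, ∑ y ∈ range (S - 1), ∑ z ∈ range S,
        (UC n N e o a (x + 0) (y + 1) (z + 0) - UC n N e o a x y z) ^ 2) +
      (∑ x ∈ range S, ∑ y ∈ range S, ∑ z ∈ range (S - 1),
        (UC n N e o a (x + 0) (y + 0) (z + 1) - UC n N e o a x y z) ^ 2) := by
    unfold E4 Esp Eti UT
    simp
  rw [hE]
  have h27 : 0 < c1 * 27 ^ e := by positivity
  have hsum := add_le_add (add_le_add d0 d1) d2
  have hm := mul_le_mul_of_nonneg_left hsum h27.le
  refine hm.trans ?_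
  have hfam2 := hfam
  simp only [hsh] at hfam2
  nlinarith [hfam2]

end Vale.Agent.P361.LRO.Ind3
end

section

/-!
# P361 LRO stage 3, network chapter: numerical lemmas for the ladder of scales
-/

namespace Vale.Agent.P361.LRO.Ind3

/-- the ground is out of reach of the bumps. -/
theorem num_ground3 : ∃ e0 : ℕ, 1 ≤ e0 ∧ ∀ (h0 lam : ℝ) (e s : ℕ), e0 ≤ e → 0 < h0 →
    1 / 3 ^ (10 * e) ≤ lam → 100 * e ≤ s → h0⁻¹ ≤ ((3 : ℝ) ^ s) ^ (5 / 2 : ℝ) →
    Real.exp (-(lam * (3 * (3 : ℝ) ^ s))) ≤ h0 := by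
  obtain ⟨β0, hβ0, h⟩ := Vale.Agent.P361.LRO.Ind.num_ground
  obtain ⟨e0, he0⟩ := pow_unbounded_of_one_lt β0 (show (1 : ℝ) < 3 by norm_num)
  refine ⟨e0 + 1, by omega, ?_⟩
  intro h0 lam e s he hh0 hlam hs hh
  have h3 : β0 ≤ (3 : ℝ) ^ (10 * e) := by
    refine he0.le.trans ?_
    exact pow_le_pow_right₀ (by norm_num) (by omega)
  refine h ((3 : ℝ) ^ (10 * e)) h0 lam s h3 hh0 hlam ?_ hh
  rw [← pow_mul]
  exact pow_le_pow_right₀ (by norm_num) (by omega)

/-- the ladder of scales `100 e 4 ^ i`. -/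
theorem num_ladder3 : ∀ e : ℕ, 1 ≤ e → ∃ n0 : ℕ, ∀ (n : ℕ) (h0 : ℝ),
    n0 ≤ n → (n : ℝ) ^ (-(1 / 4 : ℝ)) ≤ h0 → h0 ≤ 1 →
    ∃ I : ℕ, h0⁻¹ ≤ ((3 : ℝ) ^ (4 ^ I * (100 * e))) ^ (5 / 2 : ℝ) ∧
      8 * 3 ^ (4 ^ I * (100 * e)) < n := by
  intro e he
  refine ⟨max (8 * 3 ^ (100 * e) + 1) 100, ?_⟩
  intro n h0 hn hh0 hh1
  have hn1 : 8 * 3 ^ (100 * e) < n := by
    have h1 : 8 * 3 ^ (100 * e) + 1 ≤ n := le_trans (le_max_left _ _) hn
    omega
  have hn2 : 100 ≤ n := le_trans (le_max_right _ _) hn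
  have hnpos : (0 : ℝ) < n := by
    have : (100 : ℝ) ≤ n := by exact_mod_cast hn2
    linarith
  have hh0pos : 0 < h0 := lt_of_lt_of_le (Real.rpow_pos_of_pos hnpos _) hh0
  have hinv : h0⁻¹ ≤ (n : ℝ) ^ (1 / 4 : ℝ) := by
    have h1 := inv_anti₀ (Real.rpow_pos_of_pos hnpos _) hh0
    rwa [← Real.rpow_neg hnpos.le, neg_neg] at h1
  -- existence of a large rung
  have hex : ∃ I : ℕ, h0⁻¹ ≤ ((3 : ℝ) ^ (4 ^ I * (100 * e))) ^ (5 / 2 : ℝ) := by
    obtain ⟨I, hI⟩ := pow_unbounded_of_one_lt h0⁻¹ (show (1 : ℝ) < 3 by norm_num)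
    refine ⟨I, ?_⟩
    have h1 : (3 : ℝ) ^ I ≤ (3 : ℝ) ^ (4 ^ I * (100 * e)) := by
      apply pow_le_pow_right₀ (by norm_num)
      have h2 : I ≤ 4 ^ I := (Nat.lt_pow_self (by norm_num)).le
      calc I ≤ 4 ^ I := h2
        _ ≤ 4 ^ I * (100 * e) := Nat.le_mul_of_pos_right _ (by omega)
    have h3 : (1 : ℝ) ≤ (3 : ℝ) ^ (4 ^ I * (100 * e)) := one_le_pow₀ (by norm_num)
    calc h0⁻¹ ≤ (3 : ℝ) ^ I := hI.le
      _ ≤ (3 : ℝ) ^ (4 ^ I * (100 * e)) := h1
      _ = ((3 : ℝ) ^ (4 ^ I * (100 * e))) ^ (1 : ℝ) := (Real.rpow_one _).symm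
      _ ≤ _ := Real.rpow_le_rpow_of_exponent_le h3 (by norm_num)
  classical
  refine ⟨Nat.find hex, Nat.find_spec hex, ?_⟩
  rcases hI : Nat.find hex with _ | J
  · rw [pow_zero, one_mul]
    exact hn1
  · have hJ := Nat.find_min hex (m := J) (by omega)
    push Not at hJ
    set Y : ℝ := (3 : ℝ) ^ (4 ^ J * (100 * e)) with hY
    have hYpos : 0 < Y := by positivity
    have h1 : Y ^ (5 / 2 : ℝ) < (n : ℝ) ^ (1 / 4 : ℝ) := lt_of_lt_of_le hJ hinv
    have h2 : Y ^ 4 < (n : ℝ) ^ (2 / 5 : ℝ) := by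
      have h3 := Real.rpow_lt_rpow (by positivity) h1 (show (0 : ℝ) < 8 / 5 by norm_num)
      rw [← Real.rpow_mul hYpos.le, ← Real.rpow_mul hnpos.le] at h3
      have e1 : (5 / 2 * (8 / 5) : ℝ) = ((4 : ℕ) : ℝ) := by norm_num
      have e2 : (1 / 4 * (8 / 5) : ℝ) = 2 / 5 := by norm_num
      rw [e1, e2, Real.rpow_natCast] at h3
      exact h3
    have h4 : 8 * (n : ℝ) ^ (2 / 5 : ℝ) ≤ n := by
      have h5 : (n : ℝ) = (n : ℝ) ^ (2 / 5 : ℝ) * (n : ℝ) ^ (3 / 5 : ℝ) := by
        rw [← Real.rpow_add hnpos]; norm_num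
      have h6 : (8 : ℝ) ≤ (n : ℝ) ^ (3 / 5 : ℝ) := by
        have h7 : (32 : ℝ) ≤ n := by
          have : (100 : ℝ) ≤ n := by exact_mod_cast hn2
          linarith
        have h8 := Real.rpow_le_rpow (by norm_num) h7 (show (0 : ℝ) ≤ 3 / 5 by norm_num)
        have h9 : (32 : ℝ) ^ (3 / 5 : ℝ) = 8 := by
          rw [show (32 : ℝ) = (2 : ℝ) ^ (5 : ℝ) by norm_num, ← Real.rpow_mul (by norm_num)]
          norm_num
        linarith
      calc 8 * (n : ℝ) ^ (2 / 5 : ℝ) ≤ (n : ℝ) ^ (3 / 5 : ℝ) * (n : ℝ) ^ (2 / 5 : ℝ) :=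
            mul_le_mul_of_nonneg_right h6 (by positivity)
        _ = n := by rw [mul_comm]; exact h5.symm
    have h10 : (3 : ℝ) ^ (4 ^ (J + 1) * (100 * e)) = Y ^ 4 := by
      rw [hY, ← pow_mul]
      congr 1
      ring
    have h11 : (8 * 3 ^ (4 ^ (J + 1) * (100 * e)) : ℝ) < n := by
      rw [h10]
      linarith
    exact_mod_cast h11

end Vale.Agent.P361.LRO.Ind3
end

section

/-!
# P361 LRO, stage 3, network chapter: the last step before lowering (helper535)
-/

namespace Vale.Agent.P361.LRO.Ind3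

open Finset Vale.Agent.P361.LRO _root_.P361.LRO Vale.Agent.P361.LRO.Ind

lemma s3_num {t K κ A P Q C : ℝ} (ht : 0 < t) (hK : 0 < K) (hκ0 : 0 ≤ κ) (hκ : κ ≤ K)
    (hP : 0 ≤ P) (hQ : 0 ≤ Q) (hC : 2 * P < C) (hC' : 2 * Q ≤ C) (h1 : C * K ≤ A)
    (h2 : C * K ^ 3 ≤ A * t ^ 2) (h3 : A ≤ P * κ + Q * (κ ^ 3 / t ^ 2)) : False := by
  have ht2 : 0 < t ^ 2 := by positivity
  have e2 : κ ^ 3 / t ^ 2 ≤ K ^ 3 / t ^ 2 :=
    div_le_div_of_nonneg_right (pow_le_pow_left₀ hκ0 hκ 3) ht2.le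
  have e3 : C * (K ^ 3 / t ^ 2) ≤ A := by
    rw [← mul_div_assoc, div_le_iff₀ ht2]
    exact h2
  have e5 : 0 ≤ K ^ 3 / t ^ 2 := by positivity
  have e6 : P * κ ≤ P * K := mul_le_mul_of_nonneg_left hκ hP
  have e7 : Q * (κ ^ 3 / t ^ 2) ≤ Q * (K ^ 3 / t ^ 2) := mul_le_mul_of_nonneg_left e2 hQ
  have e8 : 2 * P * K < C * K := mul_lt_mul_of_pos_right hC hK
  have e9 : 2 * Q * (K ^ 3 / t ^ 2) ≤ C * (K ^ 3 / t ^ 2) := mul_le_mul_of_nonneg_right hC' e5
  linarith

/-- the volume bound in numbers -/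
lemma s3_vol {t κ A E D cn c1 Cc : ℝ} (ht : 0 < t) (hκ0 : 0 ≤ κ) (hc1 : 0 < c1) (hCc : 0 < Cc)
    (hE0 : 0 ≤ E) (hE : c1 * t * E ≤ 16 * κ) (hD : c1 * D ≤ 1000 * κ)
    (hcn : cn ≤ Cc * (E + E ^ 3)) (hA : A ≤ 4 * κ + (32 * D + t / 2 * cn)) :
    A ≤ (4 + 32000 / c1 + 8 * Cc / c1) * κ + (Cc / 2 * (16 / c1) ^ 3) * (κ ^ 3 / t ^ 2) := by
  have hE' : E ≤ 16 / c1 * κ / t := by
    rw [le_div_iff₀ ht, div_mul_eq_mul_div, le_div_iff₀ hc1]
    linarith
  have hD' : D ≤ 1000 / c1 * κ := by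
    rw [div_mul_eq_mul_div, le_div_iff₀ hc1]
    linarith
  have h1 : t / 2 * cn ≤ t / 2 * (Cc * (E + E ^ 3)) := mul_le_mul_of_nonneg_left hcn (by positivity)
  have h2 : E ^ 3 ≤ (16 / c1 * κ / t) ^ 3 := pow_le_pow_left₀ hE0 hE' 3
  have h3 : t / 2 * (Cc * (E + E ^ 3)) ≤
      t / 2 * (Cc * (16 / c1 * κ / t + (16 / c1 * κ / t) ^ 3)) :=
    mul_le_mul_of_nonneg_left (mul_le_mul_of_nonneg_left (add_le_add hE' h2) hCc.le) (by positivity)
  have h4 : t / 2 * (Cc * (16 / c1 * κ / t + (16 / c1 * κ / t) ^ 3)) =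
      8 * Cc / c1 * κ + (Cc / 2 * (16 / c1) ^ 3) * (κ ^ 3 / t ^ 2) := by
    field_simp
    ring
  rw [h4] at h3
  have h5 : 32 * D ≤ 32000 / c1 * κ := by
    have : 32000 / c1 * κ = 32 * (1000 / c1 * κ) := by ring
    rw [this]
    linarith
  have h6 : (4 + 32000 / c1 + 8 * Cc / c1) * κ = 4 * κ + 32000 / c1 * κ + 8 * Cc / c1 * κ := by ring
  rw [h6]
  linarith

lemma s3_eq2 {Dv cn N t : ℝ} (hN : 0 < N) :
    (64 * Dv + N * t * cn) * (1 / (2 * N)) = 32 * (1 / N * Dv) + t / 2 * cn := by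
  field_simp
  ring

/-- first condition of `start3` -/
lemma s3_st1 {Cs X c1 K κ C t B : ℝ} (hCs : 0 < Cs) (hc1 : 0 < c1) (hK : 0 < K) (hκ0 : 0 ≤ κ)
    (ht : 0 < t) (hB : 0 < B) (hκC : κ * C < K) (hKB : K ≤ B)
    (hY : c1 * K * (1 / t) * X ≤ 1000 * (1 + K / B) * κ) (hC : 2000 * Cs ≤ c1 * C) :
    Cs * X ≤ t := by
  have h0 : K / B ≤ 1 := (div_le_one hB).2 hKB
  have h1 : c1 * K * (1 / t) * X ≤ 2000 * κ := by
    refine hY.trans (mul_le_mul_of_nonneg_right ?_ hκ0)
    linarith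
  have h2 : c1 * K * X ≤ 2000 * κ * t := by
    have : c1 * K * (1 / t) * X = c1 * K * X / t := by ring
    rw [this, div_le_iff₀ ht] at h1
    exact h1
  have h3 : c1 * K * (Cs * X) ≤ c1 * K * t := by
    have e1 : c1 * K * (Cs * X) = Cs * (c1 * K * X) := by ring
    have e2 : Cs * (c1 * K * X) ≤ Cs * (2000 * κ * t) := mul_le_mul_of_nonneg_left h2 hCs.le
    have e3 : Cs * (2000 * κ * t) = 2000 * Cs * κ * t := by ring
    have e4 : 2000 * Cs * κ ≤ c1 * K := by
      have e5 : 2000 * Cs * κ ≤ c1 * C * κ := mul_le_mul_of_nonneg_right hC hκ0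
      have e6 : c1 * C * κ = c1 * (κ * C) := by ring
      have e7 : c1 * (κ * C) ≤ c1 * K := mul_le_mul_of_nonneg_left hκC.le hc1.le
      linarith
    have e5 : 2000 * Cs * κ * t ≤ c1 * K * t := mul_le_mul_of_nonneg_right e4 ht.le
    linarith
  exact le_of_mul_le_mul_left h3 (by positivity)

/-- second condition of `start3`, and the condition of `chain3` -/
lemma s3_st2 {Cs c1 K κ C t x E : ℝ} (hCs : 0 < Cs) (hc1 : 0 < c1) (hκ0 : 0 ≤ κ) (ht : 0 < t)
    (hκK : κ ≤ K) (hC : 16 * Cs ≤ c1 * C) (hC0 : 0 < C) (hE : c1 * t * E ≤ 16 * κ)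
    (hKx : C * K ≤ t * x) : Cs * E ≤ x := by
  have e1 : c1 * t * (Cs * E) ≤ c1 * t * x := by
    have e2 : c1 * t * (Cs * E) = Cs * (c1 * t * E) := by ring
    have e3 : Cs * (c1 * t * E) ≤ Cs * (16 * κ) := mul_le_mul_of_nonneg_left hE hCs.le
    have e4 : Cs * (16 * κ) = 16 * Cs * κ := by ring
    have e5 : 16 * Cs * κ ≤ c1 * C * κ := mul_le_mul_of_nonneg_right hC hκ0
    have e6 : c1 * C * κ ≤ c1 * C * K := mul_le_mul_of_nonneg_left hκK (by positivity)
    have e7 : c1 * C * K = c1 * (C * K) := by ring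
    have e8 : c1 * (C * K) ≤ c1 * (t * x) := mul_le_mul_of_nonneg_left hKx hc1.le
    have e9 : c1 * (t * x) = c1 * t * x := by ring
    linarith
  exact le_of_mul_le_mul_left e1 (by positivity)

/-- the cost of the modified nodes -/
lemma s3_cost {n N W e : ℕ} [NeZero n] {K c1 : ℝ} {b' b : Finset (Tor n)} {h : Tor n → ℝ}
    {c : Nd n N → Nd n N → ℝ} (hloc : Local3 n N W e K c1 b' h c) (o : Tor n) (S : ℕ)
    (hh : ∀ x ∈ cube n o S, h x = 1) (u : Nd n N → ℝ) :
    ∑ z ∈ ((EE6 n N o b S) \ (hatb N b)).filter (fun z => u z < 1 / 2), ∑ v, c z v ≤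
      ((((univ.filter fun k => k ≠ 0) ×ˢ cube n o S : Finset (Nd n N)).filter
        fun z => u z < 1 / 2).card : ℝ) * (1 / (2 * N)) := by
  have hsub : ((EE6 n N o b S) \ (hatb N b)).filter (fun z => u z < 1 / 2) ⊆
      (((univ.filter fun k => k ≠ 0) ×ˢ cube n o S : Finset (Nd n N)).filter
        fun z => u z < 1 / 2) := by
    intro z hz
    rw [Finset.mem_filter, Finset.mem_sdiff, EE6, Finset.mem_union] at hz
    rw [Finset.mem_filter]
    exact ⟨hz.1.1.resolve_left hz.1.2, hz.2⟩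
  have hnn : ∀ z : Nd n N, 0 ≤ ∑ v, c z v := fun z => Finset.sum_nonneg fun v _ => hloc.nonneg z v
  refine (Finset.sum_le_sum_of_subset_of_nonneg hsub fun z _ _ => hnn z).trans ?_
  rw [← nsmul_eq_mul]
  refine Finset.sum_le_card_nsmul _ _ _ fun z hz => ?_
  rw [Finset.mem_filter, Finset.mem_product, Finset.mem_filter] at hz
  have h1 := hloc.tot z.1 z.2 hz.1.1.2
  refine h1.trans ?_
  rw [hh z.2 hz.1.2]

/-- the last step in the form `a = e + r`, `s = e + s'` -/
lemma s3_core {c1 Cs Cc C : ℝ} (hc1 : 0 < c1) (hCs : 0 < Cs) (hCc : 0 < Cc)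
    (hstart : ∀ (r s T : ℕ), 0 < T → r ≤ s → ∀ U : ℕ → ℕ → ℕ → ℕ → ℝ,
      Cs * (∑ x ∈ range (3 ^ r), ∑ y ∈ range (3 ^ r), ∑ z ∈ range (3 ^ r), (1 - U x y z 0) ^ 2)
        ≤ 27 ^ r →
      Cs * T * E4 (3 ^ s) T U ≤ 27 ^ r →
      (∑ x ∈ range (3 ^ r), ∑ y ∈ range (3 ^ r), ∑ z ∈ range (3 ^ r),
        (1 - (1 / (T : ℝ)) * ∑ w ∈ range T, U x y z w) ≤ 27 ^ r / 16))
    (hchain : ∀ (r s T : ℕ), 0 < T → r ≤ s → ∀ U : ℕ → ℕ → ℕ → ℕ → ℝ,
      (∑ x ∈ range (3 ^ r), ∑ y ∈ range (3 ^ r), ∑ z ∈ range (3 ^ r),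
        (1 - (1 / (T : ℝ)) * ∑ w ∈ range T, U x y z w) ≤ 27 ^ r / 16) →
      Cc * E4 (3 ^ s) T U ≤ T * 3 ^ r →
      cnt (3 ^ s) T (5 / 8) U ≤
        Cc * (T ^ 2 * E4 (3 ^ s) T U + (E4 (3 ^ s) T U) ^ 3 / T ^ 2))
    (hC1 : 1 ≤ C) (hCP : 2 * (4 + 32000 / c1 + 8 * Cc / c1) < C)
    (hCQ : 2 * (Cc / 2 * (16 / c1) ^ 3) ≤ C) (hCs' : 2000 * Cs ≤ c1 * C)
    (hCc' : 16 * Cc ≤ c1 * C)
    {n N W e : ℕ} [NeZero n]
    {K : ℝ} {o : Tor n} {r : ℕ} {h : Tor n → ℝ} {c : Nd n N → Nd n N → ℝ}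
    {s : ℕ} {G : Finset (Nd n N)} {A : ℝ}
    (hW : 0 < W) (hN : N = 4 * W) (hrs : r ≤ s) (hsn : 3 ^ (e + s) < n)
    (hK : 0 < K) (hK1 : C * K ≤ 27 ^ (e + r)) (hK2 : C * K ≤ 9 ^ e * 3 ^ (e + r))
    (hh : ∀ x ∈ cube n o (3 ^ (e + s)), h x = 1)
    (hloc : Local3 n N W e K c1 (cube n o (3 ^ (e + r))) h c)
    (hdis : Disjoint (EE6 n N o (cube n o (3 ^ (e + r))) (3 ^ (e + s))) G)
    (hLB : LBn c (EE6 n N o (cube n o (3 ^ (e + r))) (3 ^ (e + s))) G A)
    (hA1 : C * K ≤ A) (hA2 : C * K ^ 3 ≤ A * (27 ^ e) ^ 2) :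
    LBn c (hatb N (cube n o (3 ^ (e + r)))) G (K / C) := by
  have hC0 : 0 < C := by linarith
  refine LBn_of_trunc hloc.nonneg fun u hu huE huG => ?_
  by_contra hcon
  rw [not_le] at hcon
  obtain ⟨κ, hκ⟩ : ∃ κ : ℝ, κ = netK c u := ⟨_, rfl⟩
  rw [← hκ] at hcon
  have hκ0 : 0 ≤ κ := by rw [hκ]; exact netK_nonneg hloc.nonneg u
  have hκC : κ * C < K := by rwa [lt_div_iff₀ hC0] at hcon
  have hκK : κ ≤ K := (le_mul_of_one_le_right hκ0 hC1).trans hκC.le
  have hN0 : (0 : ℝ) < N := by rw [hN]; exact_mod_cast (by omega : 0 < 4 * W)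
  have ht : (0 : ℝ) < 27 ^ e := by positivity
  have hrse : 3 ^ (e + r) ≤ 3 ^ (e + s) := Nat.pow_le_pow_right (by norm_num) (by omega)
  have hrn : 3 ^ (e + r) < n := lt_of_le_of_lt hrse hsn
  have hps : 3 ^ e * 3 ^ s = 3 ^ (e + s) := (pow_add 3 e s).symm
  have hsn' : 3 ^ e * 3 ^ s < n := by rw [hps]; exact hsn
  have hh' : ∀ x ∈ cube n o (3 ^ e * 3 ^ s), h x = 1 := by rw [hps]; exact hh
  have hbs : ∀ x ∈ cube n o (3 ^ (e + r)), h x = 1 := fun x hx => hh x (sl_cube_mono o hrse hx)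
  -- energy
  obtain ⟨E, hEdef⟩ : ∃ E : ℝ, E = E4 (3 ^ s) 1 (UT n N e o u) := ⟨_, rfl⟩
  have hE0 : 0 ≤ E := by rw [hEdef]; exact sl_E4_nonneg _ _ _
  have hE : c1 * 27 ^ e * E ≤ 16 * κ := by
    rw [hEdef, hκ]
    exact E4_le3 hW hN hc1 hloc o (3 ^ s) hsn' hh' u
  -- contact
  have huE' : ∀ x ∈ cube n o (3 ^ (e + r)), u (0, x) = 1 := by
    intro x hx
    refine huE _ ?_
    rw [hatb, Finset.mem_product]
    exact ⟨Finset.mem_singleton_self _, hx⟩
  have hcont := contact_le3 hW hN hK hc1 hloc hrn hbs u huE'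
  rw [← hκ] at hcont
  have h27r : (0 : ℝ) < 27 ^ r := by positivity
  have h27b : (0 : ℝ) < 27 ^ (e + r) := by positivity
  have hKB : K ≤ 27 ^ (e + r) := (le_mul_of_one_le_left hK.le hC1).trans hK1
  have hst1 := s3_st1 hCs hc1 hK hκ0 h27r h27b hκC hKB hcont hCs'
  have hst2 : Cs * E ≤ 27 ^ r := by
    refine s3_st2 hCs hc1 hκ0 ht hκK (by linarith) hC0 hE ?_
    rw [← pow_add]
    exact hK1
  have hch : Cc * E ≤ 3 ^ r := by
    refine s3_st2 hCc hc1 hκ0 ht hκK hCc' hC0 hE ?_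
    have e1 : (27 : ℝ) ^ e * 3 ^ r = 9 ^ e * 3 ^ (e + r) := by
      rw [pow_add, ← mul_assoc, ← mul_pow]
      norm_num
    rw [e1]
    exact hK2
  have hmean := hstart r s 1 Nat.one_pos hrs (UT n N e o u) hst1 (by
    rw [Nat.cast_one, mul_one, ← hEdef]
    exact hst2)
  have hcnt := hchain r s 1 Nat.one_pos hrs (UT n N e o u) hmean (by
    rw [Nat.cast_one, one_mul, ← hEdef]
    exact hch)
  rw [← hEdef, Nat.cast_one, one_pow, one_mul, div_one] at hcnt
  -- deviation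
  obtain ⟨Dv, hDv⟩ : ∃ Dv : ℝ, Dv = DevC n N e o u (3 ^ s) := ⟨_, rfl⟩
  have hdev := dev_le3 hW hN hc1 hloc o (3 ^ s) hsn' hh' u
  have hlow := card_low_le3 hW hN o (3 ^ s) hsn'.le u
  rw [← hDv] at hdev hlow
  rw [← hκ] at hdev
  have hdev2 : c1 * (1 / N * Dv) ≤ 1000 * κ := by
    have : c1 * (1 / N * Dv) = c1 / N * Dv := by ring
    rw [this]
    exact hdev
  obtain ⟨cn, hcn⟩ : ∃ cn : ℝ, cn = cnt (3 ^ s) 1 (5 / 8) (UT n N e o u) := ⟨_, rfl⟩
  rw [← hcn] at hcnt hlow
  -- test function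
  have htest := test_le hloc.symm hloc.nonneg hLB hdis (fun x => (hu x).1) huE huG
  rw [← hκ] at htest
  have hsum := s3_cost (b := cube n o (3 ^ (e + r))) hloc o (3 ^ (e + s)) hh u
  rw [hps] at hlow
  obtain ⟨M, hM⟩ : ∃ M : ℝ, M = ((((univ.filter fun k => k ≠ 0) ×ˢ cube n o (3 ^ (e + s)) :
    Finset (Nd n N)).filter fun z => u z < 1 / 2).card : ℝ) := ⟨_, rfl⟩
  rw [← hM] at hlow hsum
  have hfin : A ≤ 4 * κ + (32 * (1 / N * Dv) + 27 ^ e / 2 * cn) := by
    have e1 := htest.trans (add_le_add_right hsum (4 * κ))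
    have e2 : M * (1 / (2 * N)) ≤ (64 * Dv + N * 27 ^ e * cn) * (1 / (2 * N)) :=
      mul_le_mul_of_nonneg_right hlow (by positivity)
    rw [s3_eq2 hN0] at e2
    linarith
  have hvol := s3_vol ht hκ0 hc1 hCc hE0 hE hdev2 hcnt hfin
  exact s3_num ht hK hκ0 hκK (by positivity) (by positivity) hCP hCQ hA1 hA2 hvol

/-- (S3) The last step, before lowering. -/
theorem step_last3 (c1 : ℝ) (hc1 : 0 < c1) : ∃ C : ℝ, 0 < C ∧ ∀ (n N W e : ℕ) [NeZero n]
    (K : ℝ) (o : Tor n) (a : ℕ) (h : Tor n → ℝ) (c : Nd n N → Nd n N → ℝ)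
    (s : ℕ) (G : Finset (Nd n N)) (A : ℝ),
    0 < W → N = 4 * W → e ≤ a → a ≤ s → 3 ^ s < n →
    0 < K → C * K ≤ 27 ^ a → C * K ≤ 9 ^ e * 3 ^ a →
    (∀ x, h x ≤ 1) → (∀ x ∈ cube n o (3 ^ s), h x = 1) →
    Local3 n N W e K c1 (cube n o (3 ^ a)) h c →
    Disjoint (EE6 n N o (cube n o (3 ^ a)) (3 ^ s)) G →
    LBn c (EE6 n N o (cube n o (3 ^ a)) (3 ^ s)) G A →
    C * K ≤ A → C * K ^ 3 ≤ A * (27 ^ e) ^ 2 →
    LBn c (hatb N (cube n o (3 ^ a))) G (K / C) := by
  obtain ⟨Cs, hCs, hstart⟩ := start3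
  obtain ⟨Cc, hCc, hchain⟩ := chain3
  obtain ⟨C, hC⟩ : ∃ C : ℝ, C = 1 + 2 * (4 + 32000 / c1 + 8 * Cc / c1) +
      2 * (Cc / 2 * (16 / c1) ^ 3) + 2000 * Cs / c1 + 16 * Cc / c1 := ⟨_, rfl⟩
  have q0 : 0 < 2 * (4 + 32000 / c1 + 8 * Cc / c1) := by positivity
  have q0' : 0 < 2 * (Cc / 2 * (16 / c1) ^ 3) := by positivity
  have q1 : 0 < 2000 * Cs / c1 := by positivity
  have q2 : 0 < 16 * Cc / c1 := by positivity
  have hC1 : 1 ≤ C := by linarith
  have hCP : 2 * (4 + 32000 / c1 + 8 * Cc / c1) < C := by linarith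
  have hCQ : 2 * (Cc / 2 * (16 / c1) ^ 3) ≤ C := by linarith
  have hCs' : 2000 * Cs ≤ c1 * C := by
    have : 2000 * Cs / c1 ≤ C := by linarith
    rw [div_le_iff₀ hc1] at this
    linarith
  have hCc' : 16 * Cc ≤ c1 * C := by
    have : 16 * Cc / c1 ≤ C := by linarith
    rw [div_le_iff₀ hc1] at this
    linarith
  refine ⟨C, by linarith, ?_⟩
  intro n N W e _ K o a h c s G A hW hN hea has hsn hK hK1 hK2 _ hh hloc hdis hLB hA1 hA2
  obtain ⟨r, rfl⟩ := Nat.exists_eq_add_of_le hea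
  obtain ⟨s', rfl⟩ := Nat.exists_eq_add_of_le (hea.trans has)
  exact s3_core hc1 hCs hCc hstart hchain hC1 hCP hCQ hCs' hCc' hW hN (by omega) hsn hK hK1 hK2 hh
    hloc hdis hLB hA1 hA2

end Vale.Agent.P361.LRO.Ind3
end

section

/-!
# P361 LRO, stage 3, network chapter, package L3: the last rung of the ladder, from `step_last3`
-/

namespace Vale.Agent.P361.LRO.Ind3

open Finset Vale.Agent.P361.LRO _root_.P361.LRO Vale.Agent.P361.LRO.Ind

end Vale.Agent.P361.LRO.Ind3
end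

section

/-!
# P361 LRO, stage 3, network chapter, package L3: the last rung of the ladder
-/

namespace Vale.Agent.P361.LRO.Ind3

open Finset Vale.Agent.P361.LRO _root_.P361.LRO Vale.Agent.P361.LRO.Ind

end Vale.Agent.P361.LRO.Ind3
end

section

/-!
P361, block twist, part 8: the joint law of `(J, M)` of a block in a positive semidefinite state,
with all moments of the twist.
-/

namespace Vale.Agent.P361.LRO.TwJ

set_option linter.all false

open Matrix Finset
open scoped ComplexOrder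

variable {V : Type} [Fintype V] [DecidableEq V]

/-! ### Commutation -/

theorem swap_comm_pr {b : Finset V} {x y : V} (hx : x ∈ b) (hy : y ∈ b) (G : M2) :
    cm (swapM x y) * pr b G = pr b G * cm (swapM x y) := by
  have hs : ∀ z, Equiv.swap x y z ∈ b ↔ z ∈ b := by
    intro z
    by_cases hzx : z = x
    · subst hzx; simp [hx, hy]
    · by_cases hzy : z = y
      · subst hzy; simp [hx, hy]
      · rw [Equiv.swap_apply_of_ne_of_ne hzx hzy]
  have hinv : ∀ σ τ : V → Fin 2, σ = τ ∘ Equiv.swap x y ↔ τ = σ ∘ Equiv.swap x y := by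
    intro σ τ
    constructor
    · intro h; rw [h]; ext1 z; simp
    · intro h; rw [h]; ext1 z; simp
  ext σ τ
  have h1 : (cm (swapM x y) * pr b G) σ τ = pr b G (σ ∘ Equiv.swap x y) τ := by
    rw [Matrix.mul_apply, Finset.sum_eq_single (σ ∘ Equiv.swap x y)]
    · rw [cm, Matrix.of_apply, swapM, Matrix.of_apply, if_pos ((hinv _ _).2 rfl)]; simp
    · intro ρ _ hρ
      rw [cm, Matrix.of_apply, swapM, Matrix.of_apply, if_neg (fun h => hρ ((hinv _ _).1 h))]; simp
    · intro h; exact absurd (Finset.mem_univ _) h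
  have h2 : (pr b G * cm (swapM x y)) σ τ = pr b G σ (τ ∘ Equiv.swap x y) := by
    rw [Matrix.mul_apply, Finset.sum_eq_single (τ ∘ Equiv.swap x y)]
    · rw [cm, Matrix.of_apply, swapM, Matrix.of_apply, if_pos rfl]; simp
    · intro ρ _ hρ
      rw [cm, Matrix.of_apply, swapM, Matrix.of_apply, if_neg hρ]; simp
    · intro h; exact absurd (Finset.mem_univ _) h
  rw [h1, h2, pr, P, Matrix.of_apply, Matrix.of_apply]
  refine (Fintype.prod_equiv (Equiv.swap x y) _ _ fun z => ?_)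
  simp only [Function.comp_apply, Equiv.swap_apply_self, blk, hs]

theorem Cas_comm_pr (b : Finset V) (G : M2) : Cas b * pr b G = pr b G * Cas b := by
  have h := Cas_eq b
  have h1 : Cas b = (((b.card : ℝ) / 2 * ((b.card : ℝ) / 2 + 1) : ℝ) : ℂ) • (1 : Opr V) -
      ∑ x ∈ b, ∑ y ∈ b, cm (hM x y) := by
    rw [← h]; abel
  have h2 : (∑ x ∈ b, ∑ y ∈ b, cm (hM x y)) * pr b G =
      pr b G * ∑ x ∈ b, ∑ y ∈ b, cm (hM x y) := by
    rw [Finset.sum_mul, Finset.mul_sum]
    refine Finset.sum_congr rfl fun x hx => ?_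
    rw [Finset.sum_mul, Finset.mul_sum]
    refine Finset.sum_congr rfl fun y hy => ?_
    rw [hM, cm_smul, cm_sub, cm_one, Matrix.smul_mul, Matrix.mul_smul, Matrix.sub_mul,
      Matrix.mul_sub, swap_comm_pr hx hy, one_mul, mul_one]
  rw [h1, Matrix.sub_mul, Matrix.mul_sub, h2, Matrix.smul_mul, Matrix.mul_smul, one_mul, mul_one]

theorem Shift.mul {b : Finset V} {r s : ℤ} {X Y : Opr V} (hX : Shift b r X) (hY : Shift b s Y) :
    Shift b (r + s) (X * Y) := by
  intro σ τ h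
  rw [Matrix.mul_apply] at h
  obtain ⟨ρ, _, hρ⟩ := Finset.exists_ne_zero_of_sum_ne_zero h
  have h1 := hX _ _ (left_ne_zero_of_mul hρ)
  have h2 := hY _ _ (right_ne_zero_of_mul hρ)
  omega

theorem shift_Sz (b : Finset V) : Shift b 0 (Sg b sz) := by
  intro σ τ h
  rw [Sz_eq] at h
  by_cases hst : σ = τ
  · rw [hst, sub_self]
  · exact absurd (Matrix.diagonal_apply_ne _ hst) h

theorem shift_Cas (b : Finset V) : Shift b 0 (Cas b) := by
  have h1 : Shift b 0 (Sg b sm * Sg b sp) := by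
    have := (shift_Sm b).mul (shift_Sp b)
    simpa using this
  have h2 : Shift b 0 (Sg b sz * Sg b sz) := by
    have := (shift_Sz b).mul (shift_Sz b)
    simpa using this
  exact (h1.add h2).add (shift_Sz b)

theorem Cas_comm_E (b : Finset V) (k θ : ℝ) : Cas b * E b k 0 θ = E b k 0 θ * Cas b := by
  rw [E, (shift_Cas b).mul_Pi, (shift_Cas b).Pi_mul, Tw, Cas_comm_pr]

theorem Sz_comm_E (b : Finset V) (k θ : ℝ) : Sg b sz * E b k 0 θ = E b k 0 θ * Sg b sz := by
  have h := Pi_comm_Sz b 0 (Tw b k θ)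
  rw [Pi_sub] at h
  have h1 := (shift_Sz b).mul_Pi 0 (Tw b k θ)
  have h2 := (shift_Sz b).Pi_mul 0 (Tw b k θ)
  rw [add_zero] at h1 h2
  rw [E, h1, h2]
  have h3 : (-((0 : ℤ) : ℂ)) • Pi b 0 (Tw b k θ) = 0 := by simp
  rw [h3] at h
  exact sub_eq_zero.1 h

theorem comm_Av0 (b : Finset V) (k : ℝ) {w : ℝ → ℝ} (hw : Continuous w) {Y : Opr V}
    (h : ∀ θ, Y * E b k 0 θ = E b k 0 θ * Y) : Y * Av b k 0 w = Av b k 0 w * Y := by
  rw [mul_Av b k 0 hw, Av_mul b k 0 hw]
  simp only [h]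

/-! ### Decomposition -/

theorem decomp (b : Finset V) (w : (V → Fin 2) → ℂ) :
    ∃ (s : Finset (ℂ × ℂ)) (f : ℂ × ℂ → ((V → Fin 2) → ℂ)), w = ∑ j ∈ s, f j ∧
      (∀ j ∈ s, f j ≠ 0) ∧ (∀ j, Cas b *ᵥ f j = j.2 • f j ∧ Sg b sz *ᵥ f j = j.1 • f j) := by
  classical
  let A : EuclideanSpace ℂ (V → Fin 2) →ₗ[ℂ] EuclideanSpace ℂ (V → Fin 2) :=
    Matrix.toEuclideanLin (Cas b)
  let B : EuclideanSpace ℂ (V → Fin 2) →ₗ[ℂ] EuclideanSpace ℂ (V → Fin 2) :=
    Matrix.toEuclideanLin (Sg b sz)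
  have hA : A.IsSymmetric := Matrix.isSymmetric_toEuclideanLin_iff.2 (Cas_herm b)
  have hB : B.IsSymmetric := Matrix.isSymmetric_toEuclideanLin_iff.2 (Sz_herm b)
  have hAB : Commute A B := by
    apply LinearMap.ext
    intro u
    change Matrix.toEuclideanLin (Cas b) (Matrix.toEuclideanLin (Sg b sz) u) =
      Matrix.toEuclideanLin (Sg b sz) (Matrix.toEuclideanLin (Cas b) u)
    rw [Matrix.toLpLin_apply, Matrix.toLpLin_apply, Matrix.toLpLin_apply, Matrix.toLpLin_apply]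
    simp only [Matrix.mulVec_mulVec]
    rw [Cas_Sz]
  have hint := LinearMap.IsSymmetric.directSum_isInternal_of_commute hA hB hAB
  have htop := hint.submodule_iSup_eq_top
  have hmem : (WithLp.toLp 2 w : EuclideanSpace ℂ (V → Fin 2)) ∈
      ⨆ i : ℂ × ℂ, (Module.End.eigenspace A i.2 ⊓ Module.End.eigenspace B i.1) := by
    rw [htop]; trivial
  obtain ⟨f, hf, hfw⟩ := (Submodule.mem_iSup_iff_exists_finsupp _ _).1 hmem
  refine ⟨f.support, fun j => (f j).ofLp, ?_, ?_, ?_⟩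
  · have := congrArg WithLp.ofLp hfw
    rw [Finsupp.sum, WithLp.ofLp_sum] at this
    exact this.symm
  · intro j hj h0
    apply Finsupp.mem_support_iff.1 hj
    have := congrArg (WithLp.toLp 2) h0
    exact this
  · intro i
    have h1 := Module.End.mem_eigenspace_iff.1 (hf i).1
    have h2 := Module.End.mem_eigenspace_iff.1 (hf i).2
    exact ⟨congrArg WithLp.ofLp h1, congrArg WithLp.ofLp h2⟩

theorem orth (b : Finset V) {i j : ℂ × ℂ} (hij : i ≠ j) {u v : (V → Fin 2) → ℂ}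
    (hu : Cas b *ᵥ u = i.2 • u ∧ Sg b sz *ᵥ u = i.1 • u)
    (hv : Cas b *ᵥ v = j.2 • v ∧ Sg b sz *ᵥ v = j.1 • v) : star u ⬝ᵥ v = 0 := by
  classical
  let A : EuclideanSpace ℂ (V → Fin 2) →ₗ[ℂ] EuclideanSpace ℂ (V → Fin 2) :=
    Matrix.toEuclideanLin (Cas b)
  let B : EuclideanSpace ℂ (V → Fin 2) →ₗ[ℂ] EuclideanSpace ℂ (V → Fin 2) :=
    Matrix.toEuclideanLin (Sg b sz)
  have hA : A.IsSymmetric := Matrix.isSymmetric_toEuclideanLin_iff.2 (Cas_herm b)
  have hB : B.IsSymmetric := Matrix.isSymmetric_toEuclideanLin_iff.2 (Sz_herm b)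
  have horth := LinearMap.IsSymmetric.orthogonalFamily_eigenspace_inf_eigenspace hA hB
  have mem : ∀ (i : ℂ × ℂ) (u : (V → Fin 2) → ℂ),
      (Cas b *ᵥ u = i.2 • u ∧ Sg b sz *ᵥ u = i.1 • u) →
      (WithLp.toLp 2 u : EuclideanSpace ℂ (V → Fin 2)) ∈
        (Module.End.eigenspace A i.2 ⊓ Module.End.eigenspace B i.1) := by
    intro i u hu
    constructor
    · apply Module.End.mem_eigenspace_iff.2
      exact congrArg (WithLp.toLp 2) hu.1
    · apply Module.End.mem_eigenspace_iff.2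
      exact congrArg (WithLp.toLp 2) hu.2
  have := horth hij ⟨_, mem i u hu⟩ ⟨_, mem j v hv⟩
  simp only [Submodule.coe_subtypeₗᵢ, Submodule.coe_subtype] at this
  rw [EuclideanSpace.inner_eq_star_dotProduct, dotProduct_comm] at this
  exact this

theorem form_decomp (b : Finset V) {X : Opr V} (hC : Cas b * X = X * Cas b)
    (hZ : Sg b sz * X = X * Sg b sz) {s : Finset (ℂ × ℂ)} {f : ℂ × ℂ → ((V → Fin 2) → ℂ)}
    (hf : ∀ j, Cas b *ᵥ f j = j.2 • f j ∧ Sg b sz *ᵥ f j = j.1 • f j) :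
    star (∑ j ∈ s, f j) ⬝ᵥ (X *ᵥ ∑ j ∈ s, f j) = ∑ j ∈ s, star (f j) ⬝ᵥ (X *ᵥ f j) := by
  rw [Matrix.mulVec_sum, dotProduct_sum]
  refine Finset.sum_congr rfl fun j hj => ?_
  rw [star_sum, sum_dotProduct, Finset.sum_eq_single j]
  · intro i _ hij
    refine orth b hij (hf i) ⟨?_, ?_⟩
    · rw [Matrix.mulVec_mulVec, hC, ← Matrix.mulVec_mulVec, (hf j).1, Matrix.mulVec_smul]
    · rw [Matrix.mulVec_mulVec, hZ, ← Matrix.mulVec_mulVec, (hf j).2, Matrix.mulVec_smul]
  · intro h; exact absurd hj h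

theorem trace_rows (R X : Opr V) :
    Matrix.trace (Rᴴ * R * X) =
      ∑ i, star (fun j => star (R i j)) ⬝ᵥ (X *ᵥ fun j => star (R i j)) := by
  have h1 : Matrix.trace (Rᴴ * R * X) = Matrix.trace (R * X * Rᴴ) := by
    rw [mul_assoc, Matrix.trace_mul_comm, mul_assoc]
  rw [h1, Matrix.trace]
  refine Finset.sum_congr rfl fun i _ => ?_
  simp only [Matrix.diag, Matrix.mul_apply, dotProduct, Matrix.mulVec,
    Matrix.conjTranspose_apply, Pi.star_apply, star_star, Finset.sum_mul, Finset.mul_sum]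
  rw [Finset.sum_comm]
  refine Finset.sum_congr rfl fun j _ => Finset.sum_congr rfl fun l _ => ?_
  ring

/-- The finite family of joint eigenvectors of a positive semidefinite matrix. -/
theorem law0 (b : Finset V) (R : Opr V) :
    ∃ (ι : Type) (_ : Fintype ι) (u : ι → ((V → Fin 2) → ℂ)),
      (∀ i, u i ≠ 0 ∧ ∃ lam mu : ℂ, Cas b *ᵥ u i = lam • u i ∧ Sg b sz *ᵥ u i = mu • u i) ∧
      ∀ X : Opr V, Cas b * X = X * Cas b → Sg b sz * X = X * Sg b sz →
        Matrix.trace (Rᴴ * R * X) = ∑ i, star (u i) ⬝ᵥ (X *ᵥ u i) := by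
  classical
  choose s f h1 h2 h3 using fun i : V → Fin 2 => decomp b (fun j => star (R i j))
  refine ⟨Σ i : V → Fin 2, {j // j ∈ s i}, inferInstance, fun i => f i.1 i.2.1, ?_, ?_⟩
  · rintro ⟨i, j, hj⟩
    exact ⟨h2 i j hj, j.2, j.1, (h3 i j).1, (h3 i j).2⟩
  · intro X hC hZ
    rw [trace_rows, Fintype.sum_sigma]
    refine Finset.sum_congr rfl fun i _ => ?_
    conv_lhs => rw [h1 i]
    rw [form_decomp b hC hZ (h3 i)]
    exact (Finset.sum_coe_sort (s i) fun j => star (f i j) ⬝ᵥ (X *ᵥ f i j)).symm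

/-- The quantum numbers do not depend on `k`. -/
theorem joint_all {b : Finset V} {w : (V → Fin 2) → ℂ} (hw : w ≠ 0) {lam mu : ℂ}
    (h1 : Cas b *ᵥ w = lam • w) (h2 : Sg b sz *ᵥ w = mu • w) :
    ∃ N r p : ℕ, N + 2 * r = b.card ∧ p ≤ N ∧
      Cas b *ᵥ w = (((N : ℝ) / 2 * ((N : ℝ) / 2 + 1) : ℝ) : ℂ) • w ∧
      Sg b sz *ᵥ w = (((N : ℝ) / 2 - p : ℝ) : ℂ) • w ∧
      ∀ k : ℝ, 0 ≤ k → opA b k *ᵥ w = ((aN k N : ℝ) : ℂ) • w ∧
        opB b k *ᵥ w = ((b0N k N - p * b1N k N : ℝ) : ℂ) • w := by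
  obtain ⟨N, r, p, hN, hp, hC, hS, -, -⟩ := joint (k := 0) le_rfl hw h1 h2
  refine ⟨N, r, p, hN, hp, hC, hS, fun k hk => ?_⟩
  obtain ⟨N', r', p', hN', hp', hC', hS', hA', hB'⟩ := joint hk hw h1 h2
  obtain ⟨σ, hσ⟩ := Function.ne_iff.1 hw
  have e1 : ((N : ℝ) / 2 * ((N : ℝ) / 2 + 1)) = ((N' : ℝ) / 2 * ((N' : ℝ) / 2 + 1)) := by
    have := congrFun (hC.symm.trans hC') σ
    rw [Pi.smul_apply, Pi.smul_apply, smul_eq_mul, smul_eq_mul] at this
    exact_mod_cast mul_right_cancel₀ hσ this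
  have e2 : ((N : ℝ) / 2 - p) = ((N' : ℝ) / 2 - p') := by
    have := congrFun (hS.symm.trans hS') σ
    rw [Pi.smul_apply, Pi.smul_apply, smul_eq_mul, smul_eq_mul] at this
    exact_mod_cast mul_right_cancel₀ hσ this
  have e3 : (N : ℝ) = N' := by
    have h0 : (0 : ℝ) ≤ N := Nat.cast_nonneg N
    have h0' : (0 : ℝ) ≤ N' := Nat.cast_nonneg N'
    have : ((N : ℝ) - N') * ((N : ℝ) + N' + 2) = 0 := by nlinarith
    rcases mul_eq_zero.1 this with h | h
    · linarith
    · linarith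
  have e4 : N = N' := by exact_mod_cast e3
  have e5 : p = p' := by
    have : (p : ℝ) = p' := by rw [e3] at e2; linarith
    exact_mod_cast this
  subst e4; subst e5
  exact ⟨hA', hB'⟩

/-! ### Positivity and moments -/

theorem gm_half (k θ : ℝ) : gm (k / 2) θ * gm (k / 2) θ = gm k θ := by
  have h1 : Real.cosh (k / 2) = Real.cosh (k / 2 / 2) ^ 2 + Real.sinh (k / 2 / 2) ^ 2 := by
    rw [← Real.cosh_two_mul]; congr 1; ring
  have h2 : Real.sinh (k / 2) = 2 * Real.sinh (k / 2 / 2) * Real.cosh (k / 2 / 2) := by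
    rw [← Real.sinh_two_mul]; congr 1; ring
  have h3 := Real.sin_sq_add_cos_sq θ
  unfold gm
  rw [h1, h2]
  set c := Real.cosh (k / 2 / 2)
  set s := Real.sinh (k / 2 / 2)
  set x := Real.cos θ
  set y := Real.sin θ
  rw [Matrix.mul_fin_two]
  congr 1
  have a1 : ((c + s * x : ℝ) : ℂ) * ((c + s * x : ℝ) : ℂ) + ((s * y : ℝ) : ℂ) * ((s * y : ℝ) : ℂ) =
      ((c ^ 2 + s ^ 2 + 2 * s * c * x : ℝ) : ℂ) := by
    rw [← Complex.ofReal_mul, ← Complex.ofReal_mul, ← Complex.ofReal_add]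
    congr 1
    linear_combination s ^ 2 * h3
  have a2 : ((c + s * x : ℝ) : ℂ) * ((s * y : ℝ) : ℂ) + ((s * y : ℝ) : ℂ) * ((c - s * x : ℝ) : ℂ) =
      ((2 * s * c * y : ℝ) : ℂ) := by
    rw [← Complex.ofReal_mul, ← Complex.ofReal_mul, ← Complex.ofReal_add]
    congr 1
    ring
  have a3 : ((s * y : ℝ) : ℂ) * ((c + s * x : ℝ) : ℂ) + ((c - s * x : ℝ) : ℂ) * ((s * y : ℝ) : ℂ) =
      ((2 * s * c * y : ℝ) : ℂ) := by
    rw [← Complex.ofReal_mul, ← Complex.ofReal_mul, ← Complex.ofReal_add]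
    congr 1
    ring
  have a4 : ((s * y : ℝ) : ℂ) * ((s * y : ℝ) : ℂ) + ((c - s * x : ℝ) : ℂ) * ((c - s * x : ℝ) : ℂ) =
      ((c ^ 2 + s ^ 2 - 2 * s * c * x : ℝ) : ℂ) := by
    rw [← Complex.ofReal_mul, ← Complex.ofReal_mul, ← Complex.ofReal_add]
    congr 1
    linear_combination s ^ 2 * h3
  rw [a1, a2, a3, a4]

theorem pr_conj (b : Finset V) (G : M2) : (pr b G)ᴴ = pr b Gᴴ := by
  ext σ τ
  rw [Matrix.conjTranspose_apply, pr, P, Matrix.of_apply, pr, P, Matrix.of_apply, star_prod]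
  refine Finset.prod_congr rfl fun y _ => ?_
  by_cases hy : y ∈ b
  · rw [blk, blk, if_pos hy, if_pos hy, Matrix.conjTranspose_apply]
  · rw [blk, blk, if_neg hy, if_neg hy, Matrix.one_apply, Matrix.one_apply]
    by_cases h : σ y = τ y
    · rw [if_pos h, if_pos h.symm, star_one]
    · rw [if_neg h, if_neg (Ne.symm h), star_zero]

theorem gm_conj (k θ : ℝ) : (gm k θ)ᴴ = gm k θ := by
  ext i j
  fin_cases i <;> fin_cases j <;>
    simp only [gm, Matrix.conjTranspose_apply, Matrix.of_apply, Matrix.cons_val', Fin.zero_eta,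
      Matrix.cons_val_zero, Matrix.cons_val_fin_one, Fin.mk_one, Matrix.cons_val_one,
      Complex.star_def, Complex.conj_ofReal]

theorem Tw_sq (b : Finset V) (k θ : ℝ) :
    Tw b k θ = (Tw b (k / 2) θ)ᴴ * Tw b (k / 2) θ := by
  rw [Tw, Tw, pr_conj, gm_conj, pr_mul, gm_half]

theorem Tw_form_nonneg (b : Finset V) (k θ : ℝ) (w : (V → Fin 2) → ℂ) :
    0 ≤ (star w ⬝ᵥ (Tw b k θ *ᵥ w)).re := by
  rw [Tw_sq, ← Matrix.mulVec_mulVec, form_conj]
  exact re_star_dot_nonneg _

theorem E_form {b : Finset V} {w : (V → Fin 2) → ℂ} {mu : ℂ}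
    (h2 : Sg b sz *ᵥ w = mu • w) (k θ : ℝ) :
    star w ⬝ᵥ (E b k 0 θ *ᵥ w) = star w ⬝ᵥ (Tw b k θ *ᵥ w) := by
  by_cases hw : w = 0
  · subst hw; simp
  obtain ⟨σ0, hσ0⟩ := Function.ne_iff.1 hw
  have hmu : ∀ σ, w σ ≠ 0 → (b.card : ℂ) / 2 - (nb b σ : ℂ) = mu := by
    intro σ hσ
    have := congrFun h2 σ
    rw [Sz_eq, Matrix.mulVec_diagonal, Pi.smul_apply, smul_eq_mul] at this
    exact mul_right_cancel₀ hσ this
  have hwm : Supp b (nb b σ0) w := by
    intro σ hσ
    have h3 := hmu σ hσ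
    have h4 := hmu σ0 hσ0
    have h5 : ((nb b σ : ℤ) : ℂ) = ((nb b σ0 : ℤ) : ℂ) := by
      linear_combination h4 - h3
    exact_mod_cast h5
  simp only [dotProduct]
  refine Finset.sum_congr rfl fun σ _ => ?_
  by_cases h0 : w σ = 0
  · simp [h0]
  · rw [E, Pi_mulVec hwm, if_pos (by rw [hwm σ h0, add_zero])]

theorem form_Av (b : Finset V) (k : ℝ) {w : ℝ → ℝ} (hw : Continuous w)
    (v : (V → Fin 2) → ℂ) :
    (star v ⬝ᵥ (Av b k 0 w *ᵥ v)).re =
      ∫ θ in (0 : ℝ)..Real.pi, w θ * (star v ⬝ᵥ (E b k 0 θ *ᵥ v)).re := by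
  have hc : Continuous fun θ => star v ⬝ᵥ (E b k 0 θ *ᵥ v) := by
    simp only [dotProduct, Matrix.mulVec]
    exact continuous_finset_sum _ fun σ _ => continuous_const.mul
      (continuous_finset_sum _ fun τ _ => (continuous_E b k 0 σ τ).mul continuous_const)
  have h1 : star v ⬝ᵥ (Av b k 0 w *ᵥ v) =
      ∫ θ in (0 : ℝ)..Real.pi, ((w θ : ℝ) : ℂ) * (star v ⬝ᵥ (E b k 0 θ *ᵥ v)) := by
    simp only [dotProduct, Av_mulVec b k 0 hw, Finset.mul_sum]
    rw [intervalIntegral.integral_finset_sum]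
    · refine Finset.sum_congr rfl fun σ _ => ?_
      rw [← intervalIntegral.integral_const_mul]
      congr 1
      ext θ
      ring
    · intro σ _
      refine (Continuous.mul (Complex.continuous_ofReal.comp hw) ?_).intervalIntegrable _ _
      refine continuous_const.mul ?_
      simp only [Matrix.mulVec, dotProduct]
      exact continuous_finset_sum _ fun τ _ => (continuous_E b k 0 σ τ).mul continuous_const
  rw [h1]
  have h2 := intervalIntegral.intervalIntegral_re (a := (0 : ℝ)) (b := Real.pi)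
    (f := fun θ => ((w θ : ℝ) : ℂ) * (star v ⬝ᵥ (E b k 0 θ *ᵥ v))) (μ := MeasureTheory.volume)
    (((Complex.continuous_ofReal.comp hw).mul hc).intervalIntegrable _ _)
  have h3 : (∫ θ in (0 : ℝ)..Real.pi, ((w θ : ℝ) : ℂ) * (star v ⬝ᵥ (E b k 0 θ *ᵥ v))).re =
      ∫ θ in (0 : ℝ)..Real.pi, (((w θ : ℝ) : ℂ) * (star v ⬝ᵥ (E b k 0 θ *ᵥ v))).re := h2.symm
  rw [h3]
  congr 1
  ext θ
  rw [Complex.re_ofReal_mul]

end Vale.Agent.P361.LRO.TwJ
end

section

/-!
P361, block twist, part 9: the joint law of `(J, M)` of a block, all moments of the twist.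
-/

namespace Vale.Agent.P361.LRO.TwJ

set_option linter.all false

open Matrix Finset
open scoped ComplexOrder

variable {V : Type} [Fintype V] [DecidableEq V]

/-- Tangent line inequality. -/
theorem tangent {x y : ℝ} (hx : 0 ≤ x) (hy : 0 < y) (m : ℕ) :
    y ^ m + m * y ^ m * (x / y - 1) ≤ x ^ m := by
  have h1 : -2 ≤ x / y - 1 := by
    have : 0 ≤ x / y := by positivity
    linarith
  have h2 := one_add_mul_le_pow h1 m
  have h3 : x ^ m = y ^ m * (1 + (x / y - 1)) ^ m := by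
    rw [← mul_pow]
    congr 1
    field_simp
    ring
  rw [h3]
  have h4 := mul_le_mul_of_nonneg_left h2 (by positivity : 0 ≤ y ^ m)
  calc y ^ m + m * y ^ m * (x / y - 1) = y ^ m * (1 + m * (x / y - 1)) := by ring
    _ ≤ _ := h4

/-- `(p/N) a ≤ a - (b₀ - p b₁)`. -/
theorem mean_ge {k : ℝ} (hk : 0 ≤ k) {N p : ℕ} (hp : p ≤ N) :
    (p : ℝ) / N * aN k N ≤ aN k N - (b0N k N - p * b1N k N) := by
  have ha := aN_pos hk N
  have h2 := b1N_nonneg hk N
  have h3 := b0N_le hk N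
  have h4 := N_b1 hk N
  set a := aN k N
  set β0 := b0N k N
  set β1 := b1N k N
  have hN0 : (0 : ℝ) ≤ N := Nat.cast_nonneg N
  have hp0 : (0 : ℝ) ≤ p := Nat.cast_nonneg p
  have hpN : (p : ℝ) ≤ N := by exact_mod_cast hp
  rcases Nat.eq_zero_or_pos N with hN1 | hN1
  · have : p = 0 := by omega
    rw [this]
    simp
    exact h3
  have hN1' : (0 : ℝ) < N := by exact_mod_cast hN1
  rw [div_mul_eq_mul_div, div_le_iff₀ hN1']
  have e2 : (a - (β0 - p * β1)) * N = N * a - ((N : ℝ) - 2 * p) * β0 := by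
    linear_combination (p : ℝ) * h4
  rw [e2]
  rcases le_total (2 * (p : ℝ)) N with h | h
  · have : ((N : ℝ) - 2 * p) * β0 ≤ ((N : ℝ) - 2 * p) * a :=
      mul_le_mul_of_nonneg_left h3 (by linarith)
    nlinarith
  · have hb0 : 0 ≤ β0 := by nlinarith
    nlinarith

theorem moment {b : Finset V} {w : (V → Fin 2) → ℂ} {mu : ℂ}
    (h2 : Sg b sz *ᵥ w = mu • w) {k : ℝ} (hk : 0 ≤ k) {N p : ℕ} (hp : p ≤ N)
    (hA : opA b k *ᵥ w = ((aN k N : ℝ) : ℂ) • w)
    (hB : opB b k *ᵥ w = ((b0N k N - p * b1N k N : ℝ) : ℂ) • w) (m : ℕ) :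
    (star w ⬝ᵥ w).re * (aN k N * ((p : ℝ) / N) ^ m) ≤
      ∫ θ in (0 : ℝ)..Real.pi, 1 / 2 * Real.sin θ * (1 - Real.cos θ) ^ m *
        (star w ⬝ᵥ (E b k 0 θ *ᵥ w)).re := by
  set f : ℝ → ℝ := fun θ => (star w ⬝ᵥ (E b k 0 θ *ᵥ w)).re with hf
  set S := (star w ⬝ᵥ w).re with hS
  have hS0 : 0 ≤ S := re_star_dot_nonneg w
  have hf0 : ∀ θ, 0 ≤ f θ := by
    intro θ
    rw [hf]
    simp only
    rw [E_form h2]
    exact Tw_form_nonneg b k θ w
  have hfc : Continuous f := by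
    refine Complex.continuous_re.comp ?_
    simp only [dotProduct, Matrix.mulVec]
    exact continuous_finset_sum _ fun σ _ => continuous_const.mul
      (continuous_finset_sum _ fun τ _ => (continuous_E b k 0 σ τ).mul continuous_const)
  have ha := aN_pos hk N
  have IA : ∫ θ in (0 : ℝ)..Real.pi, 1 / 2 * Real.sin θ ^ 1 * f θ = aN k N * S := by
    have h := form_Av b k (w := fun θ => 1 / 2 * Real.sin θ ^ 1) (by fun_prop) w
    rw [← h]
    change (star w ⬝ᵥ (opA b k *ᵥ w)).re = _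
    rw [hA, dotProduct_smul, smul_eq_mul, Complex.re_ofReal_mul]
  have IB : ∫ θ in (0 : ℝ)..Real.pi, 1 / 2 * Real.cos θ * Real.sin θ ^ 1 * f θ =
      (b0N k N - p * b1N k N) * S := by
    have h := form_Av b k (w := fun θ => 1 / 2 * Real.cos θ * Real.sin θ ^ 1) (by fun_prop) w
    rw [← h]
    change (star w ⬝ᵥ (opB b k *ᵥ w)).re = _
    rw [hB, dotProduct_smul, smul_eq_mul, Complex.re_ofReal_mul]
  have hnn : 0 ≤ ∫ θ in (0 : ℝ)..Real.pi, 1 / 2 * Real.sin θ * (1 - Real.cos θ) ^ m * f θ := by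
    refine intervalIntegral.integral_nonneg Real.pi_pos.le fun θ hθ => ?_
    have h1 := Real.sin_nonneg_of_nonneg_of_le_pi hθ.1 hθ.2
    have h3 := Real.cos_le_one θ
    have h4 : 0 ≤ 1 - Real.cos θ := by linarith
    have := hf0 θ
    positivity
  rcases Nat.eq_zero_or_pos m with hm | hm
  · subst hm
    have : (∫ θ in (0 : ℝ)..Real.pi, 1 / 2 * Real.sin θ * (1 - Real.cos θ) ^ 0 * f θ) =
        aN k N * S := by
      rw [← IA]; congr 1; ext θ; ring
    rw [this]
    simp only [pow_zero, mul_one]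
    exact le_of_eq (mul_comm _ _)
  rcases Nat.eq_zero_or_pos p with hp1 | hp1
  · subst hp1
    have : ((0 : ℕ) : ℝ) / N = 0 := by simp
    rw [this, zero_pow hm.ne', mul_zero, mul_zero]
    exact hnn
  have hN1 : 0 < N := lt_of_lt_of_le hp1 hp
  have hN1' : (0 : ℝ) < N := by exact_mod_cast hN1
  have hp1' : (0 : ℝ) < p := by exact_mod_cast hp1
  have hmean := mean_ge hk hp
  set a := aN k N
  set y := (a - (b0N k N - p * b1N k N)) / a with hy
  have hyp : (p : ℝ) / N ≤ y := by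
    rw [hy, le_div_iff₀ ha]; exact hmean
  have hy0 : 0 < y := lt_of_lt_of_le (by positivity) hyp
  -- integrate the tangent inequality
  have h1 : (∫ θ in (0 : ℝ)..Real.pi, (y ^ m - m * y ^ m) * (1 / 2 * Real.sin θ ^ 1 * f θ) +
        m * y ^ m / y * (1 / 2 * Real.sin θ ^ 1 * f θ - 1 / 2 * Real.cos θ * Real.sin θ ^ 1 * f θ))
      ≤ ∫ θ in (0 : ℝ)..Real.pi, 1 / 2 * Real.sin θ * (1 - Real.cos θ) ^ m * f θ := by
    refine intervalIntegral.integral_mono_on Real.pi_pos.le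
      ((by fun_prop : Continuous _).intervalIntegrable _ _)
      ((by fun_prop : Continuous _).intervalIntegrable _ _) fun θ hθ => ?_
    have h1 := Real.sin_nonneg_of_nonneg_of_le_pi hθ.1 hθ.2
    have h3 := Real.cos_le_one θ
    have h4 : 0 ≤ 1 - Real.cos θ := by linarith
    have h5 := tangent h4 hy0 m
    have h6 : 0 ≤ 1 / 2 * Real.sin θ * f θ := by
      have := hf0 θ
      positivity
    have h7 := mul_le_mul_of_nonneg_left h5 h6
    calc _ = 1 / 2 * Real.sin θ * f θ * (y ^ m + m * y ^ m * ((1 - Real.cos θ) / y - 1)) := by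
          ring
      _ ≤ _ := h7
      _ = _ := by ring
  rw [intervalIntegral.integral_add ((by fun_prop : Continuous _).intervalIntegrable _ _)
    ((by fun_prop : Continuous _).intervalIntegrable _ _), intervalIntegral.integral_const_mul,
    intervalIntegral.integral_const_mul, intervalIntegral.integral_sub
      ((by fun_prop : Continuous _).intervalIntegrable _ _)
      ((by fun_prop : Continuous _).intervalIntegrable _ _), IA, IB] at h1
  have h2' : (y ^ m - m * y ^ m) * (a * S) +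
      m * y ^ m / y * (a * S - (b0N k N - p * b1N k N) * S) = y ^ m * (a * S) := by
    have e : a * S - (b0N k N - p * b1N k N) * S = y * (a * S) := by
      rw [hy]; field_simp
    rw [e]
    field_simp
    ring
  rw [h2'] at h1
  have h3 : ((p : ℝ) / N) ^ m ≤ y ^ m := pow_le_pow_left₀ (by positivity) hyp m
  calc S * (a * ((p : ℝ) / N) ^ m) = (a * S) * ((p : ℝ) / N) ^ m := by ring
    _ ≤ (a * S) * y ^ m := mul_le_mul_of_nonneg_left h3 (by positivity)
    _ = y ^ m * (a * S) := by ring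
    _ ≤ _ := h1

/-- **The joint law of `(J, M)` of a block**: `J = N / 2`, `M = N / 2 - p`, `|b| = N + 2 r`; the
same law for all strengths `k` and all moments `m` of the twist. -/
theorem joint_law {W : Matrix (V → Fin 2) (V → Fin 2) ℝ} (hW : W.PosSemidef)
    (hsym : ∀ σ τ, W σ τ ≠ 0 → ∑ x, ((σ x : ℕ) : ℤ) = ∑ x, ((τ x : ℕ) : ℤ))
    (b : Finset V) :
    ∃ (ι : Type) (_ : Fintype ι) (μ : ι → ℝ) (N r p : ι → ℕ),
      (∀ i, 0 ≤ μ i) ∧ (∀ i, N i + 2 * r i = b.card ∧ p i ≤ N i) ∧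
      ∑ i, μ i = Matrix.trace W ∧
      ∑ i, μ i * ((r i : ℝ) + p i) = ∑ x ∈ b, Matrix.trace (W * ((1 / 2 : ℝ) • (1 - szM x))) ∧
      ∑ i, μ i * ((r i : ℝ) * ((b.card : ℝ) - r i + 1)) =
        ∑ x ∈ b, ∑ y ∈ b, Matrix.trace (W * hM x y) ∧
      (∀ k : ℝ, 0 ≤ k → ∑ i, μ i * aN k (N i) =
        Real.cosh (k / 2) ^ b.card / 2 * ∫ φ in (0 : ℝ)..Real.pi,
          Real.sin φ * Matrix.trace (W * rotT b (Real.tanh (k / 2)) φ)) ∧
      (∀ k : ℝ, 0 ≤ k → ∀ m : ℕ, ∑ i, μ i * (aN k (N i) * ((p i : ℝ) / N i) ^ m) ≤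
        Real.cosh (k / 2) ^ b.card / 2 * ∫ φ in (0 : ℝ)..Real.pi,
          Real.sin φ * (1 - Real.cos φ) ^ m *
            Matrix.trace (W * rotT b (Real.tanh (k / 2)) φ)) := by
  obtain ⟨R, hR⟩ := cm_factor hW
  obtain ⟨ι, hι, u, hu, hlaw⟩ := law0 b R
  rw [← hR] at hlaw
  choose N r p hN hp hC hS hK using fun i => joint_all (hu i).1
    (hu i).2.choose_spec.choose_spec.1 (hu i).2.choose_spec.choose_spec.2
  have hsym' : ∀ σ τ, cm W σ τ ≠ 0 → nb univ σ = nb univ τ := by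
    intro σ τ h1
    apply hsym
    intro h2
    apply h1
    rw [cm, Matrix.of_apply, h2]; simp
  -- traces of operators acting by real scalars
  have hscal : ∀ (X : Opr V) (y : ι → ℝ), Cas b * X = X * Cas b → Sg b sz * X = X * Sg b sz →
      (∀ i, X *ᵥ u i = ((y i : ℝ) : ℂ) • u i) →
      (Matrix.trace (cm W * X)).re = ∑ i, (star (u i) ⬝ᵥ u i).re * y i := by
    intro X y h1 h2 h3
    rw [hlaw X h1 h2, Complex.re_sum]
    refine Finset.sum_congr rfl fun i _ => ?_
    rw [h3, dotProduct_smul, smul_eq_mul, Complex.re_ofReal_mul, mul_comm]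
  have hT : ∀ k φ, Matrix.trace (cm W * Tw b k φ) =
      ((Real.cosh (k / 2) ^ b.card * Matrix.trace (W * rotT b (Real.tanh (k / 2)) φ) : ℝ) : ℂ) := by
    intro k φ
    rw [Tw_eq, Matrix.mul_smul, Matrix.trace_smul, ← cm_mul, cm_trace, smul_eq_mul,
      ← Complex.ofReal_mul]
  have hAv : ∀ (k : ℝ) (w : ℝ → ℝ), Continuous w → (Matrix.trace (cm W * Av b k 0 w)).re =
      Real.cosh (k / 2) ^ b.card * ∫ φ in (0 : ℝ)..Real.pi,
        w φ * Matrix.trace (W * rotT b (Real.tanh (k / 2)) φ) := by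
    intro k w hw
    rw [trace_Av b k hw hsym']
    have : (∫ θ in (0 : ℝ)..Real.pi, ((w θ : ℝ) : ℂ) * Matrix.trace (cm W * Tw b k θ)) =
        ((Real.cosh (k / 2) ^ b.card * ∫ φ in (0 : ℝ)..Real.pi,
          w φ * Matrix.trace (W * rotT b (Real.tanh (k / 2)) φ) : ℝ) : ℂ) := by
      rw [← intervalIntegral.integral_const_mul, ← intervalIntegral.integral_ofReal]
      congr 1
      ext θ
      rw [hT]
      push_cast
      ring
    rw [this, Complex.ofReal_re]
  refine ⟨ι, hι, fun i => (star (u i) ⬝ᵥ u i).re, N, r, p, fun i => re_star_dot_nonneg _,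
    fun i => ⟨hN i, hp i⟩, ?_, ?_, ?_, ?_, ?_⟩
  · have h := hscal 1 (fun _ => 1) (by rw [mul_one, one_mul]) (by rw [mul_one, one_mul])
      (fun i => by rw [Matrix.one_mulVec]; simp)
    rw [mul_one, cm_trace, Complex.ofReal_re] at h
    rw [h]
    simp
  · have h := hscal ((((b.card : ℝ) / 2 : ℝ) : ℂ) • (1 : Opr V) - Sg b sz)
      (fun i => (r i : ℝ) + p i)
      (by rw [Matrix.mul_sub, Matrix.sub_mul, Cas_Sz, Matrix.mul_smul, Matrix.smul_mul, mul_one,
        one_mul])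
      (by rw [Matrix.mul_sub, Matrix.sub_mul, Matrix.mul_smul, Matrix.smul_mul, mul_one, one_mul])
      (fun i => by
        rw [Matrix.sub_mulVec, Matrix.smul_mulVec, Matrix.one_mulVec, hS, ← sub_smul,
          ← Complex.ofReal_sub]
        congr 2
        rw [← hN i]
        push_cast
        ring)
    rw [← h, Sz_cm]
    simp only [Matrix.mul_sum, Matrix.trace_sum, ← cm_mul, cm_trace, Complex.re_sum,
      Complex.ofReal_re]
  · have h := hscal ((((b.card : ℝ) / 2 * ((b.card : ℝ) / 2 + 1) : ℝ) : ℂ) • (1 : Opr V) - Cas b)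
      (fun i => (r i : ℝ) * ((b.card : ℝ) - r i + 1))
      (by rw [Matrix.mul_sub, Matrix.sub_mul, Matrix.mul_smul, Matrix.smul_mul, mul_one, one_mul])
      (by rw [Matrix.mul_sub, Matrix.sub_mul, Cas_Sz, Matrix.mul_smul, Matrix.smul_mul, mul_one,
        one_mul])
      (fun i => by
        rw [Matrix.sub_mulVec, Matrix.smul_mulVec, Matrix.one_mulVec, hC, ← sub_smul,
          ← Complex.ofReal_sub]
        congr 2
        rw [← hN i]
        push_cast
        ring)
    rw [← h, Cas_eq]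
    simp only [Matrix.mul_sum, Matrix.trace_sum, ← cm_mul, cm_trace, Complex.re_sum,
      Complex.ofReal_re]
  · intro k hk
    have h := hscal (opA b k) (fun i => aN k (N i))
      (comm_Av0 b k (by fun_prop) fun θ => Cas_comm_E b k θ)
      (comm_Av0 b k (by fun_prop) fun θ => Sz_comm_E b k θ)
      (fun i => (hK i k hk).1)
    rw [← h, opA, hAv k _ (by fun_prop)]
    rw [div_mul_eq_mul_div, mul_div_assoc, ← intervalIntegral.integral_div]
    congr 1
    congr 1
    ext φ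
    ring
  · intro k hk m
    have hw : Continuous fun θ : ℝ => 1 / 2 * Real.sin θ * (1 - Real.cos θ) ^ m := by fun_prop
    have h1 : (Matrix.trace (cm W * Av b k 0 fun θ =>
        1 / 2 * Real.sin θ * (1 - Real.cos θ) ^ m)).re =
        ∑ i, ∫ θ in (0 : ℝ)..Real.pi, 1 / 2 * Real.sin θ * (1 - Real.cos θ) ^ m *
          (star (u i) ⬝ᵥ (E b k 0 θ *ᵥ u i)).re := by
      rw [hlaw _ (comm_Av0 b k hw fun θ => Cas_comm_E b k θ)
        (comm_Av0 b k hw fun θ => Sz_comm_E b k θ), Complex.re_sum]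
      exact Finset.sum_congr rfl fun i _ => form_Av b k hw (u i)
    have h2 : ∑ i, (star (u i) ⬝ᵥ u i).re * (aN k (N i) * ((p i : ℝ) / N i) ^ m) ≤
        ∑ i, ∫ θ in (0 : ℝ)..Real.pi, 1 / 2 * Real.sin θ * (1 - Real.cos θ) ^ m *
          (star (u i) ⬝ᵥ (E b k 0 θ *ᵥ u i)).re :=
      Finset.sum_le_sum fun i _ => moment (hu i).2.choose_spec.choose_spec.2 hk (hp i)
        (hK i k hk).1 (hK i k hk).2 m
    rw [← h1, hAv k _ hw] at h2
    refine h2.trans (le_of_eq ?_)
    rw [div_mul_eq_mul_div, mul_div_assoc, ← intervalIntegral.integral_div]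
    congr 1
    congr 1
    ext φ
    ring

end Vale.Agent.P361.LRO.TwJ
end

section

/-!
P361, block twist, part 10: the joint law of `(J, M)` of a block, with polynomials and
exponentials of the Casimir operator and of the block spin.
-/

namespace Vale.Agent.P361.LRO.TwJ

set_option linter.all false

open Matrix Finset
open scoped ComplexOrder

variable {V : Type} [Fintype V] [DecidableEq V]

/-- `(|b|/2)(|b|/2+1) - S_b²` as a real matrix: it acts by `r (|b| - r + 1)` on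
`J = |b|/2 - r`. -/
noncomputable def Om (b : Finset V) : Matrix (V → Fin 2) (V → Fin 2) ℝ := ∑ x ∈ b, ∑ y ∈ b, hM x y

/-- The number of down spins of the block as a real matrix. -/
noncomputable def Dn (b : Finset V) : Matrix (V → Fin 2) (V → Fin 2) ℝ :=
  ∑ x ∈ b, (1 / 2 : ℝ) • (1 - szM x)

theorem cm_Om (b : Finset V) : cm (Om b) =
    (((b.card : ℝ) / 2 * ((b.card : ℝ) / 2 + 1) : ℝ) : ℂ) • (1 : Opr V) - Cas b := by
  rw [Cas_eq, Om, cm_sum]
  exact Finset.sum_congr rfl fun x _ => cm_sum _ _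

theorem cm_Dn (b : Finset V) : cm (Dn b) =
    (((b.card : ℝ) / 2 : ℝ) : ℂ) • (1 : Opr V) - Sg b sz := by
  rw [Sz_cm, Dn, cm_sum]

theorem comm_cm_aeval {Y : Opr V} {A : Matrix (V → Fin 2) (V → Fin 2) ℝ}
    (h : Y * cm A = cm A * Y) (P : Polynomial ℝ) :
    Y * cm (Polynomial.aeval A P) = cm (Polynomial.aeval A P) * Y := by
  induction P using Polynomial.induction_on with
  | C a =>
    rw [Polynomial.aeval_C, Algebra.algebraMap_eq_smul_one, cm_smul, cm_one, Matrix.mul_smul,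
      Matrix.smul_mul, mul_one, one_mul]
  | add p q hp hq => rw [map_add, cm_add, mul_add, add_mul, hp, hq]
  | monomial n a ih =>
    rw [pow_succ, ← mul_assoc, map_mul, Polynomial.aeval_X, cm_mul, ← mul_assoc, ih, mul_assoc, h,
      mul_assoc]

theorem aeval_mulVec {A : Matrix (V → Fin 2) (V → Fin 2) ℝ} {v : (V → Fin 2) → ℂ} {c : ℝ}
    (h : cm A *ᵥ v = (c : ℂ) • v) (P : Polynomial ℝ) :
    cm (Polynomial.aeval A P) *ᵥ v = ((P.eval c : ℝ) : ℂ) • v := by
  induction P using Polynomial.induction_on with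
  | C a =>
    rw [Polynomial.aeval_C, Algebra.algebraMap_eq_smul_one, cm_smul, cm_one, Matrix.smul_mulVec,
      Matrix.one_mulVec, Polynomial.eval_C]
  | add p q hp hq =>
    rw [map_add, cm_add, Matrix.add_mulVec, hp, hq, Polynomial.eval_add, ← add_smul,
      Complex.ofReal_add]
  | monomial n a ih =>
    rw [pow_succ, ← mul_assoc, map_mul, Polynomial.aeval_X, cm_mul, ← Matrix.mulVec_mulVec, h,
      Matrix.mulVec_smul, ih, smul_smul, Polynomial.eval_mul_X, Complex.ofReal_mul, mul_comm]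

/-- Every function of `r` is a polynomial of `r (n - r + 1)`. -/
theorem exists_poly (n : ℕ) (g : ℕ → ℝ) :
    ∃ P : Polynomial ℝ, ∀ r : ℕ, 2 * r ≤ n → P.eval ((r : ℝ) * ((n : ℝ) - r + 1)) = g r := by
  classical
  have hinj : Set.InjOn (fun r : ℕ => (r : ℝ) * ((n : ℝ) - r + 1))
      ((Finset.range (n / 2 + 1) : Finset ℕ) : Set ℕ) := by
    intro r hr s hs h
    have hr' : r < n / 2 + 1 := Finset.mem_range.1 hr
    have hs' : s < n / 2 + 1 := Finset.mem_range.1 hs
    have h1 : (r : ℝ) + s ≤ n := by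
      have : r + s ≤ n := by omega
      exact_mod_cast this
    simp only at h
    have h2 : ((r : ℝ) - s) * ((n : ℝ) + 1 - r - s) = 0 := by linear_combination h
    rcases mul_eq_zero.1 h2 with h3 | h3
    · exact_mod_cast sub_eq_zero.1 h3
    · exfalso; linarith
  refine ⟨Lagrange.interpolate (Finset.range (n / 2 + 1))
    (fun r : ℕ => (r : ℝ) * ((n : ℝ) - r + 1)) g, fun r hr => ?_⟩
  exact Lagrange.eval_interpolate_at_node g hinj (Finset.mem_range.2 (by omega))

/-- **The joint law with polynomials**: the law of `joint_law`, with the expectations of all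
polynomials in the Casimir operator and the block spin. -/
theorem joint_law_poly {W : Matrix (V → Fin 2) (V → Fin 2) ℝ} (hW : W.PosSemidef)
    (hsym : ∀ σ τ, W σ τ ≠ 0 → ∑ x, ((σ x : ℕ) : ℤ) = ∑ x, ((τ x : ℕ) : ℤ))
    (b : Finset V) :
    ∃ (ι : Type) (_ : Fintype ι) (μ : ι → ℝ) (N r p : ι → ℕ),
      (∀ i, 0 ≤ μ i) ∧ (∀ i, N i + 2 * r i = b.card ∧ p i ≤ N i) ∧
      (∀ P Q : Polynomial ℝ, ∑ i, μ i * (P.eval ((r i : ℝ) * ((b.card : ℝ) - r i + 1)) *
        Q.eval ((r i : ℝ) + p i)) =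
          Matrix.trace (W * (Polynomial.aeval (Om b) P * Polynomial.aeval (Dn b) Q))) ∧
      (∀ k : ℝ, 0 ≤ k → ∑ i, μ i * aN k (N i) =
        Real.cosh (k / 2) ^ b.card / 2 * ∫ φ in (0 : ℝ)..Real.pi,
          Real.sin φ * Matrix.trace (W * rotT b (Real.tanh (k / 2)) φ)) ∧
      (∀ k : ℝ, 0 ≤ k → ∀ m : ℕ, ∑ i, μ i * (aN k (N i) * ((p i : ℝ) / N i) ^ m) ≤
        Real.cosh (k / 2) ^ b.card / 2 * ∫ φ in (0 : ℝ)..Real.pi,
          Real.sin φ * (1 - Real.cos φ) ^ m *
            Matrix.trace (W * rotT b (Real.tanh (k / 2)) φ)) := by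
  obtain ⟨R, hR⟩ := cm_factor hW
  obtain ⟨ι, hι, u, hu, hlaw⟩ := law0 b R
  rw [← hR] at hlaw
  choose N r p hN hp hC hS hK using fun i => joint_all (hu i).1
    (hu i).2.choose_spec.choose_spec.1 (hu i).2.choose_spec.choose_spec.2
  have hsym' : ∀ σ τ, cm W σ τ ≠ 0 → nb univ σ = nb univ τ := by
    intro σ τ h1
    apply hsym
    intro h2
    apply h1
    rw [cm, Matrix.of_apply, h2]; simp
  -- traces of operators acting by real scalars
  have hscal : ∀ (X : Opr V) (y : ι → ℝ), Cas b * X = X * Cas b → Sg b sz * X = X * Sg b sz →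
      (∀ i, X *ᵥ u i = ((y i : ℝ) : ℂ) • u i) →
      (Matrix.trace (cm W * X)).re = ∑ i, (star (u i) ⬝ᵥ u i).re * y i := by
    intro X y h1 h2 h3
    rw [hlaw X h1 h2, Complex.re_sum]
    refine Finset.sum_congr rfl fun i _ => ?_
    rw [h3, dotProduct_smul, smul_eq_mul, Complex.re_ofReal_mul, mul_comm]
  have hT : ∀ k φ, Matrix.trace (cm W * Tw b k φ) =
      ((Real.cosh (k / 2) ^ b.card * Matrix.trace (W * rotT b (Real.tanh (k / 2)) φ) : ℝ) : ℂ) := by
    intro k φ
    rw [Tw_eq, Matrix.mul_smul, Matrix.trace_smul, ← cm_mul, cm_trace, smul_eq_mul,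
      ← Complex.ofReal_mul]
  have hAv : ∀ (k : ℝ) (w : ℝ → ℝ), Continuous w → (Matrix.trace (cm W * Av b k 0 w)).re =
      Real.cosh (k / 2) ^ b.card * ∫ φ in (0 : ℝ)..Real.pi,
        w φ * Matrix.trace (W * rotT b (Real.tanh (k / 2)) φ) := by
    intro k w hw
    rw [trace_Av b k hw hsym']
    have : (∫ θ in (0 : ℝ)..Real.pi, ((w θ : ℝ) : ℂ) * Matrix.trace (cm W * Tw b k θ)) =
        ((Real.cosh (k / 2) ^ b.card * ∫ φ in (0 : ℝ)..Real.pi,
          w φ * Matrix.trace (W * rotT b (Real.tanh (k / 2)) φ) : ℝ) : ℂ) := by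
      rw [← intervalIntegral.integral_const_mul, ← intervalIntegral.integral_ofReal]
      congr 1
      ext θ
      rw [hT]
      push_cast
      ring
    rw [this, Complex.ofReal_re]
  refine ⟨ι, hι, fun i => (star (u i) ⬝ᵥ u i).re, N, r, p, fun i => re_star_dot_nonneg _,
    fun i => ⟨hN i, hp i⟩, ?_, ?_, ?_⟩
  · intro P Q
    have c1 : Cas b * cm (Om b) = cm (Om b) * Cas b := by
      rw [cm_Om, Matrix.mul_sub, Matrix.sub_mul, Matrix.mul_smul, Matrix.smul_mul, mul_one,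
        one_mul]
    have c2 : Sg b sz * cm (Om b) = cm (Om b) * Sg b sz := by
      rw [cm_Om, Matrix.mul_sub, Matrix.sub_mul, Cas_Sz, Matrix.mul_smul, Matrix.smul_mul, mul_one,
        one_mul]
    have c3 : Cas b * cm (Dn b) = cm (Dn b) * Cas b := by
      rw [cm_Dn, Matrix.mul_sub, Matrix.sub_mul, Cas_Sz, Matrix.mul_smul, Matrix.smul_mul, mul_one,
        one_mul]
    have c4 : Sg b sz * cm (Dn b) = cm (Dn b) * Sg b sz := by
      rw [cm_Dn, Matrix.mul_sub, Matrix.sub_mul, Matrix.mul_smul, Matrix.smul_mul, mul_one,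
        one_mul]
    have e1 : ∀ i, cm (Om b) *ᵥ u i =
        (((r i : ℝ) * ((b.card : ℝ) - r i + 1) : ℝ) : ℂ) • u i := by
      intro i
      rw [cm_Om, Matrix.sub_mulVec, Matrix.smul_mulVec, Matrix.one_mulVec, hC, ← sub_smul,
          ← Complex.ofReal_sub]
      congr 2
      rw [← hN i]
      push_cast
      ring
    have e2 : ∀ i, cm (Dn b) *ᵥ u i = (((r i : ℝ) + p i : ℝ) : ℂ) • u i := by
      intro i
      rw [cm_Dn, Matrix.sub_mulVec, Matrix.smul_mulVec, Matrix.one_mulVec, hS, ← sub_smul,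
          ← Complex.ofReal_sub]
      congr 2
      rw [← hN i]
      push_cast
      ring
    have h := hscal (cm (Polynomial.aeval (Om b) P * Polynomial.aeval (Dn b) Q))
      (fun i => P.eval ((r i : ℝ) * ((b.card : ℝ) - r i + 1)) * Q.eval ((r i : ℝ) + p i))
      (by rw [cm_mul, ← mul_assoc, comm_cm_aeval c1, mul_assoc, comm_cm_aeval c3, mul_assoc])
      (by rw [cm_mul, ← mul_assoc, comm_cm_aeval c2, mul_assoc, comm_cm_aeval c4, mul_assoc])
      (fun i => by
        rw [cm_mul, ← Matrix.mulVec_mulVec, aeval_mulVec (e2 i), Matrix.mulVec_smul,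
          aeval_mulVec (e1 i), smul_smul, ← Complex.ofReal_mul, mul_comm])
    rw [← h, ← cm_mul, cm_trace, Complex.ofReal_re]
  · intro k hk
    have h := hscal (opA b k) (fun i => aN k (N i))
      (comm_Av0 b k (by fun_prop) fun θ => Cas_comm_E b k θ)
      (comm_Av0 b k (by fun_prop) fun θ => Sz_comm_E b k θ)
      (fun i => (hK i k hk).1)
    rw [← h, opA, hAv k _ (by fun_prop)]
    rw [div_mul_eq_mul_div, mul_div_assoc, ← intervalIntegral.integral_div]
    congr 1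
    congr 1
    ext φ
    ring
  · intro k hk m
    have hw : Continuous fun θ : ℝ => 1 / 2 * Real.sin θ * (1 - Real.cos θ) ^ m := by fun_prop
    have h1 : (Matrix.trace (cm W * Av b k 0 fun θ =>
        1 / 2 * Real.sin θ * (1 - Real.cos θ) ^ m)).re =
        ∑ i, ∫ θ in (0 : ℝ)..Real.pi, 1 / 2 * Real.sin θ * (1 - Real.cos θ) ^ m *
          (star (u i) ⬝ᵥ (E b k 0 θ *ᵥ u i)).re := by
      rw [hlaw _ (comm_Av0 b k hw fun θ => Cas_comm_E b k θ)
        (comm_Av0 b k hw fun θ => Sz_comm_E b k θ), Complex.re_sum]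
      exact Finset.sum_congr rfl fun i _ => form_Av b k hw (u i)
    have h2 : ∑ i, (star (u i) ⬝ᵥ u i).re * (aN k (N i) * ((p i : ℝ) / N i) ^ m) ≤
        ∑ i, ∫ θ in (0 : ℝ)..Real.pi, 1 / 2 * Real.sin θ * (1 - Real.cos θ) ^ m *
          (star (u i) ⬝ᵥ (E b k 0 θ *ᵥ u i)).re :=
      Finset.sum_le_sum fun i _ => moment (hu i).2.choose_spec.choose_spec.2 hk (hp i)
        (hK i k hk).1 (hK i k hk).2 m
    rw [← h1, hAv k _ hw] at h2
    refine h2.trans (le_of_eq ?_)
    rw [div_mul_eq_mul_div, mul_div_assoc, ← intervalIntegral.integral_div]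
    congr 1
    congr 1
    ext φ
    ring


open scoped Matrix.Norms.Operator in
theorem hasSum_exp_matrix (A : Matrix (V → Fin 2) (V → Fin 2) ℝ) :
    HasSum (fun n : ℕ => ((n.factorial : ℝ)⁻¹) • A ^ n) (NormedSpace.exp A) :=
  NormedSpace.exp_series_hasSum_exp' (𝕂 := ℝ) A

theorem law_exp {ι : Type} [Fintype ι] {μ α β' : ι → ℝ} {W A B : Matrix (V → Fin 2) (V → Fin 2) ℝ}
    (h : ∀ P Q : Polynomial ℝ, ∑ i, μ i * (P.eval (α i) * Q.eval (β' i)) =
      Matrix.trace (W * (Polynomial.aeval A P * Polynomial.aeval B Q)))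
    (P Q : Polynomial ℝ) :
    ∑ i, μ i * (Real.exp (P.eval (α i)) * Q.eval (β' i)) =
      Matrix.trace (W * (NormedSpace.exp (Polynomial.aeval A P) * Polynomial.aeval B Q)) := by
  have h1 : HasSum (fun n : ℕ => ∑ i, μ i *
      ((Polynomial.C ((n.factorial : ℝ)⁻¹) * P ^ n).eval (α i) * Q.eval (β' i)))
      (∑ i, μ i * (Real.exp (P.eval (α i)) * Q.eval (β' i))) := by
    refine hasSum_sum fun i _ => HasSum.mul_left _ (HasSum.mul_right _ ?_)
    have := NormedSpace.exp_series_hasSum_exp' (𝕂 := ℝ) (P.eval (α i))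
    rw [← Real.exp_eq_exp_ℝ] at this
    refine this.congr_fun ?_
    intro n
    simp
  have h2 : HasSum (fun n : ℕ => Matrix.trace (W * (Polynomial.aeval A
      (Polynomial.C ((n.factorial : ℝ)⁻¹) * P ^ n) * Polynomial.aeval B Q)))
      (Matrix.trace (W * (NormedSpace.exp (Polynomial.aeval A P) * Polynomial.aeval B Q))) := by
    have h3 := hasSum_exp_matrix (Polynomial.aeval A P)
    have hc : Continuous fun X : Matrix (V → Fin 2) (V → Fin 2) ℝ =>
        Matrix.trace (W * (X * Polynomial.aeval B Q)) := by fun_prop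
    have h4 := h3.map (⟨⟨fun X : Matrix (V → Fin 2) (V → Fin 2) ℝ =>
        Matrix.trace (W * (X * Polynomial.aeval B Q)), by simp⟩, by
          intro X Y
          simp [Matrix.add_mul, Matrix.mul_add]⟩ :
            Matrix (V → Fin 2) (V → Fin 2) ℝ →+ ℝ) hc
    refine h4.congr_fun ?_
    intro n
    simp [Algebra.algebraMap_eq_smul_one]
  simp only [h] at h1
  exact h1.unique h2

theorem law_exp2 {ι : Type} [Fintype ι] {μ α β' : ι → ℝ} {W A B : Matrix (V → Fin 2) (V → Fin 2) ℝ}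
    (h : ∀ P Q : Polynomial ℝ, ∑ i, μ i * (P.eval (α i) * Q.eval (β' i)) =
      Matrix.trace (W * (Polynomial.aeval A P * Polynomial.aeval B Q)))
    (P Q : Polynomial ℝ) :
    ∑ i, μ i * (Real.exp (P.eval (α i)) * Real.exp (Q.eval (β' i))) =
      Matrix.trace (W * (NormedSpace.exp (Polynomial.aeval A P) *
        NormedSpace.exp (Polynomial.aeval B Q))) := by
  have h1 : HasSum (fun n : ℕ => ∑ i, μ i *
      (Real.exp (P.eval (α i)) * (Polynomial.C ((n.factorial : ℝ)⁻¹) * Q ^ n).eval (β' i)))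
      (∑ i, μ i * (Real.exp (P.eval (α i)) * Real.exp (Q.eval (β' i)))) := by
    refine hasSum_sum fun i _ => HasSum.mul_left _ (HasSum.mul_left _ ?_)
    have := NormedSpace.exp_series_hasSum_exp' (𝕂 := ℝ) (Q.eval (β' i))
    rw [← Real.exp_eq_exp_ℝ] at this
    refine this.congr_fun ?_
    intro n
    simp
  have h2 : HasSum (fun n : ℕ => Matrix.trace (W * (NormedSpace.exp (Polynomial.aeval A P) *
      Polynomial.aeval B (Polynomial.C ((n.factorial : ℝ)⁻¹) * Q ^ n))))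
      (Matrix.trace (W * (NormedSpace.exp (Polynomial.aeval A P) *
        NormedSpace.exp (Polynomial.aeval B Q)))) := by
    have h3 := hasSum_exp_matrix (Polynomial.aeval B Q)
    have hc : Continuous fun X : Matrix (V → Fin 2) (V → Fin 2) ℝ =>
        Matrix.trace (W * (NormedSpace.exp (Polynomial.aeval A P) * X)) := by fun_prop
    have h4 := h3.map (⟨⟨fun X : Matrix (V → Fin 2) (V → Fin 2) ℝ =>
        Matrix.trace (W * (NormedSpace.exp (Polynomial.aeval A P) * X)), by simp⟩, by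
          intro X Y
          simp [Matrix.mul_add]⟩ :
            Matrix (V → Fin 2) (V → Fin 2) ℝ →+ ℝ) hc
    refine h4.congr_fun ?_
    intro n
    simp [Algebra.algebraMap_eq_smul_one]
  simp only [law_exp h] at h1
  exact h1.unique h2

/-- Functions of `r` only: for every `g` there is a polynomial `G` of the exchange operators of
the block with `E[P(g(r))] = trace (W P(G))` and `E[exp (t g(r))] = trace (W exp (t G))`. -/
theorem law_fun {ι : Type} [Fintype ι] {μ : ι → ℝ} {N r p : ι → ℕ} {b : Finset V}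
    {W : Matrix (V → Fin 2) (V → Fin 2) ℝ} (hN : ∀ i, N i + 2 * r i = b.card)
    (h : ∀ P Q : Polynomial ℝ, ∑ i, μ i * (P.eval ((r i : ℝ) * ((b.card : ℝ) - r i + 1)) *
      Q.eval ((r i : ℝ) + p i)) =
        Matrix.trace (W * (Polynomial.aeval (Om b) P * Polynomial.aeval (Dn b) Q)))
    {g : ℕ → ℝ} {G : Polynomial ℝ}
    (hG : ∀ r : ℕ, 2 * r ≤ b.card → G.eval ((r : ℝ) * ((b.card : ℝ) - r + 1)) = g r) :
    (∀ P : Polynomial ℝ, ∑ i, μ i * P.eval (g (r i)) =
      Matrix.trace (W * Polynomial.aeval (Polynomial.aeval (Om b) G) P)) ∧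
    (∀ t : ℝ, ∑ i, μ i * Real.exp (t * g (r i)) =
      Matrix.trace (W * NormedSpace.exp (t • Polynomial.aeval (Om b) G))) := by
  have hr : ∀ i, G.eval ((r i : ℝ) * ((b.card : ℝ) - r i + 1)) = g (r i) := fun i =>
    hG _ (by have := hN i; omega)
  constructor
  · intro P
    have h1 := h (P.comp G) 1
    simp only [Polynomial.eval_comp, hr, Polynomial.eval_one, mul_one, map_one,
      Polynomial.aeval_comp] at h1
    exact h1
  · intro t
    have h1 := law_exp h (Polynomial.C t * G) 1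
    simp only [Polynomial.eval_mul, Polynomial.eval_C, hr, Polynomial.eval_one, mul_one, map_one,
      map_mul, Polynomial.aeval_C, Algebra.algebraMap_eq_smul_one, Matrix.smul_mul, one_mul] at h1
    exact h1

end Vale.Agent.P361.LRO.TwJ
end

section

/-!
P361, stage 3, lower tail: the free region `Λ ⊂ ℤ³` in the real swap model (spin 1/2).
-/

namespace Vale.Agent.P361.LRO.S3

open Matrix Finset
open Vale.Agent.P361.LRO.TwJ

set_option linter.all false

noncomputable section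

variable {Λ : Finset Site}

/-- Ordered list of nearest neighbour pairs of `Λ`. -/
def nnL (Λ : Finset Site) : List (Λ × Λ) :=
  ((univ : Finset (Λ × Λ)).filter fun e => IsNN e.1.1 e.2.1).toList

end

end Vale.Agent.P361.LRO.S3
end

section

/-! # P361 LRO, stage 3 (E): the free cube of the torus and `Zt` (helper348) -/

namespace Vale.Agent.P361.LRO.Energy.ET

open Matrix Finset Vale.Agent.P361.LRO.Loc3
open scoped ComplexOrder

set_option linter.unusedSectionVars false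

noncomputable section

variable {n : ℕ} [NeZero n]

/-- the box in the torus -/
def eC (x : Tor n) (l : ℕ) (u : B.cube l) : Tor n := x + fun i => ((u.1 i : ℤ) : ZMod n)

theorem mem_bcube {l : ℕ} {u : Site} : u ∈ B.cube l ↔ ∀ i, 0 ≤ u i ∧ u i < l := by
  simp [B.cube, Fintype.mem_piFinset, Finset.mem_Ico]

theorem eC_injective {x : Tor n} {l : ℕ} (hl : l ≤ n) : Function.Injective (eC x l) := by
  intro u v h
  have h1 : (fun i => ((u.1 i : ℤ) : ZMod n)) = fun i => ((v.1 i : ℤ) : ZMod n) := add_left_cancel h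
  refine Subtype.ext (funext fun i => ?_)
  have h2 := congrFun h1 i
  have hu := mem_bcube.1 u.2 i
  have hv := mem_bcube.1 v.2 i
  have h3 := (ZMod.intCast_eq_intCast_iff _ _ _).1 h2
  unfold Int.ModEq at h3
  rwa [Int.emod_eq_of_lt hu.1 (by omega), Int.emod_eq_of_lt hv.1 (by omega)] at h3

theorem eC_mem (x : Tor n) (l : ℕ) (u : B.cube l) : eC x l u ∈ cube n x l := by
  have hu := mem_bcube.1 u.2
  refine mem_cube.2 ⟨fun i => ⟨(u.1 i).toNat, by have := hu i; omega⟩, ?_⟩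
  rw [eC]
  congr 1
  funext i
  have h1 : ((u.1 i).toNat : ℤ) = u.1 i := Int.toNat_of_nonneg (hu i).1
  calc ((u.1 i : ℤ) : ZMod n) = (((u.1 i).toNat : ℤ) : ZMod n) := by rw [h1]
    _ = (((u.1 i).toNat : ℕ) : ZMod n) := by push_cast; rfl

theorem nxt_eC (x : Tor n) (l : ℕ) (u v : B.cube l) (i : Fin 3) (h : v.1 = u.1 + Pi.single i 1) :
    eC x l v = nxt (eC x l u, i) := by
  rw [nxt, eC, eC, h, add_assoc]
  congr 1
  funext j
  by_cases hj : j = i
  · subst hj
    simp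
  · simp [hj]

theorem hM_symm {V : Type} [Fintype V] [DecidableEq V] (x y : V) :
    (hM x y : Matrix (Cfg V) (Cfg V) ℂ) = hM y x := by
  rw [hM, hM, swapM, swapM, Equiv.swap_comm]

/-- the nearest neighbour sum -/
theorem ite_isNN {M : Type*} [AddCommMonoid M] (x y : Site) (m : M) :
    (if IsNN x y then m else 0) =
      (∑ i : Fin 3, if y = x + Pi.single i 1 then m else 0) +
        ∑ i : Fin 3, if x = y + Pi.single i 1 then m else 0 := by
  have hd : ∀ i : Fin 3, (x = y + Pi.single i 1) ↔ (y = x + H.dir (i, false)) := by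
    intro i
    have e : (H.dir (i, false) : Site) = - Pi.single i 1 := by
      rw [H.dir, ← Pi.single_neg]
      rfl
    rw [e]
    constructor
    · rintro rfl; simp
    · rintro rfl; simp
  have hs : (∑ i : Fin 3, if y = x + Pi.single i 1 then m else 0) +
        (∑ i : Fin 3, if x = y + Pi.single i 1 then m else 0) =
      ∑ p : Fin 3 × Bool, if y = x + H.dir p then m else 0 := by
    rw [Fintype.sum_prod_type]
    simp only [Fintype.sum_bool]
    rw [Finset.sum_add_distrib]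
    congr 1
    refine Finset.sum_congr rfl fun i _ => ?_
    simp only [hd]
  rw [hs]
  by_cases h : IsNN x y
  · rw [if_pos h]
    obtain ⟨p, hp⟩ := (H.isNN_iff x y).1 h
    rw [Finset.sum_eq_single p]
    · rw [if_pos hp]
    · intro q _ hq
      rw [if_neg]
      intro h2
      rw [hp] at h2
      exact hq (H.dir_injective (add_left_cancel h2)).symm
    · intro h3
      exact absurd (Finset.mem_univ _) h3
  · rw [if_neg h, Finset.sum_eq_zero]
    intro p _
    rw [if_neg]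
    intro h2
    exact h ((H.isNN_iff x y).2 ⟨p, h2⟩)

theorem sum_isNN {M : Type*} [AddCommMonoid M] {Λ : Finset Site} (f : Λ → Λ → M)
    (hf : ∀ u v, f u v = f v u) :
    (∑ u : Λ, ∑ v : Λ, if IsNN u.1 v.1 then f u v else 0) =
      (∑ u : Λ, ∑ v : Λ, ∑ i : Fin 3, if v.1 = u.1 + Pi.single i 1 then f u v else 0) +
      (∑ u : Λ, ∑ v : Λ, ∑ i : Fin 3, if v.1 = u.1 + Pi.single i 1 then f u v else 0) := by
  simp only [ite_isNN, Finset.sum_add_distrib]
  congr 1
  rw [Finset.sum_comm]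
  refine Finset.sum_congr rfl fun u _ => Finset.sum_congr rfl fun v _ =>
    Finset.sum_congr rfl fun i _ => ?_
  rw [hf]

/-- bonds inside `Q` -/
def ins (Q : Finset (Tor n)) : Finset (Tor n × Fin 3) :=
  Finset.univ.filter fun z => z.1 ∈ Q ∧ nxt z ∈ Q

/-- log trace of the region -/
theorem log_resQ {V : Type} [Fintype V] [DecidableEq V] (Q : Finset V) {B : Matrix (Cfg V) (Cfg V) ℂ}
    (hB : OnQ Q B) (hBh : B.IsHermitian) :
    Real.log (trace (NormedSpace.exp (resQ Q B))).re = nlt B + Q.card * Real.log 2 := by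
  have h0 : OffQ Q (0 : Matrix (Cfg V) (Cfg V) ℂ) := by
    intro s t q q'
    simp
  have h1 := tr_exp_off_on h0 Matrix.isHermitian_zero hB hBh
  have h00 : (0 : Matrix (Cfg V) (Cfg V) ℂ).submatrix (extQ Q) (extQ Q) = 0 := rfl
  rw [zero_add, h00, NormedSpace.exp_zero, Matrix.trace_one] at h1
  have h2 : Fintype.card {x // x ∉ Q} + Q.card = Fintype.card V := by
    rw [Fintype.card_subtype_compl, Fintype.card_coe]
    have := Q.card_le_univ
    omega
  have h3 := trace_exp_pos (resQ_isHermitian (Q := Q) hBh)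
  unfold nlt
  rw [h1, Fintype.card_fun, Fintype.card_fin, ← h2]
  have h4 : (((2 ^ Fintype.card {x // x ∉ Q} : ℕ) : ℂ)).re = (2 : ℝ) ^ Fintype.card {x // x ∉ Q} := by
    rw [Complex.natCast_re]
    push_cast
    rfl
  rw [h4, Real.log_mul (by positivity) h3.ne', Real.log_pow]
  push_cast
  ring

end

end Vale.Agent.P361.LRO.Energy.ET
end

section

/-!
Cubes of the torus: conversion of the sums of `Cube.lean`, `Tile.lean` into sums over the finite
sets `cube n x w`, and the number of boundary edges of a cube.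
-/

namespace Vale.Agent.P361.LRO.EnR

open Matrix Finset

noncomputable section

/-- Parametrisation of the sites of the torus around `x`. -/
def tp (n : ℕ) (x : Tor n) : ℕ → ℕ → ℕ → Tor n :=
  fun a b c => x + ![(a : ZMod n), (b : ZMod n), (c : ZMod n)]

theorem natCast_inj_lt {n a b : ℕ} (ha : a < n) (hb : b < n) (h : (a : ZMod n) = (b : ZMod n)) :
    a = b := by
  have := (ZMod.natCast_eq_natCast_iff' a b n).mp h
  rwa [Nat.mod_eq_of_lt ha, Nat.mod_eq_of_lt hb] at this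

theorem tp_inj {n : ℕ} (x : Tor n) {a b c a' b' c' : ℕ} (ha : a < n) (hb : b < n) (hc : c < n)
    (ha' : a' < n) (hb' : b' < n) (hc' : c' < n) (h : tp n x a b c = tp n x a' b' c') :
    a = a' ∧ b = b' ∧ c = c' := by
  have h1 : (![(a : ZMod n), (b : ZMod n), (c : ZMod n)] : Tor n) =
      ![(a' : ZMod n), (b' : ZMod n), (c' : ZMod n)] := add_left_cancel h
  have e0 := congrFun h1 0
  have e1 := congrFun h1 1
  have e2 := congrFun h1 2
  simp at e0 e1 e2
  exact ⟨natCast_inj_lt ha ha' e0, natCast_inj_lt hb hb' e1, natCast_inj_lt hc hc' e2⟩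

/-- Index box. -/
def box (l : ℕ) : Finset (ℕ × ℕ × ℕ) := range l ×ˢ range l ×ˢ range l

theorem sum_box (l : ℕ) (f : ℕ → ℕ → ℕ → ℝ) :
    ∑ q ∈ box l, f q.1 q.2.1 q.2.2 = ∑ a ∈ range l, ∑ b ∈ range l, ∑ c ∈ range l, f a b c := by
  rw [box, sum_product]
  refine sum_congr rfl fun a _ => ?_
  rw [sum_product]

theorem cube_eq_image (n : ℕ) [NeZero n] (x : Tor n) (w : ℕ) :
    cube n x w = (box w).image fun q => tp n x q.1 q.2.1 q.2.2 := by
  ext z
  simp only [cube, mem_image, mem_univ, true_and, box, mem_product, mem_range, Prod.exists]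
  constructor
  · rintro ⟨y, rfl⟩
    refine ⟨y 0, y 1, y 2, ⟨(y 0).2, (y 1).2, (y 2).2⟩, ?_⟩
    rw [tp]
    congr 1
    ext i
    fin_cases i <;> rfl
  · rintro ⟨a, b, c, ⟨ha, hb, hc⟩, rfl⟩
    refine ⟨![⟨a, ha⟩, ⟨b, hb⟩, ⟨c, hc⟩], ?_⟩
    rw [tp]
    congr 1
    ext i
    fin_cases i <;> rfl

theorem tp_injOn {n : ℕ} (x : Tor n) {l : ℕ} (hl : l ≤ n) :
    Set.InjOn (fun q : ℕ × ℕ × ℕ => tp n x q.1 q.2.1 q.2.2) (box l) := by
  rintro ⟨a, b, c⟩ h ⟨a', b', c'⟩ h' he
  simp only [box, coe_product, coe_range, Set.mem_prod, Set.mem_Iio] at h h'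
  obtain ⟨h1, h2, h3⟩ := h
  obtain ⟨h1', h2', h3'⟩ := h'
  obtain ⟨e0, e1, e2⟩ := tp_inj x (h1.trans_le hl) (h2.trans_le hl) (h3.trans_le hl)
    (h1'.trans_le hl) (h2'.trans_le hl) (h3'.trans_le hl) he
  subst e0 e1 e2
  rfl

theorem card_cube {n : ℕ} [NeZero n] (x : Tor n) {l : ℕ} (hl : l ≤ n) :
    (cube n x l).card = l ^ 3 := by
  rw [cube_eq_image, card_image_of_injOn (tp_injOn x hl), box, card_product, card_product,
    card_range]
  ring

theorem sum_cube {n : ℕ} [NeZero n] (x : Tor n) {l : ℕ} (hl : l ≤ n) (f : Tor n → ℝ) :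
    ∑ z ∈ cube n x l, f z =
      ∑ a ∈ range l, ∑ b ∈ range l, ∑ c ∈ range l, f (tp n x a b c) := by
  rw [cube_eq_image, sum_image (tp_injOn x hl)]
  exact sum_box l fun a b c => f (tp n x a b c)

theorem pairSum_eq {n : ℕ} [NeZero n] (x : Tor n) {w : ℕ} (hw : w ≤ n)
    (F : Tor n → Tor n → ℝ) :
    ∑ z ∈ cube n x w, ∑ z' ∈ cube n x w, F z z' = pairSum (tp n x) F w := by
  rw [sum_cube x hw, pairSum]
  refine sum_congr rfl fun a _ => sum_congr rfl fun b _ => sum_congr rfl fun c _ => ?_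
  rw [sum_cube x hw]

theorem tp_shift (n : ℕ) (x : Tor n) (w u0 u1 u2 : ℕ) :
    tp n (x + fun i => ((w * (![u0, u1, u2] i) : ℕ) : ZMod n)) = shp (tp n x) w u0 u1 u2 := by
  funext a b c
  rw [shp, tp, tp, add_assoc]
  congr 1
  ext i
  fin_cases i <;> simp

/-- The index set of the edges of the torus. -/
theorem tp_succ0 (n : ℕ) (x : Tor n) (t b c : ℕ) :
    tp n x (t + 1) b c = tp n x t b c + Pi.single 0 1 := by
  rw [tp, tp, add_assoc]
  congr 1
  ext i
  fin_cases i <;> simp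

theorem tp_succ1 (n : ℕ) (x : Tor n) (a t c : ℕ) :
    tp n x a (t + 1) c = tp n x a t c + Pi.single 1 1 := by
  rw [tp, tp, add_assoc]
  congr 1
  ext i
  fin_cases i <;> simp

theorem tp_succ2 (n : ℕ) (x : Tor n) (a b t : ℕ) :
    tp n x a b (t + 1) = tp n x a b t + Pi.single 2 1 := by
  rw [tp, tp, add_assoc]
  congr 1
  ext i
  fin_cases i <;> simp

theorem mem_cube_iff {n : ℕ} [NeZero n] (x : Tor n) (l : ℕ) (z : Tor n) :
    z ∈ cube n x l ↔ ∃ a b c, a < l ∧ b < l ∧ c < l ∧ tp n x a b c = z := by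
  rw [cube_eq_image]
  simp only [mem_image, box, mem_product, mem_range, Prod.exists]
  constructor
  · rintro ⟨a, b, c, ⟨ha, hb, hc⟩, h⟩; exact ⟨a, b, c, ha, hb, hc, h⟩
  · rintro ⟨a, b, c, ha, hb, hc, h⟩; exact ⟨a, b, c, ⟨ha, hb, hc⟩, h⟩

theorem ed_le_aux {n : ℕ} [NeZero n] (x : Tor n) {l : ℕ} (hl : l ≤ n) (F : Tor n → Tor n → ℝ)
    (hF : ∀ x y, 0 ≤ F x y) (i : Fin 3) (s : Finset (ℕ × ℕ × ℕ)) (hs : s ⊆ box l)
    (hs' : ∀ q ∈ s, tp n x q.1 q.2.1 q.2.2 + Pi.single i 1 ∈ cube n x l) :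
    ∑ q ∈ s, F (tp n x q.1 q.2.1 q.2.2) (tp n x q.1 q.2.1 q.2.2 + Pi.single i 1) ≤
      ∑ z with (z ∈ cube n x l ∧ z + Pi.single i 1 ∈ cube n x l), F z (z + Pi.single i 1) := by
  have e : ∑ z ∈ s.image (fun q : ℕ × ℕ × ℕ => tp n x q.1 q.2.1 q.2.2),
      F z (z + Pi.single i 1) =
      ∑ q ∈ s, F (tp n x q.1 q.2.1 q.2.2) (tp n x q.1 q.2.1 q.2.2 + Pi.single i 1) :=
    sum_image ((tp_injOn x hl).mono (by exact_mod_cast hs))
  rw [← e]
  apply sum_le_sum_of_subset_of_nonneg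
  · intro z hz
    obtain ⟨q, hq, rfl⟩ := mem_image.mp hz
    rw [mem_filter]
    refine ⟨mem_univ _, ?_, hs' q hq⟩
    rw [cube_eq_image]
    exact mem_image_of_mem (fun q : ℕ × ℕ × ℕ => tp n x q.1 q.2.1 q.2.2) (hs hq)
  · intro z _ _; exact hF _ _

/-- The nearest neighbour sum of the parametrised cube is a sum over edges inside the cube. -/
theorem edgeSum_le {n : ℕ} [NeZero n] (x : Tor n) {l : ℕ} (hl : l ≤ n) (F : Tor n → Tor n → ℝ)
    (hF : ∀ x y, 0 ≤ F x y) :
    edgeSum (tp n x) F l ≤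
      ∑ e : Tor n × Fin 3 with (e.1 ∈ cube n x l ∧ e.1 + Pi.single e.2 1 ∈ cube n x l),
        F e.1 (e.1 + Pi.single e.2 1) := by
  have h0 : ed0 (tp n x) F l ≤
      ∑ z with (z ∈ cube n x l ∧ z + Pi.single 0 1 ∈ cube n x l), F z (z + Pi.single 0 1) := by
    have := ed_le_aux x hl F hF 0 (range (l - 1) ×ˢ range l ×ˢ range l) (by
      intro q hq
      simp only [box, mem_product, mem_range] at hq ⊢
      omega) (by
      intro q hq
      simp only [mem_product, mem_range] at hq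
      rw [mem_cube_iff]
      exact ⟨q.1 + 1, q.2.1, q.2.2, by omega, hq.2.1, hq.2.2, tp_succ0 _ _ _ _ _⟩)
    refine le_trans (le_of_eq ?_) this
    rw [sum_product]
    unfold ed0
    refine sum_congr rfl fun a _ => ?_
    rw [sum_product]
    refine sum_congr rfl fun b _ => sum_congr rfl fun c _ => ?_
    rw [tp_succ0]
  have h1 : ed1 (tp n x) F l ≤
      ∑ z with (z ∈ cube n x l ∧ z + Pi.single 1 1 ∈ cube n x l), F z (z + Pi.single 1 1) := by
    have := ed_le_aux x hl F hF 1 (range l ×ˢ range (l - 1) ×ˢ range l) (by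
      intro q hq
      simp only [box, mem_product, mem_range] at hq ⊢
      omega) (by
      intro q hq
      simp only [mem_product, mem_range] at hq
      rw [mem_cube_iff]
      exact ⟨q.1, q.2.1 + 1, q.2.2, hq.1, by omega, hq.2.2, tp_succ1 _ _ _ _ _⟩)
    refine le_trans (le_of_eq ?_) this
    rw [sum_product]
    unfold ed1
    refine sum_congr rfl fun a _ => ?_
    rw [sum_product]
    refine sum_congr rfl fun b _ => sum_congr rfl fun c _ => ?_
    rw [tp_succ1]
  have h2 : ed2 (tp n x) F l ≤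
      ∑ z with (z ∈ cube n x l ∧ z + Pi.single 2 1 ∈ cube n x l), F z (z + Pi.single 2 1) := by
    have := ed_le_aux x hl F hF 2 (range l ×ˢ range l ×ˢ range (l - 1)) (by
      intro q hq
      simp only [box, mem_product, mem_range] at hq ⊢
      omega) (by
      intro q hq
      simp only [mem_product, mem_range] at hq
      rw [mem_cube_iff]
      exact ⟨q.1, q.2.1, q.2.2 + 1, hq.1, hq.2.1, by omega, tp_succ2 _ _ _ _ _⟩)
    refine le_trans (le_of_eq ?_) this
    rw [sum_product]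
    unfold ed2
    refine sum_congr rfl fun a _ => ?_
    rw [sum_product]
    refine sum_congr rfl fun b _ => sum_congr rfl fun c _ => ?_
    rw [tp_succ2]
  have h3 : ∑ e : Tor n × Fin 3 with (e.1 ∈ cube n x l ∧ e.1 + Pi.single e.2 1 ∈ cube n x l),
        F e.1 (e.1 + Pi.single e.2 1) =
      ∑ i : Fin 3, ∑ z with (z ∈ cube n x l ∧ z + Pi.single i 1 ∈ cube n x l),
        F z (z + Pi.single i 1) := by
    rw [sum_filter, Fintype.sum_prod_type_right]
    refine sum_congr rfl fun i _ => ?_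
    rw [sum_filter]
  rw [h3, Fin.sum_univ_three, edgeSum]
  linarith

end

end Vale.Agent.P361.LRO.EnR
end

section

/-! # P361 LRO, block (7): the final form (helper348) -/

namespace Vale.Agent.P361.LRO.Energy

open Matrix Finset
open scoped ComplexOrder

set_option linter.unusedSectionVars false

noncomputable section

theorem gib_hM_nonneg {V : Type} [Fintype V] [DecidableEq V] (L : List (V × V)) (β : ℝ) (h : V → ℝ) (x y : V) :
    0 ≤ gib L β h (LRO.hM x y) := by
  rw [gib_hM]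
  exact div_nonneg (trace_exp_mul_nonneg (gibX_isHermitian _ _ _ _ _) (hM_posSemidef x y))
    (trace_exp_pos (gibX_isHermitian _ _ _ _ _)).le

variable {n : ℕ} [NeZero n]

end

end Vale.Agent.P361.LRO.Energy
end

section

/-!
The tiling statement `TileStmt 12`.
-/

namespace Vale.Agent.P361.LRO.EnR

open Matrix Finset

noncomputable section

/-- `(Fin 3 → α) ≃ α × α × α`. -/
def fin3Equiv (α : Type) : (Fin 3 → α) ≃ α × α × α where
  toFun y := (y 0, y 1, y 2)
  invFun q := ![q.1, q.2.1, q.2.2]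
  left_inv y := by ext i; fin_cases i <;> rfl
  right_inv q := rfl

theorem sum_fin3 (m : ℕ) (f : ℕ → ℕ → ℕ → ℝ) :
    ∑ y : Fin 3 → Fin m, f (y 0) (y 1) (y 2) =
      ∑ a ∈ range m, ∑ b ∈ range m, ∑ c ∈ range m, f a b c := by
  rw [Fintype.sum_equiv (fin3Equiv (Fin m)) (fun y => f (y 0) (y 1) (y 2))
    (fun q => f q.1 q.2.1 q.2.2) (fun y => rfl), Fintype.sum_prod_type]
  rw [Finset.sum_range]
  refine sum_congr rfl fun a _ => ?_
  rw [Fintype.sum_prod_type, Finset.sum_range]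
  refine sum_congr rfl fun b _ => ?_
  rw [Finset.sum_range]

end

end Vale.Agent.P361.LRO.EnR
end

section

/-!
P361 LRO, all spins, route M: the energy block (M3) (helper213).
-/

namespace Vale.Agent.P361.LRO.GenS.EnS

open Finset Matrix
open Vale.Agent.P361.LRO.EnR
open Vale.Agent.P361.LRO.Energy (nxt tch bdy energy_list edges_map_sum card_cube_le card_bdy_le)

set_option linter.unusedSectionVars false

noncomputable section

section Gen

variable {V : Type} [Fintype V] [DecidableEq V]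

theorem hM_comm (x y : V) : hM x y = hM y x := by
  unfold hM swapM
  rw [Equiv.swap_comm]

theorem gib_step (L : List (V × V)) (β : ℝ) (h : V → ℝ) (x y z : V) :
    gib L β h (hM x z) ≤ 2 * gib L β h (hM x y) + 8 * gib L β h (hM y z) := by
  have h1 : gib L β h (hM x z) ≤ gib L β h ((2 : ℝ) • hM x y + (8 : ℝ) • hM y z) := by
    apply gib_le_of_form_le
    intro ψ
    rw [Matrix.add_mulVec, dotProduct_add, Matrix.smul_mulVec, Matrix.smul_mulVec, dotProduct_smul,
      dotProduct_smul, form_hM, form_hM, form_hM, smul_eq_mul, smul_eq_mul]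
    have h2 := nrm_swap_step x y z ψ
    have h3 := nrm_nonneg (Equiv.swap x z) ψ
    have h4 := nrm_nonneg (Equiv.swap x y) ψ
    have h5 := nrm_nonneg (Equiv.swap y z) ψ
    nlinarith [sq_nonneg (nrm (Equiv.swap x y) ψ - 2 * nrm (Equiv.swap y z) ψ)]
  rw [gib_add, gib_smul, gib_smul] at h1
  exact h1

end Gen

section Tor

variable {n s : ℕ} [NeZero n]

/-- energy of the edge `z` between the copies `i`, `j` -/
def ee (n s M : ℕ) [NeZero n] (β : ℝ) (h : Tor n → ℝ) (z : Tor n × Fin 3) (i j : Fin s) : ℝ :=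
  gib (edgesS n s M) β (hS h) (hM (z.1, i) (nxt z, j))

theorem ee_nonneg (M : ℕ) (β : ℝ) (h : Tor n → ℝ) (z : Tor n × Fin 3) (i j : Fin s) :
    0 ≤ ee n s M β h z i j := gib_hM_nonneg _ _ _ _ _

theorem sum_dir0 (Q : Finset (Tor n)) (f : Tor n × Fin 3 → ℝ) (hf : ∀ z, 0 ≤ f z) :
    ∑ x ∈ Q, f (x, 0) ≤ ∑ z ∈ tch Q, f z := by
  have h1 : ∑ x ∈ Q, f (x, 0) = ∑ z ∈ Q.image fun x => ((x, (0 : Fin 3)) : Tor n × Fin 3), f z := by
    rw [Finset.sum_image]
    intro x _ y _ h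
    exact (Prod.mk.inj h).1
  rw [h1]
  apply Finset.sum_le_sum_of_subset_of_nonneg
  · intro z hz
    rw [Finset.mem_image] at hz
    obtain ⟨x, hx, rfl⟩ := hz
    rw [tch, Finset.mem_filter]
    exact ⟨Finset.mem_univ _, Or.inl hx⟩
  · intro z _ _; exact hf z

theorem gib_same_site (M : ℕ) (β : ℝ) (h : Tor n → ℝ) (x : Tor n) (i j : Fin s) :
    gib (edgesS n s M) β (hS h) (hM (x, i) (x, j)) ≤
      2 * ee n s M β h (x, 0) i i + 8 * ee n s M β h (x, 0) j i := by
  have h1 := gib_step (edgesS n s M) β (hS h) (x, i) (nxt (x, 0), i) (x, j)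
  rw [hM_comm (nxt (x, 0), i) (x, j)] at h1
  exact h1

/-- tiling of a function of one site -/
theorem tile_one (x0 : Tor n) (w m : ℕ) (hw : w ≤ n) (hwm : w * m ≤ n) (f : Tor n → ℝ) :
    ∑ y : Fin 3 → Fin m, ∑ x ∈ cube n (x0 + fun i => ((w * (y i : ℕ) : ℕ) : ZMod n)) w, f x =
      ∑ x ∈ cube n x0 (w * m), f x := by
  have h1 : ∀ y : Fin 3 → Fin m,
      ∑ x ∈ cube n (x0 + fun i => ((w * (y i : ℕ) : ℕ) : ZMod n)) w, f x =
      ∑ a ∈ range w, ∑ b ∈ range w, ∑ c ∈ range w,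
        f (shp (tp n x0) w (y 0) (y 1) (y 2) a b c) := by
    intro y
    rw [EnR.sum_cube _ hw, ← tp_shift]
    have e : (x0 + fun i => ((w * (y i : ℕ) : ℕ) : ZMod n)) =
        (x0 + fun i => ((w * (![(y 0 : ℕ), (y 1 : ℕ), (y 2 : ℕ)] i) : ℕ) : ZMod n)) := by
      congr 1
      ext i
      fin_cases i <;> rfl
    rw [e]
  rw [Finset.sum_congr rfl fun y _ => h1 y, EnR.sum_cube _ hwm]
  rw [sum_fin3 m fun u0 u1 u2 => ∑ a ∈ range w, ∑ b ∈ range w, ∑ c ∈ range w,
        f (shp (tp n x0) w u0 u1 u2 a b c)]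
  unfold shp
  rw [← sum_tile (fun A => ∑ B ∈ range (w * m), ∑ C ∈ range (w * m), f (tp n x0 A B C))]
  refine Finset.sum_congr rfl fun u0 _ => ?_
  have h2 : ∀ a ∈ range w, ∑ B ∈ range (w * m), ∑ C ∈ range (w * m),
      f (tp n x0 (w * u0 + a) B C) = ∑ u1 ∈ range m, ∑ u2 ∈ range m, ∑ b ∈ range w,
        ∑ c ∈ range w, f (tp n x0 (w * u0 + a) (w * u1 + b) (w * u2 + c)) := by
    intro a _
    rw [← sum_tile (fun B => ∑ C ∈ range (w * m), f (tp n x0 (w * u0 + a) B C))]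
    refine Finset.sum_congr rfl fun u1 _ => ?_
    conv_rhs => rw [Finset.sum_comm]
    refine Finset.sum_congr rfl fun b _ => ?_
    rw [← sum_tile]
  rw [Finset.sum_congr rfl h2]
  conv_rhs => rw [Finset.sum_comm]
  refine Finset.sum_congr rfl fun u1 _ => ?_
  rw [Finset.sum_comm]

theorem part_A (M : ℕ) (β : ℝ) (h : Tor n → ℝ) (x0 : Tor n) (w m : ℕ) (hw : w ≤ n)
    (hwm : w * m ≤ n) (i : Fin s) :
    ∑ y : Fin 3 → Fin m, ∑ x ∈ cube n (x0 + fun i => ((w * (y i : ℕ) : ℕ) : ZMod n)) w,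
      ∑ x' ∈ cube n (x0 + fun i => ((w * (y i : ℕ) : ℕ) : ZMod n)) w,
        gib (edgesS n s M) β (hS h) (hM (x, i) (x', i)) ≤
      12 * (w : ℝ) ^ 5 * ∑ z ∈ tch (cube n x0 (w * m)), ee n s M β h z i i := by
  set G : Tor n → Tor n → ℝ := fun x x' => gib (edgesS n s M) β (hS h) (hM (x, i) (x', i)) with hG
  have h1 : ∀ y : Fin 3 → Fin m,
      ∑ x ∈ cube n (x0 + fun i => ((w * (y i : ℕ) : ℕ) : ZMod n)) w,
      ∑ x' ∈ cube n (x0 + fun i => ((w * (y i : ℕ) : ℕ) : ZMod n)) w, G x x' =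
      pairSum (shp (fun a b c => (tp n x0 a b c, i)) w (y 0) (y 1) (y 2))
        (fun z z' => gib (edgesS n s M) β (hS h) (hM z z')) w := by
    intro y
    rw [pairSum_eq _ hw]
    have e : (x0 + fun i => ((w * (y i : ℕ) : ℕ) : ZMod n)) =
        (x0 + fun i => ((w * (![(y 0 : ℕ), (y 1 : ℕ), (y 2 : ℕ)] i) : ℕ) : ZMod n)) := by
      congr 1
      ext i
      fin_cases i <;> rfl
    rw [e, tp_shift]
    rfl
  have h2 := tile_pair (edgesS n s M) β (hS h) (fun a b c => ((tp n x0 a b c, i) : Tor n × Fin s)) w m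
  have h3 := edgeSum_le x0 hwm G (fun x y => gib_hM_nonneg _ _ _ _ _)
  have h4 : ∑ e : Tor n × Fin 3 with (e.1 ∈ cube n x0 (w * m) ∧ e.1 + Pi.single e.2 1 ∈ cube n x0 (w * m)),
        G e.1 (e.1 + Pi.single e.2 1) ≤ ∑ z ∈ tch (cube n x0 (w * m)), ee n s M β h z i i := by
    apply Finset.sum_le_sum_of_subset_of_nonneg
    · intro z hz
      rw [Finset.mem_filter] at hz
      rw [tch, Finset.mem_filter]
      exact ⟨Finset.mem_univ _, Or.inl hz.2.1⟩
    · intro z _ _; exact ee_nonneg _ _ _ _ _ _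
  calc _ = ∑ y : Fin 3 → Fin m, pairSum (shp (fun a b c => (tp n x0 a b c, i)) w (y 0) (y 1) (y 2))
        (fun z z' => gib (edgesS n s M) β (hS h) (hM z z')) w := Finset.sum_congr rfl fun y _ => h1 y
    _ = ∑ u0 ∈ range m, ∑ u1 ∈ range m, ∑ u2 ∈ range m,
          pairSum (shp (fun a b c => (tp n x0 a b c, i)) w u0 u1 u2)
        (fun z z' => gib (edgesS n s M) β (hS h) (hM z z')) w :=
        sum_fin3 m fun u0 u1 u2 => pairSum (shp (fun a b c => (tp n x0 a b c, i)) w u0 u1 u2)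
        (fun z z' => gib (edgesS n s M) β (hS h) (hM z z')) w
    _ ≤ 12 * (w : ℝ) ^ 5 * edgeSum (tp n x0) G (w * m) := h2
    _ ≤ _ := mul_le_mul_of_nonneg_left (h3.trans h4) (by positivity)

theorem part_B (M : ℕ) (β : ℝ) (h : Tor n → ℝ) (x0 : Tor n) (w m : ℕ) (hw : w ≤ n)
    (hwm : w * m ≤ n) (i j : Fin s) :
    ∑ y : Fin 3 → Fin m, ∑ x ∈ cube n (x0 + fun i => ((w * (y i : ℕ) : ℕ) : ZMod n)) w,
      ∑ x' ∈ cube n (x0 + fun i => ((w * (y i : ℕ) : ℕ) : ZMod n)) w,
        gib (edgesS n s M) β (hS h) (hM (x', i) (x', j)) ≤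
      (w : ℝ) ^ 3 * (2 * ∑ z ∈ tch (cube n x0 (w * m)), ee n s M β h z i i +
        8 * ∑ z ∈ tch (cube n x0 (w * m)), ee n s M β h z j i) := by
  have h1 : ∀ y : Fin 3 → Fin m, ∑ x ∈ cube n (x0 + fun i => ((w * (y i : ℕ) : ℕ) : ZMod n)) w,
      ∑ x' ∈ cube n (x0 + fun i => ((w * (y i : ℕ) : ℕ) : ZMod n)) w,
        gib (edgesS n s M) β (hS h) (hM (x', i) (x', j)) =
      (w : ℝ) ^ 3 * ∑ x' ∈ cube n (x0 + fun i => ((w * (y i : ℕ) : ℕ) : ZMod n)) w,
        gib (edgesS n s M) β (hS h) (hM (x', i) (x', j)) := by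
    intro y
    rw [Finset.sum_const, EnR.card_cube _ hw, nsmul_eq_mul]
    push_cast
    rfl
  rw [Finset.sum_congr rfl fun y _ => h1 y, ← Finset.mul_sum,
    tile_one x0 w m hw hwm fun x' => gib (edgesS n s M) β (hS h) (hM (x', i) (x', j))]
  refine mul_le_mul_of_nonneg_left ?_ (by positivity)
  refine (Finset.sum_le_sum fun x _ => gib_same_site M β h x i j).trans ?_
  rw [Finset.sum_add_distrib, ← Finset.mul_sum, ← Finset.mul_sum]
  have a1 := sum_dir0 (cube n x0 (w * m)) (fun z => ee n s M β h z i i) (fun z => ee_nonneg _ _ _ _ _ _)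
  have a2 := sum_dir0 (cube n x0 (w * m)) (fun z => ee n s M β h z j i) (fun z => ee_nonneg _ _ _ _ _ _)
  linarith

theorem split_sum {ι κ : Type} (S : Finset ι) [Fintype κ] (A : ι → ι → ℝ) (B : κ → ι → ℝ) :
    ∑ x ∈ S, ∑ j : κ, ∑ x' ∈ S, (2 * A x x' + 8 * B j x') =
      2 * (Fintype.card κ : ℝ) * ∑ x ∈ S, ∑ x' ∈ S, A x x' +
        8 * ∑ j : κ, ∑ x ∈ S, ∑ x' ∈ S, B j x' := by
  simp only [Finset.sum_add_distrib]
  have e1 : ∑ x ∈ S, ∑ _j : κ, ∑ x' ∈ S, 2 * A x x' =
      2 * (Fintype.card κ : ℝ) * ∑ x ∈ S, ∑ x' ∈ S, A x x' := by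
    rw [Finset.mul_sum]
    refine Finset.sum_congr rfl fun x _ => ?_
    rw [Finset.sum_const, Finset.card_univ, nsmul_eq_mul, ← Finset.mul_sum]
    ring
  have e2 : ∑ x ∈ S, ∑ j : κ, ∑ x' ∈ S, 8 * B j x' = 8 * ∑ j : κ, ∑ x ∈ S, ∑ x' ∈ S, B j x' := by
    rw [Finset.sum_comm]
    simp only [Finset.mul_sum]
  rw [e1, e2]

/-- sum over a block with copies -/
theorem sum_cubeS (x : Tor n) (w : ℕ) (f : Tor n × Fin s → ℝ) :
    ∑ z ∈ cubeS n s x w, f z = ∑ i : Fin s, ∑ x' ∈ cube n x w, f (x', i) := by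
  rw [cubeS, Finset.sum_product_right]

theorem block_le (M : ℕ) (β : ℝ) (h : Tor n → ℝ) (b : Tor n) (w : ℕ) :
    ∑ z ∈ cubeS n s b w, ∑ z' ∈ cubeS n s b w, gib (edgesS n s M) β (hS h) (hM z z') ≤
      2 * s * ∑ i : Fin s, ∑ x ∈ cube n b w, ∑ x' ∈ cube n b w,
          gib (edgesS n s M) β (hS h) (hM (x, i) (x', i)) +
      8 * ∑ i : Fin s, ∑ j : Fin s, ∑ x ∈ cube n b w, ∑ x' ∈ cube n b w,
          gib (edgesS n s M) β (hS h) (hM (x', i) (x', j)) := by
  rw [sum_cubeS]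
  simp only [sum_cubeS]
  have h1 : ∀ (i : Fin s) (x : Tor n) (j : Fin s) (x' : Tor n),
      gib (edgesS n s M) β (hS h) (hM (x, i) (x', j)) ≤
      2 * gib (edgesS n s M) β (hS h) (hM (x, i) (x', i)) +
        8 * gib (edgesS n s M) β (hS h) (hM (x', i) (x', j)) :=
    fun i x j x' => gib_step _ _ _ _ _ _
  refine (Finset.sum_le_sum fun i _ => Finset.sum_le_sum fun x _ => Finset.sum_le_sum fun j _ =>
    Finset.sum_le_sum fun x' _ => h1 i x j x').trans (le_of_eq ?_)
  have h2 : ∀ i : Fin s, ∑ x ∈ cube n b w, ∑ j : Fin s, ∑ x' ∈ cube n b w,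
      (2 * gib (edgesS n s M) β (hS h) (hM (x, i) (x', i)) +
        8 * gib (edgesS n s M) β (hS h) (hM (x', i) (x', j))) =
      2 * s * ∑ x ∈ cube n b w, ∑ x' ∈ cube n b w,
          gib (edgesS n s M) β (hS h) (hM (x, i) (x', i)) +
      8 * ∑ j : Fin s, ∑ x ∈ cube n b w, ∑ x' ∈ cube n b w,
          gib (edgesS n s M) β (hS h) (hM (x', i) (x', j)) := by
    intro i
    have h3 := split_sum (cube n b w) (κ := Fin s)
      (fun x x' => gib (edgesS n s M) β (hS h) (hM (x, i) (x', i)))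
      (fun j x' => gib (edgesS n s M) β (hS h) (hM (x', i) (x', j)))
    rw [Fintype.card_fin] at h3
    exact h3
  rw [Finset.sum_congr rfl fun i _ => h2 i, Finset.sum_add_distrib, ← Finset.mul_sum,
    ← Finset.mul_sum]

theorem total_le (M : ℕ) (β : ℝ) (h : Tor n → ℝ) (x0 : Tor n) (w m : ℕ) (hw1 : 1 ≤ w) (hw : w ≤ n)
    (hwm : w * m ≤ n) :
    ∑ y : Fin 3 → Fin m,
      ∑ z ∈ cubeS n s (x0 + fun i => ((w * (y i : ℕ) : ℕ) : ZMod n)) w,
      ∑ z' ∈ cubeS n s (x0 + fun i => ((w * (y i : ℕ) : ℕ) : ZMod n)) w,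
        gib (edgesS n s M) β (hS h) (hM z z') ≤
      (40 * s + 64) * (w : ℝ) ^ 5 *
        ∑ i : Fin s, ∑ j : Fin s, ∑ z ∈ tch (cube n x0 (w * m)), ee n s M β h z i j := by
  set T : Fin s → Fin s → ℝ := fun i j => ∑ z ∈ tch (cube n x0 (w * m)), ee n s M β h z i j with hT
  have hT0 : ∀ i j, 0 ≤ T i j := fun i j => Finset.sum_nonneg fun z _ => ee_nonneg _ _ _ _ _ _
  set TT : ℝ := ∑ i, ∑ j, T i j with hTT
  have hd : ∑ i, T i i ≤ TT := by
    rw [hTT]
    exact Finset.sum_le_sum fun i _ =>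
      Finset.single_le_sum (f := fun j => T i j) (fun j _ => hT0 i j) (Finset.mem_univ i)
  have hd0 : 0 ≤ ∑ i, T i i := Finset.sum_nonneg fun i _ => hT0 i i
  have hTT' : ∑ i, ∑ j, T j i = TT := by rw [hTT, Finset.sum_comm]
  have h1 : ∑ y : Fin 3 → Fin m,
      ∑ z ∈ cubeS n s (x0 + fun i => ((w * (y i : ℕ) : ℕ) : ZMod n)) w,
      ∑ z' ∈ cubeS n s (x0 + fun i => ((w * (y i : ℕ) : ℕ) : ZMod n)) w,
        gib (edgesS n s M) β (hS h) (hM z z') ≤
      2 * s * ∑ i : Fin s, ∑ y : Fin 3 → Fin m,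
          ∑ x ∈ cube n (x0 + fun i => ((w * (y i : ℕ) : ℕ) : ZMod n)) w,
          ∑ x' ∈ cube n (x0 + fun i => ((w * (y i : ℕ) : ℕ) : ZMod n)) w,
          gib (edgesS n s M) β (hS h) (hM (x, i) (x', i)) +
      8 * ∑ i : Fin s, ∑ j : Fin s, ∑ y : Fin 3 → Fin m,
          ∑ x ∈ cube n (x0 + fun i => ((w * (y i : ℕ) : ℕ) : ZMod n)) w,
          ∑ x' ∈ cube n (x0 + fun i => ((w * (y i : ℕ) : ℕ) : ZMod n)) w,
          gib (edgesS n s M) β (hS h) (hM (x', i) (x', j)) := by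
    refine (Finset.sum_le_sum fun y _ => block_le M β h _ w).trans (le_of_eq ?_)
    rw [Finset.sum_add_distrib, ← Finset.mul_sum, ← Finset.mul_sum]
    congr 1
    · rw [Finset.sum_comm]
    · rw [Finset.sum_comm]
      congr 1
      refine Finset.sum_congr rfl fun i _ => ?_
      rw [Finset.sum_comm]
  have h2 : ∑ i : Fin s, ∑ y : Fin 3 → Fin m,
          ∑ x ∈ cube n (x0 + fun i => ((w * (y i : ℕ) : ℕ) : ZMod n)) w,
          ∑ x' ∈ cube n (x0 + fun i => ((w * (y i : ℕ) : ℕ) : ZMod n)) w,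
          gib (edgesS n s M) β (hS h) (hM (x, i) (x', i)) ≤ 12 * (w : ℝ) ^ 5 * ∑ i, T i i := by
    rw [Finset.mul_sum]
    exact Finset.sum_le_sum fun i _ => part_A M β h x0 w m hw hwm i
  have h3 : ∑ i : Fin s, ∑ j : Fin s, ∑ y : Fin 3 → Fin m,
          ∑ x ∈ cube n (x0 + fun i => ((w * (y i : ℕ) : ℕ) : ZMod n)) w,
          ∑ x' ∈ cube n (x0 + fun i => ((w * (y i : ℕ) : ℕ) : ZMod n)) w,
          gib (edgesS n s M) β (hS h) (hM (x', i) (x', j)) ≤
      (w : ℝ) ^ 3 * (2 * (s * ∑ i, T i i) + 8 * TT) := by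
    refine (Finset.sum_le_sum fun i _ => Finset.sum_le_sum fun j _ =>
      part_B M β h x0 w m hw hwm i j).trans (le_of_eq ?_)
    rw [← hTT']
    simp only [← Finset.mul_sum, Finset.sum_add_distrib, Finset.sum_const, Finset.card_univ,
      Fintype.card_fin, nsmul_eq_mul]
    rfl
  have hw1' : (1 : ℝ) ≤ w := by exact_mod_cast hw1
  have h4 : (w : ℝ) ^ 3 ≤ (w : ℝ) ^ 5 := pow_le_pow_right₀ hw1' (by norm_num)
  have hs0 : (0 : ℝ) ≤ s := Nat.cast_nonneg s
  have hTT0 : 0 ≤ TT := hd0.trans hd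
  have h5 : (s : ℝ) * ∑ i, T i i ≤ s * TT := mul_le_mul_of_nonneg_left hd hs0
  have h6 : 2 * (s : ℝ) * (12 * (w : ℝ) ^ 5 * ∑ i, T i i) ≤ 24 * (w : ℝ) ^ 5 * (s * TT) := by
    have : 2 * (s : ℝ) * (12 * (w : ℝ) ^ 5 * ∑ i, T i i) =
        24 * (w : ℝ) ^ 5 * (s * ∑ i, T i i) := by ring
    rw [this]
    exact mul_le_mul_of_nonneg_left h5 (by positivity)
  have h7 : (w : ℝ) ^ 3 * (2 * (s * ∑ i, T i i) + 8 * TT) ≤
      (w : ℝ) ^ 5 * (2 * (s * TT) + 8 * TT) := by
    refine mul_le_mul h4 (by linarith) ?_ (by positivity)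
    have : 0 ≤ (s : ℝ) * ∑ i, T i i := mul_nonneg hs0 hd0
    linarith
  have h8 : 2 * (s : ℝ) * ∑ i : Fin s, ∑ y : Fin 3 → Fin m,
          ∑ x ∈ cube n (x0 + fun i => ((w * (y i : ℕ) : ℕ) : ZMod n)) w,
          ∑ x' ∈ cube n (x0 + fun i => ((w * (y i : ℕ) : ℕ) : ZMod n)) w,
          gib (edgesS n s M) β (hS h) (hM (x, i) (x', i)) ≤
      2 * (s : ℝ) * (12 * (w : ℝ) ^ 5 * ∑ i, T i i) :=
    mul_le_mul_of_nonneg_left h2 (by positivity)
  calc _ ≤ _ := h1
    _ ≤ 24 * (w : ℝ) ^ 5 * (s * TT) + 8 * ((w : ℝ) ^ 5 * (2 * (s * TT) + 8 * TT)) := by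
        linarith
    _ = (40 * s + 64) * (w : ℝ) ^ 5 * TT := by ring

theorem card_cubeS (x : Tor n) {w : ℕ} (hw : w ≤ n) :
    ((cubeS n s x w).card : ℝ) = (w : ℝ) ^ 3 * s := by
  rw [cubeS, Finset.card_product, EnR.card_cube _ hw, Finset.card_univ, Fintype.card_fin]
  push_cast
  rfl

end Tor

end

end Vale.Agent.P361.LRO.GenS.EnS
end

section

/-!
# P361, all spins: the limit of infinitely many intra site edges

`A ≥ 0`, `P` the orthogonal projection onto `ker A`, `A B = B A`. Then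
`Tr (exp (-b (B + m A)) C) → Tr (P exp (-b B) C)` as `m → ∞`.
-/

namespace Vale.Agent.P361.LRO.GenS.Lim

open Matrix Filter Topology

variable {ι : Type*} [Fintype ι] [DecidableEq ι]

theorem tendsto_exp_neg (b d : ℝ) (hb : 0 < b) (hd : 0 ≤ d) :
    Tendsto (fun m : ℕ => Real.exp (-(b * m) * d)) atTop (𝓝 (if d = 0 then 1 else 0)) := by
  by_cases h : d = 0
  · simp [h]
  · have hd' : 0 < d := lt_of_le_of_ne hd (Ne.symm h)
    rw [if_neg h]
    have h1 : Tendsto (fun m : ℕ => (b * d) * (m : ℝ)) atTop atTop :=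
      Tendsto.const_mul_atTop (by positivity) tendsto_natCast_atTop_atTop
    have h2 : Tendsto (fun m : ℕ => Real.exp (-((b * d) * (m : ℝ)))) atTop (𝓝 0) :=
      Real.tendsto_exp_neg_atTop_nhds_zero.comp h1
    refine h2.congr fun m => ?_
    congr 1
    ring

/-- The spectral form of the exponential of a multiple of a symmetric matrix. -/
theorem exp_spec (A : Matrix ι ι ℝ) (hA : A.IsHermitian) (c : ℝ) :
    NormedSpace.exp (c • A) = (hA.eigenvectorUnitary : Matrix ι ι ℝ) *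
      diagonal (fun i => Real.exp (c * hA.eigenvalues i)) *
        (star (hA.eigenvectorUnitary : Matrix ι ι ℝ)) := by
  set U : Matrix ι ι ℝ := (hA.eigenvectorUnitary : Matrix ι ι ℝ) with hU
  have hUU : U * star U = 1 := Unitary.coe_mul_star_self hA.eigenvectorUnitary
  have hUU' : star U * U = 1 := Unitary.coe_star_mul_self hA.eigenvectorUnitary
  have hsp : A = U * diagonal (fun i => hA.eigenvalues i) * star U := by
    have := hA.spectral_theorem
    simpa [hU, Unitary.conjStarAlgAut_apply, Function.comp_def] using this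
  have hcA : c • A = U * diagonal (fun i => c * hA.eigenvalues i) * star U := by
    conv_lhs => rw [hsp]
    rw [← Matrix.smul_mul, ← Matrix.mul_smul, ← diagonal_smul]
    rfl
  have hunit : IsUnit U := by
    exact ⟨⟨U, star U, hUU, hUU'⟩, rfl⟩
  have hinv : U⁻¹ = star U := Matrix.inv_eq_right_inv hUU
  rw [hcA, ← hinv, Matrix.exp_conj _ _ hunit, Matrix.exp_diagonal]
  congr 2
  ext i
  rw [Pi.exp_def]
  simp [← Real.exp_eq_exp_ℝ]

/-- `exp (-(b m) A)` tends to the projection onto the kernel of `A`. -/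
theorem tendsto_exp_proj (A P : Matrix ι ι ℝ) (hA : A.PosSemidef) (hP : P.IsSymm)
    (hAP : A * P = 0) (hker : ∀ v, A *ᵥ v = 0 → P *ᵥ v = v) {b : ℝ} (hb : 0 < b) :
    Tendsto (fun m : ℕ => NormedSpace.exp (-(b * m) • A)) atTop (𝓝 P) := by
  have hH := hA.isHermitian
  set U : Matrix ι ι ℝ := (hH.eigenvectorUnitary : Matrix ι ι ℝ) with hU
  have hUU : U * star U = 1 := Unitary.coe_mul_star_self hH.eigenvectorUnitary
  have hUU' : star U * U = 1 := Unitary.coe_star_mul_self hH.eigenvectorUnitary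
  set D : Matrix ι ι ℝ := diagonal (fun i => if hH.eigenvalues i = 0 then (1 : ℝ) else 0) with hD
  set Q : Matrix ι ι ℝ := U * D * star U with hQ
  have hsp : A = U * diagonal (fun i => hH.eigenvalues i) * star U := by
    have := hH.spectral_theorem
    simpa [hU, Unitary.conjStarAlgAut_apply, Function.comp_def] using this
  have hlim : Tendsto (fun m : ℕ => NormedSpace.exp (-(b * m) • A)) atTop (𝓝 Q) := by
    have h1 : Tendsto (fun m : ℕ => (diagonal (fun i => Real.exp (-(b * m) * hH.eigenvalues i)) :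
        Matrix ι ι ℝ)) atTop (𝓝 D) := by
      have h2 : Tendsto (fun m : ℕ => (fun i => Real.exp (-(b * m) * hH.eigenvalues i)))
          atTop (𝓝 (fun i => if hH.eigenvalues i = 0 then (1 : ℝ) else 0)) :=
        tendsto_pi_nhds.mpr fun i => tendsto_exp_neg b _ hb (hA.eigenvalues_nonneg i)
      exact (Continuous.matrix_diagonal continuous_id).continuousAt.tendsto.comp h2
    have h3 := (tendsto_const_nhds (x := U)).mul (h1.mul (tendsto_const_nhds (x := star U)))
    refine (h3.congr fun m => ?_).trans ?_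
    · rw [exp_spec A hH, ← hU, Matrix.mul_assoc]
    · rw [← Matrix.mul_assoc]
  have hAQ : A * Q = 0 := by
    rw [hsp, hQ]
    have : U * diagonal (fun i => hH.eigenvalues i) * star U * (U * D * star U) =
        U * (diagonal (fun i => hH.eigenvalues i) * ((star U * U) * D)) * star U := by
      simp only [Matrix.mul_assoc]
    rw [this, hUU', Matrix.one_mul, hD, diagonal_mul_diagonal]
    have h0 : (diagonal fun i => hH.eigenvalues i *
        (if hH.eigenvalues i = 0 then (1 : ℝ) else 0)) = (0 : Matrix ι ι ℝ) := by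
      rw [← diagonal_zero]
      congr 1
      ext i
      by_cases h : hH.eigenvalues i = 0 <;> simp [h]
    rw [h0]
    simp
  have hPQ : P * Q = Q := by
    ext i j
    have h1 : A *ᵥ (fun k => Q k j) = 0 := by
      ext k
      have := congrFun (congrFun hAQ k) j
      simpa [Matrix.mul_apply, Matrix.mulVec, dotProduct] using this
    have h2 := congrFun (hker _ h1) i
    simpa [Matrix.mul_apply, Matrix.mulVec, dotProduct] using h2
  have hQP : Q * P = P := by
    have hcomm : ∀ m : ℕ, NormedSpace.exp (-(b * m) • A) * P = P := by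
      intro m
      have hcA : (-(b * m) • A) * P = 0 := by rw [Matrix.smul_mul, hAP, smul_zero]
      rw [exp_spec A hH]
      have hAUP : ∀ i j, hH.eigenvalues i = 0 ∨ (star U * P) i j = 0 := by
        intro i j
        have h4 : diagonal (fun i => hH.eigenvalues i) * (star U * P) = 0 := by
          have h5 : star U * (A * P) = 0 := by rw [hAP, Matrix.mul_zero]
          rw [hsp] at h5
          have h6 : star U * (U * diagonal (fun i => hH.eigenvalues i) * star U * P) =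
              (star U * U) * (diagonal (fun i => hH.eigenvalues i) * (star U * P)) := by
            simp only [Matrix.mul_assoc]
          rw [h6, hUU', Matrix.one_mul] at h5
          exact h5
        have h7 := congrFun (congrFun h4 i) j
        rw [diagonal_mul] at h7
        simpa using h7
      have h8 : diagonal (fun i => Real.exp (-(b * m) * hH.eigenvalues i)) * (star U * P) =
          star U * P := by
        ext i j
        rw [diagonal_mul]
        rcases hAUP i j with h | h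
        · rw [h]; simp
        · rw [h]; simp
      rw [← hU, Matrix.mul_assoc, Matrix.mul_assoc, h8, ← Matrix.mul_assoc, hUU, Matrix.one_mul]
    have h1 : Tendsto (fun m : ℕ => NormedSpace.exp (-(b * m) • A) * P) atTop (𝓝 (Q * P)) :=
      hlim.mul tendsto_const_nhds
    have h2 : Tendsto (fun m : ℕ => NormedSpace.exp (-(b * m) • A) * P) atTop (𝓝 P) := by
      have h3 : (fun m : ℕ => NormedSpace.exp (-(b * m) • A) * P) = fun _ => P :=
        funext hcomm
      rw [h3]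
      exact tendsto_const_nhds
    exact tendsto_nhds_unique h1 h2
  have hQs : Qᵀ = Q := by
    rw [hQ, Matrix.transpose_mul, Matrix.transpose_mul, hD, diagonal_transpose, ← Matrix.mul_assoc]
    congr 1
  have hPeq : P = Q := by
    have h1 : Pᵀ = P := hP
    have h2 : (Q * P)ᵀ = Pᵀ := by rw [hQP]
    rw [Matrix.transpose_mul, h1, hQs, hPQ] at h2
    exact h2.symm
  rw [hPeq]
  exact hlim

/-- The limit inside a trace. -/
theorem tendsto_trace_proj (A B C P : Matrix ι ι ℝ) (hA : A.PosSemidef) (hP : P.IsSymm)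
    (hAP : A * P = 0) (hker : ∀ v, A *ᵥ v = 0 → P *ᵥ v = v) (hAB : Commute A B) {b : ℝ}
    (hb : 0 < b) :
    Tendsto (fun m : ℕ => trace (NormedSpace.exp (-b • (B + (m : ℝ) • A)) * C)) atTop
      (𝓝 (trace (P * NormedSpace.exp (-b • B) * C))) := by
  have h1 := tendsto_exp_proj A P hA hP hAP hker hb
  have h2 : ∀ m : ℕ, NormedSpace.exp (-b • (B + (m : ℝ) • A)) =
      NormedSpace.exp (-(b * m) • A) * NormedSpace.exp (-b • B) := by
    intro m
    rw [← Matrix.exp_add_of_commute]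
    · congr 1
      rw [smul_add, smul_smul, add_comm]
      congr 2
      ring
    · exact (hAB.smul_left _).smul_right _
  simp only [h2]
  have h3 : Tendsto (fun m : ℕ => NormedSpace.exp (-(b * m) • A) * NormedSpace.exp (-b • B) * C)
      atTop (𝓝 (P * NormedSpace.exp (-b • B) * C)) :=
    (h1.mul tendsto_const_nhds).mul tendsto_const_nhds
  exact (Continuous.matrix_trace continuous_id).continuousAt.tendsto.comp h3

section Phys

variable {V : Type} [Fintype V] [DecidableEq V]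

theorem swapM_transpose (x y : V) : (swapM x y)ᵀ = swapM x y := by
  ext σ τ
  simp only [Matrix.transpose_apply, swapM, Matrix.of_apply]
  congr 1
  apply propext
  constructor
  · rintro rfl
    ext z
    simp [Function.comp]
  · rintro rfl
    ext z
    simp [Function.comp]

theorem swapM_sq (x y : V) : swapM x y * swapM x y = 1 := by
  ext σ τ
  rw [Matrix.mul_apply]
  simp only [swapM, Matrix.of_apply, Matrix.one_apply]
  rw [Finset.sum_eq_single (σ ∘ Equiv.swap x y)]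
  · have h1 : σ = (σ ∘ Equiv.swap x y) ∘ Equiv.swap x y := by
      ext z; simp [Function.comp]
    rw [if_pos h1, one_mul]
    congr 1
    apply propext
    constructor
    · intro h
      ext z
      have := congrFun h (Equiv.swap x y z)
      simpa [Function.comp] using congrArg Fin.val this
    · rintro rfl
      rfl
  · intro ρ _ hρ
    rw [if_neg, zero_mul]
    rintro rfl
    apply hρ
    ext z
    simp [Function.comp]
  · intro h
    exact absurd (Finset.mem_univ _) h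

theorem hM_transpose (x y : V) : (hM x y)ᵀ = hM x y := by
  simp [hM, swapM_transpose]

theorem hM_sq (x y : V) : hM x y * hM x y = hM x y := by
  have h : (1 - swapM x y) * (1 - swapM x y) = (2 : ℝ) • (1 - swapM x y) := by
    have h1 : (1 - swapM x y) * (1 - swapM x y) =
        1 - swapM x y - swapM x y + swapM x y * swapM x y := by noncomm_ring
    rw [h1, swapM_sq, two_smul]
    abel
  rw [hM, Matrix.smul_mul, Matrix.mul_smul, h, smul_smul, smul_smul]
  norm_num

theorem hM_posSemidef (x y : V) : (hM x y).PosSemidef := by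
  have h : hM x y = (hM x y)ᴴ * hM x y := by
    rw [Matrix.conjTranspose_eq_transpose_of_trivial, hM_transpose, hM_sq]
  rw [h]
  exact Matrix.posSemidef_conjTranspose_mul_self _

theorem sum_hM_posSemidef (E : List (V × V)) : (E.map fun e => hM e.1 e.2).sum.PosSemidef := by
  induction E with
  | nil => simpa using Matrix.PosSemidef.zero
  | cons e E ih => simpa using (hM_posSemidef e.1 e.2).add ih

/-- The kernel of `∑ h_e` consists of the vectors invariant under all the exchanges. -/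
theorem ker_sum_hM (E : List (V × V)) (v : (V → Fin 2) → ℝ)
    (hv : (E.map fun e => hM e.1 e.2).sum *ᵥ v = 0) :
    ∀ e ∈ E, swapM e.1 e.2 *ᵥ v = v := by
  have hq : ∀ E : List (V × V), v ⬝ᵥ ((E.map fun e => hM e.1 e.2).sum *ᵥ v) =
      (E.map fun e => (hM e.1 e.2 *ᵥ v) ⬝ᵥ (hM e.1 e.2 *ᵥ v)).sum := by
    intro E
    induction E with
    | nil => simp
    | cons e E ih =>
      simp only [List.map_cons, List.sum_cons, Matrix.add_mulVec, dotProduct_add, ih]
      congr 1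
      conv_lhs => rw [← hM_sq, ← Matrix.mulVec_mulVec, Matrix.dotProduct_mulVec,
        ← Matrix.mulVec_transpose, hM_transpose]
  have h0 := hq E
  rw [hv, dotProduct_zero] at h0
  have hnn : ∀ a ∈ (E.map fun e => (hM e.1 e.2 *ᵥ v) ⬝ᵥ (hM e.1 e.2 *ᵥ v)), (0 : ℝ) ≤ a := by
    intro a ha
    obtain ⟨e, -, rfl⟩ := List.mem_map.mp ha
    exact Finset.sum_nonneg fun i _ => mul_self_nonneg _
  intro e he
  have h1 : (hM e.1 e.2 *ᵥ v) ⬝ᵥ (hM e.1 e.2 *ᵥ v) = 0 := by
    have h2 := List.single_le_sum hnn _ (List.mem_map.mpr ⟨e, he, rfl⟩)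
    have h3 := hnn _ (List.mem_map.mpr ⟨e, he, rfl⟩)
    rw [← h0] at h2
    exact le_antisymm h2 h3
  have h4 : hM e.1 e.2 *ᵥ v = 0 := dotProduct_self_eq_zero.mp h1
  rw [hM, Matrix.smul_mulVec, Matrix.sub_mulVec, Matrix.one_mulVec] at h4
  have h5 : v - swapM e.1 e.2 *ᵥ v = 0 := by
    rcases smul_eq_zero.mp h4 with h | h
    · norm_num at h
    · exact h
  exact (sub_eq_zero.mp h5).symm

theorem ham_append_replicate (L E : List (V × V)) (m : ℕ) (h : V → ℝ) :
    ham (L ++ (List.replicate m E).flatten) h =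
      ham L h + (m : ℝ) • (E.map fun e => hM e.1 e.2).sum := by
  have h1 : (((List.replicate m E).flatten).map fun e => hM e.1 e.2).sum =
      (m : ℝ) • (E.map fun e => hM e.1 e.2).sum := by
    induction m with
    | zero => simp
    | succ m ih =>
      rw [List.replicate_succ, List.flatten_cons, List.map_append, List.sum_append, ih]
      push_cast
      rw [add_smul, one_smul, add_comm]
  rw [ham, ham, List.map_append, List.sum_append, h1]
  abel

/-- **The limit of infinitely many intra site edges.** -/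
theorem tendsto_trace_ham (L E : List (V × V)) (h : V → ℝ) {β : ℝ} (hβ : 0 < β)
    (P C : Matrix (V → Fin 2) (V → Fin 2) ℝ) (hP : P.IsSymm)
    (hEP : ∀ e ∈ E, swapM e.1 e.2 * P = P)
    (hker : ∀ v, (∀ e ∈ E, swapM e.1 e.2 *ᵥ v = v) → P *ᵥ v = v)
    (hcomm : ∀ e ∈ E, Commute (swapM e.1 e.2) (ham L h)) :
    Tendsto (fun m : ℕ => trace (NormedSpace.exp
      (-β • ham (L ++ (List.replicate m E).flatten) h) * C)) atTop
      (𝓝 (trace (P * NormedSpace.exp (-β • ham L h) * C))) := by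
  simp only [ham_append_replicate]
  refine tendsto_trace_proj _ _ C P (sum_hM_posSemidef E) hP ?_ ?_ ?_ hβ
  · clear hker hcomm
    induction E with
    | nil => simp
    | cons e E ih =>
      rw [List.map_cons, List.sum_cons, add_mul, ih fun e' he' => hEP e' (by simp [he'])]
      rw [hM, Matrix.smul_mul, sub_mul, one_mul, hEP e (by simp)]
      simp
  · intro v hv
    exact hker v (ker_sum_hM E v hv)
  · clear hker hEP
    induction E with
    | nil => simp
    | cons e E ih =>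
      rw [List.map_cons, List.sum_cons]
      refine Commute.add_left ?_ (ih fun e' he' => hcomm e' (by simp [he']))
      rw [hM]
      exact ((Commute.one_left _).sub_left (hcomm e (by simp))).smul_left _

/-- The same for the Gibbs expectation. -/
theorem tendsto_gib (L E : List (V × V)) (h : V → ℝ) {β : ℝ} (hβ : 0 < β)
    (P C : Matrix (V → Fin 2) (V → Fin 2) ℝ) (hP : P.IsSymm)
    (hEP : ∀ e ∈ E, swapM e.1 e.2 * P = P)
    (hker : ∀ v, (∀ e ∈ E, swapM e.1 e.2 *ᵥ v = v) → P *ᵥ v = v)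
    (hcomm : ∀ e ∈ E, Commute (swapM e.1 e.2) (ham L h))
    (hpos : trace (P * NormedSpace.exp (-β • ham L h)) ≠ 0) :
    Tendsto (fun m : ℕ => gib (L ++ (List.replicate m E).flatten) β h C) atTop
      (𝓝 (trace (P * NormedSpace.exp (-β • ham L h) * C) /
        trace (P * NormedSpace.exp (-β • ham L h)))) := by
  have h1 := tendsto_trace_ham L E h hβ P C hP hEP hker hcomm
  have h2 := tendsto_trace_ham L E h hβ P 1 hP hEP hker hcomm
  simp only [Matrix.mul_one] at h2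
  exact h1.div h2 hpos

end Phys

end Vale.Agent.P361.LRO.GenS.Lim
end

section

/-!
P361 LRO, general spin: the limit `M → ∞` of the Gibbs states of `edgesS n s M` is the Gibbs state
of the spin `s / 2` model.
-/

namespace Vale.Agent.P361.LRO.GenS

open Finset Matrix Filter Topology

noncomputable section

section Lists

variable {α κ M : Type*} [AddCommMonoid M]

theorem list_flatMap_sum (l : List α) (g : α → List κ) (f : κ → M) :
    ((l.flatMap g).map f).sum = (l.map fun a => ((g a).map f).sum).sum := by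
  induction l with
  | nil => simp
  | cons a l ih => simp [List.flatMap_cons, List.map_append, List.sum_append, ih]

theorem finRange_sum {s : ℕ} (f : Fin s → M) :
    ((List.finRange s).map f).sum = ∑ i, f i := by
  rw [← List.sum_ofFn, List.ofFn_eq_map]

end Lists

variable {n s : ℕ} [NeZero n]

theorem sum_interE {M : Type*} [AddCommMonoid M] (f : (Tor n × Fin s) × (Tor n × Fin s) → M) :
    ((interE n s).map f).sum = ((interL (edges n) s).map f).sum := by
  unfold interE interL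
  rw [list_flatMap_sum, list_flatMap_sum]
  congr 1
  refine List.map_congr_left fun e _ => ?_
  rw [list_flatMap_sum]
  have h1 : (fun i : Fin s => (((List.finRange s).map fun j => ((e.1, i), (e.2, j))).map f).sum) =
      fun i : Fin s => ∑ j : Fin s, f ((e.1, i), (e.2, j)) := by
    funext i
    rw [List.map_map]
    exact finRange_sum _
  rw [h1, finRange_sum, List.map_map, Finset.sum_map_toList, Fintype.sum_prod_type]
  rfl

theorem intraE_eq : intraE n s = intraL (Tor n) s := rfl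

theorem ham_edgesS (M : ℕ) (h : Tor n × Fin s → ℝ) :
    ham (edgesS n s M) h = ham (Lm (edges n) s M) h := by
  unfold ham edgesS Lm
  rw [List.map_append, List.sum_append, List.map_append, List.sum_append, sum_interE, intraE_eq]

theorem gib_edgesS (M : ℕ) (β : ℝ) (h : Tor n × Fin s → ℝ)
    (A : Matrix (Tor n × Fin s → Fin 2) (Tor n × Fin s → Fin 2) ℝ) :
    gib (edgesS n s M) β h A = gib (Lm (edges n) s M) β h A := by
  unfold gib
  rw [ham_edgesS]

theorem ham_symm {W : Type} [Fintype W] [DecidableEq W] (L : List (W × W)) (h : W → ℝ) :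
    (ham L h).IsSymm := by
  have h1 : ∀ E : List (W × W), ((E.map fun e => hM e.1 e.2).sum)ᵀ =
      (E.map fun e => hM e.1 e.2).sum := by
    intro E
    induction E with
    | nil => simp
    | cons e E ih => rw [List.map_cons, List.sum_cons, Matrix.transpose_add, ih, Lim.hM_transpose]
  unfold ham Matrix.IsSymm
  rw [Matrix.transpose_sub, h1, Matrix.transpose_sum]
  congr 1
  refine Finset.sum_congr rfl fun x _ => ?_
  rw [Matrix.transpose_smul, szM, Matrix.diagonal_transpose]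

/-- **(M4)** The total magnetization of the copies converges to the magnetization of the spin
`s / 2` model. -/
theorem tendsto_gibbsMag [NeZero s] (hn : 3 ≤ n) {β : ℝ} (hβ : 0 < β) (h : ℝ) :
    Tendsto (fun M : ℕ => ∑ z : Tor n × Fin s,
        (1 / 2 - rho (edgesS n s M) β (hS fun _ => h) z)) atTop
      (𝓝 (gibbsMagV s (torusAdj n) β h)) := by
  have hZ : ∀ M : ℕ, Matrix.trace (NormedSpace.exp
      (-β • ham (edgesS n s M) (hS fun _ : Tor n => h))) ≠ 0 := fun M => (trace_exp_pos_real (by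
      unfold Matrix.IsSymm
      rw [Matrix.transpose_smul, ham_symm])).ne'
  have h1 : ∀ M : ℕ, ∑ z : Tor n × Fin s, (1 / 2 - rho (edgesS n s M) β (hS fun _ => h) z) =
      gib (Lm (edges n) s M) β (lift s fun _ : Tor n => h)
        (∑ z : Tor n × Fin s, (1 / 2 : ℝ) • szM z) := by
    intro M
    have e1 : ∀ z : Tor n × Fin s, 1 / 2 - rho (edgesS n s M) β (hS fun _ => h) z =
        gib (edgesS n s M) β (hS fun _ => h) ((1 / 2 : ℝ) • szM z) :=
      fun z => rho_eq_gib _ _ _ _ (hZ M)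
    rw [Finset.sum_congr rfl fun z _ => e1 z, ← gib_edgesS]
    unfold gib
    rw [← Finset.sum_div, Finset.mul_sum, Matrix.trace_sum]
    rfl
  simp only [h1]
  rw [gibbsMagV_spin hn]
  have key := Lim.tendsto_gib (interL (edges n) s) (intraL (Tor n) s) (lift s fun _ : Tor n => h) hβ
    (symProd (Tor n) s) (∑ z : Tor n × Fin s, (1 / 2 : ℝ) • szM z) symProd_transpose
    (fun e he => by
      obtain ⟨⟨x, a⟩, ⟨y, b⟩⟩ := e
      have h2 := (mem_intraL.1 he).1
      dsimp only at h2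
      subst h2
      exact swapM_mul_symProd x a b)
    (fun v hv => symProd_mulVec v fun x a b => by
      rcases lt_trichotomy a b with hab | hab | hab
      · exact hv ((x, a), (x, b)) (mem_intraL.2 ⟨rfl, hab⟩)
      · subst hab
        have : swapM (x, a) (x, a) = (1 : Matrix (Tor n × Fin s → Fin 2)
            (Tor n × Fin s → Fin 2) ℝ) := by
          ext σ τ
          simp [swapM, Matrix.one_apply]
        rw [this, Matrix.one_mulVec]
      · have h3 := hv ((x, b), (x, a)) (mem_intraL.2 ⟨rfl, hab⟩)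
        have h4 : swapM (x, a) (x, b) = swapM (x, b) (x, a) := by
          ext σ τ
          simp [swapM, Equiv.swap_comm]
        rw [h4]
        exact h3)
    (fun e he => by
      obtain ⟨⟨x, a⟩, ⟨y, b⟩⟩ := e
      have h2 := (mem_intraL.1 he).1
      dsimp only at h2
      subst h2
      exact comm_ham (edges n) _ x a b)
    (trace_symProd_exp_pos hn β h).ne'
  exact key

end

end Vale.Agent.P361.LRO.GenS
end

section

/-! # P361 LRO, stage 3 for all spins (E): geometry half (helper793) -/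

namespace Vale.Agent.P361.LRO.S3S

open Finset Matrix Vale.Agent.P361.LRO.GenS

noncomputable section

/-- inter-site part of the free box with `s` copies of each site -/
def boxA (s l : ℕ) : Matrix (B.cube l × Fin s → Fin 2) (B.cube l × Fin s → Fin 2) ℝ :=
  (1 / 2 : ℝ) • ham (interL (S3.nnL (B.cube l)) s) 0

/-- intra-site part of the free box with `s` copies of each site -/
def boxB (s l : ℕ) : Matrix (B.cube l × Fin s → Fin 2) (B.cube l × Fin s → Fin 2) ℝ :=
  ham (intraL (B.cube l) s) 0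

/-- partition function of the free box with copies -/
def ZbM (s l M : ℕ) (β : ℝ) : ℝ :=
  Matrix.trace (NormedSpace.exp (-β • (boxA s l + (M : ℝ) • boxB s l)))

end

end Vale.Agent.P361.LRO.S3S

namespace Vale.Agent.P361.LRO.Energy.ETS

open Matrix Finset Vale.Agent.P361.LRO.Loc3 Vale.Agent.P361.LRO.Energy.ET
open Vale.Agent.P361.LRO.GenS Vale.Agent.P361.LRO.GenS.EnS
open scoped ComplexOrder

set_option linter.unusedSectionVars false

noncomputable section

theorem cpx_list_sum {α ι : Type*} [Fintype ι] [DecidableEq ι] (L : List α)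
    (F : α → Matrix ι ι ℝ) : cpx ((L.map F).sum) = (L.map fun e => cpx (F e)).sum := by
  induction L with
  | nil => ext i j; simp [cpx]
  | cons a L ih => simp only [List.map_cons, List.sum_cons, cpx_add, ih]

theorem cpx_ham0 {V : Type} [Fintype V] [DecidableEq V] (L : List (V × V)) :
    cpx (ham L (0 : V → ℝ)) =
      (L.map fun e => (hM e.1 e.2 : Matrix (Cfg V) (Cfg V) ℂ)).sum := by
  have h : ham L (0 : V → ℝ) = (L.map fun e => LRO.hM e.1 e.2).sum := by
    rw [ham]; simp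
  rw [h, cpx_list_sum]
  simp only [cpx_hM]

theorem hM_ab_symm {V : Type} [Fintype V] [DecidableEq V] {s : ℕ} (u v : V) :
    (∑ ab : Fin s × Fin s, (hM (u, ab.1) (v, ab.2) : Matrix (Cfg (V × Fin s)) (Cfg (V × Fin s)) ℂ)) =
      ∑ ab : Fin s × Fin s, hM (v, ab.1) (u, ab.2) := by
  rw [Fintype.sum_prod_type, Fintype.sum_prod_type, Finset.sum_comm]
  exact Finset.sum_congr rfl fun i _ => Finset.sum_congr rfl fun j _ => hM_symm _ _

theorem cpx_boxA (s l : ℕ) : cpx (S3S.boxA s l) =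
    ∑ u : B.cube l, ∑ v : B.cube l, ∑ i : Fin 3, if v.1 = u.1 + Pi.single i 1 then
      ∑ ab : Fin s × Fin s,
        (hM (u, ab.1) (v, ab.2) : Matrix (Cfg (B.cube l × Fin s)) (Cfg (B.cube l × Fin s)) ℂ)
      else 0 := by
  have h0 : cpx (ham (interL (S3.nnL (B.cube l)) s) 0) = ∑ x : B.cube l, ∑ y : B.cube l,
      if IsNN x.1 y.1 then ∑ ab : Fin s × Fin s,
        (hM (x, ab.1) (y, ab.2) : Matrix (Cfg (B.cube l × Fin s)) (Cfg (B.cube l × Fin s)) ℂ)
      else 0 := by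
    rw [cpx_ham0, sum_interL, S3.nnL, Finset.sum_map_toList, Finset.sum_filter,
      Fintype.sum_prod_type]
  rw [S3S.boxA, cpx_smul, h0, sum_isNN (fun u v => ∑ ab : Fin s × Fin s,
        (hM (u, ab.1) (v, ab.2) : Matrix (Cfg (B.cube l × Fin s)) (Cfg (B.cube l × Fin s)) ℂ))
      (fun u v => hM_ab_symm u v), smul_add, ← add_smul]
  norm_num

theorem cpx_boxB (s l : ℕ) : cpx (S3S.boxB s l) =
    ∑ u : B.cube l, ∑ ab : Fin s × Fin s with ab.1 < ab.2,
        (hM (u, ab.1) (u, ab.2) : Matrix (Cfg (B.cube l × Fin s)) (Cfg (B.cube l × Fin s)) ℂ) := by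
  rw [S3S.boxB, cpx_ham0, intraL, List.map_map, Finset.sum_map_toList, Finset.sum_filter,
    Fintype.sum_prod_type]
  refine Finset.sum_congr rfl fun u _ => ?_
  rw [Finset.sum_filter]
  rfl

variable {n s : ℕ} [NeZero n]

/-- the box with copies in the torus with copies -/
def eS (s : ℕ) (x : Tor n) (l : ℕ) (p : B.cube l × Fin s) : Tor n × Fin s := (eC x l p.1, p.2)

theorem eS_injective {x : Tor n} {l : ℕ} (hl : l ≤ n) : Function.Injective (eS s x l) := by
  intro p q h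
  have h2 := Prod.mk.inj h
  exact Prod.ext (eC_injective hl h2.1) h2.2

/-- inter-site energy in `Q` -/
def inA (s : ℕ) (Q : Finset (Tor n)) : Matrix (Cfg (Tor n × Fin s)) (Cfg (Tor n × Fin s)) ℂ :=
  ∑ z ∈ Vale.Agent.P361.LRO.Energy.ET.ins Q, ∑ ab : Fin s × Fin s, hM (z.1, ab.1) (nxt z, ab.2)

/-- intra-site energy in `Q` -/
def inB (s : ℕ) (Q : Finset (Tor n)) : Matrix (Cfg (Tor n × Fin s)) (Cfg (Tor n × Fin s)) ℂ :=
  ∑ y ∈ Q, ∑ ab : Fin s × Fin s with ab.1 < ab.2, hM (y, ab.1) (y, ab.2)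

theorem emb_boxA_le (x : Tor n) {l : ℕ} (hl : l ≤ n) :
    (inA s (cube n x l) - emb (eS s x l) (cpx (S3S.boxA s l))).PosSemidef := by
  classical
  have he := eC_injective (x := x) hl
  have heS := eS_injective (s := s) (x := x) hl
  set T : Finset (B.cube l × Fin 3) := Finset.univ.filter fun p => p.1.1 + Pi.single p.2 1 ∈ B.cube l
    with hT
  have h1 : emb (eS s x l) (cpx (S3S.boxA s l)) =
      ∑ p ∈ T, ∑ ab : Fin s × Fin s, (hM (eC x l p.1, ab.1) (nxt (eC x l p.1, p.2), ab.2) :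
        Matrix (Cfg (Tor n × Fin s)) (Cfg (Tor n × Fin s)) ℂ) := by
    rw [cpx_boxA, emb_sum, hT, Finset.sum_filter, Fintype.sum_prod_type]
    refine Finset.sum_congr rfl fun u _ => ?_
    rw [Finset.sum_comm, emb_sum]
    refine Finset.sum_congr rfl fun i _ => ?_
    rw [emb_sum]
    have e1 : ∀ v : B.cube l, emb (eS s x l) (if v.1 = u.1 + Pi.single i 1 then
        ∑ ab : Fin s × Fin s, hM (u, ab.1) (v, ab.2) else 0) =
        if v.1 = u.1 + Pi.single i 1 then
          (∑ ab : Fin s × Fin s, hM (eC x l u, ab.1) (nxt (eC x l u, i), ab.2) :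
            Matrix (Cfg (Tor n × Fin s)) (Cfg (Tor n × Fin s)) ℂ) else 0 := by
      intro v
      split_ifs with h
      · rw [emb_sum]
        refine Finset.sum_congr rfl fun ab _ => ?_
        rw [emb_hM heS, ← nxt_eC x l u v i h]
        rfl
      · exact emb_zero _
    simp only [e1]
    refine (Finset.sum_coe_sort (B.cube l) (fun v => if v = u.1 + Pi.single i 1 then
      (∑ ab : Fin s × Fin s, hM (eC x l u, ab.1) (nxt (eC x l u, i), ab.2) :
            Matrix (Cfg (Tor n × Fin s)) (Cfg (Tor n × Fin s)) ℂ) else 0)).trans ?_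
    rw [Finset.sum_ite_eq']
  have hinj : Function.Injective fun p : B.cube l × Fin 3 => (eC x l p.1, p.2) := by
    intro p q h
    have h2 := Prod.mk.inj h
    exact Prod.ext (he h2.1) h2.2
  have h2 : emb (eS s x l) (cpx (S3S.boxA s l)) =
      ∑ z ∈ T.image fun p => (eC x l p.1, p.2), ∑ ab : Fin s × Fin s,
        (hM (z.1, ab.1) (nxt z, ab.2) :
          Matrix (Cfg (Tor n × Fin s)) (Cfg (Tor n × Fin s)) ℂ) := by
    rw [h1, Finset.sum_image fun p _ q _ h => hinj h]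
  have h3 : (T.image fun p => (eC x l p.1, p.2)) ⊆ Vale.Agent.P361.LRO.Energy.ET.ins (cube n x l) := by
    intro z hz
    obtain ⟨p, hp, rfl⟩ := Finset.mem_image.1 hz
    have hp' := (Finset.mem_filter.1 hp).2
    refine Finset.mem_filter.2 ⟨Finset.mem_univ _, eC_mem x l p.1, ?_⟩
    have := nxt_eC x l p.1 ⟨_, hp'⟩ p.2 rfl
    rw [← this]
    exact eC_mem x l _
  rw [h2, inA, ← Finset.sum_sdiff h3, add_sub_cancel_right]
  exact Matrix.posSemidef_sum _ fun z _ => Matrix.posSemidef_sum _ fun ab _ => hM_posSemidef _ _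

theorem emb_boxB_le (x : Tor n) {l : ℕ} (hl : l ≤ n) :
    (inB s (cube n x l) - emb (eS s x l) (cpx (S3S.boxB s l))).PosSemidef := by
  classical
  have he := eC_injective (x := x) hl
  have heS := eS_injective (s := s) (x := x) hl
  have h1 : emb (eS s x l) (cpx (S3S.boxB s l)) =
      ∑ y ∈ (Finset.univ : Finset (B.cube l)).image (eC x l), ∑ ab : Fin s × Fin s with ab.1 < ab.2,
        (hM (y, ab.1) (y, ab.2) :
          Matrix (Cfg (Tor n × Fin s)) (Cfg (Tor n × Fin s)) ℂ) := by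
    rw [cpx_boxB, emb_sum, Finset.sum_image fun p _ q _ h => he h]
    refine Finset.sum_congr rfl fun u _ => ?_
    rw [emb_sum]
    refine Finset.sum_congr rfl fun ab _ => ?_
    rw [emb_hM heS]
    rfl
  have h3 : ((Finset.univ : Finset (B.cube l)).image (eC x l)) ⊆ cube n x l := by
    intro z hz
    obtain ⟨p, -, rfl⟩ := Finset.mem_image.1 hz
    exact eC_mem x l p
  rw [h1, inB, ← Finset.sum_sdiff h3, add_sub_cancel_right]
  exact Matrix.posSemidef_sum _ fun z _ => Matrix.posSemidef_sum _ fun ab _ => hM_posSemidef _ _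

theorem sum_replicate {α M' : Type*} [AddCommMonoid M'] (M : ℕ) (l : List α) (F : α → M') :
    (((List.replicate M l).flatten).map F).sum = M • (l.map F).sum := by
  induction M with
  | zero => simp
  | succ M ih =>
    rw [List.replicate_succ, List.flatten_cons, List.map_append, List.sum_append, ih, succ_nsmul,
      add_comm]

/-- sum over the edges with copies -/
theorem sum_edgesS {M' : Type*} [AddCommMonoid M'] (M : ℕ)
    (F : (Tor n × Fin s) × (Tor n × Fin s) → M') :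
    ((edgesS n s M).map F).sum =
      (∑ z : Tor n × Fin 3, ∑ ab : Fin s × Fin s, F ((z.1, ab.1), (nxt z, ab.2))) +
      M • ∑ y : Tor n, ∑ ab : Fin s × Fin s with ab.1 < ab.2, F ((y, ab.1), (y, ab.2)) := by
  rw [edgesS, List.map_append, List.sum_append, sum_replicate, sum_interE, sum_interL]
  congr 1
  · exact sum_edges (n := n) fun e => ∑ ab : Fin s × Fin s, F ((e.1, ab.1), (e.2, ab.2))
  · congr 1
    rw [intraE, List.map_map, Finset.sum_map_toList, Finset.sum_filter, Fintype.sum_prod_type]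
    refine Finset.sum_congr rfl fun u _ => ?_
    rw [Finset.sum_filter]
    rfl

theorem sum_getL {α M' : Type*} [AddCommMonoid M'] (L : List α) (F : α → M') :
    ∑ i : Fin L.length, F (L.get i) = (L.map F).sum := by
  rw [← Fin.sum_univ_fun_getElem]
  rfl

/-- the bonds inside in the exponent -/
theorem inX_edgesS (M : ℕ) (Q : Finset (Tor n)) (β : ℝ) :
    inX (Q ×ˢ (Finset.univ : Finset (Fin s))) β
      (fun i : Fin (edgesS n s M).length => ((edgesS n s M).get i).1)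
      (fun i => ((edgesS n s M).get i).2) (fun _ => 1) =
      (β : ℂ) • (inA s Q + (M : ℂ) • inB s Q) := by
  rw [inX, Finset.sum_filter]
  refine (sum_getL (edgesS n s M) (fun e => if e.1 ∈ Q ×ˢ (Finset.univ : Finset (Fin s)) ∧
    e.2 ∈ Q ×ˢ (Finset.univ : Finset (Fin s)) then
    (((β * 1 : ℝ)) : ℂ) • (hM e.1 e.2 : Matrix (Cfg (Tor n × Fin s)) (Cfg (Tor n × Fin s)) ℂ)
      else 0)).trans ?_
  rw [sum_edgesS]
  have hA : (∑ z : Tor n × Fin 3, ∑ ab : Fin s × Fin s,
      if (((z.1, ab.1), (nxt z, ab.2)) : (Tor n × Fin s) × (Tor n × Fin s)).1 ∈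
          Q ×ˢ (Finset.univ : Finset (Fin s)) ∧
        (((z.1, ab.1), (nxt z, ab.2)) : (Tor n × Fin s) × (Tor n × Fin s)).2 ∈
          Q ×ˢ (Finset.univ : Finset (Fin s)) then
        (((β * 1 : ℝ)) : ℂ) • (hM (z.1, ab.1) (nxt z, ab.2) :
          Matrix (Cfg (Tor n × Fin s)) (Cfg (Tor n × Fin s)) ℂ) else 0) = (β : ℂ) • inA s Q := by
    rw [inA, Vale.Agent.P361.LRO.Energy.ET.ins, Finset.sum_filter, Finset.smul_sum]
    refine Finset.sum_congr rfl fun z _ => ?_
    by_cases hz : z.1 ∈ Q ∧ nxt z ∈ Q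
    · rw [if_pos hz, Finset.smul_sum]
      refine Finset.sum_congr rfl fun ab _ => ?_
      rw [if_pos (by simpa using hz), mul_one]
    · rw [if_neg hz, smul_zero]
      refine Finset.sum_eq_zero fun ab _ => ?_
      rw [if_neg (by simpa using hz)]
  have hB : (∑ y : Tor n, ∑ ab : Fin s × Fin s with ab.1 < ab.2,
      if (((y, ab.1), (y, ab.2)) : (Tor n × Fin s) × (Tor n × Fin s)).1 ∈
          Q ×ˢ (Finset.univ : Finset (Fin s)) ∧
        (((y, ab.1), (y, ab.2)) : (Tor n × Fin s) × (Tor n × Fin s)).2 ∈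
          Q ×ˢ (Finset.univ : Finset (Fin s)) then
        (((β * 1 : ℝ)) : ℂ) • (hM (y, ab.1) (y, ab.2) :
          Matrix (Cfg (Tor n × Fin s)) (Cfg (Tor n × Fin s)) ℂ) else 0) = (β : ℂ) • inB s Q := by
    rw [inB, Finset.smul_sum, ← Finset.sum_subset (Finset.subset_univ Q)]
    · refine Finset.sum_congr rfl fun y hy => ?_
      rw [Finset.smul_sum]
      refine Finset.sum_congr rfl fun ab _ => ?_
      rw [if_pos (by simpa using hy), mul_one]
    · intro y _ hy
      refine Finset.sum_eq_zero fun ab _ => ?_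
      rw [if_neg (by simpa using hy)]
  refine (congrArg₂ (· + ·) hA (congrArg (M • ·) hB)).trans ?_
  show _ + _ = _
  rw [← Nat.cast_smul_eq_nsmul ℂ, smul_add, smul_smul, smul_smul, mul_comm (M : ℂ)]

theorem cpx_isHermitian {ι : Type*} [Fintype ι] [DecidableEq ι] {A : Matrix ι ι ℝ} (hA : A.IsSymm) :
    (cpx A).IsHermitian := by
  ext i j
  rw [Matrix.conjTranspose_apply, cpx, Matrix.map_apply, Matrix.map_apply, hA.apply]
  simp

theorem box_symm (s l M : ℕ) (c : ℝ) : (c • (S3S.boxA s l + (M : ℝ) • S3S.boxB s l)).IsSymm := by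
  unfold S3S.boxA S3S.boxB
  exact (((ham_symm _ _).smul _).add ((ham_symm _ _).smul _)).smul _

/-- the free cube of the torus with copies against the free box with copies -/
theorem log_resQS_le (M : ℕ) (x : Tor n) {l : ℕ} (hl : l ≤ n) {β : ℝ} (hβ : 0 ≤ β) :
    Real.log (trace (NormedSpace.exp (resQ (cube n x l ×ˢ (Finset.univ : Finset (Fin s)))
      (((-(1 / 2) : ℝ) : ℂ) • inX (cube n x l ×ˢ (Finset.univ : Finset (Fin s))) β
        (fun i : Fin (edgesS n s M).length => ((edgesS n s M).get i).1)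
        (fun i => ((edgesS n s M).get i).2) (fun _ => 1))))).re ≤
      Real.log (S3S.ZbM s l M (β / 2)) := by
  set QS := cube n x l ×ˢ (Finset.univ : Finset (Fin s)) with hQS
  have hin := inX_isHermitian QS β (fun i : Fin (edgesS n s M).length => ((edgesS n s M).get i).1)
        (fun i => ((edgesS n s M).get i).2) (fun _ => 1)
  have hon := inX_onQ QS β (fun i : Fin (edgesS n s M).length => ((edgesS n s M).get i).1)
        (fun i => ((edgesS n s M).get i).2) (fun _ => 1)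
  have hX : (cpx (-(β / 2) • (S3S.boxA s l + (M : ℝ) • S3S.boxB s l))).IsHermitian :=
    cpx_isHermitian (box_symm s l M _)
  rw [log_resQ _ (onQ_smul _ hon) (smul_real_isHermitian hin _)]
  have h1 : nlt (((-(1 / 2) : ℝ) : ℂ) •
      inX QS β (fun i : Fin (edgesS n s M).length => ((edgesS n s M).get i).1)
        (fun i => ((edgesS n s M).get i).2) (fun _ => 1)) ≤
      nlt (cpx (-(β / 2) • (S3S.boxA s l + (M : ℝ) • S3S.boxB s l))) := by
    rw [← nlt_emb (eS s x l) (eS_injective hl) hX]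
    unfold nlt
    refine sub_le_sub_right (Real.log_le_log (trace_exp_pos (smul_real_isHermitian hin _)) ?_) _
    refine trace_exp_mono (smul_real_isHermitian hin _) (emb_isHermitian _ hX) ?_
    have e : emb (eS s x l) (cpx (-(β / 2) • (S3S.boxA s l + (M : ℝ) • S3S.boxB s l))) -
        ((-(1 / 2) : ℝ) : ℂ) • inX QS β
          (fun i : Fin (edgesS n s M).length => ((edgesS n s M).get i).1)
        (fun i => ((edgesS n s M).get i).2) (fun _ => 1) =
        (((β / 2 : ℝ)) : ℂ) • ((inA s (cube n x l) - emb (eS s x l) (cpx (S3S.boxA s l))) +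
          (((M : ℝ)) : ℂ) • (inB s (cube n x l) - emb (eS s x l) (cpx (S3S.boxB s l)))) := by
      rw [cpx_smul, cpx_add, cpx_smul, emb_smul, emb_add, emb_smul, hQS, inX_edgesS, smul_smul,
        smul_sub]
      push_cast
      module
    rw [e]
    exact smul_real_posSemidef ((emb_boxA_le x hl).add
      (smul_real_posSemidef (emb_boxB_le x hl) (Nat.cast_nonneg M))) (by positivity)
  have h2 : Real.log (S3S.ZbM s l M (β / 2)) =
      nlt (cpx (-(β / 2) • (S3S.boxA s l + (M : ℝ) • S3S.boxB s l))) +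
        ((l : ℝ) ^ 3 * s) * Real.log 2 := by
    have hc : Fintype.card (B.cube l × Fin s) = l ^ 3 * s := by
      rw [Fintype.card_prod, Fintype.card_coe, B.cube_eq, card_cube, Fintype.card_fin]
    unfold nlt
    rw [hc, ← cpx_exp, cpx_trace, S3S.ZbM]
    push_cast
    ring
  have h3 : ((QS.card : ℕ) : ℝ) ≤ (l : ℝ) ^ 3 * s := by
    rw [hQS, Finset.card_product, Finset.card_univ, Fintype.card_fin]
    push_cast
    have : ((cube n x l).card : ℝ) ≤ (l : ℝ) ^ 3 := by exact_mod_cast card_cube_le x l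
    exact mul_le_mul_of_nonneg_right this (by positivity)
  have h4 : 0 ≤ Real.log 2 := Real.log_nonneg (by norm_num)
  have h5 := mul_le_mul_of_nonneg_right h3 h4
  rw [h2]
  linarith

/-- **Energy of a cube with copies.** -/
theorem energyS_ins (M : ℕ) {β : ℝ} (hβ : 0 ≤ β) {h : Tor n → ℝ} (hh : ∀ x, 0 ≤ h x) (x : Tor n)
    {l : ℕ} (hl0 : 0 < l) (hl : l ≤ n) :
    β * ∑ i : Fin s, ∑ j : Fin s, ∑ z ∈ Vale.Agent.P361.LRO.Energy.ET.ins (cube n x l), ee n s M β h z i j ≤
      2 * (Real.log (S3S.ZbM s l M (β / 2)) + 6 * s ^ 2 * β * (l : ℝ) ^ 2) := by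
  set Q := cube n x l with hQ
  set QS := Q ×ˢ (Finset.univ : Finset (Fin s)) with hQS
  have h1 := energy_half QS (hS h) (fun i : Fin (edgesS n s M).length => ((edgesS n s M).get i).1)
    (fun i => ((edgesS n s M).get i).2) hβ (c := fun _ => 1) (fun _ => zero_le_one)
    (fun y _ => hh y.1)
  have h2 := log_resQS_le (s := s) M x hl hβ
  have h3 : ∑ i : Fin s, ∑ j : Fin s, ∑ z ∈ Vale.Agent.P361.LRO.Energy.ET.ins Q, ee n s M β h z i j ≤
      ∑ i : Fin (edgesS n s M).length with (((edgesS n s M).get i).1 ∈ QS ∧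
      ((edgesS n s M).get i).2 ∈ QS), (1 : ℝ) * ex (gibX β (hS h)
        (fun i : Fin (edgesS n s M).length => ((edgesS n s M).get i).1)
        (fun i => ((edgesS n s M).get i).2) (fun _ => 1))
        (hM ((edgesS n s M).get i).1 ((edgesS n s M).get i).2) := by
    rw [Finset.sum_filter]
    simp only [one_mul, ← gib_hM]
    rw [sum_getL (edgesS n s M) (fun e => if e.1 ∈ QS ∧ e.2 ∈ QS then
      gib (edgesS n s M) β (hS h) (LRO.hM e.1 e.2) else 0), sum_edgesS]
    refine le_trans (le_of_eq ?_) (le_add_of_nonneg_right ?_)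
    · have e1 : ∀ i j : Fin s, ∑ z ∈ Vale.Agent.P361.LRO.Energy.ET.ins Q, ee n s M β h z i j =
          ∑ z : Tor n × Fin 3, if z.1 ∈ Q ∧ nxt z ∈ Q then ee n s M β h z i j else 0 := by
        intro i j
        rw [Vale.Agent.P361.LRO.Energy.ET.ins, Finset.sum_filter]
      simp only [e1]
      rw [Finset.sum_congr rfl fun i _ => Finset.sum_comm, Finset.sum_comm]
      refine Finset.sum_congr rfl fun z _ => ?_
      rw [Fintype.sum_prod_type]
      refine Finset.sum_congr rfl fun i _ => Finset.sum_congr rfl fun j _ => ?_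
      simp only [hQS, Finset.mem_product, Finset.mem_univ, and_true]
      rfl
    · refine nsmul_nonneg (Finset.sum_nonneg fun y _ => Finset.sum_nonneg fun ab _ => ?_) _
      split_ifs
      · exact gib_hM_nonneg _ _ _ _ _
      · exact le_rfl
  have h4 : ∑ i : Fin (edgesS n s M).length with ((((edgesS n s M).get i).1 ∈ QS ∨
      ((edgesS n s M).get i).2 ∈ QS) ∧ ¬ (((edgesS n s M).get i).1 ∈ QS ∧
      ((edgesS n s M).get i).2 ∈ QS)), (1 : ℝ) = (s : ℝ) ^ 2 * ((bdy Q).card : ℝ) := by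
    rw [Finset.sum_filter, sum_getL (edgesS n s M) (fun e => if (e.1 ∈ QS ∨ e.2 ∈ QS) ∧
      ¬ (e.1 ∈ QS ∧ e.2 ∈ QS) then (1 : ℝ) else 0), sum_edgesS]
    have e2 : (∑ y : Tor n, ∑ ab : Fin s × Fin s with ab.1 < ab.2,
        if ((y, ab.1) ∈ QS ∨ (y, ab.2) ∈ QS) ∧ ¬ ((y, ab.1) ∈ QS ∧ (y, ab.2) ∈ QS) then
          (1 : ℝ) else 0) = 0 := by
      refine Finset.sum_eq_zero fun y _ => Finset.sum_eq_zero fun ab _ => ?_
      rw [if_neg]
      simp only [hQS, Finset.mem_product, Finset.mem_univ, and_true]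
      tauto
    rw [e2, smul_zero, add_zero, bdy, Finset.card_filter]
    push_cast
    rw [Finset.mul_sum]
    refine Finset.sum_congr rfl fun z _ => ?_
    simp only [hQS, Finset.mem_product, Finset.mem_univ, and_true]
    rw [Finset.sum_const, Finset.card_univ, Fintype.card_prod, Fintype.card_fin, nsmul_eq_mul]
    push_cast
    ring
  rw [h4] at h1
  have h5 : ((bdy Q).card : ℝ) ≤ 6 * (l : ℝ) ^ 2 := by exact_mod_cast card_bdy_le x hl0
  have h6 : β * ((s : ℝ) ^ 2 * ((bdy Q).card : ℝ)) ≤ β * ((s : ℝ) ^ 2 * (6 * (l : ℝ) ^ 2)) := by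
    gcongr
  have h7 := mul_le_mul_of_nonneg_left h3 hβ
  linarith

/-- the bonds touching a cube are inside the cube with one more layer -/
theorem tch_subset_ins (x : Tor n) (l : ℕ) :
    tch (cube n x l) ⊆ Vale.Agent.P361.LRO.Energy.ET.ins (cube n (x - 1) (l + 2)) := by
  have key : ∀ (y : Tor n) (a : Fin 3 → Fin l) (k : Fin 3) (c : ℕ), c ≤ 2 →
      y = (x + fun i => ((a i : ℕ) : ZMod n)) - Pi.single k 1 + Pi.single k (c : ZMod n) →
      y ∈ cube n (x - 1) (l + 2) := by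
    intro y a k c hc hy
    refine mem_cube.2 ⟨fun i => ⟨if i = k then (a i : ℕ) + c else (a i : ℕ) + 1, ?_⟩, ?_⟩
    · have := (a i).2
      split_ifs <;> omega
    · rw [hy]
      funext i
      by_cases hi : i = k
      · subst hi
        simp only [Pi.add_apply, Pi.sub_apply, Pi.single_eq_same, if_true, Pi.one_apply]
        push_cast
        ring
      · simp only [Pi.add_apply, Pi.sub_apply, Pi.single_eq_of_ne hi, if_neg hi, Pi.one_apply]
        push_cast
        ring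
  intro z hz
  rw [tch, Finset.mem_filter] at hz
  rw [Vale.Agent.P361.LRO.Energy.ET.ins, Finset.mem_filter]
  refine ⟨Finset.mem_univ _, ?_⟩
  rcases hz.2 with h | h
  · obtain ⟨a, ha⟩ := mem_cube.1 h
    refine ⟨key _ a z.2 1 (by norm_num) ?_, key _ a z.2 2 le_rfl ?_⟩
    · rw [ha]; push_cast; abel
    · rw [nxt, ha]
      have : (Pi.single z.2 ((2 : ℕ) : ZMod n) : Tor n) = Pi.single z.2 1 + Pi.single z.2 1 := by
        rw [← Pi.single_add]; norm_num
      rw [this]; abel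
  · obtain ⟨a, ha⟩ := mem_cube.1 h
    have hz1 : z.1 = nxt z - Pi.single z.2 1 := by rw [nxt]; abel
    refine ⟨key _ a z.2 0 (by norm_num) ?_, key _ a z.2 1 (by norm_num) ?_⟩
    · rw [hz1, ha]; push_cast; simp
    · rw [ha]; push_cast; abel

end

end Vale.Agent.P361.LRO.Energy.ETS

namespace Vale.Agent.P361.LRO.S3S

open Finset Matrix Vale.Agent.P361.LRO.GenS Vale.Agent.P361.LRO.S3
open Vale.Agent.P361.LRO.GenS.EnS

noncomputable section

variable {n s : ℕ} [NeZero n]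

theorem gib_CM {V : Type} [Fintype V] [DecidableEq V] (L : List (V × V)) (β : ℝ) (h : V → ℝ)
    (b : Finset V) : gib L β h (CM b) = ∑ x ∈ b, ∑ y ∈ b, gib L β h (hM x y) := by
  rw [CM]
  have hs : ∀ {κ : Type} (t : Finset κ) (F : κ → Matrix (V → Fin 2) (V → Fin 2) ℝ),
      gib L β h (∑ k ∈ t, F k) = ∑ k ∈ t, gib L β h (F k) := by
    intro κ t F
    unfold gib
    rw [Matrix.mul_sum, Matrix.trace_sum, Finset.sum_div]
  rw [hs]
  exact Finset.sum_congr rfl fun x _ => hs _ _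

/-- **Energy of the blocks** (geometry half of `EnergyStmt3S`). -/
theorem energyS_blocks (hs : 0 < s) (M : ℕ) {β : ℝ} (hβ : 0 < β) {h : Tor n → ℝ}
    (hh : ∀ x, 0 ≤ h x) (x : Tor n) (w m : ℕ) (hw : 1 ≤ w) (hm : 1 ≤ m) (hwm : w * m + 2 ≤ n) :
    (∑ y : Fin 3 → Fin m, yb (edgesS n s M) β (hS h)
      (cubeS n s (x + fun i => ((w * (y i : ℕ) : ℕ) : ZMod n)) w)) / (m : ℝ) ^ 3 ≤
      (40 * s + 64) / ((s : ℝ) ^ 2 * β * w * (m : ℝ) ^ 3) *
        (2 * (Real.log (ZbM s (w * m + 2) M (β / 2)) +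
          6 * s ^ 2 * β * (((w * m + 2 : ℕ)) : ℝ) ^ 2)) := by
  have hw' : (0 : ℝ) < w := by exact_mod_cast hw
  have hm' : (0 : ℝ) < m := by exact_mod_cast hm
  have hs' : (0 : ℝ) < s := by exact_mod_cast hs
  have hwn : w ≤ n := by nlinarith
  have h1 := total_le (s := s) M β h x w m hw hwn (by omega)
  have h2 := Energy.ETS.energyS_ins (s := s) M hβ.le hh (x - 1) (l := w * m + 2) (by omega) hwm
  have h3 : ∑ i : Fin s, ∑ j : Fin s, ∑ z ∈ Energy.tch (cube n x (w * m)), ee n s M β h z i j ≤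
      ∑ i : Fin s, ∑ j : Fin s, ∑ z ∈ Vale.Agent.P361.LRO.Energy.ET.ins (cube n (x - 1) (w * m + 2)),
        ee n s M β h z i j :=
    Finset.sum_le_sum fun i _ => Finset.sum_le_sum fun j _ =>
      Finset.sum_le_sum_of_subset_of_nonneg (Energy.ETS.tch_subset_ins x (w * m))
        fun z _ _ => ee_nonneg _ _ _ _ _ _
  have h4 : ∀ y : Fin 3 → Fin m, yb (edgesS n s M) β (hS h)
      (cubeS n s (x + fun i => ((w * (y i : ℕ) : ℕ) : ZMod n)) w) =
      1 / ((w : ℝ) ^ 6 * s ^ 2) *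
      ∑ z ∈ cubeS n s (x + fun i => ((w * (y i : ℕ) : ℕ) : ZMod n)) w,
      ∑ z' ∈ cubeS n s (x + fun i => ((w * (y i : ℕ) : ℕ) : ZMod n)) w,
        gib (edgesS n s M) β (hS h) (hM z z') := by
    intro y
    rw [yb, gib_CM, Vale.Agent.P361.LRO.GenS.EnS.card_cubeS _ hwn]
    field_simp
  simp only [h4]
  rw [← Finset.mul_sum]
  set E := 2 * (Real.log (ZbM s (w * m + 2) M (β / 2)) +
          6 * s ^ 2 * β * (((w * m + 2 : ℕ)) : ℝ) ^ 2) with hE
  have h5 : ∑ i : Fin s, ∑ j : Fin s, ∑ z ∈ Energy.tch (cube n x (w * m)), ee n s M β h z i j ≤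
      E / β := by
    rw [le_div_iff₀ hβ, mul_comm]
    exact (mul_le_mul_of_nonneg_left h3 hβ.le).trans h2
  have h6 : (40 * (s : ℝ) + 64) * (w : ℝ) ^ 5 * ∑ i : Fin s, ∑ j : Fin s,
      ∑ z ∈ Energy.tch (cube n x (w * m)), ee n s M β h z i j ≤
      (40 * s + 64) * (w : ℝ) ^ 5 * (E / β) := mul_le_mul_of_nonneg_left h5 (by positivity)
  rw [div_le_iff₀ (by positivity)]
  calc 1 / ((w : ℝ) ^ 6 * s ^ 2) * _ ≤ 1 / ((w : ℝ) ^ 6 * s ^ 2) *
        ((40 * s + 64) * (w : ℝ) ^ 5 * (E / β)) :=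
        mul_le_mul_of_nonneg_left (h1.trans h6) (by positivity)
    _ = (40 * s + 64) / ((s : ℝ) ^ 2 * β * w * (m : ℝ) ^ 3) * E * (m : ℝ) ^ 3 := by
        field_simp

theorem ham_zero {V : Type} [Fintype V] [DecidableEq V] (L : List (V × V)) :
    ham L (0 : V → ℝ) = (L.map fun e => hM e.1 e.2).sum := by
  rw [ham]; simp

theorem ham_Lm_zero {V : Type} [Fintype V] [DecidableEq V] (L : List (V × V)) (s m : ℕ) :
    ham (Lm L s m) (0 : V × Fin s → ℝ) = ham (interL L s) 0 + (m : ℝ) • ham (intraL V s) 0 := by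
  rw [ham_zero, ham_zero, ham_zero, Lm, List.map_append, List.sum_append,
    Energy.ETS.sum_replicate, Nat.cast_smul_eq_nsmul]

theorem ZbM_eq (s l M : ℕ) (β : ℝ) : ZbM s l M (β / 2) =
    trace (NormedSpace.exp (-(β / 4) • ham (Lm (nnL (B.cube l)) s (2 * M)) 0)) := by
  rw [ZbM, boxA, boxB, ham_Lm_zero]
  congr 2
  push_cast
  module

end

end Vale.Agent.P361.LRO.S3S
end

section

/-!
P361, block twist, part 11: for a matrix commuting with the block spin the law of `p` given `r`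
is uniform on `0, …, N`; hence `tr W exp(-τ N_b) ≤ (|b| + 1) tr W exp(-τ (down spins of b))`.
-/

namespace Vale.Agent.P361.LRO.TwJ

set_option linter.all false

open Matrix Finset
open scoped ComplexOrder

variable {V : Type} [Fintype V] [DecidableEq V]

theorem cm_Om_comm_Dn (b : Finset V) : cm (Om b) * cm (Dn b) = cm (Dn b) * cm (Om b) := by
  rw [cm_Om, cm_Dn]
  simp only [Matrix.mul_sub, Matrix.sub_mul, Matrix.mul_smul, Matrix.smul_mul, mul_one, one_mul,
    Cas_Sz, smul_sub, smul_smul]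
  ext σ τ
  simp only [Matrix.sub_apply, Matrix.smul_apply, smul_eq_mul]
  ring

theorem cm_smsp (b : Finset V) : Sg b sm * Sg b sp =
    -cm (Om b) + (((b.card : ℝ) + 1 : ℝ) : ℂ) • cm (Dn b) - cm (Dn b) * cm (Dn b) := by
  have h : Cas b = Sg b sm * Sg b sp + Sg b sz * Sg b sz + Sg b sz := rfl
  rw [cm_Om, cm_Dn, h]
  simp only [Matrix.mul_sub, Matrix.sub_mul, Matrix.mul_smul, Matrix.smul_mul, mul_one, one_mul,
    smul_sub, smul_smul]
  ext σ τ
  simp only [Matrix.add_apply, Matrix.sub_apply, Matrix.smul_apply, Matrix.neg_apply, smul_eq_mul]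
  push_cast
  ring

theorem cm_spsm (b : Finset V) : Sg b sp * Sg b sm =
    -cm (Om b) + (((b.card : ℝ) - 1 : ℝ) : ℂ) • cm (Dn b) - cm (Dn b) * cm (Dn b) +
      ((b.card : ℝ) : ℂ) • (1 : Opr V) := by
  rw [Sp_Sm, cm_smsp]
  have h : Sg b sz = (((b.card : ℝ) / 2 : ℝ) : ℂ) • (1 : Opr V) - cm (Dn b) := by
    rw [cm_Dn]; abel
  rw [h]
  ext σ τ
  simp only [Matrix.add_apply, Matrix.sub_apply, Matrix.smul_apply, Matrix.neg_apply, smul_eq_mul]
  push_cast
  ring

theorem sp_Dn (b : Finset V) : Sg b sp * cm (Dn b) = (cm (Dn b) + 1) * Sg b sp := by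
  rw [cm_Dn]
  have h := Sz_Sp b
  have h' : Sg b sp * Sg b sz = Sg b sz * Sg b sp - Sg b sp := by rw [h]; abel
  simp only [Matrix.mul_sub, Matrix.add_mul, Matrix.sub_mul, Matrix.mul_smul, Matrix.smul_mul,
    mul_one, one_mul, h']
  abel

theorem sp_aeval (b : Finset V) (Q : Polynomial ℝ) :
    Sg b sp * cm (Polynomial.aeval (Dn b) Q) =
      cm (Polynomial.aeval (Dn b) (Q.comp (Polynomial.X + 1))) * Sg b sp := by
  induction Q using Polynomial.induction_on with
  | C a =>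
    rw [Polynomial.C_comp, Polynomial.aeval_C, Algebra.algebraMap_eq_smul_one, cm_smul, cm_one,
      Matrix.mul_smul, Matrix.smul_mul, mul_one, one_mul]
  | add p q hp hq =>
    rw [map_add, cm_add, mul_add, hp, hq, Polynomial.add_comp, map_add, cm_add, add_mul]
  | monomial n a ih =>
    have e : (Polynomial.C a * Polynomial.X ^ n * Polynomial.X).comp (Polynomial.X + 1) =
        (Polynomial.C a * Polynomial.X ^ n).comp (Polynomial.X + 1) * (Polynomial.X + 1) := by
      rw [Polynomial.mul_comp, Polynomial.X_comp]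
    rw [pow_succ, ← mul_assoc, map_mul, Polynomial.aeval_X, cm_mul, ← mul_assoc, ih, mul_assoc,
      sp_Dn, e, map_mul, cm_mul, ← mul_assoc, map_add,
      Polynomial.aeval_X, map_one, cm_add, cm_one]

/-- The algebraic identity behind uniformity. -/
theorem unif0 {W : Matrix (V → Fin 2) (V → Fin 2) ℝ} {b : Finset V}
    (hcomm : Sg b sp * cm W = cm W * Sg b sp) (P Q : Polynomial ℝ) :
    Matrix.trace (cm W * (cm (Polynomial.aeval (Om b) P) * cm (Polynomial.aeval (Dn b) Q) *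
        (Sg b sm * Sg b sp))) =
      Matrix.trace (cm W * (cm (Polynomial.aeval (Om b) P) *
        cm (Polynomial.aeval (Dn b) (Q.comp (Polynomial.X + 1))) * (Sg b sp * Sg b sm))) := by
  have hP : Sg b sp * cm (Polynomial.aeval (Om b) P) =
      cm (Polynomial.aeval (Om b) P) * Sg b sp := by
    apply comm_cm_aeval
    rw [cm_Om, Matrix.mul_sub, Matrix.sub_mul, Matrix.mul_smul, Matrix.smul_mul, mul_one, one_mul,
      Cas_Sp]
  have hQ := sp_aeval b Q
  set PP := cm (Polynomial.aeval (Om b) P)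
  set QQ := cm (Polynomial.aeval (Dn b) Q)
  set Q' := cm (Polynomial.aeval (Dn b) (Q.comp (Polynomial.X + 1)))
  set S := Sg b sp
  set T := Sg b sm
  have e1 : cm W * (PP * QQ * (T * S)) = (cm W * PP * QQ * T) * S := by noncomm_ring
  rw [e1, Matrix.trace_mul_comm]
  congr 1
  calc S * (cm W * PP * QQ * T) = (S * cm W) * PP * QQ * T := by noncomm_ring
    _ = cm W * (S * PP) * QQ * T := by rw [hcomm]; noncomm_ring
    _ = cm W * PP * (S * QQ) * T := by rw [hP]; noncomm_ring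
    _ = cm W * (PP * Q' * (S * T)) := by rw [hQ]; noncomm_ring

section law

variable {ι : Type} [Fintype ι] {μ : ι → ℝ} {N r p : ι → ℕ} {b : Finset V}
  {W : Matrix (V → Fin 2) (V → Fin 2) ℝ}

/-- Uniformity in the form of moments. -/
theorem unif1 (hN : ∀ i, N i + 2 * r i = b.card)
    (h : ∀ P Q : Polynomial ℝ, ∑ i, μ i * (P.eval ((r i : ℝ) * ((b.card : ℝ) - r i + 1)) *
      Q.eval ((r i : ℝ) + p i)) =
        Matrix.trace (W * (Polynomial.aeval (Om b) P * Polynomial.aeval (Dn b) Q)))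
    (hcomm : Sg b sp * cm W = cm W * Sg b sp) (P Q : Polynomial ℝ) :
    ∑ i, μ i * (P.eval ((r i : ℝ) * ((b.card : ℝ) - r i + 1)) * Q.eval ((r i : ℝ) + p i) *
        ((p i : ℝ) * ((N i : ℝ) - p i + 1))) =
      ∑ i, μ i * (P.eval ((r i : ℝ) * ((b.card : ℝ) - r i + 1)) * Q.eval ((r i : ℝ) + p i + 1) *
        (((N i : ℝ) - p i) * (p i + 1))) := by
  have h0 := unif0 hcomm P Q
  have hOm : ∀ Q : Polynomial ℝ, cm (Polynomial.aeval (Dn b) Q) * cm (Om b) =
      cm (Om b) * cm (Polynomial.aeval (Dn b) Q) := fun Q =>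
    (comm_cm_aeval (cm_Om_comm_Dn b) Q).symm
  -- both sides as traces
  have key : ∀ (Q : Polynomial ℝ) (c d : ℝ), Matrix.trace (cm W *
      (cm (Polynomial.aeval (Om b) P) * cm (Polynomial.aeval (Dn b) Q) *
        (-cm (Om b) + ((c : ℝ) : ℂ) • cm (Dn b) - cm (Dn b) * cm (Dn b) +
          ((d : ℝ) : ℂ) • (1 : Opr V)))) =
      ((∑ i, μ i * (P.eval ((r i : ℝ) * ((b.card : ℝ) - r i + 1)) * Q.eval ((r i : ℝ) + p i) *
        (-((r i : ℝ) * ((b.card : ℝ) - r i + 1)) + c * ((r i : ℝ) + p i) -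
          ((r i : ℝ) + p i) ^ 2 + d)) : ℝ) : ℂ) := by
    intro Q c d
    have e1 : cm W * (cm (Polynomial.aeval (Om b) P) * cm (Polynomial.aeval (Dn b) Q) *
        (-cm (Om b) + ((c : ℝ) : ℂ) • cm (Dn b) - cm (Dn b) * cm (Dn b) +
          ((d : ℝ) : ℂ) • (1 : Opr V))) =
        cm (W * (-(Polynomial.aeval (Om b) (P * Polynomial.X) * Polynomial.aeval (Dn b) Q) +
          c • (Polynomial.aeval (Om b) P * Polynomial.aeval (Dn b) (Q * Polynomial.X)) -
          Polynomial.aeval (Om b) P * Polynomial.aeval (Dn b) (Q * Polynomial.X ^ 2) +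
          d • (Polynomial.aeval (Om b) P * Polynomial.aeval (Dn b) Q))) := by
      have hneg : ∀ A : Matrix (V → Fin 2) (V → Fin 2) ℝ, cm (-A) = -cm A := by
        intro A; ext σ τ; simp [cm]
      rw [cm_mul]
      congr 1
      simp only [map_mul, Polynomial.aeval_X, map_pow, pow_two, cm_add, cm_sub, hneg, cm_smul,
        cm_mul, mul_add, mul_sub, mul_neg, Matrix.mul_smul, mul_one]
      have := hOm Q
      simp only [mul_assoc] at this ⊢
      rw [this]
    rw [e1, cm_trace]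
    congr 1
    simp only [Matrix.mul_add, Matrix.mul_sub, Matrix.mul_neg, Matrix.mul_smul, Matrix.trace_add,
      Matrix.trace_sub, Matrix.trace_neg, Matrix.trace_smul, ← h, smul_eq_mul]
    rw [← Finset.sum_neg_distrib, Finset.mul_sum, Finset.mul_sum, ← Finset.sum_add_distrib,
      ← Finset.sum_sub_distrib, ← Finset.sum_add_distrib]
    refine Finset.sum_congr rfl fun i _ => ?_
    simp only [Polynomial.eval_mul, Polynomial.eval_X, Polynomial.eval_pow]
    ring
  have k1 := key Q ((b.card : ℝ) + 1) 0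
  have k2 := key (Q.comp (Polynomial.X + 1)) ((b.card : ℝ) - 1) (b.card : ℝ)
  rw [← cm_spsm] at k2
  rw [Complex.ofReal_zero, zero_smul, add_zero, ← cm_smsp] at k1
  rw [k1, k2] at h0
  have h1 := Complex.ofReal_injective h0
  have hb : ∀ i, (b.card : ℝ) = N i + 2 * r i := fun i => by
    rw [← hN i]; push_cast; ring
  calc _ = _ := by
        refine Finset.sum_congr rfl fun i _ => ?_
        congr 2
        rw [hb i]; ring
    _ = _ := h1
    _ = _ := by
        refine Finset.sum_congr rfl fun i _ => ?_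
        rw [Polynomial.eval_comp]
        simp only [Polynomial.eval_add, Polynomial.eval_X, Polynomial.eval_one]
        congr 2
        rw [hb i]; ring

/-- Lagrange interpolation at the integers. -/
theorem exists_polyD (n : ℕ) (g : ℕ → ℝ) :
    ∃ P : Polynomial ℝ, ∀ q : ℕ, q ≤ n → P.eval (q : ℝ) = g q := by
  classical
  refine ⟨Lagrange.interpolate (Finset.range (n + 1)) (fun q : ℕ => (q : ℝ)) g, fun q hq => ?_⟩
  exact Lagrange.eval_interpolate_at_node g (fun a _ b _ h => Nat.cast_injective h)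
    (Finset.mem_range.2 (by omega))

/-- The weight of `(r, p)`. -/
noncomputable def nu (μ : ι → ℝ) (r p : ι → ℕ) (a c : ℕ) : ℝ :=
  ∑ i, μ i * if r i = a ∧ p i = c then 1 else 0

theorem nu_step (hN : ∀ i, N i + 2 * r i = b.card) (hp : ∀ i, p i ≤ N i)
    (h : ∀ P Q : Polynomial ℝ, ∑ i, μ i * (P.eval ((r i : ℝ) * ((b.card : ℝ) - r i + 1)) *
      Q.eval ((r i : ℝ) + p i)) =
        Matrix.trace (W * (Polynomial.aeval (Om b) P * Polynomial.aeval (Dn b) Q)))
    (hcomm : Sg b sp * cm W = cm W * Sg b sp) {a c : ℕ} (hac : 2 * a + c + 1 ≤ b.card) :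
    nu μ r p a (c + 1) = nu μ r p a c := by
  obtain ⟨P, hP⟩ := exists_poly b.card (fun x => if x = a then 1 else 0)
  obtain ⟨Q, hQ⟩ := exists_polyD (b.card + 1) (fun x => if x = a + c + 1 then 1 else 0)
  have h1 := unif1 hN h hcomm P Q
  have hP' : ∀ i, P.eval ((r i : ℝ) * ((b.card : ℝ) - r i + 1)) = if r i = a then 1 else 0 :=
    fun i => hP (r i) (by have := hN i; omega)
  have hQ' : ∀ i, Q.eval ((r i : ℝ) + p i) = if r i + p i = a + c + 1 then 1 else 0 := by
    intro i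
    rw [← Nat.cast_add]
    exact hQ _ (by have := hN i; have := hp i; omega)
  have hQ'' : ∀ i, Q.eval ((r i : ℝ) + p i + 1) = if r i + p i + 1 = a + c + 1 then 1 else 0 := by
    intro i
    have : ((r i : ℝ) + p i + 1) = ((r i + p i + 1 : ℕ) : ℝ) := by push_cast; ring
    rw [this]
    exact hQ _ (by have := hN i; have := hp i; omega)
  simp only [hP', hQ', hQ''] at h1
  have hac' : (0 : ℝ) < ((b.card : ℝ) - 2 * a - c) * (c + 1) := by
    have : ((2 * a + c + 1 : ℕ) : ℝ) ≤ b.card := by exact_mod_cast hac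
    push_cast at this
    have h2 : 0 < (b.card : ℝ) - 2 * a - c := by linarith
    positivity
  have e1 : ∀ i, μ i * ((if r i = a then (1 : ℝ) else 0) *
      (if r i + p i = a + c + 1 then 1 else 0) * ((p i : ℝ) * ((N i : ℝ) - p i + 1))) =
      (((b.card : ℝ) - 2 * a - c) * (c + 1)) *
        (μ i * if r i = a ∧ p i = c + 1 then 1 else 0) := by
    intro i
    by_cases h2 : r i = a
    · by_cases h3 : p i = c + 1
      · have h4 : (N i : ℝ) = b.card - 2 * a := by
          have := hN i; rw [h2] at this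
          rw [← this]; push_cast; ring
        rw [if_pos h2, if_pos (by omega), if_pos ⟨h2, h3⟩, h3, h4]
        push_cast
        ring
      · rw [if_neg (show ¬ (r i + p i = a + c + 1) by omega),
          if_neg (show ¬ (r i = a ∧ p i = c + 1) from fun h => h3 h.2)]
        simp
    · rw [if_neg h2, if_neg (show ¬ (r i = a ∧ p i = c + 1) from fun h => h2 h.1)]
      simp
  have e2 : ∀ i, μ i * ((if r i = a then (1 : ℝ) else 0) *
      (if r i + p i + 1 = a + c + 1 then 1 else 0) * (((N i : ℝ) - p i) * ((p i : ℝ) + 1))) =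
      (((b.card : ℝ) - 2 * a - c) * (c + 1)) *
        (μ i * if r i = a ∧ p i = c then 1 else 0) := by
    intro i
    by_cases h2 : r i = a
    · by_cases h3 : p i = c
      · have h4 : (N i : ℝ) = b.card - 2 * a := by
          have := hN i; rw [h2] at this
          rw [← this]; push_cast; ring
        rw [if_pos h2, if_pos (by omega), if_pos ⟨h2, h3⟩, h3, h4]
        ring
      · rw [if_neg (show ¬ (r i + p i + 1 = a + c + 1) by omega),
          if_neg (show ¬ (r i = a ∧ p i = c) from fun h => h3 h.2)]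
        simp
    · rw [if_neg h2, if_neg (show ¬ (r i = a ∧ p i = c) from fun h => h2 h.1)]
      simp
  simp only [e1, e2, ← Finset.mul_sum] at h1
  exact mul_left_cancel₀ hac'.ne' h1

theorem nu_eq (hN : ∀ i, N i + 2 * r i = b.card) (hp : ∀ i, p i ≤ N i)
    (h : ∀ P Q : Polynomial ℝ, ∑ i, μ i * (P.eval ((r i : ℝ) * ((b.card : ℝ) - r i + 1)) *
      Q.eval ((r i : ℝ) + p i)) =
        Matrix.trace (W * (Polynomial.aeval (Om b) P * Polynomial.aeval (Dn b) Q)))
    (hcomm : Sg b sp * cm W = cm W * Sg b sp) {a c : ℕ} (hac : 2 * a + c ≤ b.card) :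
    nu μ r p a c = nu μ r p a 0 := by
  induction c with
  | zero => rfl
  | succ c ih => rw [nu_step hN hp h hcomm (by omega), ih (by omega)]

theorem nu_nonneg (hμ : ∀ i, 0 ≤ μ i) (a c : ℕ) : 0 ≤ nu μ r p a c :=
  Finset.sum_nonneg fun i _ => mul_nonneg (hμ i) (by split_ifs <;> norm_num)

/-- `E[g(r)] ≤ (|b| + 1) E[g(r); p = 0]`. -/
theorem law_le (hμ : ∀ i, 0 ≤ μ i) (hN : ∀ i, N i + 2 * r i = b.card) (hp : ∀ i, p i ≤ N i)
    (h : ∀ P Q : Polynomial ℝ, ∑ i, μ i * (P.eval ((r i : ℝ) * ((b.card : ℝ) - r i + 1)) *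
      Q.eval ((r i : ℝ) + p i)) =
        Matrix.trace (W * (Polynomial.aeval (Om b) P * Polynomial.aeval (Dn b) Q)))
    (hcomm : Sg b sp * cm W = cm W * Sg b sp) {g : ℕ → ℝ} (hg : ∀ x, 2 * x ≤ b.card → 0 ≤ g x) :
    ∑ i, μ i * g (r i) ≤ ((b.card : ℝ) + 1) * ∑ i, μ i * (if p i = 0 then g (r i) else 0) := by
  classical
  -- the sum over `p i = c`
  have e0 : ∀ c : ℕ, ∑ i, μ i * (if p i = c then g (r i) else 0) =
      ∑ a ∈ Finset.range (b.card + 1), nu μ r p a c * g a := by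
    intro c
    simp only [nu, Finset.sum_mul]
    rw [Finset.sum_comm]
    refine Finset.sum_congr rfl fun i _ => ?_
    rw [Finset.sum_eq_single (r i)]
    · by_cases h1 : p i = c
      · simp [h1]
      · simp [h1]
    · intro a _ ha
      rw [if_neg (fun h => ha h.1.symm)]
      simp
    · intro h1
      exact absurd (Finset.mem_range.2 (by have := hN i; omega)) h1
  have e1 : ∀ c : ℕ, ∑ i, μ i * (if p i = c then g (r i) else 0) ≤
      ∑ i, μ i * (if p i = 0 then g (r i) else 0) := by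
    intro c
    rw [e0, e0]
    refine Finset.sum_le_sum fun a _ => ?_
    by_cases h1 : 2 * a ≤ b.card
    · by_cases h2 : 2 * a + c ≤ b.card
      · rw [nu_eq hN hp h hcomm h2]
      · have : nu μ r p a c = 0 := by
          refine Finset.sum_eq_zero fun i _ => ?_
          rw [if_neg, mul_zero]
          rintro ⟨h3, h4⟩
          have := hN i
          have := hp i
          omega
        rw [this, zero_mul]
        exact mul_nonneg (nu_nonneg hμ _ _) (hg a h1)
    · have : ∀ c, nu μ r p a c = 0 := by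
        intro c
        refine Finset.sum_eq_zero fun i _ => ?_
        rw [if_neg, mul_zero]
        rintro ⟨h3, h4⟩
        have := hN i
        omega
      rw [this, this]
  calc ∑ i, μ i * g (r i) =
        ∑ c ∈ Finset.range (b.card + 1), ∑ i, μ i * (if p i = c then g (r i) else 0) := by
        rw [Finset.sum_comm]
        refine Finset.sum_congr rfl fun i _ => ?_
        rw [← Finset.mul_sum, Finset.sum_ite_eq, if_pos]
        exact Finset.mem_range.2 (by have := hN i; have := hp i; omega)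
    _ ≤ ∑ c ∈ Finset.range (b.card + 1), ∑ i, μ i * (if p i = 0 then g (r i) else 0) :=
        Finset.sum_le_sum fun c _ => e1 c
    _ = _ := by
        rw [Finset.sum_const, Finset.card_range, nsmul_eq_mul]
        push_cast
        ring

end law

end Vale.Agent.P361.LRO.TwJ
end

section

/-!
P361, stage 3, (LT0): `tr exp(-β H_b + g(N_b)) ≤ (|b| + 1) (A tr exp(-β H_b - τ₁ D_b) + …)` for
couplings inside the block, `exp g ≤ A exp(-τ₁ r) + B exp(-τ₂ r)`.
-/

namespace Vale.Agent.P361.LRO.TwJ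

set_option linter.all false

open Matrix Finset
open scoped ComplexOrder

variable {V : Type} [Fintype V] [DecidableEq V]

theorem swap_comm_Sg {b : Finset V} {x y : V} (hx : x ∈ b) (hy : y ∈ b) (A : M2) :
    Sg b A * cm (swapM x y) = cm (swapM x y) * Sg b A := by
  have hs : ∀ z, Equiv.swap x y z ∈ b ↔ z ∈ b := by
    intro z
    by_cases hzx : z = x
    · subst hzx; simp [hx, hy]
    · by_cases hzy : z = y
      · subst hzy; simp [hx, hy]
      · rw [Equiv.swap_apply_of_ne_of_ne hzx hzy]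
  have hinv : ∀ σ τ : V → Fin 2, σ = τ ∘ Equiv.swap x y ↔ τ = σ ∘ Equiv.swap x y := by
    intro σ τ
    constructor
    · intro h; rw [h]; ext1 z; simp
    · intro h; rw [h]; ext1 z; simp
  have h1 : ∀ (X : Opr V) σ τ, (cm (swapM x y) * X) σ τ = X (σ ∘ Equiv.swap x y) τ := by
    intro X σ τ
    rw [Matrix.mul_apply, Finset.sum_eq_single (σ ∘ Equiv.swap x y)]
    · rw [cm, Matrix.of_apply, swapM, Matrix.of_apply, if_pos ((hinv _ _).2 rfl)]; simp
    · intro ρ _ hρ
      rw [cm, Matrix.of_apply, swapM, Matrix.of_apply, if_neg (fun h => hρ ((hinv _ _).1 h))]; simp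
    · intro h; exact absurd (Finset.mem_univ _) h
  have h2 : ∀ (X : Opr V) σ τ, (X * cm (swapM x y)) σ τ = X σ (τ ∘ Equiv.swap x y) := by
    intro X σ τ
    rw [Matrix.mul_apply, Finset.sum_eq_single (τ ∘ Equiv.swap x y)]
    · rw [cm, Matrix.of_apply, swapM, Matrix.of_apply, if_pos rfl]; simp
    · intro ρ _ hρ
      rw [cm, Matrix.of_apply, swapM, Matrix.of_apply, if_neg hρ]; simp
    · intro h; exact absurd (Finset.mem_univ _) h
  ext σ τ
  rw [h1, h2, Sg, Matrix.sum_apply, Matrix.sum_apply]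
  refine Finset.sum_bij' (fun z _ => Equiv.swap x y z) (fun z _ => Equiv.swap x y z)
    (fun z hz => (hs z).2 hz) (fun z hz => (hs z).2 hz) (fun z _ => by simp) (fun z _ => by simp)
    fun z hz => ?_
  rw [st_apply, st_apply]
  simp only [Function.comp_apply, Equiv.swap_apply_self]
  congr 1
  have : (∀ w, w ≠ z → σ w = τ (Equiv.swap x y w)) ↔
      (∀ w, w ≠ Equiv.swap x y z → σ (Equiv.swap x y w) = τ w) := by
    constructor
    · intro h w hw
      have := h (Equiv.swap x y w) (fun h' => hw (by rw [← h']; simp))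
      rwa [Equiv.swap_apply_self] at this
    · intro h w hw
      have := h (Equiv.swap x y w) (fun h' => hw ((Equiv.swap x y).injective h'))
      rwa [Equiv.swap_apply_self] at this
  simp only [this]

theorem hM_comm_Sg {b : Finset V} {x y : V} (hx : x ∈ b) (hy : y ∈ b) (A : M2) :
    Sg b A * cm (hM x y) = cm (hM x y) * Sg b A := by
  rw [hM, cm_smul, cm_sub, cm_one, Matrix.smul_mul, Matrix.mul_smul, Matrix.sub_mul,
    Matrix.mul_sub, swap_comm_Sg hx hy, one_mul, mul_one]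

theorem cm_zero : cm (0 : Matrix (V → Fin 2) (V → Fin 2) ℝ) = 0 := by
  ext σ τ; simp [cm]

theorem ham_comm_Sg {b : Finset V} {L : List (V × V)} (hL : ∀ e ∈ L, e.1 ∈ b ∧ e.2 ∈ b)
    (A : M2) :
    Sg b A * cm (ham L fun _ => 0) = cm (ham L fun _ => 0) * Sg b A := by
  have h0 : ham L (fun _ : V => (0 : ℝ)) = (L.map fun e => hM e.1 e.2).sum := by
    simp [ham]
  rw [h0]
  clear h0
  induction L with
  | nil => simp [cm_zero]
  | cons e L ih =>
    rw [List.map_cons, List.sum_cons, cm_add, mul_add, add_mul,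
      hM_comm_Sg (hL e (by simp)).1 (hL e (by simp)).2, ih fun e' he' => hL e' (by simp [he'])]

theorem comm_cm_exp {Y : Opr V} {A : Matrix (V → Fin 2) (V → Fin 2) ℝ}
    (h : Y * cm A = cm A * Y) : Y * cm (NormedSpace.exp A) = cm (NormedSpace.exp A) * Y := by
  have h3 := hasSum_exp_matrix A
  have hcm : Continuous fun X : Matrix (V → Fin 2) (V → Fin 2) ℝ => cm X := by
    unfold cm
    fun_prop
  have hc : Continuous fun X : Matrix (V → Fin 2) (V → Fin 2) ℝ =>
      Y * cm X - cm X * Y := by fun_prop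
  have h4 := h3.map (⟨⟨fun X : Matrix (V → Fin 2) (V → Fin 2) ℝ =>
      Y * cm X - cm X * Y, by simp [cm_zero]⟩, by
        intro X Z
        simp only [cm_add, Matrix.mul_add, Matrix.add_mul]
        abel⟩ :
          Matrix (V → Fin 2) (V → Fin 2) ℝ →+ Opr V) hc
  have hp : ∀ n : ℕ, Y * cm (A ^ n) = cm (A ^ n) * Y := by
    intro n
    induction n with
    | zero => simp [cm_one]
    | succ n ih => rw [pow_succ, cm_mul, ← mul_assoc, ih, mul_assoc, h, mul_assoc]
  have h5 : HasSum (fun _ : ℕ => (0 : Opr V))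
      (Y * cm (NormedSpace.exp A) - cm (NormedSpace.exp A) * Y) := by
    refine h4.congr_fun ?_
    intro n
    change 0 = Y * cm (((n.factorial : ℝ)⁻¹) • A ^ n) - cm (((n.factorial : ℝ)⁻¹) • A ^ n) * Y
    rw [cm_smul, Matrix.mul_smul, Matrix.smul_mul, hp, sub_self]
  exact sub_eq_zero.1 (h5.unique hasSum_zero)

theorem cm_injective : Function.Injective
    (cm : Matrix (V → Fin 2) (V → Fin 2) ℝ → Opr V) := by
  intro A B h
  ext σ τ
  have := congrFun (congrFun h σ) τ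
  simpa [cm] using this

theorem comm_of_Sg {b : Finset V} {X : Matrix (V → Fin 2) (V → Fin 2) ℝ}
    (h : ∀ A : M2, Sg b A * cm X = cm X * Sg b A) : Commute X (Om b) ∧ Commute X (Dn b) := by
  have hC : Cas b * cm X = cm X * Cas b := by
    have e1 : Sg b sm * Sg b sp * cm X = cm X * (Sg b sm * Sg b sp) := by
      rw [mul_assoc, h sp, ← mul_assoc, h sm, mul_assoc]
    have e2 : Sg b sz * Sg b sz * cm X = cm X * (Sg b sz * Sg b sz) := by
      rw [mul_assoc, h sz, ← mul_assoc, h sz, mul_assoc]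
    rw [Cas, Matrix.add_mul, Matrix.add_mul, Matrix.mul_add, Matrix.mul_add, e1, e2, h sz]
  constructor
  · apply cm_injective
    rw [cm_mul, cm_mul, cm_Om, Matrix.mul_sub, Matrix.sub_mul, Matrix.mul_smul, Matrix.smul_mul,
      mul_one, one_mul, hC]
  · apply cm_injective
    rw [cm_mul, cm_mul, cm_Dn, Matrix.mul_sub, Matrix.sub_mul, Matrix.mul_smul, Matrix.smul_mul,
      mul_one, one_mul, h sz]

theorem commute_aeval {X A : Matrix (V → Fin 2) (V → Fin 2) ℝ} (h : Commute X A)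
    (P : Polynomial ℝ) : Commute X (Polynomial.aeval A P) := by
  induction P using Polynomial.induction_on with
  | C a =>
    rw [Polynomial.aeval_C]
    exact Algebra.commutes' a X |>.symm
  | add p q hp hq => rw [map_add]; exact hp.add_right hq
  | monomial n a ih =>
    rw [pow_succ, ← mul_assoc, map_mul, Polynomial.aeval_X]
    exact ih.mul_right h

theorem hsym_exp (L : List (V × V)) (β : ℝ) (h : V → ℝ) (σ τ : V → Fin 2)
    (hd : NormedSpace.exp (-β • ham L h) σ τ ≠ 0) :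
    ∑ x, ((σ x : ℕ) : ℤ) = ∑ x, ((τ x : ℕ) : ℤ) := by
  have h1 := Tw.expH_cons L β h σ τ hd
  unfold Tw.dn at h1
  exact_mod_cast h1

/-- **(LT0), law form.** -/
theorem lt0_law {b : Finset V} {L : List (V × V)} (hL : ∀ e ∈ L, e.1 ∈ b ∧ e.2 ∈ b) (β : ℝ)
    {g : ℕ → ℝ} {G : Polynomial ℝ}
    (hG : ∀ r : ℕ, 2 * r ≤ b.card → G.eval ((r : ℝ) * ((b.card : ℝ) - r + 1)) = g r)
    {A B τ₁ τ₂ : ℝ} (hA : 0 ≤ A) (hB : 0 ≤ B) (h1 : 0 ≤ τ₁) (h2 : 0 ≤ τ₂)
    (hgAB : ∀ r : ℕ, 2 * r ≤ b.card →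
      Real.exp (g r) ≤ A * Real.exp (-τ₁ * r) + B * Real.exp (-τ₂ * r)) :
    Matrix.trace (NormedSpace.exp (-β • ham L (fun _ => 0) + Polynomial.aeval (Om b) G)) ≤
      ((b.card : ℝ) + 1) * (A * Matrix.trace
        (NormedSpace.exp (-β • ham L (fun _ => 0) - τ₁ • Dn b)) +
          B * Matrix.trace (NormedSpace.exp (-β • ham L (fun _ => 0) - τ₂ • Dn b))) := by
  have hcS := ham_comm_Sg hL
  obtain ⟨c1, c2⟩ := comm_of_Sg hcS
  set W := NormedSpace.exp (-β • ham L (fun _ : V => (0 : ℝ))) with hW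
  have hcomm : Sg b sp * cm W = cm W * Sg b sp := by
    apply comm_cm_exp
    rw [cm_smul, Matrix.mul_smul, Matrix.smul_mul, hcS]
  obtain ⟨ι, hι, μ, N, r, p, hμ, hNp, hlaw, -, -⟩ :=
    joint_law_poly (Tw.expH_psd L β fun _ => 0) (hsym_exp L β fun _ => 0) b
  rw [← hW] at hlaw
  have hN := fun i => (hNp i).1
  have hp := fun i => (hNp i).2
  -- the left side
  have e1 : NormedSpace.exp (-β • ham L (fun _ => 0) + Polynomial.aeval (Om b) G) =
      W * NormedSpace.exp ((1 : ℝ) • Polynomial.aeval (Om b) G) := by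
    rw [one_smul, hW]
    exact Matrix.exp_add_of_commute _ _ (commute_aeval (c1.smul_left _) G)
  have e2 : ∀ τ : ℝ, Matrix.trace (NormedSpace.exp (-β • ham L (fun _ => 0) - τ • Dn b)) =
      ∑ i, μ i * Real.exp (-τ * ((r i : ℝ) + p i)) := by
    intro τ
    have h3 : NormedSpace.exp (-β • ham L (fun _ => 0) - τ • Dn b) =
        W * NormedSpace.exp (-τ • Dn b) := by
      rw [hW, sub_eq_add_neg, ← neg_smul]
      exact Matrix.exp_add_of_commute _ _ ((c2.smul_left _).smul_right _)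
    rw [h3]
    have h4 := law_exp2 hlaw 0 (Polynomial.C (-τ) * Polynomial.X)
    simp only [Polynomial.eval_zero, Real.exp_zero, one_mul, Polynomial.eval_mul,
      Polynomial.eval_C, Polynomial.eval_X, map_zero, NormedSpace.exp_zero, map_mul,
      Polynomial.aeval_C, Polynomial.aeval_X, Algebra.algebraMap_eq_smul_one, Matrix.smul_mul]
      at h4
    exact h4.symm
  rw [e1, ← (law_fun hN hlaw hG).2 1, e2, e2]
  have hF := law_le hμ hN hp hlaw hcomm (g := fun r : ℕ =>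
    A * Real.exp (-τ₁ * r) + B * Real.exp (-τ₂ * r)) (fun x _ => by positivity)
  calc ∑ i, μ i * Real.exp (1 * g (r i)) ≤
        ∑ i, μ i * (A * Real.exp (-τ₁ * r i) + B * Real.exp (-τ₂ * r i)) := by
        refine Finset.sum_le_sum fun i _ => mul_le_mul_of_nonneg_left ?_ (hμ i)
        rw [one_mul]
        exact hgAB _ (by have := hN i; omega)
    _ ≤ _ := hF
    _ ≤ _ := by
        refine mul_le_mul_of_nonneg_left ?_ (by positivity)
        rw [Finset.mul_sum, Finset.mul_sum, ← Finset.sum_add_distrib]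
        refine Finset.sum_le_sum fun i _ => ?_
        have hμi := hμ i
        split_ifs with h0
        · rw [h0]
          simp only [Nat.cast_zero, add_zero]
          exact le_of_eq (by ring)
        · rw [mul_zero]
          positivity

end Vale.Agent.P361.LRO.TwJ
end

section

/-!
P361, stage 3, (LT0) for a general positive semidefinite matrix `W` commuting with the block
spin (all spins: `W = P exp(-β H)`).
-/

namespace Vale.Agent.P361.LRO.TwJ

set_option linter.all false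

open Matrix Finset
open scoped ComplexOrder

variable {V : Type} [Fintype V] [DecidableEq V]

end Vale.Agent.P361.LRO.TwJ
end

section

/-!
P361, stage 3: the free energy per site on the torus, `log Tr exp(-β ham) / n³ - β h / 2`, tends to
the reduced pressure `gRed 1 β h`; landed lower bound.
-/

namespace Vale.Agent.P361.LRO.S3

open Finset Matrix Filter Topology

noncomputable section

end

end Vale.Agent.P361.LRO.S3
end

section

/-!
P361, stage 3, all spins: identification of the symmetrised partition functions of the copies with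
the partition functions of the spin `s / 2` models: free boxes (`B.Zt`) and tori.
-/

namespace Vale.Agent.P361.LRO.S3S

open Finset Matrix Filter Topology Vale.Agent.P361.LRO.GenS Vale.Agent.P361.LRO.S3
open Vale.Agent.P361.LRO.TwJ

noncomputable section

section General

variable {V : Type} [Fintype V] [DecidableEq V] {s : ℕ}

/-- `∑ (S² - S_x · S_y)` over the edges of `L`, spin `s / 2`. -/
def hamSp (s : ℕ) (L : List (V × V)) : Matrix (V → Fin (s + 1)) (V → Fin (s + 1)) ℂ :=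
  (L.map fun e => (((s : ℂ) / 2) ^ 2) • (1 : Matrix (V → Fin (s + 1)) (V → Fin (s + 1)) ℂ) -
    ∑ a : Fin 3, siteOpV e.1 (Model.spin s a) * siteOpV e.2 (Model.spin s a)).sum

/-- `∑ (S - S³_x)`. -/
def numSp (s : ℕ) (V : Type) [Fintype V] [DecidableEq V] :
    Matrix (V → Fin (s + 1)) (V → Fin (s + 1)) ℂ :=
  ∑ x : V, (((s : ℂ) / 2) • (1 : Matrix (V → Fin (s + 1)) (V → Fin (s + 1)) ℂ) -
    siteOpV x (Model.spin s 2))

theorem edge_mul {x y : V} (hxy : x ≠ y) :
    cM (∑ ab : Fin s × Fin s, LRO.hM (x, ab.1) (y, ab.2)) * WV s V =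
      WV s V * ((((s : ℂ) / 2) ^ 2) • (1 : Matrix (V → Fin (s + 1)) (V → Fin (s + 1)) ℂ) -
        ∑ a : Fin 3, siteOpV x (Model.spin s a) * siteOpV y (Model.spin s a)) := by
  have h1 := tot_mul_tot (m := s) x y hxy
  have h2 : cM (∑ ab : Fin s × Fin s, LRO.hM ((x, ab.1) : V × Fin s) (y, ab.2)) =
      ((s : ℂ) ^ 2 * (1 / 4)) • (1 : Matrix (V × Fin s → Fin 2) (V × Fin s → Fin 2) ℂ) -
        ∑ a : Fin 3, tot s a x * tot s a y := by
    rw [h1]
    abel
  rw [h2, Matrix.sub_mul, Matrix.mul_sub, Matrix.smul_mul, Matrix.mul_smul, Matrix.one_mul,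
    Matrix.mul_one, Matrix.sum_mul, Matrix.mul_sum]
  congr 1
  · congr 1
    ring
  · refine Finset.sum_congr rfl fun a _ => ?_
    rw [Matrix.mul_assoc, tot_mul, ← Matrix.mul_assoc, tot_mul, Matrix.mul_assoc]

theorem inter_mul (L : List (V × V)) (hL : ∀ e ∈ L, e.1 ≠ e.2) :
    cM (((interL L s).map fun e => LRO.hM e.1 e.2).sum) * WV s V = WV s V * hamSp s L := by
  rw [sum_interL, hamSp]
  induction L with
  | nil => simp [cM_zero]
  | cons e L ih =>
    rw [List.map_cons, List.map_cons, List.sum_cons, List.sum_cons, cM_add, Matrix.add_mul,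
      Matrix.mul_add, ih fun e he => hL e (List.mem_cons_of_mem _ he),
      edge_mul (hL e List.mem_cons_self)]

theorem num_mul : cM (Dn (univ : Finset (V × Fin s))) * WV s V = WV s V * numSp s V := by
  have h1 : cM (Dn (univ : Finset (V × Fin s))) =
      ∑ x : V, (((s : ℂ) / 2) • (1 : Matrix (V × Fin s → Fin 2) (V × Fin s → Fin 2) ℂ) -
        tot s 2 x) := by
    rw [Dn, Fintype.sum_prod_type, cM_sum]
    refine Finset.sum_congr rfl fun x _ => ?_
    have h2 : ∑ i : Fin s, (1 / 2 : ℝ) •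
        (1 - szM ((x, i) : V × Fin s)) =
        ((s : ℝ) / 2) • (1 : Matrix (V × Fin s → Fin 2) (V × Fin s → Fin 2) ℝ) -
          ∑ i : Fin s, (1 / 2 : ℝ) • szM ((x, i) : V × Fin s) := by
      simp only [smul_sub, Finset.sum_sub_distrib, Finset.sum_const, Finset.card_univ,
        Fintype.card_fin]
      congr 1
      rw [← Nat.cast_smul_eq_nsmul ℝ, smul_smul]
      congr 1
      ring
    rw [h2, cM_sub, ← tot_z, cM_smul, cM_one]
    push_cast
    rfl
  rw [h1, numSp, Matrix.sum_mul, Matrix.mul_sum]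
  refine Finset.sum_congr rfl fun x _ => ?_
  rw [Matrix.sub_mul, Matrix.mul_sub, Matrix.smul_mul, Matrix.mul_smul, Matrix.one_mul,
    Matrix.mul_one, tot_mul]

/-- The bridge of the partition functions, general graph. -/
theorem trace_spin [NeZero s] (L : List (V × V)) (hL : ∀ e ∈ L, e.1 ≠ e.2) (β τ : ℝ) :
    trace (NormedSpace.exp (-((β : ℂ) • hamSp s L + (τ : ℂ) • numSp s V))) =
      ((trace (symProd V s * NormedSpace.exp (-β • ham (interL L s) 0 -
        τ • Dn (univ : Finset (V × Fin s)))) : ℝ) : ℂ) := by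
  have hA : cM (-β • ham (interL L s) 0 - τ • Dn (univ : Finset (V × Fin s))) * WV s V =
      WV s V * (-((β : ℂ) • hamSp s L + (τ : ℂ) • numSp s V)) := by
    have h0 : ham (interL L s) 0 = ((interL L s).map fun e => LRO.hM e.1 e.2).sum := by
      simp [ham]
    rw [h0, cM_sub, cM_smul, cM_smul, Matrix.sub_mul, Matrix.smul_mul, Matrix.smul_mul,
      inter_mul L hL, num_mul, neg_add, Matrix.mul_add, Matrix.mul_neg, Matrix.mul_neg,
      Matrix.mul_smul, Matrix.mul_smul]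
    push_cast
    module
  rw [trace_exp_bridge hA (WV_conj_mul s), WV_mul_conj, symV_eq, exp_cM, ← cM_mul, trace_cM,
    Matrix.trace_mul_comm]

end General

section Box

variable {Λ : Finset Site} {s : ℕ}

theorem hT_eq (s : ℕ) (Λ : Finset Site) : B.hT s Λ = (1 / 2 : ℂ) • hamSp s (nnL Λ) := by
  have h0 : hamSp s (nnL Λ) = ∑ x : Λ, ∑ y : Λ,
      if IsNN x.1 y.1 then ((((s : ℂ) / 2) ^ 2) •
        (1 : Matrix (Λ → Fin (s + 1)) (Λ → Fin (s + 1)) ℂ) -
        ∑ a : Fin 3, siteOpV x (Model.spin s a) * siteOpV y (Model.spin s a)) else 0 := by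
    rw [hamSp, nnL, Finset.sum_map_toList, Finset.sum_filter, Fintype.sum_prod_type]
  rw [h0]
  rfl

theorem numOp_eq (s : ℕ) (Λ : Finset Site) : B.numOp s Λ = numSp s Λ := rfl

/-- **Free boxes**: the spin `s / 2` partition function in terms of the copies. -/
theorem Zt_eq [NeZero s] (Λ : Finset Site) (β τ : ℝ) : B.Zt s Λ β τ =
    trace (symProd Λ s * NormedSpace.exp (-(β / 2) • ham (interL (nnL Λ) s) 0 -
      τ • Dn (univ : Finset (Λ × Fin s)))) := by
  have hL : ∀ e ∈ nnL Λ, e.1 ≠ e.2 := by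
    intro e he
    rw [nnL, Finset.mem_toList, Finset.mem_filter] at he
    exact H.isNN_ne he.2
  have h1 := trace_spin (s := s) (nnL Λ) hL (β / 2) τ
  rw [B.Zt, hT_eq, numOp_eq]
  have h2 : (β : ℂ) • ((1 / 2 : ℂ) • hamSp s (nnL Λ)) =
      ((β / 2 : ℝ) : ℂ) • hamSp s (nnL Λ) := by
    rw [smul_smul]
    congr 1
    push_cast
    ring
  rw [h2, h1, Complex.ofReal_re]

end Box

end

end Vale.Agent.P361.LRO.S3S
end

section

/-! P361, LRO: the Harnack step of block (8).  `F = 1/M` is analytic in the strip `|Im z| < π/2`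
with `Re F ≥ cos (Im z)`; then `f = F - 1` satisfies `f y ≤ 2 f x + (9/2) (y-x)^2`. -/

namespace Vale.Agent.P361.LRO

open Complex Metric Set

theorem norm_sub_le_norm_add {w g : ℂ} (hw : 0 ≤ w.re) (hg : 0 ≤ g.re) (hgi : g.im = 0) :
    ‖w - g‖ ≤ ‖w + g‖ := by
  rw [Complex.norm_def, Complex.norm_def]
  apply Real.sqrt_le_sqrt
  simp only [Complex.normSq_apply, Complex.sub_re, Complex.sub_im, Complex.add_re,
    Complex.add_im, hgi]
  nlinarith [mul_nonneg hw hg]

/-- Harnack inequality with radius three times the distance, at real values. -/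
theorem harnack_ball (G : ℂ → ℂ) (c z : ℂ) {r : ℝ} (hr : 0 < r)
    (hG : DifferentiableOn ℂ G (ball c r)) (hre : ∀ w ∈ ball c r, 0 ≤ (G w).re)
    (hz : 3 * dist z c ≤ r) (hc : (G c).im = 0) (hzi : (G z).im = 0) :
    (G z).re ≤ 2 * (G c).re := by
  have hzb : z ∈ ball c r := by
    rw [mem_ball]
    have := dist_nonneg (x := z) (y := c)
    rcases this.eq_or_lt with h | h
    · rw [← h]; exact hr
    · linarith
  have hcb : c ∈ ball c r := mem_ball_self hr
  refine le_of_forall_pos_le_add fun δ hδ => ?_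
  set g : ℂ := (((G c).re + δ : ℝ) : ℂ) with hg
  have hgpos : 0 < (G c).re + δ := by have := hre c hcb; linarith
  have hden : ∀ w ∈ ball c r, (G w + (δ : ℂ)) + g ≠ 0 := by
    intro w hw h0
    have := congrArg Complex.re h0
    simp only [hg, Complex.add_re, Complex.ofReal_re, Complex.zero_re] at this
    have h1 := hre w hw
    linarith
  have hGc : G c + (δ : ℂ) = g := by
    apply Complex.ext
    · simp [hg]
    · simp [hg, hc]
  let φ : ℂ → ℂ := fun w => ((G w + (δ : ℂ)) - g) / ((G w + (δ : ℂ)) + g)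
  have hφd : DifferentiableOn ℂ φ (ball c r) := by
    refine DifferentiableOn.div ?_ ?_ hden
    · exact (hG.add_const _).sub_const _
    · exact (hG.add_const _).add_const _
  have hφc : φ c = 0 := by simp [φ, hGc]
  have hmaps : MapsTo φ (ball c r) (closedBall (φ c) 1) := by
    intro w hw
    rw [hφc, mem_closedBall, dist_zero_right, norm_div]
    refine div_le_one_of_le₀ ?_ (norm_nonneg _)
    refine norm_sub_le_norm_add ?_ ?_ ?_
    · have := hre w hw
      simp only [Complex.add_re, Complex.ofReal_re]; linarith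
    · simp only [hg, Complex.ofReal_re]; linarith
    · simp [hg]
  have hs := dist_le_div_mul_dist_of_mapsTo_ball hφd hmaps hzb
  rw [hφc, dist_zero_right, norm_div] at hs
  have h13 : 1 / r * dist z c ≤ 1 / 3 := by
    rw [one_div_mul_eq_div, div_le_div_iff₀ hr (by norm_num)]
    linarith
  have hs' := hs.trans h13
  have hnp : 0 < ‖(G z + (δ : ℂ)) + g‖ := norm_pos_iff.mpr (hden z hzb)
  rw [div_le_iff₀ hnp] at hs'
  have e1 : (G z + (δ : ℂ)) - g = (((G z).re + δ - ((G c).re + δ) : ℝ) : ℂ) := by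
    apply Complex.ext <;> simp [hg, hzi]
  have e2 : (G z + (δ : ℂ)) + g = (((G z).re + δ + ((G c).re + δ) : ℝ) : ℂ) := by
    apply Complex.ext <;> simp [hg, hzi]
  rw [e1, e2, Complex.norm_real, Complex.norm_real, Real.norm_eq_abs, Real.norm_eq_abs,
    abs_of_pos (by have := hre z hzb; linarith : 0 < (G z).re + δ + ((G c).re + δ))] at hs'
  have := (le_abs_self _).trans hs'
  linarith

/-- The Harnack step: `f = F - 1` with `Re F ≥ cos (Im z)` in the strip `|Im z| < π/2`. -/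
theorem harnack_strip (F : ℂ → ℂ)
    (hF : DifferentiableOn ℂ F {z | |z.im| < Real.pi / 2})
    (hre : ∀ z : ℂ, |z.im| < Real.pi / 2 → Real.cos z.im ≤ (F z).re)
    (x y : ℝ) (hx : (F x).im = 0) (hy : (F y).im = 0) (hd : 3 * |y - x| < Real.pi / 2) :
    (F y).re - 1 ≤ 2 * ((F x).re - 1) + (9 / 2) * (y - x) ^ 2 := by
  have hx1 : 1 ≤ (F x).re := by
    have := hre x (by simp [Real.pi_pos])
    simpa using this
  rcases eq_or_ne x y with rfl | hne
  · simp; linarith
  set d := |y - x| with hdd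
  have hdpos : 0 < d := abs_pos.mpr (sub_ne_zero.mpr hne.symm)
  have him : ∀ w ∈ ball (x : ℂ) (3 * d), |w.im| < 3 * d := by
    intro w hw
    rw [mem_ball, Complex.dist_eq] at hw
    have h1 := Complex.abs_im_le_norm (w - x)
    simp only [Complex.sub_im, Complex.ofReal_im, sub_zero] at h1
    linarith
  have h := harnack_ball (fun w => F w + (((3 * d) ^ 2 / 2 - 1 : ℝ) : ℂ)) x y (r := 3 * d)
    (by positivity) ?_ ?_ ?_ ?_ ?_
  · simp only [Complex.add_re, Complex.ofReal_re] at h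
    have hd2 : d ^ 2 = (y - x) ^ 2 := by rw [hdd, sq_abs]
    nlinarith [h, hd2]
  · refine (hF.mono ?_).add_const _
    intro w hw
    exact (him w hw).trans hd
  · intro w hw
    have h1 := him w hw
    have h2 := hre w (h1.trans hd)
    have h3 := Real.one_sub_sq_div_two_le_cos (x := w.im)
    have h4 : w.im ^ 2 ≤ (3 * d) ^ 2 := by
      rw [← sq_abs w.im]
      exact pow_le_pow_left₀ (abs_nonneg _) h1.le 2
    simp only [Complex.add_re, Complex.ofReal_re]
    linarith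
  · rw [Complex.dist_eq, ← Complex.ofReal_sub, Complex.norm_real, Real.norm_eq_abs]
  · rw [Complex.add_im, Complex.ofReal_im, hx, add_zero]
  · rw [Complex.add_im, Complex.ofReal_im, hy, add_zero]

end Vale.Agent.P361.LRO
end

section

/-!
P361, step (8) at finite Trotter number: zero-free strip and the Harnack inequality for the
magnetization.
-/

namespace Vale.Agent.P361.LRO

open Complex Matrix

noncomputable section

variable {V : Type*} [Fintype V] [DecidableEq V]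

/-- All gates of one step. -/
def gprod (l : List (V × V)) (a b : ℝ) : Matrix (V → Fin 2) (V → Fin 2) ℂ :=
  (l.map fun e => gate a b e.1 e.2).prod

lemma good_gprod {g : ℝ} (l : List (V × V)) {a b : ℝ} (ha : 0 ≤ a) (hb : 0 ≤ b)
    (hab : 0 < a + b) : Good g (gprod l a b) := by
  refine Good.list fun A hA => ?_
  obtain ⟨e, _, rfl⟩ := List.mem_map.mp hA
  exact good_gate ha hb hab _ _

lemma par_gprod (l : List (V × V)) (a b : ℝ) : par * gprod l a b = gprod l a b * par := by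
  induction l with
  | nil => simp [gprod]
  | cons e l ih =>
    have : gprod (e :: l) a b = gate a b e.1 e.2 * gprod l a b := by simp [gprod]
    rw [this, ← Matrix.mul_assoc, par_gate, Matrix.mul_assoc, ih, Matrix.mul_assoc]

/-- One Trotter step. -/
def step (l : List (V × V)) (a b : ℝ) (s : V → ℂ) : Matrix (V → Fin 2) (V → Fin 2) ℂ :=
  gprod l a b * fieldMat s

lemma strict_step {g : ℝ} (hg : 0 < Real.cos g) (l : List (V × V)) {a b : ℝ} (ha : 0 ≤ a)
    (hb : 0 ≤ b) (hab : 0 < a + b) {s : V → ℂ}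
    (hs : ∀ x, |(s x).im| * |Real.sin g| < (s x).re * Real.cos g) :
    Strict g (step l a b s) :=
  Strict.mul_left (good_gprod l ha hb hab) (strict_field hg hs)

lemma strict_pow {g : ℝ} {A : Matrix (V → Fin 2) (V → Fin 2) ℂ} (h : Strict g A) (n : ℕ) :
    Strict g (A ^ (n + 1)) := by
  rw [pow_succ]
  exact Strict.mul_left (h.good.pow n) h

lemma par_step (l : List (V × V)) (a b : ℝ) (s : V → ℂ) :
    par * step l a b s = step l a b s * par := by
  rw [step, ← Matrix.mul_assoc, par_gprod, Matrix.mul_assoc, par_field, Matrix.mul_assoc]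

lemma par_pow {A : Matrix (V → Fin 2) (V → Fin 2) ℂ} (h : par * A = A * par) (n : ℕ) :
    par * A ^ n = A ^ n * par := by
  have : Commute par A := h
  exact (this.pow_right n).eq

/-- Partition function of the Trotter word. -/
def ZW (l : List (V × V)) (a b : ℝ) (N : ℕ) (s : V → ℂ) : ℂ := (step l a b s ^ N).trace

/-- The same with `σ³_x` inserted. -/
def WW (l : List (V × V)) (a b : ℝ) (N : ℕ) (x : V) (s : V → ℂ) : ℂ :=
  (ins x s3 * step l a b s ^ N).trace

lemma WW_ne_zero (l : List (V × V)) {a b : ℝ} (ha : 0 ≤ a) (hb : 0 ≤ b) (hab : 0 < a + b)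
    {N : ℕ} (hN : 2 ≤ N) (x : V) {s : V → ℂ} (hs : ∀ x, 0 < (s x).re) :
    WW l a b N x s ≠ 0 := by
  obtain ⟨n, rfl⟩ : ∃ n, N = n + 1 + 1 := ⟨N - 2, by omega⟩
  have h0 : Strict 0 (step l a b s) := strict_step (by simp) l ha hb hab (by simpa using hs)
  have e : step l a b s ^ (n + 1 + 1) = step l a b s ^ (n + 1) * step l a b s := pow_succ _ _
  rw [WW, e]
  exact trace_s3_ne_zero x h0 (strict_pow h0 n) (by rw [← e]; exact par_pow (par_step l a b s) _)

/-- The half plane bound at finite Trotter number. -/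
lemma re_ZW_div {l : List (V × V)} {a b : ℝ} (ha : 0 ≤ a) (hb : 0 ≤ b) (hab : 0 < a + b)
    {N : ℕ} (hN : 2 ≤ N) (x : V) {al : ℝ} (hal0 : 0 ≤ al) (hal : al < Real.pi / 2) {s : V → ℂ}
    (hs : ∀ g : ℝ, |g| < Real.pi / 2 - al →
      ∀ x, |(s x).im| * |Real.sin g| < (s x).re * Real.cos g) :
    Real.cos al ≤ (ZW l a b N s / WW l a b N x s).re := by
  have hpi := Real.pi_pos
  have hs0 : ∀ x, 0 < (s x).re := fun y => by
    have := hs 0 (by rw [abs_zero]; linarith) y
    simpa using this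
  refine region hal0 hal (WW_ne_zero l ha hb hab hN x hs0) fun t ht => ?_
  obtain ⟨n, rfl⟩ : ∃ n, N = n + 1 := ⟨N - 1, by omega⟩
  set c : ℝ := (Real.pi / 2 - al) / (Real.pi - al) with hc
  have hd : 0 < Real.pi - al := by linarith
  have hc0 : 0 < c := div_pos (by linarith) hd
  have hg1 : |t.re * c| < Real.pi / 2 - al := by
    rw [abs_mul, abs_of_pos hc0]
    calc |t.re| * c < (Real.pi - al) * c := mul_lt_mul_of_pos_right ht hc0
      _ = Real.pi / 2 - al := by rw [hc]; field_simp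
  have hg2 : |t.re - t.re * c| < Real.pi / 2 := by
    have e : t.re - t.re * c = t.re * (1 - c) := by ring
    have h1c : 1 - c = (Real.pi / 2) / (Real.pi - al) := by
      rw [hc]; field_simp; ring
    have h1c0 : 0 < 1 - c := by rw [h1c]; positivity
    rw [e, abs_mul, abs_of_pos h1c0]
    calc |t.re| * (1 - c) < (Real.pi - al) * (1 - c) := mul_lt_mul_of_pos_right ht h1c0
      _ = Real.pi / 2 := by rw [h1c]; field_simp
  have hcg : 0 < Real.cos (t.re * c) := by
    rw [← Real.cos_abs]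
    exact Real.cos_pos_of_mem_Ioo ⟨by have := abs_nonneg (t.re * c); linarith, by linarith⟩
  have hct : 0 < Real.cos (t.re - t.re * c) := by
    rw [← Real.cos_abs]
    exact Real.cos_pos_of_mem_Ioo ⟨by have := abs_nonneg (t.re - t.re * c); linarith, hg2⟩
  exact trace_ins_ne_zero x hct (strict_pow (strict_step hcg l ha hb hab (hs _ hg1)) n)
    (par_pow (par_step l a b s) _)

/-! ### Differentiability -/

/-- Entrywise differentiability. -/
def MD (A : ℂ → Matrix (V → Fin 2) (V → Fin 2) ℂ) : Prop :=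
  ∀ σ τ, Differentiable ℂ fun ζ => A ζ σ τ

omit [Fintype V] [DecidableEq V] in
lemma MD.const (A : Matrix (V → Fin 2) (V → Fin 2) ℂ) : MD fun _ => A := fun _ _ =>
  differentiable_const _

lemma MD.mul {A B : ℂ → Matrix (V → Fin 2) (V → Fin 2) ℂ} (hA : MD A) (hB : MD B) :
    MD fun ζ => A ζ * B ζ := fun σ τ => by
  simp only [Matrix.mul_apply]
  exact Differentiable.fun_sum fun i _ => (hA σ i).mul (hB i τ)

lemma MD.pow {A : ℂ → Matrix (V → Fin 2) (V → Fin 2) ℂ} (hA : MD A) (n : ℕ) :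
    MD fun ζ => A ζ ^ n := by
  induction n with
  | zero => simp only [pow_zero]; exact MD.const 1
  | succ n ih => simp only [pow_succ]; exact ih.mul hA

lemma MD.trace {A : ℂ → Matrix (V → Fin 2) (V → Fin 2) ℂ} (hA : MD A) :
    Differentiable ℂ fun ζ => (A ζ).trace := by
  simp only [Matrix.trace, Matrix.diag_apply]
  exact Differentiable.fun_sum fun i _ => hA i i

omit [DecidableEq V] in
lemma MD.field {s : ℂ → V → ℂ} (hs : ∀ x, Differentiable ℂ fun ζ => s ζ x) :
    MD fun ζ => fieldMat (s ζ) := fun σ τ => by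
  simp only [fieldMat, prodMat, Matrix.of_apply]
  refine Differentiable.fun_finsetProd fun y _ => ?_
  generalize σ y = i
  generalize τ y = j
  fin_cases i <;> fin_cases j <;> simp [fieldFac]
  · exact (hs y).cexp
  · exact (hs y).neg.cexp

lemma MD.step {s : ℂ → V → ℂ} (l : List (V × V)) (a b : ℝ)
    (hs : ∀ x, Differentiable ℂ fun ζ => s ζ x) : MD fun ζ => step l a b (s ζ) :=
  (MD.const _).mul (MD.field hs)

/-! ### Real words -/

/-- Real matrices. -/
def RM (A : Matrix (V → Fin 2) (V → Fin 2) ℂ) : Prop := ∀ σ τ, (A σ τ).im = 0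

lemma RM.mul {A B : Matrix (V → Fin 2) (V → Fin 2) ℂ} (hA : RM A) (hB : RM B) : RM (A * B) :=
  fun σ τ => by
    rw [Matrix.mul_apply, im_sum]
    exact Finset.sum_eq_zero fun i _ => by rw [mul_im, hA, hB]; ring

lemma RM.one : RM (1 : Matrix (V → Fin 2) (V → Fin 2) ℂ) := fun σ τ => by
  rw [Matrix.one_apply]; split <;> simp

lemma RM.pow {A : Matrix (V → Fin 2) (V → Fin 2) ℂ} (hA : RM A) (n : ℕ) : RM (A ^ n) := by
  induction n with
  | zero => rw [pow_zero]; exact RM.one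
  | succ n ih => rw [pow_succ]; exact ih.mul hA

lemma RM.trace {A : Matrix (V → Fin 2) (V → Fin 2) ℂ} (hA : RM A) : (A.trace).im = 0 := by
  rw [Matrix.trace, im_sum]
  exact Finset.sum_eq_zero fun i _ => hA i i

lemma RM.gate (a b : ℝ) (x y : V) : RM (gate a b x y) := fun σ τ => by
  simp only [Vale.Agent.P361.LRO.gate, swapMat, Matrix.add_apply, Matrix.smul_apply, smul_eq_mul,
    Matrix.of_apply, Matrix.one_apply]
  split <;> split <;> simp

lemma RM.gprod (l : List (V × V)) (a b : ℝ) : RM (gprod l a b) := by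
  induction l with
  | nil => simp only [Vale.Agent.P361.LRO.gprod, List.map_nil, List.prod_nil]; exact RM.one
  | cons e l ih =>
    simp only [Vale.Agent.P361.LRO.gprod, List.map_cons, List.prod_cons]
    exact (RM.gate _ _ _ _).mul ih

lemma RM.prodMat {R : V → Matrix (Fin 2) (Fin 2) ℂ} (h : ∀ y i j, (R y i j).im = 0) :
    RM (prodMat R) := fun σ τ => by
  rw [Vale.Agent.P361.LRO.prodMat, Matrix.of_apply]
  have : ∀ s : Finset V, (∏ y ∈ s, R y (σ y) (τ y)).im = 0 := fun s => by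
    induction s using Finset.induction_on with
    | empty => simp
    | insert y s hy ih => rw [Finset.prod_insert hy, mul_im, ih, h]; ring
  exact this _

lemma RM.fieldMat {s : V → ℂ} (hs : ∀ x, (s x).im = 0) : RM (fieldMat s) := by
  refine RM.prodMat fun y i j => ?_
  have e : s y = ((s y).re : ℂ) := by apply Complex.ext <;> simp [hs y]
  rw [e]
  fin_cases i <;> fin_cases j <;> simp [fieldFac, exp_im]

lemma RM.ins (x : V) : RM (ins x s3) := by
  refine RM.prodMat fun y i j => ?_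
  split
  · fin_cases i <;> fin_cases j <;> simp [s3]
  · rw [Matrix.one_apply]; split <;> simp

lemma ZW_im {l : List (V × V)} {a b : ℝ} {N : ℕ} {s : V → ℂ} (hs : ∀ x, (s x).im = 0) :
    (ZW l a b N s).im = 0 :=
  (((RM.gprod l a b).mul (RM.fieldMat hs)).pow N).trace

lemma WW_im {l : List (V × V)} {a b : ℝ} {N : ℕ} {x : V} {s : V → ℂ}
    (hs : ∀ x, (s x).im = 0) : (WW l a b N x s).im = 0 :=
  ((RM.ins x).mul (((RM.gprod l a b).mul (RM.fieldMat hs)).pow N)).trace

/-- Step (8) at finite Trotter number. -/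
theorem finite_harnack (l : List (V × V)) {a b : ℝ} (ha : 0 ≤ a) (hb : 0 ≤ b) (hab : 0 < a + b)
    {N : ℕ} (hN : 2 ≤ N) (x : V) {c c' : V → ℝ} (hc : ∀ y, 0 < c y) (hc' : ∀ y, 0 < c' y) {s : ℝ}
    (hs : 3 * s < Real.pi / 2) (hcc : ∀ y, |Real.log (c' y) - Real.log (c y)| ≤ s) :
    (ZW l a b N (fun y => (c' y : ℂ)) / WW l a b N x (fun y => (c' y : ℂ))).re - 1 ≤
      2 * ((ZW l a b N (fun y => (c y : ℂ)) / WW l a b N x (fun y => (c y : ℂ))).re - 1) +
        (9 / 2) * s ^ 2 := by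
  have hs0 : 0 ≤ s := (abs_nonneg _).trans (hcc x)
  set u : V → ℝ := fun y => (Real.log (c' y) - Real.log (c y)) / s with hu
  have hu1 : ∀ y, |u y| ≤ 1 := fun y => by
    rw [hu]; simp only
    rw [abs_div, abs_of_nonneg hs0]
    exact div_le_one_of_le₀ (hcc y) hs0
  set p : ℂ → V → ℂ := fun ζ y => (c y : ℂ) * exp (ζ * u y) with hp
  set F : ℂ → ℂ := fun ζ => ZW l a b N (p ζ) / WW l a b N x (p ζ) with hF
  have hpre : ∀ ζ y, (p ζ y).re = c y * Real.exp (ζ.re * u y) * Real.cos (ζ.im * u y) := by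
    intro ζ y
    simp only [hp, mul_re, exp_re, exp_im, ofReal_re, ofReal_im, mul_im, mul_zero, sub_zero,
      zero_mul, zero_add]
    ring
  have hpim : ∀ ζ y, (p ζ y).im = c y * Real.exp (ζ.re * u y) * Real.sin (ζ.im * u y) := by
    intro ζ y
    simp only [hp, mul_re, exp_re, exp_im, ofReal_re, ofReal_im, mul_im, mul_zero, sub_zero,
      zero_mul, zero_add, add_zero]
    ring
  have hpi := Real.pi_pos
  have key : ∀ ζ : ℂ, |ζ.im| < Real.pi / 2 → ∀ g : ℝ, |g| < Real.pi / 2 - |ζ.im| →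
      ∀ y, |(p ζ y).im| * |Real.sin g| < (p ζ y).re * Real.cos g := by
    intro ζ hζ g hg y
    rw [hpre, hpim, abs_mul, abs_of_pos (mul_pos (hc y) (Real.exp_pos _))]
    have h1 : |ζ.im * u y| ≤ |ζ.im| := by
      rw [abs_mul]
      calc |ζ.im| * |u y| ≤ |ζ.im| * 1 := mul_le_mul_of_nonneg_left (hu1 y) (abs_nonneg _)
        _ = _ := mul_one _
    have h2 : |Real.sin (ζ.im * u y)| * |Real.sin g| <
        Real.cos (ζ.im * u y) * Real.cos g := by
      have e1 : |Real.sin (ζ.im * u y)| = Real.sin |ζ.im * u y| :=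
        Real.abs_sin_eq_sin_abs_of_abs_le_pi (by linarith)
      have e2 : |Real.sin g| = Real.sin |g| :=
        Real.abs_sin_eq_sin_abs_of_abs_le_pi (by have := abs_nonneg ζ.im; linarith)
      rw [e1, e2, ← Real.cos_abs (ζ.im * u y), ← Real.cos_abs g]
      have h3 : 0 < Real.cos (|ζ.im * u y| + |g|) :=
        Real.cos_pos_of_mem_Ioo ⟨by
          have := abs_nonneg g; have := abs_nonneg (ζ.im * u y); linarith, by linarith⟩
      rw [Real.cos_add] at h3
      linarith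
    calc c y * Real.exp (ζ.re * u y) * |Real.sin (ζ.im * u y)| * |Real.sin g|
        = (c y * Real.exp (ζ.re * u y)) * (|Real.sin (ζ.im * u y)| * |Real.sin g|) := by ring
      _ < (c y * Real.exp (ζ.re * u y)) * (Real.cos (ζ.im * u y) * Real.cos g) :=
          mul_lt_mul_of_pos_left h2 (mul_pos (hc y) (Real.exp_pos _))
      _ = _ := by ring
  have hp0 : ∀ ζ : ℂ, |ζ.im| < Real.pi / 2 → ∀ y, 0 < (p ζ y).re := fun ζ hζ y => by
    have := key ζ hζ 0 (by rw [abs_zero]; linarith) y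
    simpa using this
  have hpd : ∀ y, Differentiable ℂ fun ζ => p ζ y := fun y => by
    simp only [hp]
    fun_prop
  have hFd : DifferentiableOn ℂ F {z | |z.im| < Real.pi / 2} := by
    refine DifferentiableOn.div ?_ ?_ fun z hz => WW_ne_zero l ha hb hab hN x (hp0 z hz)
    · exact (((MD.step l a b hpd).pow N).trace).differentiableOn
    · exact (((MD.const _).mul ((MD.step l a b hpd).pow N)).trace).differentiableOn
  have hFre : ∀ z : ℂ, |z.im| < Real.pi / 2 → Real.cos z.im ≤ (F z).re := fun z hz => by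
    rw [← Real.cos_abs]
    exact re_ZW_div ha hb hab hN x (abs_nonneg _) hz (key z hz)
  have hp_real : ∀ (t : ℝ) y, (p t y).im = 0 := fun t y => by
    rw [hpim]; simp
  have hFim : ∀ t : ℝ, (F t).im = 0 := fun t => by
    simp only [hF]
    have h1 := ZW_im (l := l) (a := a) (b := b) (N := N) (hp_real t)
    have h2 := WW_im (l := l) (a := a) (b := b) (N := N) (x := x) (hp_real t)
    rw [div_im, h1, h2]; simp
  have h := harnack_strip F hFd hFre 0 s (hFim 0) (hFim s)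
    (by rw [sub_zero, abs_of_nonneg hs0]; exact hs)
  have e0 : p ((0 : ℝ) : ℂ) = fun y => (c y : ℂ) := by
    funext y; simp [hp]
  have e1 : p ((s : ℝ) : ℂ) = fun y => (c' y : ℂ) := by
    funext y
    have h1 : s * u y = Real.log (c' y) - Real.log (c y) := by
      rcases eq_or_ne s 0 with h0 | h0
      · have := hcc y
        rw [h0] at this
        have := abs_nonpos_iff.mp this
        rw [h0, this, zero_mul]
      · rw [hu]; simp only; field_simp
    have h2 : c' y = c y * Real.exp (s * u y) := by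
      rw [h1, Real.exp_sub, Real.exp_log (hc' y), Real.exp_log (hc y)]
      field_simp [(hc y).ne']
    simp only [hp]
    rw [h2]; push_cast; rfl
  simp only [hF] at h
  rw [e0, e1, sub_zero] at h
  exact h

end

end Vale.Agent.P361.LRO
end

section

/-!
P361, stage 3, all spins: the Peierls–Bogoliubov inequality with a projector.

`P` a symmetric projection commuting with the symmetric matrices `X`, `Y`:
`log tr (P e^X) + tr (P e^X Y) / tr (P e^X) ≤ log tr (P e^{X+Y})`.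
The proof applies the usual inequality to `X - M (1 - P)` and lets `M → ∞`.
-/

namespace Vale.Agent.P361.LRO.S3.PBP

open Matrix Filter Topology Finset
open scoped Matrix.Norms.Operator Nat

variable {ι : Type*} [Fintype ι] [DecidableEq ι]

theorem comm_exp {Z P : Matrix ι ι ℝ} (hPZ : P * Z = Z * P) :
    P * NormedSpace.exp Z = NormedSpace.exp Z * P := by
  have h : Commute P Z := hPZ
  exact (h.exp_right).eq

/-- Positivity of `tr (P e^X Y)` for `Y` positive semidefinite commuting with `P`. -/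
theorem trace_proj_exp_mul_nonneg [Nonempty ι] {X Y P : Matrix ι ι ℝ} (hX : X.IsSymm)
    (hY : Y.PosSemidef) (hP : P.IsSymm) (hPP : P * P = P) (hPX : P * X = X * P) :
    0 ≤ trace (P * NormedSpace.exp X * Y) := by
  have h1 : trace (P * NormedSpace.exp X * Y) = trace (NormedSpace.exp X * (P * Y * P)) := by
    have e1 : P * NormedSpace.exp X * Y = P * (P * NormedSpace.exp X * Y) := by
      rw [← mul_assoc, ← mul_assoc, hPP]
    rw [e1, comm_exp hPX, trace_mul_comm, mul_assoc, mul_assoc, mul_assoc]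
  rw [h1]
  refine trace_exp_mul_nonneg_real hX ?_
  have h2 : P * Y * P = Pᴴ * Y * P := by
    rw [conjTranspose_eq_transpose_of_trivial, hP]
  rw [h2]
  exact hY.conjTranspose_mul_mul_same P

/-- `tr (P e^X) ≤ tr e^X`. -/
theorem trace_proj_exp_le [Nonempty ι] {X P : Matrix ι ι ℝ} (hX : X.IsSymm) (hP : P.IsSymm)
    (hPP : P * P = P) (hPX : P * X = X * P) :
    trace (P * NormedSpace.exp X) ≤ trace (NormedSpace.exp X) := by
  have hQs : (1 - P).IsSymm := by rw [Matrix.IsSymm, transpose_sub, transpose_one, hP]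
  have hQQ : (1 - P) * (1 - P) = 1 - P := by
    simp only [sub_mul, mul_sub, one_mul, mul_one, hPP]; abel
  have hQX : (1 - P) * X = X * (1 - P) := by rw [sub_mul, mul_sub, hPX, one_mul, mul_one]
  have h := trace_proj_exp_mul_nonneg hX (PosSemidef.one (n := ι) (R := ℝ)) hQs hQQ hQX
  rw [mul_one, sub_mul, one_mul, trace_sub] at h
  linarith

end Vale.Agent.P361.LRO.S3.PBP
end

section

/-!
P361, stage 3, all spins: lower bound of the partition function of the copies by the one of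
spin `s / 2` (uniform in `M`), and the free energy of large tori.
-/

namespace Vale.Agent.P361.LRO.S3S

open Finset Matrix Filter Topology Vale.Agent.P361.LRO.GenS

noncomputable section

namespace LogZH

section Gen

variable {V : Type} [Fintype V] [DecidableEq V] {s : ℕ} [NeZero s]

omit [NeZero s] in
/-- The part between the sites commutes with the part inside the sites. -/
theorem comm_inter_intra (L : List (V × V)) (h : V → ℝ) :
    Commute (ham (interL L s) (lift s h)) (intraM V s) := by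
  rw [intraM]
  have key : ∀ l : List ((V × Fin s) × (V × Fin s)), (∀ e ∈ l, e.1.1 = e.2.1) →
      Commute (ham (interL L s) (lift s h)) (l.map fun e => LRO.hM e.1 e.2).sum := by
    intro l hl
    induction l with
    | nil => simp
    | cons e l ih =>
      rw [List.map_cons, List.sum_cons]
      refine Commute.add_right ?_ (ih fun e he => hl e (by simp [he]))
      have he := hl e (by simp)
      obtain ⟨⟨x, a⟩, ⟨y, b⟩⟩ := e
      dsimp only at he
      subst he
      rw [LRO.hM]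
      exact ((Commute.one_right _).sub_right (comm_ham L h x a b).symm).smul_right _
  exact key _ fun e he => (mem_intraL.1 he).1

omit [NeZero s] in
theorem intraM_transpose : (intraM V s)ᵀ = intraM V s := by
  rw [intraM]
  induction intraL V s with
  | nil => simp
  | cons e l ih => rw [List.map_cons, List.sum_cons, transpose_add, ih, Lim.hM_transpose]

theorem symProd_mul_intraM : symProd V s * intraM V s = 0 := by
  have h := congrArg Matrix.transpose (intraM_mul_symProd (V := V) (m := s))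
  rwa [transpose_mul, symProd_transpose, intraM_transpose, transpose_zero] at h

section Exp

open scoped Matrix.Norms.Operator Nat

/-- `P e^Y = P` if `P Y = 0`. -/
theorem mul_exp_of_mul_zero {ι : Type*} [Fintype ι] [DecidableEq ι] {P Y : Matrix ι ι ℝ}
    (h : P * Y = 0) : P * NormedSpace.exp Y = P := by
  have h1 := (NormedSpace.exp_series_hasSum_exp' (𝕂 := ℝ) Y).mul_left P
  have h2 : HasSum (fun n : ℕ => P * ((n !⁻¹ : ℝ) • Y ^ n)) P := by
    have h3 := hasSum_single (f := fun n : ℕ => P * ((n !⁻¹ : ℝ) • Y ^ n)) 0 (by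
      intro n hn
      obtain ⟨k, rfl⟩ := Nat.exists_eq_succ_of_ne_zero hn
      show P * (((Nat.succ k) !⁻¹ : ℝ) • Y ^ (Nat.succ k)) = 0
      rw [Matrix.mul_smul, Nat.succ_eq_add_one, pow_succ', ← Matrix.mul_assoc, h, Matrix.zero_mul,
        smul_zero])
    simpa using h3
  exact h1.unique h2

end Exp

/-- **The copies dominate spin `s / 2`**, for every `M`. -/
theorem trace_symProd_le [Nonempty (V × Fin s → Fin 2)] (L : List (V × V)) (β : ℝ) (h : V → ℝ)
    (M : ℕ) :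
    trace (symProd V s * NormedSpace.exp (-β • ham (interL L s) (lift s h))) ≤
      trace (NormedSpace.exp (-β • ham (Lm L s M) (lift s h))) := by
  have hX : -β • ham (Lm L s M) (lift s h) =
      -β • ham (interL L s) (lift s h) + (-β * (M : ℝ)) • intraM V s := by
    rw [ham_Lm, smul_add, smul_smul]
  have hc : Commute (-β • ham (interL L s) (lift s h)) ((-β * (M : ℝ)) • intraM V s) :=
    ((comm_inter_intra L h).smul_right _).smul_left _
  have hP : Commute (symProd V s) (-β • ham (interL L s) (lift s h)) :=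
    (symProd_comm_ham L h).smul_right _
  have hPI : symProd V s * ((-β * (M : ℝ)) • intraM V s) = 0 := by
    rw [Matrix.mul_smul, symProd_mul_intraM, smul_zero]
  have hIP : ((-β * (M : ℝ)) • intraM V s) * symProd V s = 0 := by
    rw [Matrix.smul_mul, intraM_mul_symProd, smul_zero]
  have e1 : symProd V s * NormedSpace.exp (-β • ham (Lm L s M) (lift s h)) =
      symProd V s * NormedSpace.exp (-β • ham (interL L s) (lift s h)) := by
    rw [hX, Matrix.exp_add_of_commute _ _ hc, ← Matrix.mul_assoc,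
      S3.PBP.comm_exp hP.eq, Matrix.mul_assoc, mul_exp_of_mul_zero hPI]
  rw [← e1]
  refine S3.PBP.trace_proj_exp_le ?_ symProd_transpose symProd_sq ?_
  · rw [Matrix.IsSymm, transpose_smul, ham_symm]
  · rw [hX, mul_add, add_mul, hP.eq, hPI, hIP]

end Gen

end LogZH

/-- **Free energy of large tori**, uniform in `M`. -/
theorem logZ_copies_ge {s : ℕ} (hs : 1 ≤ s) {β h : ℝ} (hβ : 0 < β) {ε : ℝ} (hε : 0 < ε) :
    ∃ n0 : ℕ, ∀ (n : ℕ) [NeZero n], n0 ≤ n → Odd n → ∀ M : ℕ,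
      (n : ℝ) ^ 3 * (B.gRed s β h + β * h * s / 2 - ε) ≤
        Real.log (trace (NormedSpace.exp (-β • ham (edgesS n s M) (hS fun _ => h)))) := by
  have : NeZero s := ⟨by omega⟩
  have h1 := (pressTorus_tendsto s hβ h).const_mul β
  have e : β * Model.pressure s β h = B.gRed s β h + β * h * s / 2 + 3 * β * (s : ℝ) ^ 2 / 4 := by
    unfold B.gRed
    rw [Bridge.pressure_eq]
    ring
  rw [e] at h1
  obtain ⟨N0, hN0⟩ := eventually_atTop.1 ((tendsto_order.1 h1).1
    (B.gRed s β h + β * h * s / 2 + 3 * β * (s : ℝ) ^ 2 / 4 - ε) (by linarith))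
  refine ⟨max (2 * N0 + 1) 3, fun n _ hn hodd M => ?_⟩
  have hn3 : 3 ≤ n := (le_max_right _ _).trans hn
  obtain ⟨N, rfl⟩ := hodd
  have h2 := hN0 N (by have := (le_max_left _ _).trans hn; omega)
  unfold pressTorus at h2
  have hnp : (0 : ℝ) < (2 * (N : ℝ) + 1) ^ 3 := by positivity
  have h3 : β * ((β * (2 * (N : ℝ) + 1) ^ 3)⁻¹ * Model.logTr s (torusAdj (2 * N + 1)) β h) =
      Model.logTr s (torusAdj (2 * N + 1)) β h / (2 * (N : ℝ) + 1) ^ 3 := by
    field_simp
  rw [h3, lt_div_iff₀ hnp] at h2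
  have hpos := trace_symProd_exp_pos (s := s) hn3 β h
  have h4 : Model.logTr s (torusAdj (2 * N + 1)) β h =
      β * ((s : ℝ) ^ 2 * (1 / 4) * (3 * (2 * (N : ℝ) + 1) ^ 3)) +
      Real.log (trace (symProd (Tor (2 * N + 1)) s * NormedSpace.exp
        (-β • ham (interL (edges (2 * N + 1)) s) (lift s fun _ : Tor (2 * N + 1) => h)))) := by
    have h5 : Model.logTr s (torusAdj (2 * N + 1)) β h =
        Real.log (trace (NormedSpace.exp (expoV s (torusAdj (2 * N + 1)) β h))).re := rfl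
    have hcard : (Fintype.card (Tor (2 * N + 1) × Fin 3) : ℝ) = 3 * (2 * (N : ℝ) + 1) ^ 3 := by
      rw [Fintype.card_prod, Fintype.card_fun, ZMod.card, Fintype.card_fin]
      push_cast
      ring
    rw [h5, trace_exp_spin_real hn3, Complex.ofReal_re,
      Real.log_mul (Real.exp_pos _).ne' hpos.ne', Real.log_exp, hcard]
  have h6 := LogZH.trace_symProd_le (s := s) (edges (2 * N + 1)) β (fun _ : Tor (2 * N + 1) => h) M
  have h7 : trace (NormedSpace.exp (-β • ham (Lm (edges (2 * N + 1)) s M)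
      (lift s fun _ : Tor (2 * N + 1) => h))) =
      trace (NormedSpace.exp (-β • ham (edgesS (2 * N + 1) s M) (hS fun _ => h))) := by
    rw [ham_edgesS]
    rfl
  rw [h7] at h6
  have h8 := Real.log_le_log hpos h6
  push_cast
  nlinarith [h2, h4, h8]

end

end Vale.Agent.P361.LRO.S3S
end

section

/-!
P361, stage 3, all spins: landed lower bound of the free energy of large tori, for the copies,
uniform in the multiplicity `M` (helper486).
-/

namespace Vale.Agent.P361.LRO.S3S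

open Finset Matrix Filter Topology Vale.Agent.P361.LRO.GenS

noncomputable section

/-- Lower bound with the reduced pressure, number normalisation. -/
theorem logZS_lower (s : ℕ) (hs : 1 ≤ s) {β : ℝ} (hβ : 0 < β) (h : ℝ) {ε : ℝ} (hε : 0 < ε) :
    ∃ n0 : ℕ, ∀ (n : ℕ) [NeZero n], n0 ≤ n → Odd n → ∀ M : ℕ,
      (n : ℝ) ^ 3 * (B.gRed s β h - ε) ≤
        Real.log (trace (NormedSpace.exp (-β • ham (edgesS n s M) (hS fun _ => h)))) -
          β * h * s / 2 * (n : ℝ) ^ 3 := by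
  obtain ⟨n0, hn0⟩ := logZ_copies_ge (h := h) hs hβ hε
  refine ⟨n0, fun n _ hn hodd M => ?_⟩
  have h1 := hn0 n hn hodd M
  linarith

/-- Lower bound with the ideal gas of magnons. -/
theorem logZS_lower_FS {s : ℕ} (hs : 1 ≤ s) : ∃ K : ℝ, 1 ≤ K ∧ ∀ β : ℝ, K ≤ β → ∀ h : ℝ, 0 ≤ h →
    ∀ ε : ℝ, 0 < ε → ∃ n0 : ℕ, ∀ (n : ℕ) [NeZero n], n0 ≤ n → Odd n → ∀ M : ℕ,
      ((1 - K / β) * B.FS ((s : ℝ) / 2) (β * h) / Real.sqrt β ^ 3 - ε) * (n : ℝ) ^ 3 ≤
        Real.log (trace (NormedSpace.exp (-β • ham (edgesS n s M) (hS fun _ => h)))) -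
          β * h / 2 * ((n : ℝ) ^ 3 * s) := by
  obtain ⟨K, hK1, hK⟩ := B.gRed_lower hs
  refine ⟨K, hK1, fun β hβK h hh ε hε => ?_⟩
  have hβ : 0 < β := by linarith
  have hs3 : 0 < Real.sqrt β ^ 3 := by positivity
  have hth : 0 ≤ β * h := by positivity
  have h1 : (1 - K / β) * B.FS ((s : ℝ) / 2) (β * h) / Real.sqrt β ^ 3 ≤ B.gRed s β h := by
    rw [div_le_iff₀ hs3]
    have h2 := (B.FR_tendsto ((s : ℝ) / 2) hth).const_mul (1 - K / β)
    refine le_of_tendsto' h2 fun R => ?_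
    have := hK β hβK h hh R
    linarith
  obtain ⟨n0, hn0⟩ := logZS_lower s hs hβ h hε
  refine ⟨n0, fun n _ hn hodd M => ?_⟩
  have h3 := hn0 n hn hodd M
  have h4 : ((1 - K / β) * B.FS ((s : ℝ) / 2) (β * h) / Real.sqrt β ^ 3 - ε) * (n : ℝ) ^ 3 ≤
      (B.gRed s β h - ε) * (n : ℝ) ^ 3 :=
    mul_le_mul_of_nonneg_right (by linarith) (by positivity)
  linarith

end

end Vale.Agent.P361.LRO.S3S
end

section

/-!
P361, stage 3, all spins: the partition function `Zt s Λ β τ` of the free region `Λ ⊂ ℤ³` with spin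
`s / 2` as a symmetrised trace over `s` copies of spin `1 / 2`, and as the limit `M → ∞` of the traces
with `M`-fold coupling inside the sites.
-/

namespace Vale.Agent.P361.LRO.S3S

open Finset Matrix Filter Topology
open Vale.Agent.P361.LRO Vale.Agent.P361.LRO.GenS Vale.Agent.P361.LRO.S3

noncomputable section

variable {s : ℕ} {Λ : Finset Site}

theorem ham_interL_zero (β τ : ℝ) : cM (-(β / 2) • ham (interL (nnL Λ) s) 0 -
      τ • TwJ.Dn (univ : Finset (Λ × Fin s))) =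
    -((β : ℂ) • ((1 / 2 : ℂ) • ∑ x : Λ, ∑ y : Λ,
        if IsNN x.1 y.1 then (((s : ℂ) / 2) ^ 2) • (1 : Matrix _ _ ℂ) -
          ∑ a : Fin 3, tot s a x * tot s a y else 0) +
      (τ : ℂ) • ∑ x : Λ, (((s : ℂ) / 2) • (1 : Matrix _ _ ℂ) - tot s 2 x)) := by
  have h1 : cM (ham (interL (nnL Λ) s) 0) = ∑ x : Λ, ∑ y : Λ,
      if IsNN x.1 y.1 then (((s : ℂ) / 2) ^ 2) • (1 : Matrix (Λ × Fin s → Fin 2)
        (Λ × Fin s → Fin 2) ℂ) - ∑ a : Fin 3, tot s a x * tot s a y else 0 := by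
    have e1 : ham (interL (nnL Λ) s) (0 : Λ × Fin s → ℝ) =
        ∑ e ∈ (univ : Finset (Λ × Λ)).filter (fun e => IsNN e.1.1 e.2.1),
          ∑ ab : Fin s × Fin s, hM (e.1, ab.1) (e.2, ab.2) := by
      rw [ham, sum_interL, nnL, Finset.sum_map_toList]
      simp
    rw [e1, cM_sum, Finset.sum_filter, Fintype.sum_prod_type]
    refine Finset.sum_congr rfl fun x _ => Finset.sum_congr rfl fun y _ => ?_
    by_cases h : IsNN x.1 y.1
    · rw [if_pos h, if_pos h]
      have hxy : x ≠ y := H.isNN_ne h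
      have h3 : ((s : ℂ) / 2) ^ 2 = (s : ℂ) ^ 2 * (1 / 4) := by ring
      rw [tot_mul_tot x y hxy, h3, sub_sub_cancel]
    · rw [if_neg h, if_neg h]
  have h2 : cM (TwJ.Dn (univ : Finset (Λ × Fin s))) =
      ∑ x : Λ, (((s : ℂ) / 2) • (1 : Matrix (Λ × Fin s → Fin 2)
        (Λ × Fin s → Fin 2) ℂ) - tot s 2 x) := by
    rw [TwJ.Dn, cM_sum, Fintype.sum_prod_type]
    refine Finset.sum_congr rfl fun x _ => ?_
    rw [tot_z, cM_sum]
    have : ∀ i : Fin s, cM ((1 / 2 : ℝ) • (1 - szM ((x, i) : Λ × Fin s))) =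
        ((1 / 2 : ℝ) : ℂ) • (1 : Matrix (Λ × Fin s → Fin 2) (Λ × Fin s → Fin 2) ℂ) -
          cM ((1 / 2 : ℝ) • szM ((x, i) : Λ × Fin s)) := by
      intro i
      rw [cM_smul, cM_sub, cM_one, cM_smul, smul_sub]
    rw [Finset.sum_congr rfl fun i _ => this i, Finset.sum_sub_distrib, Finset.sum_const,
      Finset.card_univ, Fintype.card_fin, ← Nat.cast_smul_eq_nsmul ℂ, smul_smul]
    congr 2
    push_cast
    ring
  rw [cM_sub, cM_smul, cM_smul, h1, h2]
  push_cast
  module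

theorem siteOp_eq_V (x : Λ) (A : Matrix (Fin (s + 1)) (Fin (s + 1)) ℂ) :
    (siteOp x A : Matrix (Λ → Fin (s + 1)) (Λ → Fin (s + 1)) ℂ) = siteOpV x A := rfl

theorem spin_eq_model (a : Fin 3) : Vale.Agent.P361.spin s a = Model.spin s a := rfl

theorem tot_mul_siteOp (a : Fin 3) (x : Λ) :
    tot s a x * WV s Λ = WV s Λ * siteOp x (Vale.Agent.P361.spin s a) := by
  rw [siteOp_eq_V, spin_eq_model, tot_mul]

theorem oZ_eq_spin (x : Λ) : H.oZ s x = siteOp x (Vale.Agent.P361.spin s 2) := rfl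

theorem oZ_mul (x : Λ) : tot s 2 x * WV s Λ = WV s Λ * H.oZ s x := by
  rw [oZ_eq_spin, tot_mul_siteOp]

theorem dot_mul (x y : Λ) : (∑ a : Fin 3, tot s a x * tot s a y) * WV s Λ =
    WV s Λ * H.dotOp s x y := by
  rw [H.dotOp, Matrix.sum_mul, Matrix.mul_sum]
  refine Finset.sum_congr rfl fun a _ => ?_
  rw [Matrix.mul_assoc, tot_mul_siteOp, ← Matrix.mul_assoc, tot_mul_siteOp, Matrix.mul_assoc]

theorem hT_mul : ((1 / 2 : ℂ) • ∑ x : Λ, ∑ y : Λ,
      if IsNN x.1 y.1 then (((s : ℂ) / 2) ^ 2) • (1 : Matrix _ _ ℂ) -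
        ∑ a : Fin 3, tot s a x * tot s a y else 0) * WV s Λ = WV s Λ * B.hT s Λ := by
  rw [B.hT, Matrix.smul_mul, Matrix.mul_smul, Matrix.sum_mul, Matrix.mul_sum]
  congr 1
  refine Finset.sum_congr rfl fun x _ => ?_
  rw [Matrix.sum_mul, Matrix.mul_sum]
  refine Finset.sum_congr rfl fun y _ => ?_
  split_ifs
  · rw [Matrix.sub_mul, Matrix.mul_sub, Matrix.smul_mul, Matrix.mul_smul, Matrix.one_mul,
      Matrix.mul_one, dot_mul]
  · simp

theorem numOp_mul : (∑ x : Λ, (((s : ℂ) / 2) • (1 : Matrix _ _ ℂ) - tot s 2 x)) * WV s Λ =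
    WV s Λ * B.numOp s Λ := by
  rw [B.numOp, Matrix.sum_mul, Matrix.mul_sum]
  refine Finset.sum_congr rfl fun x _ => ?_
  rw [Matrix.sub_mul, Matrix.mul_sub, Matrix.smul_mul, Matrix.mul_smul, Matrix.one_mul,
    Matrix.mul_one, oZ_mul]

theorem ham_mul_WV (β τ : ℝ) : cM (-(β / 2) • ham (interL (nnL Λ) s) 0 -
      τ • TwJ.Dn (univ : Finset (Λ × Fin s))) * WV s Λ =
    WV s Λ * -((β : ℂ) • B.hT s Λ + (τ : ℂ) • B.numOp s Λ) := by
  rw [ham_interL_zero, Matrix.neg_mul, Matrix.mul_neg, Matrix.add_mul, Matrix.mul_add,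
    Matrix.smul_mul (β : ℂ), Matrix.smul_mul (τ : ℂ), hT_mul, numOp_mul,
    Matrix.mul_smul, Matrix.mul_smul]

/-- **Spin `s / 2` on a free region as a symmetrised trace over the copies.** -/
theorem Zt_spin (s : ℕ) [NeZero s] (Λ : Finset Site) (β τ : ℝ) :
    B.Zt s Λ β τ = trace (symProd Λ s * NormedSpace.exp (-(β / 2) • ham (interL (nnL Λ) s) 0 -
      τ • TwJ.Dn (univ : Finset (Λ × Fin s)))) := by
  have h1 := trace_exp_bridge (ham_mul_WV (Λ := Λ) (s := s) β τ) (WV_conj_mul s)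
  rw [WV_mul_conj, symV_eq, exp_cM, ← cM_mul, trace_cM] at h1
  rw [B.Zt, h1, Complex.ofReal_re, Matrix.trace_mul_comm]

end

end Vale.Agent.P361.LRO.S3S
end

section

/-!
P361, stage 3, block (T), leaf (T1), part A: the embedding of the operators of a block is a
homomorphism; additivity of the normalised log trace over many disjoint blocks; the Casimir matrix of
a block of the torus is the embedded `casX`.
-/

namespace Vale.Agent.P361.LRO.S3.LT1

open Matrix Finset Filter Topology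
open Vale.Agent.P361.LRO.Energy (Cfg ex cpx)
open Vale.Agent.P361.LRO.Loc3
open scoped ComplexOrder Kronecker

noncomputable section

section Emb

variable {U V : Type} [Fintype U] [DecidableEq U] [Fintype V] [DecidableEq V]

theorem emb_mul {e : U → V} (he : Function.Injective e) (A B : Matrix (Cfg U) (Cfg U) ℂ) :
    emb e (A * B) = emb e A * emb e B := by
  have h : (emb e (A * B)).submatrix (splitE e he) (splitE e he) =
      (emb e A * emb e B).submatrix (splitE e he) (splitE e he) := by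
    rw [emb_split, ← Matrix.submatrix_mul_equiv (emb e A) (emb e B) _ (splitE e he) _, emb_split,
      emb_split, ← Matrix.mul_kronecker_mul, Matrix.one_mul]
  ext σ τ
  have h2 := congrFun (congrFun h ((splitE e he).symm σ)) ((splitE e he).symm τ)
  simpa only [Matrix.submatrix_apply, Equiv.apply_symm_apply] using h2

/-- `emb e` as an algebra homomorphism. -/
def embAlg (e : U → V) (he : Function.Injective e) :
    Matrix (Cfg U) (Cfg U) ℂ →ₐ[ℂ] Matrix (Cfg V) (Cfg V) ℂ :=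
  AlgHom.ofLinearMap
    { toFun := emb e
      map_add' := emb_add e
      map_smul' := fun c A => by rw [RingHom.id_apply, emb_smul] }
    (emb_one e) (emb_mul he)

theorem aeval_emb {e : U → V} (he : Function.Injective e) (A : Matrix (Cfg U) (Cfg U) ℂ)
    (P : Polynomial ℂ) : Polynomial.aeval (emb e A) P = emb e (Polynomial.aeval A P) :=
  Polynomial.aeval_algHom_apply (embAlg e he) A P

/-- Operators of disjoint blocks. -/
theorem off_emb {U' : Type} [Fintype U'] [DecidableEq U'] {e : U → V} {e' : U' → V}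
    (hd : ∀ u u', e u ≠ e' u') (A : Matrix (Cfg U') (Cfg U') ℂ) : Off e (emb e' A) := by
  intro σ τ
  simp only [emb, Matrix.of_apply]
  have key : ∀ σ : Cfg V, (fun x => if ∃ u, e u = x then 0 else σ x) ∘ e' = σ ∘ e' := by
    intro σ
    funext w
    simp only [Function.comp_apply]
    rw [if_neg]
    rintro ⟨u, hu⟩
    exact hd u w hu
  rw [key, key]
  by_cases h1 : ∀ x, (∀ u', e' u' ≠ x) → σ x = τ x
  · have h2 : σ ∘ e = τ ∘ e := by
      funext u
      exact h1 (e u) fun u' => (hd u u').symm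
    have h3 : ∀ x, (∀ u', e' u' ≠ x) → (if ∃ u, e u = x then (0 : Fin 2) else σ x) =
        if ∃ u, e u = x then 0 else τ x := by
      intro x hx
      split_ifs
      · rfl
      · exact h1 x hx
    rw [if_pos h1, if_pos h2, if_pos h3]
  · rw [if_neg h1]
    by_cases h2 : σ ∘ e = τ ∘ e
    · rw [if_pos h2, if_neg]
      intro h3
      apply h1
      intro x hx
      by_cases h4 : ∃ u, e u = x
      · obtain ⟨u, rfl⟩ := h4
        exact congrFun h2 u
      · have := h3 x hx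
        rwa [if_neg h4, if_neg h4] at this
    · rw [if_neg h2]

theorem off_add {e : U → V} {A B : Matrix (Cfg V) (Cfg V) ℂ} (hA : Off e A) (hB : Off e B) :
    Off e (A + B) := by
  intro σ τ
  rw [Matrix.add_apply, hA σ τ, hB σ τ, Matrix.add_apply]
  split_ifs <;> simp

theorem off_zero {e : U → V} : Off e (0 : Matrix (Cfg V) (Cfg V) ℂ) := by
  intro σ τ
  simp

theorem off_sum {κ : Type*} (s : Finset κ) {e : U → V} {A : κ → Matrix (Cfg V) (Cfg V) ℂ}
    (hA : ∀ k ∈ s, Off e (A k)) : Off e (∑ k ∈ s, A k) := by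
  classical
  induction s using Finset.induction_on with
  | empty => rw [Finset.sum_empty]; exact off_zero
  | insert a s ha ih =>
    rw [Finset.sum_insert ha]
    exact off_add (hA a (Finset.mem_insert_self _ _)) (ih fun k hk => hA k (Finset.mem_insert_of_mem hk))

theorem nlt_zero : nlt (0 : Matrix (Cfg V) (Cfg V) ℂ) = 0 := by
  unfold nlt
  rw [NormedSpace.exp_zero, Matrix.trace_one, Fintype.card_fun, Fintype.card_fin]
  push_cast
  have : ((2 : ℂ) ^ Fintype.card V).re = (2 : ℝ) ^ Fintype.card V := by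
    rw [← Complex.ofReal_ofNat, ← Complex.ofReal_pow, Complex.ofReal_re]
  rw [this, Real.log_pow]
  ring

/-- The normalised log trace of a sum over disjoint blocks. -/
theorem nlt_sum {κ : Type*} (s : Finset κ) (e : κ → U → V) (he : ∀ k ∈ s, Function.Injective (e k))
    (hd : ∀ k ∈ s, ∀ l ∈ s, k ≠ l → ∀ u u', e k u ≠ e l u')
    {A : Matrix (Cfg U) (Cfg U) ℂ} (hA : A.IsHermitian) :
    nlt (∑ k ∈ s, emb (e k) A) = s.card * nlt A := by
  classical
  induction s using Finset.induction_on with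
  | empty => rw [Finset.sum_empty, nlt_zero, Finset.card_empty]; simp
  | insert a s ha ih =>
    have ih' := ih (fun k hk => he k (Finset.mem_insert_of_mem hk))
      (fun k hk l hl => hd k (Finset.mem_insert_of_mem hk) l (Finset.mem_insert_of_mem hl))
    rw [Finset.sum_insert ha, add_comm, nlt_add (e a) (he a (Finset.mem_insert_self _ _))
      (off_sum s fun k hk => off_emb (fun u u' => hd a (Finset.mem_insert_self _ _) k
        (Finset.mem_insert_of_mem hk) (fun h => ha (h ▸ hk)) u u') A)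
      (Energy.sum_isHermitian _ fun k _ => emb_isHermitian _ hA) hA, ih', Finset.card_insert_of_notMem ha]
    push_cast
    ring

end Emb

/-! ### `casX` and `hT` in the swap form -/

section Cas

variable {Λ : Finset Site}

end Cas

end

end Vale.Agent.P361.LRO.S3.LT1
end

section

/-!
P361, stage 3, block (T), leaf (T1): Peierls–Bogoliubov on the torus with decoupled blocks.

For a function `G(C_b)` of the Casimir operator of a block `b` of side `R`,
`⟨G(C_b)⟩ ≤ log Tr_b exp(-β H_b + G(C_b)) - R³ g(β, h) + o(1)` as `n → ∞`, uniformly in `G`.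
-/

namespace Vale.Agent.P361.LRO.S3

open Matrix Finset Filter Topology
open Vale.Agent.P361.LRO.Energy (Cfg ex cpx)
open Vale.Agent.P361.LRO.Loc3
open Vale.Agent.P361.LRO.Bs (relab subm_sub subm_sum subm_smul subm_add exp_submatrix_real
  trace_submatrix_real szM_relab hM_relab edges_translate)
open scoped ComplexOrder

noncomputable section

namespace LT1

/-- The block `x + [0,R)³` of the torus. -/
def bl (n R : ℕ) (x : Tor n) (z : B.cube R) : Tor n := x + fun i => ((z.1 i : ℤ) : ZMod n)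

theorem cube_eq_bl (n R : ℕ) [NeZero n] (x : Tor n) : cube n x R = univ.image (bl n R x) := by
  ext y
  simp only [cube, Finset.mem_image, Finset.mem_univ, true_and]
  constructor
  · rintro ⟨a, rfl⟩
    refine ⟨⟨fun i => ((a i : ℕ) : ℤ), B.mem_cube'.2 fun i => ⟨by positivity, ?_⟩⟩, ?_⟩
    · exact_mod_cast (a i).2
    · simp [bl]
  · rintro ⟨z, rfl⟩
    have hz := B.mem_cube'.1 z.2
    refine ⟨fun i => ⟨(z.1 i).toNat, by have := hz i; omega⟩, ?_⟩
    simp only [bl]
    congr 1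
    funext i
    have h1 : (((z.1 i).toNat : ℕ) : ℤ) = z.1 i := Int.toNat_of_nonneg (hz i).1
    have h2 : ((((z.1 i).toNat : ℕ) : ℤ) : ZMod n) = ((z.1 i : ℤ) : ZMod n) := by rw [h1]
    rw [← h2, Int.cast_natCast]

theorem cpx_aeval {V : Type} [Fintype V] [DecidableEq V] (A : Matrix (Cfg V) (Cfg V) ℝ)
    (G : Polynomial ℝ) :
    cpx (Polynomial.aeval A G) = Polynomial.aeval (cpx A) (G.map (algebraMap ℝ ℂ)) := by
  rw [Polynomial.aeval_map_algebraMap]
  exact (Polynomial.aeval_algHom_apply (AlgHom.mapMatrix Complex.ofRealAm) A G).symm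

/-! ### Translation invariance -/

theorem aeval_submatrix {ι : Type*} [Fintype ι] [DecidableEq ι] (E : ι ≃ ι) (M : Matrix ι ι ℝ)
    (G : Polynomial ℝ) :
    (Polynomial.aeval M G).submatrix E E = Polynomial.aeval (M.submatrix E E) G :=
  (Polynomial.aeval_algHom_apply (Matrix.reindexAlgEquiv ℝ ℝ E.symm).toAlgHom M G).symm

/-! ### The tiling -/

/-- The blocks `R y + [0,R)³`, `y ∈ [0,m)³`. -/
def tl (n R m : ℕ) (y : Fin 3 → Fin m) : B.cube R → Tor n :=
  bl n R fun i => (((R * (y i : ℕ) : ℕ) : ℤ) : ZMod n)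

theorem tl_apply (n R m : ℕ) (y : Fin 3 → Fin m) (u : B.cube R) (i : Fin 3) :
    tl n R m y u i = (((R * (y i : ℕ) : ℕ) : ℤ) + u.1 i : ℤ) := by
  simp [tl, bl]

theorem tl_inj {n R m : ℕ} (hm : R * m ≤ n) {y y' : Fin 3 → Fin m} {u u' : B.cube R}
    (h : tl n R m y u = tl n R m y' u') : y = y' ∧ u = u' := by
  have key : ∀ i, (y i : ℕ) = (y' i : ℕ) ∧ u.1 i = u'.1 i := by
    intro i
    have hu := B.mem_cube'.1 u.2 i
    have hu' := B.mem_cube'.1 u'.2 i
    have h1 := congrFun h i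
    rw [tl_apply, tl_apply] at h1
    have hy : (y i : ℕ) + 1 ≤ m := (y i).2
    have hy' : (y' i : ℕ) + 1 ≤ m := (y' i).2
    have b1 : R * (y i : ℕ) + R ≤ n := by
      calc R * (y i : ℕ) + R = R * ((y i : ℕ) + 1) := by ring
        _ ≤ R * m := Nat.mul_le_mul_left _ hy
        _ ≤ n := hm
    have b2 : R * (y' i : ℕ) + R ≤ n := by
      calc R * (y' i : ℕ) + R = R * ((y' i : ℕ) + 1) := by ring
        _ ≤ R * m := Nat.mul_le_mul_left _ hy'
        _ ≤ n := hm
    have b1' : ((R * (y i : ℕ) : ℕ) : ℤ) + R ≤ n := by exact_mod_cast b1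
    have b2' : ((R * (y' i : ℕ) : ℕ) : ℤ) + R ≤ n := by exact_mod_cast b2
    have c1 : (0 : ℤ) ≤ ((R * (y i : ℕ) : ℕ) : ℤ) := by positivity
    have c2 : (0 : ℤ) ≤ ((R * (y' i : ℕ) : ℕ) : ℤ) := by positivity
    have h2 := cast_eq_imp h1 (by rw [abs_lt]; constructor <;> linarith [hu.1, hu.2, hu'.1, hu'.2])
    have hR : 0 < (R : ℤ) := by linarith [hu.1, hu.2]
    have h3 : (y i : ℤ) = (y' i : ℤ) := by
      push_cast at h2
      rcases lt_trichotomy ((y i : ℕ) : ℤ) ((y' i : ℕ) : ℤ) with h4 | h4 | h4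
      · exfalso
        have h5 : ((y i : ℕ) : ℤ) + 1 ≤ (y' i : ℕ) := h4
        have h6 := mul_le_mul_of_nonneg_left h5 hR.le
        linarith [hu.1, hu.2, hu'.1, hu'.2]
      · exact h4
      · exfalso
        have h5 : ((y' i : ℕ) : ℤ) + 1 ≤ (y i : ℕ) := h4
        have h6 := mul_le_mul_of_nonneg_left h5 hR.le
        linarith [hu.1, hu.2, hu'.1, hu'.2]
    have h4 : (y i : ℕ) = (y' i : ℕ) := by exact_mod_cast h3
    refine ⟨h4, ?_⟩
    rw [h4] at h2
    linarith
  exact ⟨funext fun i => Fin.ext (key i).1, Subtype.ext (funext fun i => (key i).2)⟩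

theorem tl_adj {n R m : ℕ} (y : Fin 3 → Fin m) {u v : B.cube R} (h : IsNN u.1 v.1) :
    torusAdj n (tl n R m y u) (tl n R m y v) := by
  obtain ⟨i, h1, h2⟩ := nn_iff.1 h
  refine ⟨i, ?_, fun j hj => ?_⟩
  · rcases h1 with h1 | h1
    · left
      rw [tl_apply, tl_apply, h1]; push_cast; ring
    · right
      rw [tl_apply, tl_apply, h1]; push_cast; ring
  · rw [tl_apply, tl_apply, h2 j hj]

theorem psd_sub {ι κ σ : Type*} [Fintype σ] [DecidableEq σ] [DecidableEq κ] {s : Finset ι} {t : Finset κ}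
    {f : ι → κ} (hinj : Set.InjOn f s) (hf : ∀ i ∈ s, f i ∈ t) {g : κ → Matrix σ σ ℂ}
    (hg : ∀ k, (g k).PosSemidef) : (∑ k ∈ t, g k - ∑ i ∈ s, g (f i)).PosSemidef := by
  have h1 : ∑ i ∈ s, g (f i) = ∑ k ∈ s.image f, g k := (Finset.sum_image hinj).symm
  have h2 : s.image f ⊆ t := by
    intro k hk
    obtain ⟨i, hi, rfl⟩ := Finset.mem_image.1 hk
    exact hf i hi
  rw [h1, ← Finset.sum_sdiff h2, add_sub_cancel_right]
  exact Matrix.posSemidef_sum _ fun k _ => hg k

theorem hM_comm {V : Type} [Fintype V] [DecidableEq V] (x y : V) :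
    (Energy.hM x y : Matrix (Cfg V) (Cfg V) ℂ) = Energy.hM y x := by
  rw [Energy.hM, Energy.hM, Energy.swapM, Energy.swapM, Equiv.swap_comm]

theorem aeval_isHermitian {ι : Type*} [Fintype ι] [DecidableEq ι] {A : Matrix ι ι ℂ}
    (hA : A.IsHermitian) (G : Polynomial ℝ) :
    (Polynomial.aeval A (G.map (algebraMap ℝ ℂ))).IsHermitian := by
  rw [Polynomial.aeval_map_algebraMap]
  induction G using Polynomial.induction_on' with
  | add p q hp hq => rw [map_add]; exact hp.add hq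
  | monomial k a =>
    rw [Polynomial.aeval_monomial, Algebra.algebraMap_eq_smul_one, Matrix.smul_mul, Matrix.one_mul]
    have h1 : (A ^ k).IsHermitian := hA.pow k
    rw [Matrix.IsHermitian, Matrix.conjTranspose_smul, h1]
    simp

theorem card_cubeB (R : ℕ) : Fintype.card (B.cube R) = R ^ 3 := by
  rw [Fintype.card_coe, B.cube_eq, card_cube]

theorem div_tendsto {R : ℕ} (hR : 0 < R) :
    Tendsto (fun N : ℕ => ((2 * N + 1 : ℕ) : ℝ) / (((2 * N + 1) / R : ℕ) : ℝ)) atTop (𝓝 (R : ℝ)) := by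
  have hR' : (0 : ℝ) < R := by exact_mod_cast hR
  have hn : Tendsto (fun N : ℕ => ((2 * N + 1 : ℕ) : ℝ)) atTop atTop := by
    refine tendsto_natCast_atTop_atTop.comp ?_
    exact tendsto_atTop_mono (fun N => by show N ≤ 2 * N + 1; omega) tendsto_id
  have h1 : Tendsto (fun N : ℕ => (((2 * N + 1) / R : ℕ) : ℝ) / ((2 * N + 1 : ℕ) : ℝ)) atTop
      (𝓝 ((R : ℝ)⁻¹)) := by
    have hlow : Tendsto (fun N : ℕ => (R : ℝ)⁻¹ - 1 / ((2 * N + 1 : ℕ) : ℝ)) atTop
        (𝓝 ((R : ℝ)⁻¹ - 0)) :=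
      tendsto_const_nhds.sub (tendsto_const_nhds.div_atTop hn)
    rw [sub_zero] at hlow
    refine tendsto_of_tendsto_of_tendsto_of_le_of_le hlow tendsto_const_nhds ?_ ?_
    · intro N
      have hp : (0 : ℝ) < ((2 * N + 1 : ℕ) : ℝ) := by positivity
      show (R : ℝ)⁻¹ - 1 / ((2 * N + 1 : ℕ) : ℝ) ≤ (((2 * N + 1) / R : ℕ) : ℝ) / ((2 * N + 1 : ℕ) : ℝ)
      rw [le_div_iff₀ hp, sub_mul, one_div, inv_mul_cancel₀ hp.ne']
      have h2 : (2 * N + 1) < R * ((2 * N + 1) / R) + R := by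
        have h3 := Nat.div_add_mod (2 * N + 1) R
        have h4 := Nat.mod_lt (2 * N + 1) hR
        omega
      have h3 : ((2 * N + 1 : ℕ) : ℝ) < R * (((2 * N + 1) / R : ℕ) : ℝ) + R := by exact_mod_cast h2
      rw [sub_le_iff_le_add, inv_mul_le_iff₀ hR']
      linarith
    · intro N
      have hp : (0 : ℝ) < ((2 * N + 1 : ℕ) : ℝ) := by positivity
      show (((2 * N + 1) / R : ℕ) : ℝ) / ((2 * N + 1 : ℕ) : ℝ) ≤ (R : ℝ)⁻¹
      rw [div_le_iff₀ hp, inv_mul_eq_div]
      exact Nat.cast_div_le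
  have h2 := h1.inv₀ (by positivity)
  rw [inv_inv] at h2
  refine h2.congr fun N => ?_
  rw [inv_div]

end LT1

end

end Vale.Agent.P361.LRO.S3
end

section

/-!
P361, stage 3, all spins, block (T), leaf (T1_S): Peierls–Bogoliubov on the torus with decoupled
blocks for the graph `edgesS n s M`, uniformly in `M`.
-/

namespace Vale.Agent.P361.LRO.S3S

open Matrix Finset Filter Topology
open Vale.Agent.P361.LRO.GenS
open Vale.Agent.P361.LRO.S3 (CM)
open Vale.Agent.P361.LRO.Energy (Cfg ex cpx)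
open Vale.Agent.P361.LRO.Loc3
open scoped ComplexOrder

noncomputable section

namespace LT1S

open S3.LT1 (bl tl tl_inj tl_adj psd_sub nlt_sum aeval_emb)

/-! ### The abstract inequality -/

theorem pb_blocks {U V κ : Type} [Fintype U] [DecidableEq U] [Fintype V] [DecidableEq V]
    [Fintype κ] (L : List (V × V)) (β : ℝ) (h : V → ℝ) (e : κ → U → V)
    (he : ∀ y y' u u', e y u = e y' u' → y = y' ∧ u = u')
    {HB w0 : Matrix (Cfg U) (Cfg U) ℂ} (hH : HB.IsHermitian) (hw : w0.IsHermitian) (K : ℝ)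
    (hdec : (((K : ℂ) • (1 : Matrix (Cfg V) (Cfg V) ℂ) - (β : ℂ) • ∑ y, emb (e y) HB) -
      cpx (-β • ham L h)).PosSemidef) :
    ∑ y, Vale.Agent.P361.LRO.Energy.ex (cpx (-β • ham L h)) (emb (e y) w0) ≤
      Fintype.card κ * (Real.log (trace (NormedSpace.exp (-((β : ℂ) • HB) + w0))).re -
        Fintype.card U * Real.log 2) + Fintype.card V * Real.log 2 + K -
        Real.log (trace (NormedSpace.exp (-β • ham L h))) := by
  set A : Matrix (Cfg U) (Cfg U) ℂ := -((β : ℂ) • HB) + w0 with hA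
  have hAh : A.IsHermitian := (Energy.smul_real_isHermitian hH β).neg.add hw
  set X := cpx (-β • ham L h) with hX
  have hXh : X.IsHermitian := by
    rw [hX, Energy.cpx_ham]
    exact Energy.gibX_isHermitian _ _ _ _ _
  set Y : Matrix (Cfg V) (Cfg V) ℂ := ∑ y, emb (e y) w0 with hY
  have hYh : Y.IsHermitian := Energy.sum_isHermitian _ fun y _ => emb_isHermitian _ hw
  have hPB := Vale.Agent.P361.peierls_bogoliubov hXh hYh
  have h1 : (trace (NormedSpace.exp X * Y)).re / (trace (NormedSpace.exp X)).re =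
      ∑ y, Vale.Agent.P361.LRO.Energy.ex X (emb (e y) w0) := by
    have h2 : Vale.Agent.P361.LRO.Energy.ex X Y = ∑ y, Vale.Agent.P361.LRO.Energy.ex X (emb (e y) w0) := Energy.ex_sum X Finset.univ _
    rw [← h2]
    rfl
  set D : Matrix (Cfg V) (Cfg V) ℂ := (K : ℂ) • (1 : Matrix (Cfg V) (Cfg V) ℂ) -
    (β : ℂ) • ∑ y, emb (e y) HB with hD
  have hdec' : D + Y = ∑ y, emb (e y) A + (K : ℂ) • (1 : Matrix (Cfg V) (Cfg V) ℂ) := by
    rw [hD, hY, hA]
    simp only [emb_add, emb_neg, emb_smul, Finset.sum_add_distrib, Finset.sum_neg_distrib,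
      ← Finset.smul_sum]
    abel
  have hSh : (∑ y, emb (e y) A).IsHermitian :=
    Energy.sum_isHermitian _ fun y _ => emb_isHermitian _ hAh
  have hdh : (D + Y).IsHermitian := by
    rw [hdec']
    exact hSh.add (Energy.smul_real_isHermitian Matrix.isHermitian_one _)
  have hup : (trace (NormedSpace.exp (X + Y))).re ≤ (trace (NormedSpace.exp (D + Y))).re := by
    refine trace_exp_mono (hXh.add hYh) hdh ?_
    have e1 : D + Y - (X + Y) = D - X := by abel
    rw [e1]
    exact hdec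
  have h6 := Real.log_le_log (trace_exp_pos (hXh.add hYh)) hup
  have h7 : Real.log (trace (NormedSpace.exp (D + Y))).re =
      K + (Fintype.card κ * (Real.log (trace (NormedSpace.exp A)).re -
        Fintype.card U * Real.log 2) + Fintype.card V * Real.log 2) := by
    rw [hdec', trace_exp_add_smul_one, Real.log_mul (Real.exp_pos _).ne' (trace_exp_pos hSh).ne',
      Real.log_exp]
    congr 1
    have h8 := nlt_sum (Finset.univ : Finset κ) e
      (fun y _ a b hab => (he _ _ _ _ hab).2)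
      (fun y _ y' _ hne u u' h' => hne (he _ _ _ _ h').1) hAh
    unfold nlt at h8
    rw [Finset.card_univ] at h8
    linarith
  have h9 : Real.log (trace (NormedSpace.exp X)).re =
      Real.log (trace (NormedSpace.exp (-β • ham L h))) := by
    rw [hX, ← Energy.cpx_exp, Energy.cpx_trace]
  rw [h1] at hPB
  linarith

theorem cpx_CM_image {U V : Type} [Fintype U] [DecidableEq U] [Fintype V] [DecidableEq V]
    {e : U → V} (he : Function.Injective e) :
    cpx (CM (univ.image e)) = emb e (cpx (CM (univ : Finset U))) := by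
  rw [CM, CM, Finset.sum_image fun a _ b _ h => he h, Energy.cpx_sum, Energy.cpx_sum, emb_sum]
  refine Finset.sum_congr rfl fun u _ => ?_
  rw [Finset.sum_image fun a _ b _ h => he h, Energy.cpx_sum, Energy.cpx_sum, emb_sum]
  refine Finset.sum_congr rfl fun v _ => ?_
  rw [Energy.cpx_hM, Energy.cpx_hM, emb_hM he]

theorem cpx_aeval_CM_image {U V : Type} [Fintype U] [DecidableEq U] [Fintype V] [DecidableEq V]
    {e : U → V} (he : Function.Injective e) (G : Polynomial ℝ) :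
    cpx (Polynomial.aeval (CM (univ.image e)) G) =
      emb e (cpx (Polynomial.aeval (CM (univ : Finset U)) G)) := by
  rw [S3.LT1.cpx_aeval, cpx_CM_image he, aeval_emb he, ← S3.LT1.cpx_aeval]

/-! ### Blocks of copies -/

/-- The block of copies over `x + [0,R)³`. -/
def blS (n R s : ℕ) (x : Tor n) (z : B.cube R × Fin s) : Tor n × Fin s := (bl n R x z.1, z.2)

theorem cubeS_eq (n R s : ℕ) [NeZero n] (x : Tor n) :
    cubeS n s x R = univ.image (blS n R s x) := by
  ext ⟨y, i⟩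
  rw [cubeS, Finset.mem_product, S3.LT1.cube_eq_bl, Finset.mem_image, Finset.mem_image]
  constructor
  · rintro ⟨⟨u, _, hu⟩, _⟩
    exact ⟨(u, i), Finset.mem_univ _, Prod.ext hu rfl⟩
  · rintro ⟨⟨u, j⟩, _, hu⟩
    obtain ⟨h1, h2⟩ := Prod.mk.inj hu
    exact ⟨⟨u, Finset.mem_univ _, h1⟩, Finset.mem_univ _⟩

/-- The tiling. -/
def tlS (n R m s : ℕ) (y : Fin 3 → Fin m) : B.cube R × Fin s → Tor n × Fin s :=
  blS n R s fun i => (((R * (y i : ℕ) : ℕ) : ℤ) : ZMod n)

theorem tlS_inj {n R m s : ℕ} (hm : R * m ≤ n) (y y' : Fin 3 → Fin m) (u u' : B.cube R × Fin s)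
    (h : tlS n R m s y u = tlS n R m s y' u') : y = y' ∧ u = u' := by
  obtain ⟨h1, h2⟩ := Prod.mk.inj h
  obtain ⟨h3, h4⟩ := tl_inj hm h1
  exact ⟨h3, Prod.ext h4 h2⟩

/-! ### Translation invariance -/

theorem CM_sub {V : Type} [Fintype V] [DecidableEq V] (e : V ≃ V) (b : Finset V) :
    (CM b).submatrix (Trans.EE' e) (Trans.EE' e) = CM (b.image e) := by
  unfold CM
  rw [Finset.sum_image fun a _ b _ h => e.injective h, Bs.subm_sum]
  refine Finset.sum_congr rfl fun x _ => ?_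
  rw [Finset.sum_image fun a _ b _ h => e.injective h, Bs.subm_sum]
  refine Finset.sum_congr rfl fun y _ => ?_
  exact Trans.hM_sub e x y

theorem gib_sub {V : Type} [Fintype V] [DecidableEq V] (e : V ≃ V) (L : List (V × V)) (β : ℝ)
    (h : V → ℝ) (hh : ∀ x, h (e x) = h x)
    (hL : (L.map fun z => LRO.hM (e z.1) (e z.2)).sum = (L.map fun z => LRO.hM z.1 z.2).sum)
    (A : Matrix (V → Fin 2) (V → Fin 2) ℝ) :
    gib L β h (A.submatrix (Trans.EE' e) (Trans.EE' e)) = gib L β h A := by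
  have hH := Trans.ham_sub e L h hL
  have hfun : (fun x => h (e x)) = h := funext hh
  rw [hfun] at hH
  have hE : (NormedSpace.exp (-β • ham L h)).submatrix (Trans.EE' e) (Trans.EE' e)
      = NormedSpace.exp (-β • ham L h) := by
    rw [← Trans.exp_submatrix, Matrix.submatrix_smul, Pi.smul_apply, Pi.smul_apply, hH]
  rw [gib, gib]
  congr 1
  conv_lhs => rw [← hE]
  rw [Matrix.submatrix_mul_equiv, Trans.trace_submatrix]

theorem gib_CM_translate {n s : ℕ} [NeZero n] (M : ℕ) (β h : ℝ) (R : ℕ) (x v : Tor n)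
    (G : Polynomial ℝ) :
    gib (edgesS n s M) β (hS fun _ => h) (Polynomial.aeval (CM (cubeS n s (x + v) R)) G) =
      gib (edgesS n s M) β (hS fun _ => h) (Polynomial.aeval (CM (cubeS n s x R)) G) := by
  have himg : (cubeS n s x R).image (TransS.gS v (Equiv.refl (Fin s))) = cubeS n s (x + v) R := by
    rw [cubeS_eq, cubeS_eq, Finset.image_image]
    congr 1
    funext z
    refine Prod.ext ?_ rfl
    show bl n R x z.1 + v = bl n R (x + v) z.1
    rw [bl, bl, add_right_comm]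
  rw [← himg, ← CM_sub, ← S3.LT1.aeval_submatrix]
  refine gib_sub _ _ _ _ (fun z => rfl) ?_ _
  rw [TransS.edgesS_map_sum M (fun u w : Tor n × Fin s =>
      LRO.hM (TransS.gS v (Equiv.refl (Fin s)) u) (TransS.gS v (Equiv.refl (Fin s)) w)),
    TransS.edgesS_map_sum M (fun u w : Tor n × Fin s => LRO.hM u w),
    TransS.interE_inv v (Equiv.refl _) (fun u w => LRO.hM u w),
    TransS.intraE_inv v (Equiv.refl _) (fun u w => LRO.hM u w) fun u w => TransS.hM_comm u w]

/-! ### The comparison -/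

section Cmp

variable {n R m s : ℕ} [NeZero n]

/-- All bonds between the copies of two sites. -/
def gI (s : ℕ) (p : Tor n × Tor n) : Matrix (Cfg (Tor n × Fin s)) (Cfg (Tor n × Fin s)) ℂ :=
  ∑ i : Fin s, ∑ j : Fin s, Energy.hM (p.1, i) (p.2, j)

/-- All bonds between the copies of a site. -/
def gA (s : ℕ) (a : Tor n) : Matrix (Cfg (Tor n × Fin s)) (Cfg (Tor n × Fin s)) ℂ :=
  ∑ q ∈ (univ : Finset (Fin s × Fin s)).filter (fun q => q.1 < q.2), Energy.hM (a, q.1) (a, q.2)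

theorem gI_psd (p : Tor n × Tor n) : (gI s p).PosSemidef :=
  Matrix.posSemidef_sum _ fun _ _ => Matrix.posSemidef_sum _ fun _ _ => Energy.hM_posSemidef _ _

theorem gA_psd (a : Tor n) : (gA s a).PosSemidef :=
  Matrix.posSemidef_sum _ fun _ _ => Energy.hM_posSemidef _ _

theorem inter_tor (hn : 3 ≤ n) :
    (∑ z : Tor n × Fin 3, gI s (z.1, z.1 + Pi.single z.2 1)) =
      (1 / 2 : ℂ) • ∑ p ∈ (Finset.univ : Finset (Tor n × Tor n)).filter
        (fun p => torusAdj n p.1 p.2), gI s p := by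
  have h1 := sum_torusAdj hn (fun a b => gI (n := n) s (a, b))
  have h2 : (∑ z : (Fin 3 → ZMod n) × Fin 3, gI (n := n) s (z.1 + Pi.single z.2 1, z.1)) =
      ∑ z : (Fin 3 → ZMod n) × Fin 3, gI (n := n) s (z.1, z.1 + Pi.single z.2 1) := by
    refine Finset.sum_congr rfl fun z _ => ?_
    unfold gI
    rw [Finset.sum_comm]
    exact Finset.sum_congr rfl fun i _ => Finset.sum_congr rfl fun j _ => S3.LT1.hM_comm _ _
  rw [h2] at h1
  have h3 : (∑ p : Tor n × Tor n, if torusAdj n p.1 p.2 then gI s p else 0) =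
      ∑ x : Tor n, ∑ y : Tor n, if torusAdj n x y then gI s (x, y) else 0 :=
    Fintype.sum_prod_type _
  rw [Finset.sum_filter, h3, h1, ← two_smul ℂ, smul_smul]
  norm_num

/-- The Hamiltonian of the block of copies. -/
def HB (R s M : ℕ) : Matrix (Cfg (B.cube R × Fin s)) (Cfg (B.cube R × Fin s)) ℂ :=
  cpx ((1 / 2 : ℝ) • ham (Lm (S3.nnL (B.cube R)) s (2 * M)) 0)

theorem HB_eq (R s M : ℕ) : HB R s M =
    (1 / 2 : ℂ) • (∑ e ∈ (univ : Finset (B.cube R × B.cube R)).filter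
      (fun e => IsNN e.1.1 e.2.1), ∑ i : Fin s, ∑ j : Fin s,
        (Energy.hM (e.1, i) (e.2, j) : Matrix (Cfg (B.cube R × Fin s)) (Cfg (B.cube R × Fin s)) ℂ)) +
      (M : ℂ) • ∑ u : B.cube R, ∑ q ∈ (univ : Finset (Fin s × Fin s)).filter (fun q => q.1 < q.2),
        Energy.hM (u, q.1) (u, q.2) := by
  have h1 : ham (interL (S3.nnL (B.cube R)) s) (0 : B.cube R × Fin s → ℝ) =
      ∑ e ∈ (univ : Finset (B.cube R × B.cube R)).filter
      (fun e => IsNN e.1.1 e.2.1), ∑ i : Fin s, ∑ j : Fin s, LRO.hM (e.1, i) (e.2, j) := by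
    unfold ham interL
    rw [list_flatMap_sum]
    have e1 : (fun a : B.cube R × B.cube R => ((((univ : Finset (Fin s × Fin s)).toList).map fun ij =>
        (((a.1, ij.1), (a.2, ij.2)) : (B.cube R × Fin s) × (B.cube R × Fin s))).map
          fun e => LRO.hM e.1 e.2).sum) =
        fun a => ∑ i : Fin s, ∑ j : Fin s, LRO.hM (a.1, i) (a.2, j) := by
      funext a
      rw [List.map_map, Finset.sum_map_toList, Fintype.sum_prod_type]
      rfl
    rw [e1, S3.nnL, Finset.sum_map_toList]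
    simp
  have h2 : intraM (B.cube R) s = ∑ u : B.cube R,
      ∑ q ∈ (univ : Finset (Fin s × Fin s)).filter (fun q => q.1 < q.2),
        LRO.hM (u, q.1) (u, q.2) := by
    unfold intraM intraL
    rw [List.map_map, Finset.sum_map_toList, Finset.sum_filter, Fintype.sum_prod_type]
    refine Finset.sum_congr rfl fun u _ => ?_
    rw [Finset.sum_filter]
    rfl
  rw [HB, ham_Lm, h1, h2, smul_add, smul_smul, Energy.cpx_add, Energy.cpx_smul, Energy.cpx_smul]
  congr 1
  · simp only [Energy.cpx_sum, Energy.cpx_hM]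
    norm_num
  · simp only [Energy.cpx_sum, Energy.cpx_hM]
    congr 1
    push_cast
    ring

theorem HB_isHermitian (R s M : ℕ) : (HB R s M).IsHermitian := by
  have h1 : ((1 / 2 : ℝ) • ham (Lm (S3.nnL (B.cube R)) s (2 * M))
      (0 : B.cube R × Fin s → ℝ)).IsSymm := by
    unfold Matrix.IsSymm
    rw [Matrix.transpose_smul, ham_symm]
  exact cM_isHermitian h1

theorem emb_HB (hm : R * m ≤ n) (M : ℕ) (y : Fin 3 → Fin m) : emb (tlS n R m s y) (HB R s M) =
    (1 / 2 : ℂ) • (∑ e ∈ (univ : Finset (B.cube R × B.cube R)).filter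
      (fun e => IsNN e.1.1 e.2.1), gI s (tl n R m y e.1, tl n R m y e.2)) +
      (M : ℂ) • ∑ u : B.cube R, gA s (tl n R m y u) := by
  have hinj : Function.Injective (tlS n R m s y) := fun a b h => (tlS_inj hm _ _ _ _ h).2
  rw [HB_eq, emb_add, emb_smul, emb_smul, emb_sum, emb_sum]
  simp only [emb_sum, emb_hM hinj]
  rfl

theorem bondsS_le (hn : 3 ≤ n) (hm : R * m ≤ n) (M : ℕ) :
    ((∑ z : Tor n × Fin 3, gI s (z.1, z.1 + Pi.single z.2 1) + (M : ℂ) • ∑ a : Tor n, gA s a) -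
      ∑ y : Fin 3 → Fin m, emb (tlS n R m s y) (HB R s M)).PosSemidef := by
  have e2 : (∑ y : Fin 3 → Fin m, emb (tlS n R m s y) (HB R s M)) =
      (1 / 2 : ℂ) • (∑ q ∈ (Finset.univ : Finset ((Fin 3 → Fin m) × (B.cube R × B.cube R))).filter
        (fun q => IsNN q.2.1.1 q.2.2.1), gI s (tl n R m q.1 q.2.1, tl n R m q.1 q.2.2)) +
      (M : ℂ) • ∑ q : (Fin 3 → Fin m) × B.cube R, gA s (tl n R m q.1 q.2) := by
    simp only [emb_HB hm]
    rw [Finset.sum_add_distrib, ← Finset.smul_sum, ← Finset.smul_sum]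
    congr 2
    · rw [Finset.sum_filter, Fintype.sum_prod_type]
      refine Finset.sum_congr rfl fun y _ => ?_
      rw [Finset.sum_filter]
    · rw [Fintype.sum_prod_type]
  have e3 : (∑ z : Tor n × Fin 3, gI s (z.1, z.1 + Pi.single z.2 1) + (M : ℂ) • ∑ a : Tor n, gA s a) -
      ∑ y : Fin 3 → Fin m, emb (tlS n R m s y) (HB R s M) =
      (1 / 2 : ℂ) • (∑ p ∈ (Finset.univ : Finset (Tor n × Tor n)).filter
        (fun p => torusAdj n p.1 p.2), gI s p -
        ∑ q ∈ (Finset.univ : Finset ((Fin 3 → Fin m) × (B.cube R × B.cube R))).filter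
        (fun q => IsNN q.2.1.1 q.2.2.1), gI s (tl n R m q.1 q.2.1, tl n R m q.1 q.2.2)) +
      ((M : ℝ) : ℂ) • (∑ a : Tor n, gA s a -
        ∑ q : (Fin 3 → Fin m) × B.cube R, gA s (tl n R m q.1 q.2)) := by
    rw [e2, inter_tor hn, smul_sub, smul_sub]
    push_cast
    abel
  rw [e3]
  refine Matrix.PosSemidef.add ?_ ?_
  · refine Matrix.PosSemidef.smul ?_ (by norm_num [Complex.le_def])
    refine psd_sub (f := fun q : (Fin 3 → Fin m) × (B.cube R × B.cube R) =>
      (tl n R m q.1 q.2.1, tl n R m q.1 q.2.2)) (g := fun p : Tor n × Tor n => gI s p)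
      ?_ ?_ (fun p => gI_psd p)
    · intro q _ q' _ h
      obtain ⟨h1, h2⟩ := Prod.mk.inj h
      obtain ⟨a1, a2⟩ := tl_inj hm h1
      obtain ⟨b1, b2⟩ := tl_inj hm h2
      exact Prod.ext a1 (Prod.ext a2 b2)
    · intro q hq
      rw [Finset.mem_filter] at hq ⊢
      exact ⟨Finset.mem_univ _, tl_adj q.1 hq.2⟩
  · refine Energy.smul_real_posSemidef ?_ (Nat.cast_nonneg M)
    refine psd_sub (s := (Finset.univ : Finset ((Fin 3 → Fin m) × B.cube R)))
      (f := fun q : (Fin 3 → Fin m) × B.cube R => tl n R m q.1 q.2)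
      (g := fun a : Tor n => gA s a) ?_ (fun q _ => Finset.mem_univ _) (fun a => gA_psd a)
    intro q _ q' _ h
    obtain ⟨a1, a2⟩ := tl_inj hm h
    exact Prod.ext a1 a2

/-- The exponent of the Gibbs state. -/
theorem cpx_expoS (M : ℕ) (β h : ℝ) :
    cpx (-β • ham (edgesS n s M) (hS fun _ => h)) =
      -((β : ℂ) • (∑ z : Tor n × Fin 3, gI s (z.1, z.1 + Pi.single z.2 1) +
        (M : ℂ) • ∑ a : Tor n, gA s a)) +
        ∑ x : Tor n × Fin s, ((β * h : ℝ) : ℂ) • Energy.szM x := by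
  have h1 : ham (edgesS n s M) (hS fun _ : Tor n => h) =
      (∑ z : Tor n × Fin 3, ∑ i : Fin s, ∑ j : Fin s, LRO.hM (z.1, i) (z.1 + Pi.single z.2 1, j) +
        (M : ℝ) • ∑ a : Tor n, ∑ q ∈ (univ : Finset (Fin s × Fin s)).filter (fun q => q.1 < q.2),
          LRO.hM (a, q.1) (a, q.2)) - ∑ x : Tor n × Fin s, (h / 2) • LRO.szM x := by
    unfold ham
    rw [TransS.edgesS_map_sum M (fun u w : Tor n × Fin s => LRO.hM u w),
      TransS.interE_map_sum (fun u w : Tor n × Fin s => LRO.hM u w),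
      TransS.intraE_map_sum (fun u w : Tor n × Fin s => LRO.hM u w), Finset.sum_filter,
      Fintype.sum_prod_type (fun z : Tor n × (Fin s × Fin s) => _), ← Nat.cast_smul_eq_nsmul ℝ]
    simp only [Finset.sum_filter, hS]
  rw [h1, smul_sub, smul_add, Energy.cpx_sub, Energy.cpx_add]
  simp only [Energy.cpx_smul, Energy.cpx_sum, Energy.cpx_szM, Energy.cpx_hM, Finset.smul_sum,
    smul_smul]
  rw [sub_eq_add_neg, ← Finset.sum_neg_distrib]
  congr 1
  · simp only [gI, gA, smul_add, smul_smul, Finset.smul_sum, neg_add, ← Finset.sum_neg_distrib,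
      ← neg_smul]
    congr 1
    · refine Finset.sum_congr rfl fun z _ => Finset.sum_congr rfl fun i _ =>
        Finset.sum_congr rfl fun j _ => ?_
      push_cast
      rfl
    · refine Finset.sum_congr rfl fun z _ => Finset.sum_congr rfl fun i _ => ?_
      congr 1
      push_cast
      ring
  · refine Finset.sum_congr rfl fun x _ => ?_
    rw [← neg_smul]
    congr 1
    push_cast
    ring

theorem decS (hn : 3 ≤ n) (hm : R * m ≤ n) (M : ℕ) {β h : ℝ} (hβ : 0 ≤ β) (hh : 0 ≤ h) :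
    ((((β * h * s / 2 * (n : ℝ) ^ 3 : ℝ) : ℂ) •
      (1 : Matrix (Cfg (Tor n × Fin s)) (Cfg (Tor n × Fin s)) ℂ) -
      (β : ℂ) • ∑ y : Fin 3 → Fin m, emb (tlS n R m s y) (HB R s M)) -
      cpx (-β • ham (edgesS n s M) (hS fun _ => h))).PosSemidef := by
  have e1 : (((β * h * s / 2 * (n : ℝ) ^ 3 : ℝ) : ℂ) •
      (1 : Matrix (Cfg (Tor n × Fin s)) (Cfg (Tor n × Fin s)) ℂ) -
      (β : ℂ) • ∑ y : Fin 3 → Fin m, emb (tlS n R m s y) (HB R s M)) -
      cpx (-β • ham (edgesS n s M) (hS fun _ => h)) =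
      (β : ℂ) • ((∑ z : Tor n × Fin 3, gI s (z.1, z.1 + Pi.single z.2 1) +
        (M : ℂ) • ∑ a : Tor n, gA s a) -
        ∑ y : Fin 3 → Fin m, emb (tlS n R m s y) (HB R s M)) +
      ∑ x : Tor n × Fin s, ((β * h : ℝ) : ℂ) •
        ((1 / 2 : ℂ) • (1 : Matrix (Cfg (Tor n × Fin s)) (Cfg (Tor n × Fin s)) ℂ) -
          Energy.szM x) := by
    rw [cpx_expoS]
    simp only [smul_sub, Finset.sum_sub_distrib, Finset.sum_const, Finset.card_univ,
      Fintype.card_prod, Fintype.card_fun, ZMod.card, Fintype.card_fin]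
    rw [← Nat.cast_smul_eq_nsmul ℂ, smul_smul, smul_smul]
    push_cast
    have e2 : (β : ℂ) * h * s / 2 * (n : ℂ) ^ 3 = (n : ℂ) ^ 3 * s * (β * h * (1 / 2)) := by ring
    rw [e2]
    simp only [← mul_assoc]
    abel
  rw [e1]
  refine (Energy.smul_real_posSemidef (bondsS_le hn hm M) hβ).add ?_
  exact Matrix.posSemidef_sum _ fun x _ =>
    Energy.smul_real_posSemidef (Energy.half_sub_szM_posSemidef x) (mul_nonneg hβ hh)

/-- The inequality in finite volume. -/
theorem fin_le (hn : 3 ≤ n) (hm : R * m ≤ n) (M : ℕ) {β h : ℝ} (hβ : 0 ≤ β)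
    (hh : 0 ≤ h) (x : Tor n) (G : Polynomial ℝ) :
    (m : ℝ) ^ 3 * gib (edgesS n s M) β (hS fun _ => h) (Polynomial.aeval (CM (cubeS n s x R)) G) ≤
      (m : ℝ) ^ 3 * (Real.log (trace (NormedSpace.exp (-(β / 2) •
        ham (Lm (S3.nnL (B.cube R)) s (2 * M)) 0 +
          Polynomial.aeval (CM (univ : Finset (B.cube R × Fin s))) G))) -
          s * (R : ℝ) ^ 3 * Real.log 2) + s * (n : ℝ) ^ 3 * Real.log 2 -
        (Real.log (trace (NormedSpace.exp (-β • ham (edgesS n s M) (hS fun _ => h)))) -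
          β * h * s / 2 * (n : ℝ) ^ 3) := by
  have hCMs : ∀ P : Polynomial ℝ,
      (cpx (Polynomial.aeval (CM (univ : Finset (B.cube R × Fin s))) P)).IsHermitian := by
    intro P
    rw [S3.LT1.cpx_aeval]
    refine S3.LT1.aeval_isHermitian ?_ P
    rw [CM, Energy.cpx_sum]
    refine Energy.sum_isHermitian _ fun x _ => ?_
    rw [Energy.cpx_sum]
    refine Energy.sum_isHermitian _ fun y _ => ?_
    rw [Energy.cpx_hM]
    exact Energy.hM_isHermitian x y
  have h1 := pb_blocks (edgesS n s M) β (hS fun _ : Tor n => h) (tlS n R m s)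
    (fun y y' u u' h' => tlS_inj hm y y' u u' h') (HB_isHermitian R s M) (hCMs G)
    (β * h * s / 2 * (n : ℝ) ^ 3) (decS hn hm M hβ hh)
  have h2 : ∀ y : Fin 3 → Fin m, Vale.Agent.P361.LRO.Energy.ex (cpx (-β • ham (edgesS n s M) (hS fun _ : Tor n => h)))
      (emb (tlS n R m s y) (cpx (Polynomial.aeval (CM (univ : Finset (B.cube R × Fin s))) G))) =
      gib (edgesS n s M) β (hS fun _ => h) (Polynomial.aeval (CM (cubeS n s x R)) G) := by
    intro y
    have hinj : Function.Injective (tlS n R m s y) := fun a b h => (tlS_inj hm _ _ _ _ h).2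
    rw [← cpx_aeval_CM_image hinj, ← Energy.gib_eq]
    have h4 := gib_CM_translate (s := s) M β h R x
      ((fun i => (((R * (y i : ℕ) : ℕ) : ℤ) : ZMod n)) - x) G
    rw [add_sub_cancel, cubeS_eq] at h4
    exact h4
  have h3 : (trace (NormedSpace.exp (-((β : ℂ) • HB R s M) +
      cpx (Polynomial.aeval (CM (univ : Finset (B.cube R × Fin s))) G)))).re =
      trace (NormedSpace.exp (-(β / 2) • ham (Lm (S3.nnL (B.cube R)) s (2 * M)) 0 +
          Polynomial.aeval (CM (univ : Finset (B.cube R × Fin s))) G)) := by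
    have e1 : -((β : ℂ) • HB R s M) +
        cpx (Polynomial.aeval (CM (univ : Finset (B.cube R × Fin s))) G) =
        cpx (-(β / 2) • ham (Lm (S3.nnL (B.cube R)) s (2 * M)) 0 +
          Polynomial.aeval (CM (univ : Finset (B.cube R × Fin s))) G) := by
      rw [Energy.cpx_add, Energy.cpx_smul, HB, Energy.cpx_smul, smul_smul, ← neg_smul]
      congr 2
      push_cast
      ring
    rw [e1, ← Energy.cpx_exp, Energy.cpx_trace]
  rw [Finset.sum_congr rfl fun y _ => h2 y, Finset.sum_const, Finset.card_univ, h3,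
    nsmul_eq_mul, Fintype.card_prod, Fintype.card_prod, S3.LT1.card_cubeB, Fintype.card_fun,
    Fintype.card_fun, Fintype.card_fin, Fintype.card_fin, Fintype.card_fin, ZMod.card] at h1
  push_cast at h1
  linarith

end Cmp

end LT1S

/-- Lower bound of the free energy of the copies by the pressure of the spin `s / 2` model,
uniformly in `M` (from `log Z_M ≥ log Z_{spin s/2}`). -/
def LogZS (s : ℕ) : Prop :=
  ∀ β h : ℝ, 0 < β → 0 ≤ h → ∀ ε : ℝ, 0 < ε → ∃ n0 : ℕ, ∀ (n : ℕ) [NeZero n], n0 ≤ n → Odd n →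
    ∀ M : ℕ, (B.gRed s β h - ε) * (n : ℝ) ^ 3 ≤
      Real.log (trace (NormedSpace.exp (-β • ham (edgesS n s M) (hS fun _ => h)))) -
        β * h * s / 2 * (n : ℝ) ^ 3

/-- **(T1_S)** -/
theorem lt1S_of {s : ℕ} (hZ : LogZS s) {β h : ℝ} (hβ : 0 < β) (hh : 0 ≤ h) {R : ℕ} (hR : 0 < R)
    {ε : ℝ} (hε : 0 < ε) :
    ∃ n0 : ℕ, ∀ (n : ℕ) [NeZero n], n0 ≤ n → Odd n → ∀ (M : ℕ) (x : Tor n) (G : Polynomial ℝ),
      gib (edgesS n s M) β (hS fun _ => h) (Polynomial.aeval (CM (cubeS n s x R)) G) ≤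
        Real.log (trace (NormedSpace.exp (-(β / 2) •
          ham (Lm (S3.nnL (B.cube R)) s (2 * M)) 0 +
            Polynomial.aeval (CM (univ : Finset (B.cube R × Fin s))) G))) -
          (R : ℝ) ^ 3 * B.gRed s β h + ε := by
  -- choice of the small constant
  set Q : ℝ := |(s : ℝ) * Real.log 2 - B.gRed s β h| + 1 with hQ
  have hQ1 : 1 ≤ Q := by rw [hQ]; linarith [abs_nonneg ((s : ℝ) * Real.log 2 - B.gRed s β h)]
  have hR3 : (0 : ℝ) < (R : ℝ) ^ 3 := by positivity
  obtain ⟨n1, hn1⟩ := hZ β h hβ hh (ε / (4 * (R : ℝ) ^ 3)) (by positivity)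
  have h1 := (S3.LT1.div_tendsto hR).pow 3
  have hδ : 0 < min (ε / (4 * Q)) ((R : ℝ) ^ 3) := by
    refine lt_min (by positivity) hR3
  obtain ⟨N0, hN0⟩ := eventually_atTop.1 ((tendsto_order.1 h1).2
    ((R : ℝ) ^ 3 + min (ε / (4 * Q)) ((R : ℝ) ^ 3)) (by linarith))
  refine ⟨max n1 (2 * N0 + 3 + R), fun n _ hn hodd M x G => ?_⟩
  have hnA : n1 ≤ n := (le_max_left _ _).trans hn
  have hnB : 2 * N0 + 3 + R ≤ n := (le_max_right _ _).trans hn
  have hZn := hn1 n hnA hodd M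
  obtain ⟨N, rfl⟩ := hodd
  have h2 := hN0 N (by omega)
  have hm : R * ((2 * N + 1) / R) ≤ 2 * N + 1 := Nat.mul_div_le _ _
  have hmpos : 0 < (2 * N + 1) / R := Nat.div_pos (by omega) hR
  have h3 := LT1S.fin_le (n := 2 * N + 1) (R := R) (m := (2 * N + 1) / R) (s := s) (by omega)
    hm M hβ.le hh x G
  have hm' : (0 : ℝ) < (((2 * N + 1) / R : ℕ) : ℝ) := by exact_mod_cast hmpos
  have hRm : (R : ℝ) * (((2 * N + 1) / R : ℕ) : ℝ) ≤ ((2 * N + 1 : ℕ) : ℝ) := by exact_mod_cast hm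
  set m : ℝ := (((2 * N + 1) / R : ℕ) : ℝ) with hmdef
  set nn : ℝ := ((2 * N + 1 : ℕ) : ℝ) with hnn
  have hnn0 : 0 < nn := by rw [hnn]; positivity
  set LT := Real.log (trace (NormedSpace.exp (-(β / 2) •
          ham (Lm (S3.nnL (B.cube R)) s (2 * M)) 0 +
            Polynomial.aeval (CM (univ : Finset (B.cube R × Fin s))) G))) with hLT
  set g := B.gRed s β h with hg
  have hm3 : 0 < m ^ 3 := by positivity
  -- `nn³ ≤ (R³ + δ) m³`, `R³ m³ ≤ nn³`
  have h5 : nn ^ 3 ≤ ((R : ℝ) ^ 3 + min (ε / (4 * Q)) ((R : ℝ) ^ 3)) * m ^ 3 := by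
    have h6 := h2.le
    rw [div_pow, div_le_iff₀ hm3] at h6
    exact h6
  have h6 : (R : ℝ) ^ 3 * m ^ 3 ≤ nn ^ 3 := by
    rw [← mul_pow]
    exact pow_le_pow_left₀ (by positivity) hRm 3
  -- the error
  have h7 : (nn ^ 3 - (R : ℝ) ^ 3 * m ^ 3) * ((s : ℝ) * Real.log 2 - g) ≤ ε / 4 * m ^ 3 := by
    have a1 : 0 ≤ nn ^ 3 - (R : ℝ) ^ 3 * m ^ 3 := sub_nonneg.2 h6
    have a2 : nn ^ 3 - (R : ℝ) ^ 3 * m ^ 3 ≤ ε / (4 * Q) * m ^ 3 := by
      have := mul_le_mul_of_nonneg_right (min_le_left (ε / (4 * Q)) ((R : ℝ) ^ 3)) hm3.le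
      linarith only [this, h5]
    have a3 : (s : ℝ) * Real.log 2 - g ≤ Q := by
      rw [hQ]; linarith only [le_abs_self ((s : ℝ) * Real.log 2 - g)]
    calc (nn ^ 3 - (R : ℝ) ^ 3 * m ^ 3) * ((s : ℝ) * Real.log 2 - g)
        ≤ (nn ^ 3 - (R : ℝ) ^ 3 * m ^ 3) * Q := mul_le_mul_of_nonneg_left a3 a1
      _ ≤ ε / (4 * Q) * m ^ 3 * Q := mul_le_mul_of_nonneg_right a2 (by linarith only [hQ1])
      _ = ε / 4 * m ^ 3 := by field_simp
  have h8 : ε / (4 * (R : ℝ) ^ 3) * nn ^ 3 ≤ ε / 2 * m ^ 3 := by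
    have a1 : nn ^ 3 ≤ 2 * (R : ℝ) ^ 3 * m ^ 3 := by
      have := mul_le_mul_of_nonneg_right (min_le_right (ε / (4 * Q)) ((R : ℝ) ^ 3)) hm3.le
      linarith only [this, h5]
    calc ε / (4 * (R : ℝ) ^ 3) * nn ^ 3 ≤ ε / (4 * (R : ℝ) ^ 3) * (2 * (R : ℝ) ^ 3 * m ^ 3) :=
          mul_le_mul_of_nonneg_left a1 (by positivity)
      _ = ε / 2 * m ^ 3 := by field_simp; ring
  refine le_of_mul_le_mul_left ?_ hm3
  refine h3.trans ?_
  have h9 := mul_pos hε hm3
  linarith only [h7, h8, hZn, h9]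

end

end Vale.Agent.P361.LRO.S3S
end

section

/-!
P361, stage 3, block (D): the direction of the block spin, static Gibbs state.
-/

namespace Vale.Agent.P361.LRO.S3

open Finset Matrix Filter

noncomputable section

variable {V : Type} [Fintype V] [DecidableEq V]

/-- The data of the joint law of `(J, M)` of the block `b` in the Gibbs state: `J = N / 2`,
`M = N / 2 - p`, `|b| = N + 2 r`, with the exponential moment of the twist. -/
structure BlockLaw (L : List (V × V)) (β : ℝ) (h : V → ℝ) (b : Finset V) (K κ : ℝ) {ι : Type}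
    [Fintype ι] (μ : ι → ℝ) (N r p : ι → ℕ) : Prop where
  nonneg : ∀ i, 0 ≤ μ i
  sum_one : ∑ i, μ i = 1
  card : ∀ i, N i + 2 * r i = b.card
  le : ∀ i, p i ≤ N i
  mean : (∑ i, μ i * ((r i : ℝ) + p i)) = ∑ x ∈ b, rho L β h x
  cas : ∑ i, μ i * ((r i : ℝ) * ((b.card : ℝ) - r i + 1)) =
    ∑ x ∈ b, ∑ y ∈ b, gib L β h (hM x y)
  mom : ∑ i, μ i * (TwJ.aN (K / b.card) (N i) * Real.exp (κ * ((p i : ℝ) / N i) / 2)) ≤
    2 * ∑ i, μ i * TwJ.aN (K / b.card) (N i)

/-- The exponential moment from the power moments of the twist. -/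
theorem exp_mom_of {W : Matrix (V → Fin 2) (V → Fin 2) ℝ} {b : Finset V} {K κ : ℝ}
    {ι : Type} [Fintype ι] {μ : ι → ℝ} {N p : ι → ℕ} (hK : 0 ≤ K) (hκ : 0 ≤ κ)
    (h5 : ∀ k : ℝ, 0 ≤ k → ∑ i, μ i * TwJ.aN k (N i) =
        Real.cosh (k / 2) ^ b.card / 2 * ∫ φ in (0 : ℝ)..Real.pi,
          Real.sin φ * Matrix.trace (W * rotT b (Real.tanh (k / 2)) φ))
    (h6 : ∀ k : ℝ, 0 ≤ k → ∀ m : ℕ, ∑ i, μ i * (TwJ.aN k (N i) * ((p i : ℝ) / N i) ^ m) ≤
        Real.cosh (k / 2) ^ b.card / 2 * ∫ φ in (0 : ℝ)..Real.pi,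
          Real.sin φ * (1 - Real.cos φ) ^ m *
            Matrix.trace (W * rotT b (Real.tanh (k / 2)) φ))
    (htw : ∀ m : ℕ, κ ^ m * (∫ φ in (0 : ℝ)..Real.pi, Real.sin φ * (1 - Real.cos φ) ^ m *
        Matrix.trace (W * rotT b (Real.tanh (K / (2 * b.card))) φ)) ≤
      (m.factorial : ℝ) * ∫ φ in (0 : ℝ)..Real.pi, Real.sin φ *
        Matrix.trace (W * rotT b (Real.tanh (K / (2 * b.card))) φ)) :
    ∑ i, μ i * (TwJ.aN (K / b.card) (N i) * Real.exp (κ * ((p i : ℝ) / N i) / 2)) ≤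
      2 * ∑ i, μ i * TwJ.aN (K / b.card) (N i) := by
  have hk : 0 ≤ K / b.card := by positivity
  have e1 : K / b.card / 2 = K / (2 * b.card) := by
    rw [div_div, mul_comm (b.card : ℝ) 2]
  have h := Bloch.exp_moment (w := fun i => μ i * TwJ.aN (K / b.card) (N i))
    (x := fun i => (p i : ℝ) / N i) (κ := κ) (S := ∑ i, μ i * TwJ.aN (K / b.card) (N i)) ?_
  · simpa only [mul_assoc] using h
  · intro m
    have h7 := h6 _ hk m
    rw [h5 _ hk, e1]
    rw [e1] at h7
    have hc : 0 ≤ Real.cosh (K / (2 * b.card)) ^ b.card / 2 := by positivity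
    have h8 := mul_le_mul_of_nonneg_left h7 (pow_nonneg hκ m)
    have h9 := mul_le_mul_of_nonneg_left (htw m) hc
    calc κ ^ m * ∑ i, μ i * TwJ.aN (K / b.card) (N i) * ((p i : ℝ) / N i) ^ m
        = κ ^ m * ∑ i, μ i * (TwJ.aN (K / b.card) (N i) * ((p i : ℝ) / N i) ^ m) := by
          simp only [mul_assoc]
      _ ≤ _ := h8
      _ = Real.cosh (K / (2 * b.card)) ^ b.card / 2 * (κ ^ m *
          ∫ φ in (0 : ℝ)..Real.pi, Real.sin φ * (1 - Real.cos φ) ^ m *
            Matrix.trace (W * rotT b (Real.tanh (K / (2 * b.card))) φ)) := by ring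
      _ ≤ _ := h9
      _ = _ := by ring

theorem expH_cons' (L : List (V × V)) (β : ℝ) (h : V → ℝ) (σ τ : V → Fin 2)
    (hd : NormedSpace.exp (-β • ham L h) σ τ ≠ 0) :
    ∑ x, ((σ x : ℕ) : ℤ) = ∑ x, ((τ x : ℕ) : ℤ) := by
  have := Tw.expH_cons L β h σ τ hd
  exact_mod_cast this

/-- **The joint law in the Gibbs state.** -/
theorem exists_blockLaw (L : List (V × V)) {β : ℝ} (hβ : 0 < β) {h : V → ℝ} (hh : ∀ x, 0 ≤ h x)
    (b : Finset V) {K κ : ℝ} (hK : 0 ≤ K) (hκ : 0 ≤ κ)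
    (hf : ∃ᶠ N : ℕ in atTop, κ ≤ kap L β N h K b) :
    ∃ (ι : Type) (_ : Fintype ι) (μ : ι → ℝ) (N r p : ι → ℕ), BlockLaw L β h b K κ μ N r p := by
  obtain ⟨ι, hι, μ, N, r, p, h1, h2, h3, h4, h4', h5, h6⟩ :=
    TwJ.joint_law (Tw.expH_psd L β h) (expH_cons' L β h) b
  have hT := Tw.trace_expH_pos L β h
  set T := Matrix.trace (NormedSpace.exp (-β • ham L h)) with hTdef
  have hm := exp_mom_of (W := NormedSpace.exp (-β • ham L h)) hK hκ h5 h6
    (Bloch.twist_gibbs_pow L hβ hh hK hκ b hf)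
  refine ⟨ι, hι, fun i => μ i / T, N, r, p, ?_, ?_, fun i => (h2 i).1, fun i => (h2 i).2,
    ?_, ?_, ?_⟩
  · exact fun i => div_nonneg (h1 i) hT.le
  · rw [← Finset.sum_div, h3, div_self hT.ne']
  · have : ∑ i, μ i / T * ((r i : ℝ) + p i) = (∑ i, μ i * ((r i : ℝ) + p i)) / T := by
      rw [Finset.sum_div]
      exact Finset.sum_congr rfl fun i _ => by ring
    rw [this, h4, Finset.sum_div]
    rfl
  · have : ∑ i, μ i / T * ((r i : ℝ) * ((b.card : ℝ) - r i + 1)) =
        (∑ i, μ i * ((r i : ℝ) * ((b.card : ℝ) - r i + 1))) / T := by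
      rw [Finset.sum_div]
      exact Finset.sum_congr rfl fun i _ => by ring
    rw [this, h4', Finset.sum_div]
    refine Finset.sum_congr rfl fun x _ => ?_
    rw [Finset.sum_div]
    rfl
  · have e1 : ∑ i, μ i / T * (TwJ.aN (K / b.card) (N i) *
        Real.exp (κ * ((p i : ℝ) / N i) / 2)) =
        (∑ i, μ i * (TwJ.aN (K / b.card) (N i) * Real.exp (κ * ((p i : ℝ) / N i) / 2))) / T := by
      rw [Finset.sum_div]
      exact Finset.sum_congr rfl fun i _ => by ring
    have e2 : 2 * ∑ i, μ i / T * TwJ.aN (K / b.card) (N i) =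
        (2 * ∑ i, μ i * TwJ.aN (K / b.card) (N i)) / T := by
      rw [Finset.mul_sum, Finset.mul_sum, Finset.sum_div]
      exact Finset.sum_congr rfl fun i _ => by ring
    rw [e1, e2]
    exact div_le_div_of_nonneg_right hm hT.le

namespace BlockLaw

variable {L : List (V × V)} {β : ℝ} {h : V → ℝ} {b : Finset V} {K κ : ℝ} {ι : Type}
  [Fintype ι] {μ : ι → ℝ} {N r p : ι → ℕ}

theorem ratio_ge (H : BlockLaw L β h b K κ μ N r p) (hb : b.Nonempty) (hK : 0 ≤ K) (i : ι) :
    Real.exp (-(K * ((r i : ℝ) / b.card))) ≤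
      TwJ.aN (K / b.card) (N i) / TwJ.aN (K / b.card) b.card := by
  have hn : (0 : ℝ) < b.card := by exact_mod_cast hb.card_pos
  have hk : 0 ≤ K / b.card := by positivity
  have hc := H.card i
  have h1 := TwJ.aN_le hk (N := N i) (n := b.card) (by omega)
  have e : b.card - N i = 2 * r i := by omega
  rw [e] at h1
  rw [le_div_iff₀ (TwJ.aN_pos hk _)]
  have e2 : K / b.card / 2 * ((2 * r i : ℕ) : ℝ) = K * ((r i : ℝ) / b.card) := by
    push_cast
    field_simp
  rw [e2] at h1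
  have h2 := mul_le_mul_of_nonneg_left h1 (Real.exp_pos (-(K * ((r i : ℝ) / b.card)))).le
  rw [← mul_assoc, ← Real.exp_add, neg_add_cancel, Real.exp_zero, one_mul] at h2
  exact h2

theorem ratio_le (H : BlockLaw L β h b K κ μ N r p) (hK : 0 ≤ K) (i : ι) :
    TwJ.aN (K / b.card) (N i) / TwJ.aN (K / b.card) b.card ≤ 1 := by
  have hk : 0 ≤ K / b.card := by positivity
  have hc := H.card i
  rw [div_le_one (TwJ.aN_pos hk _)]
  exact TwJ.aN_mono hk (by omega)

theorem mom' (H : BlockLaw L β h b K κ μ N r p) (hK : 0 < K) :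
    ∑ i, μ i * (TwJ.aN (K / b.card) (N i) / TwJ.aN (K / b.card) b.card *
        Real.exp (κ / (2 * K) * K * ((p i : ℝ) / N i))) ≤
      2 * ∑ i, μ i * (TwJ.aN (K / b.card) (N i) / TwJ.aN (K / b.card) b.card) := by
  have hk : 0 ≤ K / b.card := by positivity
  have ha := TwJ.aN_pos hk b.card
  have hm := div_le_div_of_nonneg_right H.mom ha.le
  have e1 : ∑ i, μ i * (TwJ.aN (K / b.card) (N i) / TwJ.aN (K / b.card) b.card *
        Real.exp (κ / (2 * K) * K * ((p i : ℝ) / N i))) =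
      (∑ i, μ i * (TwJ.aN (K / b.card) (N i) * Real.exp (κ * ((p i : ℝ) / N i) / 2))) /
        TwJ.aN (K / b.card) b.card := by
    rw [Finset.sum_div]
    refine Finset.sum_congr rfl fun i _ => ?_
    have e : κ / (2 * K) * K * ((p i : ℝ) / N i) = κ * ((p i : ℝ) / N i) / 2 := by
      field_simp
    rw [e]
    ring
  have e2 : 2 * ∑ i, μ i * (TwJ.aN (K / b.card) (N i) / TwJ.aN (K / b.card) b.card) =
      (2 * ∑ i, μ i * TwJ.aN (K / b.card) (N i)) / TwJ.aN (K / b.card) b.card := by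
    rw [Finset.mul_sum, Finset.mul_sum, Finset.sum_div]
    exact Finset.sum_congr rfl fun i _ => by ring
  rw [e1, e2]
  exact hm

/-- `ρ̄_b = E D + E[p/|b|] ≤ E D + E[p/N]`. -/
theorem rho_le (H : BlockLaw L β h b K κ μ N r p) (hb : b.Nonempty) :
    (∑ x ∈ b, rho L β h x) / b.card ≤
      ∑ i, μ i * ((r i : ℝ) / b.card) + ∑ i, μ i * ((p i : ℝ) / N i) := by
  have hn : (0 : ℝ) < b.card := by exact_mod_cast hb.card_pos
  rw [← H.mean, Finset.sum_div, ← Finset.sum_add_distrib]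
  refine Finset.sum_le_sum fun i _ => ?_
  have h1 : (p i : ℝ) / b.card ≤ (p i : ℝ) / N i := by
    rcases Nat.eq_zero_or_pos (N i) with h0 | h0
    · have : p i = 0 := by have := H.le i; omega
      rw [this]
      simp
    · have hN0 : (0 : ℝ) < N i := by exact_mod_cast h0
      have hle : (N i : ℝ) ≤ b.card := by
        have := H.card i
        exact_mod_cast (by omega : N i ≤ b.card)
      exact div_le_div_of_nonneg_left (Nat.cast_nonneg _) hN0 hle
  have h2 := mul_le_mul_of_nonneg_left h1 (H.nonneg i)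
  calc μ i * ((r i : ℝ) + p i) / b.card = μ i * ((r i : ℝ) / b.card) + μ i * ((p i : ℝ) / b.card) := by
        ring
    _ ≤ _ := by linarith

/-- The mean of `D` is at most `Db`. -/
theorem mean_D_le (H : BlockLaw L β h b K κ μ N r p) (hb : b.Nonempty) :
    ∑ i, μ i * ((r i : ℝ) / b.card) ≤ Db L β h b := by
  have hn : (0 : ℝ) < b.card := by exact_mod_cast hb.card_pos
  have e : Db L β h b = 2 / (b.card : ℝ) ^ 2 *
      ∑ i, μ i * ((r i : ℝ) * ((b.card : ℝ) - r i + 1)) := by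
    rw [H.cas]
    unfold Db
    ring
  rw [e, Finset.mul_sum]
  refine Finset.sum_le_sum fun i _ => ?_
  have hr : 2 * (r i : ℝ) ≤ b.card := by
    have := H.card i
    exact_mod_cast (by omega : 2 * r i ≤ b.card)
  have hr0 : (0 : ℝ) ≤ r i := Nat.cast_nonneg _
  have h1 : (r i : ℝ) / b.card ≤ 2 / (b.card : ℝ) ^ 2 * ((r i : ℝ) * ((b.card : ℝ) - r i + 1)) := by
    rw [div_mul_eq_mul_div, div_le_div_iff₀ hn (by positivity)]
    have : (b.card : ℝ) ≤ 2 * ((b.card : ℝ) - r i + 1) := by linarith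
    have h3 : (r i : ℝ) * b.card * b.card ≤ (2 * ((b.card : ℝ) - r i + 1)) * r i * b.card := by
      have := mul_le_mul_of_nonneg_right this (mul_nonneg hr0 hn.le)
      linarith
    nlinarith
  calc μ i * ((r i : ℝ) / b.card) ≤ μ i * (2 / (b.card : ℝ) ^ 2 *
        ((r i : ℝ) * ((b.card : ℝ) - r i + 1))) := mul_le_mul_of_nonneg_left h1 (H.nonneg i)
    _ = _ := by ring

/-- Closure. -/
theorem closure (H : BlockLaw L β h b K κ μ N r p) (hb : b.Nonempty) (hK : 0 < K) (hκ : 0 < κ) :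
    (∑ x ∈ b, rho L β h x) / b.card ≤ (1 + 2 * K / κ) * Db L β h b + 2 / κ := by
  have h1 := dir_closure Finset.univ μ (fun i => (r i : ℝ) / b.card) (fun i => (p i : ℝ) / N i)
    (fun i => TwJ.aN (K / b.card) (N i) / TwJ.aN (K / b.card) b.card) (K := K)
    (c := κ / (2 * K)) (fun i _ => H.nonneg i) H.sum_one hK
    (fun i _ => H.ratio_ge hb hK.le i) (fun i _ => H.ratio_le hK.le i) (H.mom' hK)
  have h2 := H.rho_le hb
  have h3 := H.mean_D_le hb
  set ED := ∑ i, μ i * ((r i : ℝ) / b.card) with hED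
  set EX := ∑ i, μ i * ((p i : ℝ) / N i) with hEX
  have h4 : EX ≤ 2 * K / κ * ED + 2 / κ := by
    have h5 : 0 < 2 * K / κ := by positivity
    have h6 := mul_le_mul_of_nonneg_left h1 h5.le
    have e1 : 2 * K / κ * (κ / (2 * K) * EX) = EX := by field_simp
    have e2 : 2 * K / κ * (ED + 1 / K) = 2 * K / κ * ED + 2 / κ := by field_simp
    rw [e1, e2] at h6
    exact h6
  have h7 : 2 * K / κ * ED ≤ 2 * K / κ * Db L β h b :=
    mul_le_mul_of_nonneg_left h3 (by positivity)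
  linarith

end BlockLaw

/-- **Block (D), closure form.** -/
theorem dir_gibbs (L : List (V × V)) {β : ℝ} (hβ : 0 < β) {h : V → ℝ} (hh : ∀ x, 0 ≤ h x)
    {b : Finset V} (hb : b.Nonempty) {K κ : ℝ} (hK : 0 < K) (hκ : 0 < κ)
    (hf : ∃ᶠ N : ℕ in atTop, κ ≤ kap L β N h K b) :
    (∑ x ∈ b, rho L β h x) / b.card ≤ (1 + 2 * K / κ) * Db L β h b + 2 / κ := by
  obtain ⟨ι, hι, μ, N, r, p, H⟩ := exists_blockLaw L hβ hh b hK.le hκ.le hf
  exact H.closure hb hK hκ

end

end Vale.Agent.P361.LRO.S3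
end

section

/-!
P361, stage 3, block (D): `DirStmt3` and `DirSharpStmt3`.
-/

namespace Vale.Agent.P361.LRO.S3

open Finset Matrix Filter

noncomputable section

/-! ### The scalar function `aN` -/

theorem dd_zero' (k : ℝ) : TwJ.dd k 0 = Real.exp (k / 2) := by
  rw [TwJ.dd, Real.cos_zero, mul_one, Real.cosh_add_sinh]

theorem dd_pi' (k : ℝ) : TwJ.dd k Real.pi = Real.exp (-(k / 2)) := by
  rw [TwJ.dd, Real.cos_pi, Real.cosh_eq, Real.sinh_eq]
  ring

theorem aN_closed (k : ℝ) (N : ℕ) : ((N : ℝ) + 1) * (2 * Real.sinh (k / 2)) * TwJ.aN k N =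
    Real.exp (k / 2) ^ (N + 1) - Real.exp (-(k / 2)) ^ (N + 1) := by
  have h1 : ∀ θ ∈ Set.uIcc (0 : ℝ) Real.pi, HasDerivAt (fun θ => -(TwJ.dd k θ ^ (N + 1)))
      (((N : ℝ) + 1) * (2 * Real.sinh (k / 2)) * (1 / 2 * Real.sin θ ^ 1 * TwJ.dd k θ ^ N)) θ := by
    intro θ _
    have h2 := ((TwJ.hasDerivAt_dd k θ).pow (N + 1)).neg
    refine h2.congr_deriv ?_
    push_cast
    ring
  have h3 := intervalIntegral.integral_eq_sub_of_hasDerivAt h1
    (((TwJ.cont_a k N).const_mul _).intervalIntegrable _ _)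
  rw [intervalIntegral.integral_const_mul] at h3
  rw [TwJ.aN, h3, dd_zero', dd_pi']
  ring

theorem aN_up_mul {k : ℝ} (hk : 0 < k) (N r : ℕ) :
    ((N : ℝ) + 1) * TwJ.aN k N ≤
      Real.exp (-(k * r)) * ((((N + 2 * r : ℕ) : ℝ) + 1) * TwJ.aN k (N + 2 * r)) := by
  have hs : 0 < 2 * Real.sinh (k / 2) := by
    have := Real.sinh_pos_iff.2 (show 0 < k / 2 by linarith)
    linarith
  refine le_of_mul_le_mul_left ?_ hs
  have h1 := aN_closed k N
  have h2 := aN_closed k (N + 2 * r)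
  have e1 : 2 * Real.sinh (k / 2) * (((N : ℝ) + 1) * TwJ.aN k N) =
      Real.exp (k / 2) ^ (N + 1) - Real.exp (-(k / 2)) ^ (N + 1) := by
    rw [← h1]; ring
  have e2 : 2 * Real.sinh (k / 2) * (Real.exp (-(k * r)) *
      ((((N + 2 * r : ℕ) : ℝ) + 1) * TwJ.aN k (N + 2 * r))) =
      Real.exp (-(k * r)) * (Real.exp (k / 2) ^ (N + 2 * r + 1) -
        Real.exp (-(k / 2)) ^ (N + 2 * r + 1)) := by
    rw [← h2]; ring
  rw [e1, e2, mul_sub]
  have e3 : Real.exp (-(k * r)) * Real.exp (k / 2) ^ (N + 2 * r + 1) =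
      Real.exp (k / 2) ^ (N + 1) := by
    rw [← Real.exp_nat_mul, ← Real.exp_nat_mul, ← Real.exp_add]
    congr 1
    push_cast
    ring
  have e4 : Real.exp (-(k * r)) * Real.exp (-(k / 2)) ^ (N + 2 * r + 1) ≤
      Real.exp (-(k / 2)) ^ (N + 1) := by
    rw [← Real.exp_nat_mul, ← Real.exp_nat_mul, ← Real.exp_add]
    refine Real.exp_le_exp.2 ?_
    push_cast
    have : 0 ≤ k * r := by positivity
    nlinarith
  rw [e3]
  linarith

theorem aN_up {k : ℝ} (hk : 0 < k) {N r n : ℕ} (h : N + 2 * r = n) (hr : 4 * r ≤ n + 3) :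
    TwJ.aN k N ≤ 4 * Real.exp (-(k * r)) * TwJ.aN k n := by
  have h1 := aN_up_mul hk N r
  rw [h] at h1
  have ha := TwJ.aN_pos hk.le n
  have h2 : ((n : ℝ) + 1) ≤ 4 * ((N : ℝ) + 1) := by
    have : n + 1 ≤ 4 * (N + 1) := by omega
    exact_mod_cast this
  have hN : (0 : ℝ) < (N : ℝ) + 1 := by positivity
  have h3 : Real.exp (-(k * r)) * (((n : ℝ) + 1) * TwJ.aN k n) ≤
      Real.exp (-(k * r)) * ((4 * ((N : ℝ) + 1)) * TwJ.aN k n) := by
    refine mul_le_mul_of_nonneg_left ?_ (Real.exp_pos _).le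
    exact mul_le_mul_of_nonneg_right h2 ha.le
  have h4 := h1.trans h3
  refine le_of_mul_le_mul_left ?_ hN
  calc _ ≤ _ := h4
    _ = _ := by ring

/-- Upper bound for the ratio. -/
theorem ratio_up {k q : ℝ} (hk : 0 < k) (hq : q ≤ 1 / 4) {N r n : ℕ} (h : N + 2 * r = n)
    (hqr : q * n ≤ r) :
    TwJ.aN k N / TwJ.aN k n ≤ 4 * Real.exp (-(k * n * q)) := by
  have ha := TwJ.aN_pos hk.le n
  rw [div_le_iff₀ ha]
  have key : ∀ (N' r' : ℕ), N' + 2 * r' = n → 4 * r' ≤ n + 3 → q * n ≤ r' → N ≤ N' →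
      TwJ.aN k N ≤ 4 * Real.exp (-(k * n * q)) * TwJ.aN k n := by
    intro N' r' h1 h2 h3 h4
    have h5 := aN_up hk h1 h2
    have h6 := TwJ.aN_mono hk.le h4
    have h7 : Real.exp (-(k * r')) ≤ Real.exp (-(k * n * q)) := by
      refine Real.exp_le_exp.2 ?_
      have := mul_le_mul_of_nonneg_left h3 hk.le
      linarith
    have h8 : 4 * Real.exp (-(k * r')) * TwJ.aN k n ≤ 4 * Real.exp (-(k * n * q)) * TwJ.aN k n :=
      mul_le_mul_of_nonneg_right (by linarith) ha.le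
    exact h6.trans (h5.trans h8)
  by_cases hr : 4 * r ≤ n + 3
  · exact key N r h hr hqr le_rfl
  · push Not at hr
    have h1 : (n - 2 * ((n + 3) / 4)) + 2 * ((n + 3) / 4) = n := by omega
    have h2 : 4 * ((n + 3) / 4) ≤ n + 3 := by omega
    have h3 : n ≤ 4 * ((n + 3) / 4) := by omega
    have h4 : N ≤ n - 2 * ((n + 3) / 4) := by omega
    refine key _ _ h1 h2 ?_ h4
    have h5 : (n : ℝ) ≤ 4 * (((n + 3) / 4 : ℕ) : ℝ) := by exact_mod_cast h3
    have hn : (0 : ℝ) ≤ n := Nat.cast_nonneg n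
    have h6 : q * n ≤ 1 / 4 * n := mul_le_mul_of_nonneg_right hq hn
    linarith

/-! ### The Gibbs expectation is linear -/

variable {V : Type} [Fintype V] [DecidableEq V]

theorem gib_CM (L : List (V × V)) (β : ℝ) (h : V → ℝ) (b : Finset V) :
    gib L β h (CM b) = ∑ x ∈ b, ∑ y ∈ b, gib L β h (hM x y) := by
  unfold gib CM
  rw [Finset.mul_sum, Matrix.trace_sum, Finset.sum_div]
  refine Finset.sum_congr rfl fun x _ => ?_
  rw [Finset.mul_sum, Matrix.trace_sum, Finset.sum_div]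

theorem Db_eq_yb (L : List (V × V)) (β : ℝ) (h : V → ℝ) (b : Finset V) :
    Db L β h b = 2 * yb L β h b := by
  unfold Db yb
  rw [gib_CM]
  ring

/-- **Block (D), closure form.** -/
theorem dirStmt3 : DirStmt3 := by
  refine ⟨4, by norm_num, ?_⟩
  intro V _ _ L β h K κ b hβ hh hK hκ hb hf
  have hK0 : 0 < K := by linarith
  have h1 := dir_gibbs L hβ hh hb hK0 hκ hf
  obtain ⟨ι, hι, μ, N, r, p, H⟩ := exists_blockLaw L hβ hh b hK0.le hκ.le hf
  have h2 := H.mean_D_le hb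
  have h3 : 0 ≤ Db L β h b := by
    refine le_trans (Finset.sum_nonneg fun i _ => mul_nonneg (H.nonneg i) ?_) h2
    positivity
  rw [Db_eq_yb] at h1 h3
  have hy : 0 ≤ yb L β h b := by linarith
  have e : (1 + 2 * K / κ) * (2 * yb L β h b) + 2 / κ ≤
      4 * (1 + K / κ) * yb L β h b + 4 / κ := by
    have e1 : 2 * K / κ = 2 * (K / κ) := by ring
    have e2 : 4 / κ = 2 / κ + 2 / κ := by ring
    have e3 : 0 < 2 / κ := by positivity
    rw [e1, e2]
    nlinarith
  linarith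

/-- **Block (D), sharp form.** -/
theorem dirSharpStmt3 : DirSharpStmt3 := by
  refine ⟨8, by norm_num, ?_⟩
  intro V _ _ L β h b hβ hh hb
  obtain ⟨ι, hι, μ, N, r, p, h1, h2, hP, h5, h6⟩ :=
    TwJ.joint_law_poly (Tw.expH_psd L β h) (expH_cons' L β h) b
  have hT := Tw.trace_expH_pos L β h
  set T := Matrix.trace (NormedSpace.exp (-β • ham L h)) with hTdef
  have hn : (0 : ℝ) < b.card := by exact_mod_cast hb.card_pos
  have hPP : ∀ P : Polynomial ℝ, ∑ i, μ i / T * P.eval ((r i : ℝ) * ((b.card : ℝ) - r i + 1)) =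
      gib L β h (Polynomial.aeval (CM b) P) := by
    intro P
    have h := hP P 1
    simp only [Polynomial.eval_one, mul_one, map_one] at h
    unfold gib
    rw [← hTdef]
    have e : ∑ i, μ i / T * P.eval ((r i : ℝ) * ((b.card : ℝ) - r i + 1)) =
        (∑ i, μ i * P.eval ((r i : ℝ) * ((b.card : ℝ) - r i + 1))) / T := by
      rw [Finset.sum_div]
      exact Finset.sum_congr rfl fun i _ => by ring
    rw [e, h]
    rfl
  have hsum : ∑ i, μ i / T = 1 := by
    have h := hPP 1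
    simp only [Polynomial.eval_one, mul_one, map_one] at h
    rw [h]
    unfold gib
    rw [mul_one, div_self hT.ne']
  refine ⟨ι, hι, fun i => μ i / T, r, fun i => div_nonneg (h1 i) hT.le,
    fun i => by have := (h2 i).1; omega, hsum, hPP, ?_⟩
  intro K κ q hK hκ hq0 hq hf
  have hK0 : 0 < K := by linarith
  have hmean : (∑ i, μ i / T * ((r i : ℝ) + p i)) = ∑ x ∈ b, rho L β h x := by
    have h := hP 1 Polynomial.X
    simp only [Polynomial.eval_one, one_mul, map_one, Polynomial.aeval_X, Polynomial.eval_X] at h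
    have e : ∑ i, μ i / T * ((r i : ℝ) + p i) = (∑ i, μ i * ((r i : ℝ) + p i)) / T := by
      rw [Finset.sum_div]
      exact Finset.sum_congr rfl fun i _ => by ring
    rw [e, h, TwJ.Dn, Finset.mul_sum, Matrix.trace_sum, Finset.sum_div]
    rfl
  have hm := exp_mom_of (W := NormedSpace.exp (-β • ham L h)) hK0.le hκ.le h5 h6
    (Bloch.twist_gibbs_pow L hβ hh hK0.le hκ.le b hf)
  have hcas : ∑ i, μ i / T * ((r i : ℝ) * ((b.card : ℝ) - r i + 1)) =
      ∑ x ∈ b, ∑ y ∈ b, gib L β h (hM x y) := by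
    have h := hPP Polynomial.X
    simp only [Polynomial.eval_X, Polynomial.aeval_X] at h
    rw [h, gib_CM]
  have H : BlockLaw L β h b K κ (fun i => μ i / T) N r p := by
    refine ⟨fun i => div_nonneg (h1 i) hT.le, hsum, fun i => (h2 i).1, fun i => (h2 i).2, hmean,
      hcas, ?_⟩
    have e1 : ∑ i, μ i / T * (TwJ.aN (K / b.card) (N i) *
        Real.exp (κ * ((p i : ℝ) / N i) / 2)) =
        (∑ i, μ i * (TwJ.aN (K / b.card) (N i) * Real.exp (κ * ((p i : ℝ) / N i) / 2))) / T := by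
      rw [Finset.sum_div]
      exact Finset.sum_congr rfl fun i _ => by ring
    have e2 : 2 * ∑ i, μ i / T * TwJ.aN (K / b.card) (N i) =
        (2 * ∑ i, μ i * TwJ.aN (K / b.card) (N i)) / T := by
      rw [Finset.mul_sum, Finset.mul_sum, Finset.sum_div]
      exact Finset.sum_congr rfl fun i _ => by ring
    rw [e1, e2]
    exact div_le_div_of_nonneg_right hm hT.le
  have hk : 0 < K / b.card := by positivity
  have hJ := jensen_dir Finset.univ (fun i => μ i / T) (fun i => (r i : ℝ) / b.card)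
    (fun i => (p i : ℝ) / N i)
    (fun i => TwJ.aN (K / b.card) (N i) / TwJ.aN (K / b.card) b.card) (K := K)
    (c := κ / (2 * K)) (fun i _ => H.nonneg i) H.sum_one hK0
    (fun i _ => H.ratio_ge hb hK0.le i) (H.mom' hK0)
  have hrho := H.rho_le hb
  have hED : ∑ i, μ i / T * ((r i : ℝ) / b.card) = (∑ i, μ i / T * (r i : ℝ)) / b.card := by
    rw [Finset.sum_div]
    exact Finset.sum_congr rfl fun i _ => by ring
  -- the mean of the ratio
  have hR : ∑ i, μ i / T * (TwJ.aN (K / b.card) (N i) / TwJ.aN (K / b.card) b.card) ≤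
      4 * ((∑ i, if (r i : ℝ) < q * b.card then μ i / T else 0) + Real.exp (-(K * q))) := by
    have h7 : ∀ i, μ i / T * (TwJ.aN (K / b.card) (N i) / TwJ.aN (K / b.card) b.card) ≤
        (if (r i : ℝ) < q * b.card then μ i / T else 0) +
          μ i / T * (4 * Real.exp (-(K * q))) := by
      intro i
      have hwi := H.nonneg i
      have he := (Real.exp_pos (-(K * q))).le
      split_ifs with hlt
      · have := mul_le_of_le_one_right hwi (H.ratio_le hK0.le i)
        have := mul_nonneg hwi (by linarith : (0 : ℝ) ≤ 4 * Real.exp (-(K * q)))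
        linarith
      · have h8 := ratio_up hk hq (h2 i).1 (not_lt.1 hlt)
        have e3 : K / (b.card : ℝ) * b.card * q = K * q := by field_simp
        rw [e3] at h8
        have := mul_le_mul_of_nonneg_left h8 hwi
        linarith
    refine (Finset.sum_le_sum fun i _ => h7 i).trans ?_
    rw [Finset.sum_add_distrib, ← Finset.sum_mul, hsum]
    have h9 : 0 ≤ ∑ i, (if (r i : ℝ) < q * b.card then μ i / T else 0) := by
      refine Finset.sum_nonneg fun i _ => ?_
      split_ifs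
      · exact H.nonneg i
      · exact le_rfl
    linarith
  have hRpos : 0 < ∑ i, μ i / T * (TwJ.aN (K / b.card) (N i) / TwJ.aN (K / b.card) b.card) := by
    obtain ⟨i, hi, hwi⟩ : ∃ i ∈ (Finset.univ : Finset ι), μ i / T ≠ 0 := by
      by_contra hcon
      push Not at hcon
      rw [Finset.sum_eq_zero hcon] at hsum
      exact zero_ne_one hsum
    have hpos : ∀ j, 0 < TwJ.aN (K / b.card) (N j) / TwJ.aN (K / b.card) b.card := fun j =>
      div_pos (TwJ.aN_pos hk.le _) (TwJ.aN_pos hk.le _)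
    exact Finset.sum_pos' (fun j _ => mul_nonneg (H.nonneg j) (hpos j).le)
      ⟨i, hi, mul_pos (lt_of_le_of_ne (H.nonneg i) hwi.symm) (hpos i)⟩
  have hlog : Real.log (2 * ∑ i, μ i / T *
      (TwJ.aN (K / b.card) (N i) / TwJ.aN (K / b.card) b.card)) ≤
      Real.log (8 * ((∑ i, if (r i : ℝ) < q * b.card then μ i / T else 0) +
        Real.exp (-(K * q)))) :=
    Real.log_le_log (by linarith) (by linarith)
  set ED := (∑ i, μ i / T * (r i : ℝ)) / b.card with hEDdef
  set EX := ∑ i, μ i / T * ((p i : ℝ) / N i) with hEX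
  set LG := Real.log (8 * ((∑ i, if (r i : ℝ) < q * b.card then μ i / T else 0) +
        Real.exp (-(K * q)))) with hLG
  rw [hED] at hJ hrho
  have hX0 : 0 ≤ EX := Finset.sum_nonneg fun i _ => mul_nonneg (H.nonneg i) (by positivity)
  have h10 : κ / (2 * K) * EX ≤ ED + 1 / K * LG := by
    have := mul_le_mul_of_nonneg_left hlog (show 0 ≤ 1 / K by positivity)
    linarith
  have h11 : 0 ≤ ED + 1 / K * LG := le_trans (by positivity) h10
  have h12 : EX ≤ 2 * (K / κ) * (ED + 1 / K * LG) := by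
    have h13 : 0 < 2 * (K / κ) := by positivity
    have h14 := mul_le_mul_of_nonneg_left h10 h13.le
    have e1 : 2 * (K / κ) * (κ / (2 * K) * EX) = EX := by field_simp
    rw [e1] at h14
    exact h14
  have h15 : 2 * (K / κ) * (ED + 1 / K * LG) ≤ 8 * (K / κ) * (ED + 1 / K * LG) := by
    have : 0 ≤ K / κ := by positivity
    nlinarith
  linarith

end

end Vale.Agent.P361.LRO.S3
end
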