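import Mathlib
import Vale.Agent.P361.Bd6.B1
import Vale.Agent.P361.Bd6.B4
import Vale.Agent.P361.Bd6.B3

set_option linter.all false

section

/-!
P361 LRO, stage 3: the stiffness statement `KappaStmt3` for the family of physical fields `g / β`,
`g ∈ Fam n g0 β⁻⁵`, from the abstract chapter `Block3` (= theorem `block3` of `Ind3/Final.lean`)
and the local instance `LocalStmt3`.
-/

namespace Vale.Agent.P361.LRO.Ind3

open Finset Filter Vale.Agent.P361.LRO _root_.P361.LRO Vale.Agent.P361.LRO.Ind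

noncomputable section

/-- The local instance: `Local3` holds for the physical network, with an absolute `c1`. -/
def LocalStmt3 : Prop :=
  ∃ c1 : ℝ, 0 < c1 ∧ ∀ C7 Lam : ℝ, 0 < C7 → 0 < Lam →
    ∃ β0 : ℝ, ∀ β : ℝ, β0 ≤ β → ∃ n0 : ℕ, ∀ (n : ℕ) [NeZero n], n0 ≤ n →
    ∀ (e : ℕ) (K : ℝ) (b : Finset (Tor n)), β ^ (1 / 2 : ℝ) ≤ (3 : ℝ) ^ e →
    (3 : ℝ) ^ e ≤ 3 * β ^ (1 / 2 : ℝ) → 1 ≤ K → K ≤ Lam * β ^ (3 / 2 : ℝ) → K ≤ b.card →
    ∃ W0 : ℕ, ∀ W : ℕ, W0 ≤ W → ∀ g : Tor n → ℝ, (∀ x, 0 < g x ∧ g x ≤ 1) →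
      (∀ x, rho (edges n) β (fun y => g y / β) x ≤ C7 * β ^ (-(3 / 2) : ℝ)) →
      Local3 n (4 * W) W e K c1 b g (Net.cphys3 n β (4 * W) K b g)

/-- The abstract chapter, exactly the statement of `block3`. -/
def Block3 : Prop :=
  ∀ c1 : ℝ, 0 < c1 → ∃ (e0 : ℕ) (C5 c3 c4 : ℝ), 1 ≤ e0 ∧ 0 < C5 ∧
    0 < c3 ∧ 0 < c4 ∧ ∀ e : ℕ, e0 ≤ e → ∃ n0 : ℕ, ∀ (n N W : ℕ) [NeZero n]
    (K h0 lam ε : ℝ) (o : Tor n) (a : ℕ) (h : Tor n → ℝ)
    (c : (Tor n → ℝ) → Nd n N → Nd n N → ℝ),
    n0 ≤ n → 0 < W → N = 4 * W → e ≤ a → a ≤ 2 * e →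
    1 ≤ K → K ≤ 27 ^ (2 * e) → C5 * K ≤ 27 ^ a → C5 * K ≤ 9 ^ e * 3 ^ a →
    (n : ℝ) ^ (-(1 / 4 : ℝ)) ≤ h0 → h0 ≤ 1 → 1 / 3 ^ (10 * e) ≤ lam → 0 ≤ ε → ε * e ≤ c4 →
    (∀ g, Fam n h0 lam g → Local3 n N W e K c1 (cube n o (3 ^ a)) g (c g)) →
    Low n N 1 h0 lam ε c →
    Fam n h0 lam h →
    c3 * K ≤ netK (c h) (fun z => if z ∈ hatb N (cube n o (3 ^ a)) then 1 else 0)

/-- The scale `e` of the cells: `3 ^ e ∈ [√β, 3 √β]`. -/
theorem cell_exists {β : ℝ} (hβ : 1 ≤ β) : ∃ e : ℕ, β ^ (1 / 2 : ℝ) ≤ (3 : ℝ) ^ e ∧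
    (3 : ℝ) ^ e ≤ 3 * β ^ (1 / 2 : ℝ) ∧
    ∀ a : ℕ, β ^ (1 / 2 : ℝ) ≤ (3 : ℝ) ^ a → e ≤ a := by
  have hex : ∃ e : ℕ, β ^ (1 / 2 : ℝ) ≤ (3 : ℝ) ^ e := by
    obtain ⟨e, he⟩ := pow_unbounded_of_one_lt (β ^ (1 / 2 : ℝ)) (by norm_num : (1:ℝ) < 3)
    exact ⟨e, he.le⟩
  classical
  refine ⟨Nat.find hex, Nat.find_spec hex, ?_, fun a ha => Nat.find_min' hex ha⟩
  rcases Nat.eq_zero_or_pos (Nat.find hex) with h0 | h0
  · rw [h0, pow_zero]
    have : (1:ℝ) ≤ β ^ (1 / 2 : ℝ) := Real.one_le_rpow hβ (by norm_num)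
    linarith
  · have h1 : ¬ β ^ (1 / 2 : ℝ) ≤ (3 : ℝ) ^ (Nat.find hex - 1) :=
      Nat.find_min hex (by omega)
    push Not at h1
    obtain ⟨k, hk⟩ : ∃ k, Nat.find hex = k + 1 := ⟨Nat.find hex - 1, by omega⟩
    rw [hk] at h1 ⊢
    rw [Nat.add_sub_cancel] at h1
    rw [pow_succ]
    linarith

theorem scales {β K C5 Lam : ℝ} {e a : ℕ} (b2 : 1 ≤ β) (b4 : Lam ≤ β ^ (3 / 2 : ℝ))
    (he1 : β ^ (1 / 2 : ℝ) ≤ (3 : ℝ) ^ e) (ha1 : β ^ (1 / 2 : ℝ) ≤ (3 : ℝ) ^ a)
    (ha2 : (3 : ℝ) ^ a ≤ β) (hC5 : 0 < C5) (hKL : K ≤ Lam * β ^ (3 / 2 : ℝ))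
    (hKc : K ≤ min 1 (1 / C5) * β * 3 ^ a) :
    a ≤ 2 * e ∧ K ≤ 27 ^ (2 * e) ∧ C5 * K ≤ 27 ^ a ∧ C5 * K ≤ 9 ^ e * 3 ^ a ∧
      K ≤ ((3 : ℝ) ^ a) ^ 3 ∧ 1 / (3:ℝ) ^ (10 * e) ≤ β ^ (-(9 / 2) : ℝ) := by
  have hβp : 0 < β := by linarith
  have hmul : ∀ s t : ℝ, β ^ s * β ^ t = β ^ (s + t) := fun s t => (Real.rpow_add hβp s t).symm
  have hp : ∀ s : ℝ, 0 < β ^ s := fun s => Real.rpow_pos_of_pos hβp s
  have hhalf : β ^ (1 / 2 : ℝ) * β ^ (1 / 2 : ℝ) = β := by
    rw [hmul]; norm_num
  have hβe : β ≤ (3:ℝ) ^ e * 3 ^ e := by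
    rw [← hhalf]
    exact mul_le_mul he1 he1 (hp _).le (by positivity)
  have hβa : β ≤ (3:ℝ) ^ a * 3 ^ a := by
    rw [← hhalf]
    exact mul_le_mul ha1 ha1 (hp _).le (by positivity)
  have h32 : β ^ (3 / 2 : ℝ) * β ^ (3 / 2 : ℝ) = β ^ 3 := by
    rw [hmul, ← Real.rpow_natCast]; norm_num
  have h27 : (27:ℝ) ^ a = (3:ℝ) ^ a * 3 ^ a * 3 ^ a := by
    rw [← mul_pow, ← mul_pow]; norm_num
  have h9 : (9:ℝ) ^ e = (3:ℝ) ^ e * 3 ^ e := by
    rw [← mul_pow]; norm_num
  have hKc1 : K ≤ β * 3 ^ a := by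
    have h1 : min 1 (1 / C5) * (β * 3 ^ a) ≤ 1 * (β * 3 ^ a) :=
      mul_le_mul_of_nonneg_right (min_le_left _ _) (by positivity)
    linarith
  have hKc5 : C5 * K ≤ β * 3 ^ a := by
    have h1 : min 1 (1 / C5) * (β * 3 ^ a) ≤ 1 / C5 * (β * 3 ^ a) :=
      mul_le_mul_of_nonneg_right (min_le_right _ _) (by positivity)
    have h2 : K ≤ 1 / C5 * (β * 3 ^ a) := by linarith
    have h3 := mul_le_mul_of_nonneg_left h2 hC5.le
    have h4 : C5 * (1 / C5 * (β * 3 ^ a)) = β * 3 ^ a := by
      field_simp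
    linarith
  have hb27 : β * 3 ^ a ≤ (27:ℝ) ^ a := by
    rw [h27]; exact mul_le_mul_of_nonneg_right hβa (by positivity)
  refine ⟨?_, ?_, hKc5.trans hb27, ?_, ?_, ?_⟩
  · have h1 : (3:ℝ) ^ a ≤ 3 ^ (2 * e) := by
      rw [two_mul, pow_add]; exact ha2.trans hβe
    exact (pow_le_pow_iff_right₀ (by norm_num : (1:ℝ) < 3)).1 h1
  · have h1 : K ≤ β ^ 3 := by
      rw [← h32]
      exact hKL.trans (mul_le_mul_of_nonneg_right b4 (hp _).le)
    have h2 : (27:ℝ) ^ (2 * e) = ((3:ℝ) ^ e * 3 ^ e) ^ 3 := by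
      have : (27:ℝ) = 3 ^ 3 := by norm_num
      rw [this, ← pow_add, ← pow_mul, ← pow_mul]; congr 1; ring
    rw [h2]
    exact h1.trans (pow_le_pow_left₀ hβp.le hβe 3)
  · rw [h9]
    exact hKc5.trans (mul_le_mul_of_nonneg_right hβe (by positivity))
  · have h1 : ((3:ℝ) ^ a) ^ 3 = 27 ^ a := by rw [h27]; ring
    rw [h1]
    exact hKc1.trans hb27
  · refine le_trans ?_ (Real.rpow_le_rpow_of_exponent_le b2
      (by norm_num : (-5 : ℝ) ≤ -(9 / 2)))
    have h1 : β ^ 5 ≤ (3:ℝ) ^ (10 * e) := by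
      have h2 : (3:ℝ) ^ (10 * e) = ((3:ℝ) ^ e * 3 ^ e) ^ 5 := by
        rw [← pow_add, ← pow_mul]; congr 1; ring
      rw [h2]
      exact pow_le_pow_left₀ hβp.le hβe 5
    have h3 : β ^ (-5 : ℝ) = (β ^ 5)⁻¹ := by
      rw [Real.rpow_neg hβp.le]
      congr 1
      rw [← Real.rpow_natCast]; norm_num
    rw [h3, one_div]
    exact inv_anti₀ (by positivity) h1

theorem epsilons {β K C7 Lam c4 M : ℝ} {e : ℕ} (hβp : 0 < β) (hC7 : 0 < C7)
    (hM : M = 2 * Real.exp (Lam * C7 / 2) * Real.sqrt C7)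
    (hc4 : 0 < c4) (b5 : 2 * M ≤ β ^ (3 / 4 : ℝ)) (b6 : 3 * M / c4 ≤ β ^ (1 / 4 : ℝ))
    (he2 : (3 : ℝ) ^ e ≤ 3 * β ^ (1 / 2 : ℝ)) (hKL : K ≤ Lam * β ^ (3 / 2 : ℝ)) :
    0 ≤ M * β ^ (-(3 / 4) : ℝ) ∧ (M * β ^ (-(3 / 4) : ℝ)) ^ 2 ≤ 1 / 2 ∧
      M * β ^ (-(3 / 4) : ℝ) * e ≤ c4 ∧
      4 * Real.exp (K * (C7 * β ^ (-(3 / 2) : ℝ))) * (C7 * β ^ (-(3 / 2) : ℝ)) ≤
        (M * β ^ (-(3 / 4) : ℝ)) ^ 2 := by
  have hsq : 0 < Real.sqrt C7 := Real.sqrt_pos.2 hC7
  have hMp : 0 < M := by rw [hM]; positivity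
  have hmul : ∀ s t : ℝ, β ^ s * β ^ t = β ^ (s + t) := fun s t => (Real.rpow_add hβp s t).symm
  have hp : ∀ s : ℝ, 0 < β ^ s := fun s => Real.rpow_pos_of_pos hβp s
  have hη : 0 < C7 * β ^ (-(3 / 2) : ℝ) := mul_pos hC7 (hp _)
  have hKη : K * (C7 * β ^ (-(3 / 2) : ℝ)) ≤ Lam * C7 := by
    have h1 := mul_le_mul_of_nonneg_right hKL hη.le
    have h2 : β ^ (3 / 2 : ℝ) * β ^ (-(3 / 2) : ℝ) = 1 := by
      rw [hmul]; norm_num
    have h3 : Lam * β ^ (3 / 2 : ℝ) * (C7 * β ^ (-(3 / 2) : ℝ)) =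
        Lam * C7 * (β ^ (3 / 2 : ℝ) * β ^ (-(3 / 2) : ℝ)) := by ring
    rw [h3, h2, mul_one] at h1
    exact h1
  have hεp : 0 ≤ M * β ^ (-(3 / 4) : ℝ) := (mul_pos hMp (hp _)).le
  refine ⟨hεp, ?_, ?_, ?_⟩
  · have h2 : β ^ (3 / 4 : ℝ) * β ^ (-(3 / 4) : ℝ) = 1 := by
      rw [hmul]; norm_num
    have h3 : 2 * M * β ^ (-(3 / 4) : ℝ) ≤ β ^ (3 / 4 : ℝ) * β ^ (-(3 / 4) : ℝ) :=
      mul_le_mul_of_nonneg_right b5 (hp _).le
    rw [h2] at h3
    nlinarith
  · have h1 : (e:ℝ) ≤ 3 * β ^ (1 / 2 : ℝ) := by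
      have h2 : (e:ℝ) ≤ (3:ℝ) ^ e := by
        have : e < 3 ^ e := Nat.lt_pow_self (by norm_num)
        exact_mod_cast this.le
      exact h2.trans he2
    have h4 := mul_le_mul_of_nonneg_left h1 hεp
    have h5 : β ^ (-(3 / 4) : ℝ) * β ^ (1 / 2 : ℝ) = β ^ (-(1 / 4) : ℝ) := by
      rw [hmul]; norm_num
    have h6 : M * β ^ (-(3 / 4) : ℝ) * (3 * β ^ (1 / 2 : ℝ)) = 3 * M * β ^ (-(1 / 4) : ℝ) := by
      rw [← h5]; ring
    have h7 : 3 * M ≤ c4 * β ^ (1 / 4 : ℝ) := by
      rw [div_le_iff₀ hc4] at b6; linarith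
    have h8 : β ^ (1 / 4 : ℝ) * β ^ (-(1 / 4) : ℝ) = 1 := by
      rw [hmul]; norm_num
    have h9 : 3 * M * β ^ (-(1 / 4) : ℝ) ≤ c4 * β ^ (1 / 4 : ℝ) * β ^ (-(1 / 4) : ℝ) :=
      mul_le_mul_of_nonneg_right h7 (hp _).le
    rw [mul_assoc c4, h8, mul_one] at h9
    linarith
  · have h1 : (M * β ^ (-(3 / 4) : ℝ)) ^ 2 =
        4 * Real.exp (Lam * C7) * (C7 * β ^ (-(3 / 2) : ℝ)) := by
      have e1 : (Real.exp (Lam * C7 / 2)) ^ 2 = Real.exp (Lam * C7) := by
        rw [← Real.exp_nat_mul]; congr 1; push_cast; ring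
      have e2 : (β ^ (-(3 / 4) : ℝ)) ^ 2 = β ^ (-(3 / 2) : ℝ) := by
        rw [← Real.rpow_natCast, ← Real.rpow_mul hβp.le]; norm_num
      rw [hM, mul_pow, mul_pow, mul_pow, e1, e2, Real.sq_sqrt hC7.le]; ring
    rw [h1]
    have h2 : Real.exp (K * (C7 * β ^ (-(3 / 2) : ℝ))) ≤ Real.exp (Lam * C7) :=
      Real.exp_le_exp.2 hKη
    have h3 := mul_le_mul_of_nonneg_right h2 hη.le
    linarith

end

end Vale.Agent.P361.LRO.Ind3
end

section

/-!
P361 LRO, stage 3, all spins: the stiffness statement `KappaStmt3S s` for the family of physical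
fields `g / (s β)`, `g ∈ Fam n g0 β^{-9/2}`, from the abstract chapter `Block3E`, the local
instance `LocalStmt3S` and the lowering statement `LowStmt3S` for the slots network.
-/

namespace Vale.Agent.P361.LRO.S3S

open Finset Filter Vale.Agent.P361.LRO _root_.P361.LRO Vale.Agent.P361.LRO.Ind
  Vale.Agent.P361.LRO.Ind3 Vale.Agent.P361.LRO.GenS

noncomputable section

/-- The slots network of a law `μ` in the scaled field `g` (physical field `g / (s β)`): one site
per node, `N s` layers, slice parameters `g / (2 N s)`. -/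
def cS3 (n s : ℕ) [NeZero n] (N : ℕ) (μ : Equiv.Perm (Fin (N + 1) × (Tor n × Fin s)) → ℝ)
    (K : ℝ) (b : Finset (Tor n)) (g : Tor n → ℝ) : Nd n (N * s) → Nd n (N * s) → ℝ :=
  mgC (slotF n s N) (Net.c0 μ (th (1 / (s : ℝ)) N (hS g) (blk K (b ×ˢ univ))))

/-- The slice parameters of the physical field `g / (s β)`. -/
theorem th_scaledS {n s : ℕ} (hs : 0 < s) {β : ℝ} (hβ : 0 < β) (N : ℕ) (g : Tor n → ℝ)
    (T : Tor n × Fin s → ℝ) :
    th β N (hS fun y => g y / (s * β)) T = th (1 / (s : ℝ)) N (hS g) T := by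
  have hs' : (0 : ℝ) < s := by exact_mod_cast hs
  funext z
  unfold th hS
  split_ifs
  · rfl
  · congr 1
    field_simp

/-- The local instance: `Local3` holds for the slots network, with `c1` depending only on `s`. -/
def LocalStmt3S (s : ℕ) : Prop :=
  ∃ c1 : ℝ, 0 < c1 ∧ ∀ C7 Lam : ℝ, 0 < C7 → 0 < Lam →
    ∃ β0 : ℝ, ∀ β : ℝ, β0 ≤ β → ∃ n0 : ℕ, ∀ (n : ℕ) [NeZero n], n0 ≤ n → ∀ M : ℕ,
    ∀ (e : ℕ) (K : ℝ) (b : Finset (Tor n)), β ^ (1 / 2 : ℝ) ≤ (3 : ℝ) ^ e →
    (3 : ℝ) ^ e ≤ 3 * β ^ (1 / 2 : ℝ) → 1 ≤ K → K ≤ Lam * β ^ (3 / 2 : ℝ) → K ≤ b.card →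
    ∃ W0 : ℕ, ∀ W : ℕ, W0 ≤ W → ∀ g : Tor n → ℝ, (∀ x, 0 < g x ∧ g x ≤ 1) →
      (∀ z, rho (edgesS n s M) β (hS fun y => g y / (s * β)) z ≤ C7 * β ^ (-(3 / 2) : ℝ)) →
      Local3 n (4 * W * s) (W * s) e K c1 b g
        (cS3 n s (4 * W) (phys (edgesS n s M) β (4 * W)) K b g)

/-- The abstract chapter with `LowE`. -/
def Block3E : Prop :=
  ∀ c1 : ℝ, 0 < c1 → ∃ (e0 : ℕ) (C5 c3 c4 : ℝ), 1 ≤ e0 ∧ 0 < C5 ∧
    0 < c3 ∧ 0 < c4 ∧ ∀ e : ℕ, e0 ≤ e → ∃ n0 : ℕ, ∀ (n N W : ℕ) [NeZero n]
    (K h0 lam ε : ℝ) (o : Tor n) (a : ℕ) (h : Tor n → ℝ)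
    (c : (Tor n → ℝ) → Nd n N → Nd n N → ℝ),
    n0 ≤ n → 0 < W → N = 4 * W → e ≤ a → a ≤ 2 * e →
    1 ≤ K → K ≤ 27 ^ (2 * e) → C5 * K ≤ 27 ^ a → C5 * K ≤ 9 ^ e * 3 ^ a →
    (n : ℝ) ^ (-(1 / 4 : ℝ)) ≤ h0 → h0 ≤ 1 → 1 / 3 ^ (10 * e) ≤ lam → 0 ≤ ε → ε * e ≤ c4 →
    (∀ g, Fam n h0 lam g → Local3 n N W e K c1 (cube n o (3 ^ a)) g (c g)) →
    LowE n N (cube n o (3 ^ a)) 1 h0 lam ε c →
    Fam n h0 lam h →
    c3 * K ≤ netK (c h) (fun z => if z ∈ hatb N (cube n o (3 ^ a)) then 1 else 0)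

/-- Lowering the field in the slots network. -/
def LowStmt3S (s : ℕ) : Prop :=
  ∀ (n N : ℕ) [NeZero n] (K h0 lam ε : ℝ) (b : Finset (Tor n))
    (μ : Equiv.Perm (Fin (N + 1) × (Tor n × Fin s)) → ℝ), 1 ≤ N → 0 ≤ K → 0 < h0 → 0 ≤ ε →
    ε ^ 2 ≤ 1 / 2 → Net.Good μ →
    (∀ g, Fam n h0 lam g → ∀ z : Fin (N + 1) × (Tor n × Fin s), z.1 ≠ 0 →
      1 - ε ^ 2 ≤ mag μ (th (1 / (s : ℝ)) N (hS g) (blk K (b ×ˢ univ))) z) →
    LowE n (N * s) b 1 h0 lam ε (cS3 n s N μ K b)

/-- `κ_b` is the energy of the indicator of the extra slice on `b` in the slots network. -/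
theorem kap_scaledS {n s : ℕ} [NeZero n] (hs : 0 < s) {β : ℝ} (hβ : 0 < β) (M N : ℕ) (K : ℝ)
    (x : Tor n) (w : ℕ) (g : Tor n → ℝ) :
    kap (edgesS n s M) β N (hS fun y => g y / (s * β)) K (cubeS n s x w) =
      netK (cS3 n s N (phys (edgesS n s M) β N) K (cube n x w) g)
        fun z => if z ∈ hatb (N * s) (cube n x w) then 1 else 0 := by
  unfold kap cS3 cubeS
  rw [netK_mgC, Net.netK_c0, th_scaledS hs hβ]
  congr 1
  funext z
  have h1 : (slotF n s N z ∈ hatb (N * s) (cube n x w)) ↔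
      z ∈ hatb N (cube n x w ×ˢ (univ : Finset (Fin s))) := by
    unfold hatb
    simp only [Finset.mem_product, Finset.mem_singleton, Finset.mem_univ, and_true]
    constructor
    · rintro ⟨h, h'⟩
      refine ⟨?_, h'⟩
      by_contra h2
      exact slotL_ne h2 z.2.2 h
    · rintro ⟨h, h'⟩
      refine ⟨?_, h'⟩
      show slotL s N z.1 z.2.2 = 0
      rw [h, slotL_zero]
  by_cases h : z ∈ hatb N (cube n x w ×ˢ (univ : Finset (Fin s)))
  · rw [if_pos h, if_pos (h1.2 h)]
  · rw [if_neg h, if_neg fun h2 => h (h1.1 h2)]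

theorem kappaStmt3S_of {s : ℕ} (hs : 0 < s) (h3 : Block3E) (hL : LocalStmt3S s)
    (hlo : LowStmt3S s) : KappaStmt3S s := by
  have hsr : (1 : ℝ) ≤ s := by exact_mod_cast hs
  obtain ⟨c1, hc1, HL⟩ := hL
  obtain ⟨e0, C5, c3, c4, he0, hC5, hc3, hc4, H3⟩ := h3 c1 hc1
  refine ⟨min 1 (1 / C5), c3, lt_min one_pos (by positivity), hc3, fun C7 Lam hC7 hLam => ?_⟩
  obtain ⟨βL, HL⟩ := HL C7 Lam hC7 hLam
  have hlim : ∀ (a : ℝ), 0 < a → ∀ B : ℝ, ∀ᶠ β : ℝ in atTop, B ≤ β ^ a := fun a ha B =>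
    (tendsto_rpow_atTop ha).eventually_ge_atTop B
  obtain ⟨M, hM⟩ : ∃ M : ℝ, M = 2 * Real.exp (Lam * C7 / 2) * Real.sqrt C7 := ⟨_, rfl⟩
  have hall : ∀ᶠ β : ℝ in atTop, βL ≤ β ∧ 1 ≤ β ∧ (3:ℝ) ^ e0 ≤ β ^ (1 / 2 : ℝ) ∧
      Lam ≤ β ^ (3 / 2 : ℝ) ∧ 2 * M ≤ β ^ (3 / 4 : ℝ) ∧ 3 * M / c4 ≤ β ^ (1 / 4 : ℝ) := by
    filter_upwards [eventually_ge_atTop βL, eventually_ge_atTop (1:ℝ),
      hlim (1 / 2) (by norm_num) ((3:ℝ) ^ e0), hlim (3 / 2) (by norm_num) Lam,
      hlim (3 / 4) (by norm_num) (2 * M), hlim (1 / 4) (by norm_num) (3 * M / c4)]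
      with β a1 a2 a3 a4 a5 a6
    exact ⟨a1, a2, a3, a4, a5, a6⟩
  obtain ⟨β0, hβ0⟩ := eventually_atTop.1 hall
  refine ⟨β0, fun β hβ => ?_⟩
  obtain ⟨b1, b2, b3, b4, b5, b6⟩ := hβ0 β hβ
  have hβp : 0 < β := by linarith
  have hsβ : 1 ≤ s * β := by nlinarith
  obtain ⟨e, he1, he2, hemin⟩ := cell_exists b2
  have hp : ∀ s : ℝ, 0 < β ^ s := fun s => Real.rpow_pos_of_pos hβp s
  have hee : e0 ≤ e := by
    have h1 : (3:ℝ) ^ e0 ≤ 3 ^ e := b3.trans he1
    exact (pow_le_pow_iff_right₀ (by norm_num : (1:ℝ) < 3)).1 h1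
  obtain ⟨n3, H3⟩ := H3 e hee
  obtain ⟨nL, HL⟩ := HL β b1
  refine ⟨max n3 (max nL (max 2 ⌈β⌉₊)), ?_⟩
  intro n _ hn _ Mm a ha1' ha2' K hK1 hKL hKc g0 hg0 hg01 hBH g hg x
  have ha1 : β ^ (1 / 2 : ℝ) ≤ (3 : ℝ) ^ a := by rw [← Real.sqrt_eq_rpow]; exact ha1'
  have ha2 : (3 : ℝ) ^ a ≤ β := by
    refine ha2'.trans ?_
    have h1 : β ^ (3 / 4 : ℝ) ≤ β ^ (1 : ℝ) := Real.rpow_le_rpow_of_exponent_le b2 (by norm_num)
    rwa [Real.rpow_one] at h1
  have hn3 : n3 ≤ n := (le_max_left _ _).trans hn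
  have hnL : nL ≤ n := (le_max_left _ _).trans ((le_max_right _ _).trans hn)
  have hn2 : 2 ≤ n := (le_max_left _ _).trans ((le_max_right _ _).trans
    ((le_max_right _ _).trans hn))
  have hnβ : β ≤ n := by
    have : ⌈β⌉₊ ≤ n := (le_max_right _ _).trans ((le_max_right _ _).trans
      ((le_max_right _ _).trans hn))
    exact (Nat.le_ceil β).trans (by exact_mod_cast this)
  have hn0 : (0 : ℝ) < n := by linarith
  have hg0p : 0 < g0 := (Real.rpow_pos_of_pos hn0 _).trans_le hg0
  have hKp : 0 < K := by linarith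
  -- scales
  have hea : e ≤ a := hemin a ha1
  obtain ⟨ha2e, hK27, hK27a, hK9, hK3a, hlam⟩ := scales b2 b4 he1 ha1 ha2 hC5 hKL hKc
  have hcard : (cube n x (3 ^ a)).card = (3 ^ a) ^ 3 := by
    refine Vale.Agent.P361.LRO.Ind.card_cube x (3 ^ a) ?_
    have : ((3 ^ a : ℕ) : ℝ) ≤ n := by push_cast; linarith
    exact_mod_cast this
  have hKcard : K ≤ (cube n x (3 ^ a)).card := by
    rw [hcard]; push_cast
    exact hK3a
  have hne : (cube n x (3 ^ a)).Nonempty := by
    rw [← Finset.card_pos, hcard]; positivity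
  have hneS : (cube n x (3 ^ a) ×ˢ (univ : Finset (Fin s))).Nonempty := by
    rw [← Finset.card_pos, Finset.card_product, hcard, Finset.card_univ, Fintype.card_fin]
    positivity
  obtain ⟨hεp, hε2, hεe, hεsq⟩ := epsilons hβp hC7 hM hc4 b5 b6 he2 hKL
  obtain ⟨lam, hlamdef⟩ : ∃ lam : ℝ, lam = β ^ (-(9 / 2) : ℝ) := ⟨_, rfl⟩
  obtain ⟨η, hηdef⟩ : ∃ η : ℝ, η = C7 * β ^ (-(3 / 2) : ℝ) := ⟨_, rfl⟩
  obtain ⟨ε, hεdef⟩ : ∃ ε : ℝ, ε = M * β ^ (-(3 / 4) : ℝ) := ⟨_, rfl⟩
  unfold BH3S at hBH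
  have hηp : 0 < η := by rw [hηdef]; exact mul_pos hC7 (hp _)
  have HL' := HL n hnL Mm e K (cube n x (3 ^ a)) he1 he2 hK1 hKL hKcard
  rw [← hlamdef] at hlam hBH hg
  rw [← hηdef] at hBH hεsq HL'
  rw [← hεdef] at hεp hε2 hεe hεsq
  obtain ⟨N0, hN0⟩ := trMag_of (K := K) (b := cube n x (3 ^ a) ×ˢ (univ : Finset (Fin s)))
    (Dict.magLim (edgesS n s Mm) hβp) hβp hneS hKp.le hηp
  obtain ⟨W0, hW0⟩ := HL'
  rw [Filter.frequently_atTop]
  intro N1
  obtain ⟨W, hW⟩ : ∃ W : ℕ, W = N1 + N0 + W0 + ⌈β⌉₊ + 1 := ⟨_, rfl⟩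
  have hWp : 0 < W := by omega
  refine ⟨4 * W, by omega, ?_⟩
  have hβN : β ≤ ((4 * W : ℕ) : ℝ) := by
    have h1 : β ≤ (⌈β⌉₊ : ℝ) := Nat.le_ceil _
    have h2 : (⌈β⌉₊ : ℝ) ≤ ((4 * W : ℕ) : ℝ) := by
      exact_mod_cast (by omega : ⌈β⌉₊ ≤ 4 * W)
    linarith
  have hmem : ∀ g : Tor n → ℝ, Fam n g0 lam g → ∀ y, 0 < g y ∧ g y ≤ 1 :=
    fun g hg y => ⟨hg0p.trans_le (hg.1 y).1, (hg.1 y).2⟩
  have hmagb : ∀ g : Tor n → ℝ, Fam n g0 lam g →
      ∀ z : Fin (4 * W + 1) × (Tor n × Fin s), z.1 ≠ 0 →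
      1 - ε ^ 2 ≤ mag (phys (edgesS n s Mm) β (4 * W))
        (th (1 / (s : ℝ)) (4 * W) (hS g) (blk K (cube n x (3 ^ a) ×ˢ univ))) z := by
    intro g hg z hz
    rw [← th_scaledS hs hβp]
    refine le_trans (by linarith) (hN0 (4 * W) (by omega) (hS fun y => g y / (s * β))
      (fun y => ?_) (fun y => hBH g hg y) z hz)
    have h1 := hmem g hg y.1
    unfold hS
    exact ⟨div_nonneg h1.1.le (by linarith), by rw [div_le_one (by linarith)]; linarith [h1.2]⟩
  have hlow : LowE n (4 * W * s) (cube n x (3 ^ a)) 1 g0 lam ε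
      (cS3 n s (4 * W) (phys (edgesS n s Mm) β (4 * W)) K (cube n x (3 ^ a))) :=
    hlo n (4 * W) K g0 lam ε (cube n x (3 ^ a)) _ (by omega) hKp.le hg0p hεp hε2
      (good_of_isLaw (Vale.Agent.P361.LRO.Ind.isLaw_phys' _ hβp.le hβN)) hmagb
  have key := H3 n (4 * W * s) (W * s) K g0 lam ε x a g
    (cS3 n s (4 * W) (phys (edgesS n s Mm) β (4 * W)) K (cube n x (3 ^ a)))
    hn3 (Nat.mul_pos hWp hs) (by ring) hea ha2e hK1 hK27 hK27a hK9 hg0 hg01 hlam hεp hεe
    (fun g hg => hW0 W (by omega) g (hmem g hg) (fun y => hBH g hg y)) hlow hg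
  rw [kap_scaledS hs hβp]
  exact key

end

end Vale.Agent.P361.LRO.S3S
end

section

/-!
P361 LRO, all spins: the slots encoding.  The copies of a physical layer are `s` slots; the copies
of a node of the extra slice are merged.
-/

namespace Vale.Agent.P361.LRO.GenS

open Finset _root_.P361.LRO Vale.Agent.P361.LRO Vale.Agent.P361.LRO.Ind Vale.Agent.P361.LRO.Net

set_option linter.unusedSectionVars false

noncomputable section

variable {n s N : ℕ} [NeZero n] [NeZero s]

/-- A section of the slot map. -/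
def secF (u : Nd n (N * s)) : Fin (N + 1) × (Tor n × Fin s) :=
  if h : u.1 = 0 then (0, (u.2, 0)) else
    (⟨((u.1 : ℕ) - 1) / s + 1, by
      have h0 : (u.1 : ℕ) ≠ 0 := fun h' => h (Fin.ext h')
      have h1 : (u.1 : ℕ) - 1 < N * s := by have := u.1.2; omega
      have h2 : ((u.1 : ℕ) - 1) / s < N :=
        (Nat.div_lt_iff_lt_mul (Nat.pos_of_ne_zero (NeZero.ne s))).mpr h1
      omega⟩, (u.2, ⟨((u.1 : ℕ) - 1) % s, Nat.mod_lt _ (Nat.pos_of_ne_zero (NeZero.ne s))⟩))

theorem slotF_zero_iff (z : Fin (N + 1) × (Tor n × Fin s)) :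
    (slotF n s N z).1 = 0 ↔ z.1 = 0 := by
  constructor
  · intro h
    by_contra h1
    exact slotL_ne h1 z.2.2 h
  · intro h
    show slotL s N z.1 z.2.2 = 0
    rw [h, slotL_zero]

theorem slotF_snd (z : Fin (N + 1) × (Tor n × Fin s)) : (slotF n s N z).2 = z.2.1 := rfl

theorem secF_snd (u : Nd n (N * s)) : (secF u : Fin (N + 1) × (Tor n × Fin s)).2.1 = u.2 := by
  unfold secF
  split_ifs <;> rfl

theorem slotF_secF (u : Nd n (N * s)) : slotF n s N (secF u) = u := by
  refine Prod.ext ?_ (by rw [slotF_snd, secF_snd])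
  by_cases h : u.1 = 0
  · unfold secF
    rw [dif_pos h, h]
    exact slotL_zero (0 : Fin s)
  · unfold secF
    rw [dif_neg h]
    apply Fin.ext
    have hk : (⟨((u.1 : ℕ) - 1) / s + 1, by
      have h0 : (u.1 : ℕ) ≠ 0 := fun h' => h (Fin.ext h')
      have h1 : (u.1 : ℕ) - 1 < N * s := by have := u.1.2; omega
      have h2 : ((u.1 : ℕ) - 1) / s < N :=
        (Nat.div_lt_iff_lt_mul (Nat.pos_of_ne_zero (NeZero.ne s))).mpr h1
      omega⟩ : Fin (N + 1)) ≠ 0 := by
      intro h
      have := congrArg Fin.val h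
      simp at this
    refine (slotL_val hk _).trans ?_
    show 1 + (((u.1 : ℕ) - 1) / s + 1 - 1) * s + ((u.1 : ℕ) - 1) % s = u.1
    rw [Nat.add_sub_cancel]
    have h4 := Nat.div_add_mod' ((u.1 : ℕ) - 1) s
    have h0 : (u.1 : ℕ) ≠ 0 := fun h' => h (Fin.ext h')
    omega

theorem secF_slotF {z : Fin (N + 1) × (Tor n × Fin s)} (hz : z.1 ≠ 0) :
    secF (slotF n s N z) = z :=
  slotF_inj hz (slotF_secF _)

theorem secF_ne_zero {u : Nd n (N * s)} (hu : u.1 ≠ 0) :
    (secF u : Fin (N + 1) × (Tor n × Fin s)).1 ≠ 0 := by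
  intro h
  have h1 := (slotF_zero_iff (secF u : Fin (N + 1) × (Tor n × Fin s))).mpr h
  rw [slotF_secF] at h1
  exact hu h1

/-- Sums over the physical slots. -/
theorem sum_slot (g : Nd n (N * s) → ℝ) (hg : ∀ x, g (0, x) = 0) :
    ∑ z : Fin (N + 1) × (Tor n × Fin s), (if z.1 = 0 then 0 else g (slotF n s N z)) = ∑ u, g u := by
  have h1 : ∑ u, g u = ∑ u ∈ univ.filter (fun u : Nd n (N * s) => u.1 ≠ 0), g u := by
    rw [Finset.sum_filter]
    refine Finset.sum_congr rfl fun u _ => ?_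
    split_ifs with h
    · rfl
    · rw [not_not] at h
      have : u = (0, u.2) := Prod.ext h rfl
      rw [this, hg]
  have h2 : ∑ z : Fin (N + 1) × (Tor n × Fin s), (if z.1 = 0 then 0 else g (slotF n s N z)) =
      ∑ z ∈ univ.filter (fun z : Fin (N + 1) × (Tor n × Fin s) => z.1 ≠ 0), g (slotF n s N z) := by
    rw [Finset.sum_filter]
    refine Finset.sum_congr rfl fun z _ => ?_
    by_cases h : z.1 = 0 <;> simp [h]
  rw [h1, h2]
  refine Finset.sum_nbij' (fun z => slotF n s N z) (fun u => secF u) ?_ ?_ ?_ ?_ ?_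
  · intro z hz
    rw [Finset.mem_filter] at hz ⊢
    exact ⟨Finset.mem_univ _, fun h => hz.2 ((slotF_zero_iff z).mp h)⟩
  · intro u hu
    rw [Finset.mem_filter] at hu ⊢
    exact ⟨Finset.mem_univ _, secF_ne_zero hu.2⟩
  · intro z hz
    rw [Finset.mem_filter] at hz
    exact secF_slotF hz.2
  · intro u _
    exact slotF_secF u
  · intro z _
    rfl

/-- Preimage of an electrode. -/
def pre (E : Finset (Nd n (N * s))) : Finset (Fin (N + 1) × (Tor n × Fin s)) :=
  univ.filter fun z => slotF n s N z ∈ E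

theorem mem_pre {E : Finset (Nd n (N * s))} {z : Fin (N + 1) × (Tor n × Fin s)} :
    z ∈ pre E ↔ slotF n s N z ∈ E := by
  unfold pre; simp

theorem th_mem' {V : Type} [Fintype V] [DecidableEq V] {β : ℝ} (hβ : 0 < β) {N : ℕ}
    (hN : β ≤ N) {K : ℝ} (hK : 0 ≤ K) (b : Finset V) {h : V → ℝ} (h0 : ∀ x, 0 ≤ h x)
    (h1 : ∀ x, h x ≤ 1) (z : Fin (N + 1) × V) :
    0 ≤ th β N h (blk K b) z ∧ th β N h (blk K b) z ≤ 1 := by
  have hNpos : (0 : ℝ) < N := lt_of_lt_of_le hβ hN
  unfold th
  split_ifs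
  · unfold blk
    split_ifs
    · refine ⟨?_, (Real.tanh_lt_one _).le⟩
      rw [Real.tanh_eq_sinh_div_cosh]
      exact div_nonneg (Real.sinh_nonneg_iff.mpr (by positivity)) (Real.cosh_pos _).le
    · exact ⟨le_rfl, zero_le_one⟩
  · have := h0 z.2
    refine ⟨by positivity, ?_⟩
    rw [div_le_one (by positivity)]
    nlinarith [h1 z.2]

/-- A node with `θ = 0` has no conductances. -/
theorem c0_zero {X : Type} [Fintype X] [DecidableEq X] {μ : Equiv.Perm X → ℝ} (hμ : Vale.Agent.P361.LRO.Net.Good μ)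
    {θ : X → ℝ} (hθ : ∀ x, 0 ≤ θ x ∧ θ x ≤ 1) {z : X} (hz : θ z = 0) (v : X) :
    c0 μ θ z v = 0 := by
  have hnn : ∀ x y, 0 ≤ c0 μ θ x y := by
    intro x y
    unfold c0
    split_ifs with hxy
    · exact le_rfl
    · exact hμ.ccnn _ hθ x y hxy
  have h1 : ∑ v, c0 μ θ z v = vv μ θ z := netV_c0 μ θ z
  have h2 := hμ.vle θ hθ z
  have h3 := Finset.single_le_sum (f := fun v => c0 μ θ z v) (fun v _ => hnn z v)
    (Finset.mem_univ v)
  have h4 := hnn z v
  rw [h1] at h3
  linarith

theorem c0_symm {X : Type} [Fintype X] [DecidableEq X] (μ : Equiv.Perm X → ℝ)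
    (θ : X → ℝ) (x y : X) : c0 μ θ x y = c0 μ θ y x := by
  unfold c0
  by_cases hxy : x = y
  · simp [hxy]
  · simp only [hxy, Ne.symm hxy, if_false]
    exact Vale.Agent.P361.LRO.Net.cc_comm _ _ _ _

section Equiv'

variable {M : ℕ} {β K : ℝ} {b : Finset (Tor n)} {h : Tor n → ℝ}

/-- The charge on the copies. -/
def qS (q : Nd n (N * s) → ℝ) (z : Fin (N + 1) × (Tor n × Fin s)) : ℝ :=
  if z.1 = 0 then 0 else q (slotF n s N z)

theorem sum_qS {q : Nd n (N * s) → ℝ} (hq : ∀ x, q (0, x) = 0) (a : Nd n (N * s) → ℝ) :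
    ∑ z : Fin (N + 1) × (Tor n × Fin s), qS q z * a (slotF n s N z) = ∑ u, q u * a u := by
  rw [← sum_slot (fun u => q u * a u) (fun x => by simp [hq x])]
  refine Finset.sum_congr rfl fun z _ => ?_
  unfold qS
  split_ifs <;> simp

theorem sum_qS_sec {q : Nd n (N * s) → ℝ} (hq : ∀ x, q (0, x) = 0)
    (a : Fin (N + 1) × (Tor n × Fin s) → ℝ) :
    ∑ u, q u * a (secF u) = ∑ z : Fin (N + 1) × (Tor n × Fin s), qS q z * a z := by
  rw [← sum_qS hq (fun u => a (secF u))]
  refine Finset.sum_congr rfl fun z _ => ?_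
  by_cases hz : z.1 = 0
  · unfold qS; simp [hz]
  · rw [secF_slotF hz]

end Equiv'

theorem sum_loweredS {β : ℝ} (hβ : 0 < β) {N : ℕ} (hN : β ≤ N) (T : Tor n × Fin s → ℝ)
    {h h' : Tor n → ℝ} (hle : ∀ x, h' x ≤ h x) :
    ∑ z : Fin (N + 1) × (Tor n × Fin s), (if th β N (hS h') T z < th β N (hS h) T z then
        th β N (hS h) T z else 0) =
      s * (β / 2 * ∑ x, (if h' x = h x then 0 else h x)) := by
  have hNpos : (0 : ℝ) < N := lt_of_lt_of_le hβ hN
  rw [Fintype.sum_prod_type, Fin.sum_univ_succ]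
  have h1 : ∑ x : Tor n × Fin s, (if th β N (hS h') T ((0 : Fin (N + 1)), x) <
      th β N (hS h) T ((0 : Fin (N + 1)), x) then
        th β N (hS h) T ((0 : Fin (N + 1)), x) else 0) = 0 := by
    refine Finset.sum_eq_zero fun x _ => ?_
    simp [th]
  have h2 : ∀ i : Fin N, ∑ x : Tor n × Fin s, (if th β N (hS h') T (i.succ, x) <
      th β N (hS h) T (i.succ, x) then th β N (hS h) T (i.succ, x) else 0) =
      β / (2 * N) * (s * ∑ x, (if h' x = h x then 0 else h x)) := by
    intro i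
    rw [Fintype.sum_prod_type, Finset.mul_sum, Finset.mul_sum]
    refine Finset.sum_congr rfl fun x _ => ?_
    have hi : i.succ ≠ 0 := Fin.succ_ne_zero i
    simp only [th, hi, if_false, hS]
    rw [Finset.sum_const, Finset.card_univ, Fintype.card_fin, nsmul_eq_mul]
    have hc : 0 < β / (2 * N) := by positivity
    have e1 : β * h' x / (2 * N) = β / (2 * N) * h' x := by ring
    have e2 : β * h x / (2 * N) = β / (2 * N) * h x := by ring
    rw [e1, e2]
    by_cases hx : h' x = h x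
    · simp [hx]
    · have hlt : h' x < h x := lt_of_le_of_ne (hle x) hx
      rw [if_pos (by exact mul_lt_mul_of_pos_left hlt hc), if_neg hx]
      ring
  rw [h1, zero_add, Finset.sum_congr rfl fun i _ => h2 i, Finset.sum_const, Finset.card_univ,
    Fintype.card_fin, nsmul_eq_mul]
  field_simp

end

end Vale.Agent.P361.LRO.GenS
end

section

/-!
P361 LRO, all spins: `LowE` for the slots network.
-/

namespace Vale.Agent.P361.LRO.GenS

open Finset _root_.P361.LRO Vale.Agent.P361.LRO Vale.Agent.P361.LRO.Ind Vale.Agent.P361.LRO.Net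

set_option linter.unusedSectionVars false

noncomputable section

variable {n s : ℕ} [NeZero n] [NeZero s]

theorem blk_mem' {V : Type} [Fintype V] [DecidableEq V] {K : ℝ} (hK : 0 ≤ K) {b : Finset V}
    (x : V) : 0 ≤ blk K b x ∧ blk K b x ≤ 1 := by
  unfold blk
  split_ifs
  · refine ⟨?_, (Real.tanh_lt_one _).le⟩
    rw [Real.tanh_eq_sinh_div_cosh]
    exact div_nonneg (Real.sinh_nonneg_iff.mpr (by positivity)) (Real.cosh_pos _).le
  · exact ⟨le_rfl, zero_le_one⟩

theorem path_thS {β : ℝ} {N : ℕ} (hN : 0 < N) (hβ : 0 < β)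
    {T : Tor n × Fin s → ℝ} (hT : ∀ z, 0 ≤ T z) (h h' : Tor n → ℝ) {t : ℝ} (ht : 0 ≤ t) :
    path (th β N (hS h) T) (th β N (hS h') T) t =
      th β N (hS fun x => max (h' x) (Real.exp (-t) * h x)) T := by
  have hNpos : (0 : ℝ) < N := by exact_mod_cast hN
  have he : Real.exp (-t) ≤ 1 := Real.exp_le_one_iff.mpr (by linarith)
  funext z
  unfold path th
  by_cases hz : z.1 = 0
  · simp only [hz, if_true]
    refine max_eq_left ?_
    nlinarith [hT z.2]
  · simp only [hz, if_false, hS]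
    have hc : 0 ≤ β / (2 * N) := by positivity
    have e1 : β * h' z.2.1 / (2 * N) = β / (2 * N) * h' z.2.1 := by ring
    have e2 : Real.exp (-t) * (β * h z.2.1 / (2 * N)) = β / (2 * N) * (Real.exp (-t) * h z.2.1) := by
      ring
    have e3 : β * max (h' z.2.1) (Real.exp (-t) * h z.2.1) / (2 * N) =
        β / (2 * N) * max (h' z.2.1) (Real.exp (-t) * h z.2.1) := by ring
    rw [e1, e2, e3, mul_max_of_nonneg _ _ hc]

end

end Vale.Agent.P361.LRO.GenS
end

section

/-!
P361 LRO, stage 3, all spins: lowering the field in the slots network, for any good law and the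
scaled fields (slice parameters `g / (2 N s)`).
-/

namespace Vale.Agent.P361.LRO.S3S

open Finset _root_.P361.LRO Vale.Agent.P361.LRO Vale.Agent.P361.LRO.Ind Vale.Agent.P361.LRO.Net
  Vale.Agent.P361.LRO.GenS

set_option linter.unusedSectionVars false

noncomputable section

variable {n s N : ℕ} [NeZero n] [NeZero s]

section Equiv'

variable {K : ℝ} {b : Finset (Tor n)} {h : Tor n → ℝ}
  {μ : Equiv.Perm (Fin (N + 1) × (Tor n × Fin s)) → ℝ}

theorem netK_cS3 (a : Nd n (N * s) → ℝ) :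
    netK (cS3 n s N μ K b h) a =
      KK μ (th (1 / (s : ℝ)) N (hS h) (blk K (b ×ˢ univ))) (fun z => a (slotF n s N z)) := by
  unfold cS3
  rw [netK_mgC, netK_c0]

/-- The potential on the copies may be replaced by the pull-back of a potential on the slots. -/
theorem KK_sec3 {β : ℝ} (hβ : 0 < β) (hN : β ≤ N) (hK : 0 ≤ K) (h0 : ∀ x, 0 ≤ h x)
    (h1 : ∀ x, h x ≤ 1) (hG : Vale.Agent.P361.LRO.Net.Good μ) {E : Finset (Nd n (N * s))}
    (hE : hatb (N * s) b ⊆ E) {a : Fin (N + 1) × (Tor n × Fin s) → ℝ}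
    (ha : ∀ z ∈ pre E, a z = 1) :
    KK μ (th β N (hS h) (blk K (b ×ˢ univ))) (fun z => a (secF (slotF n s N z))) =
    KK μ (th β N (hS h) (blk K (b ×ˢ univ))) a := by
  have hθ : ∀ z, 0 ≤ th β N (hS (s := s) h) (blk K (b ×ˢ univ)) z ∧
      th β N (hS (s := s) h) (blk K (b ×ˢ univ)) z ≤ 1 :=
    fun z => th_mem' (h := hS (s := s) h) hβ hN hK _ (fun x => h0 x.1) (fun x => h1 x.1) z
  rw [← netK_c0, ← netK_c0]
  refine netK_congr_zero (c0_symm _ _) fun z => ?_
  by_cases hz : z.1 = 0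
  · by_cases hb : z.2.1 ∈ b
    · left
      have h2 : slotF n s N z ∈ E := by
        apply hE
        unfold hatb
        rw [Finset.mem_product]
        exact ⟨by rw [Finset.mem_singleton]; exact (slotF_zero_iff z).mpr hz, hb⟩
      rw [ha z (mem_pre.mpr h2), ha (secF (slotF n s N z)) (mem_pre.mpr (by rw [slotF_secF]; exact h2))]
    · right
      intro v
      refine c0_zero hG hθ ?_ v
      unfold th blk
      rw [if_pos hz, if_neg]
      simpa using hb
  · left
    rw [secF_slotF hz]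

theorem inv_s_pos : (0 : ℝ) < 1 / (s : ℝ) := by
  have : (0 : ℝ) < s := by exact_mod_cast Nat.pos_of_ne_zero (NeZero.ne s)
  positivity

theorem inv_s_le (hN : 1 ≤ N) : 1 / (s : ℝ) ≤ N := by
  have h1 : (1 : ℝ) ≤ s := by exact_mod_cast Nat.one_le_iff_ne_zero.2 (NeZero.ne s)
  have h2 : (1 : ℝ) ≤ N := by exact_mod_cast hN
  refine le_trans ?_ h2
  rw [div_le_one (by linarith)]
  exact h1

theorem LBn_cS3 (hN : 1 ≤ N) (hK : 0 ≤ K) (h0 : ∀ x, 0 ≤ h x)
    (h1 : ∀ x, h x ≤ 1) (hG : Vale.Agent.P361.LRO.Net.Good μ) {E G : Finset (Nd n (N * s))}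
    (hE : hatb (N * s) b ⊆ E) (A : ℝ) :
    LBn (cS3 n s N μ K b h) E G A ↔
      LB μ (th (1 / (s : ℝ)) N (hS h) (blk K (b ×ˢ univ))) (pre E) (pre G) A := by
  constructor
  · intro H a haE haG
    have h2 := H (fun u => a (secF u))
      (fun u hu => haE _ (mem_pre.mpr (by rw [slotF_secF]; exact hu)))
      (fun u hu => haG _ (mem_pre.mpr (by rw [slotF_secF]; exact hu)))
    rwa [netK_cS3, KK_sec3 inv_s_pos (inv_s_le hN) hK h0 h1 hG hE haE] at h2
  · intro H a haE haG
    rw [netK_cS3]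
    exact H (fun z => a (slotF n s N z)) (fun z hz => haE _ (mem_pre.mp hz))
      (fun z hz => haG _ (mem_pre.mp hz))

theorem RBn_cS3 (hN : 1 ≤ N) (hK : 0 ≤ K) (h0 : ∀ x, 0 ≤ h x)
    (h1 : ∀ x, h x ≤ 1) (hG : Vale.Agent.P361.LRO.Net.Good μ) {E : Finset (Nd n (N * s))}
    (hE : hatb (N * s) b ⊆ E) {q : Nd n (N * s) → ℝ} (hq : ∀ x, q (0, x) = 0) (R : ℝ) :
    RBn (cS3 n s N μ K b h) E q R ↔
      RB μ (th (1 / (s : ℝ)) N (hS h) (blk K (b ×ˢ univ))) (pre E) (qS q) R := by
  constructor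
  · intro H a haE
    have h2 := H (fun u => a (secF u))
      (fun u hu => haE _ (mem_pre.mpr (by rw [slotF_secF]; exact hu)))
    rwa [netK_cS3, KK_sec3 inv_s_pos (inv_s_le hN) hK h0 h1 hG hE haE, sum_qS_sec hq] at h2
  · intro H a haE
    have h2 := H (fun z => a (slotF n s N z)) (fun z hz => haE _ (mem_pre.mp hz))
    rwa [sum_qS hq, ← netK_cS3] at h2

end Equiv'

/-- **`LowE` for the slots network of any good law, scaled fields.** -/
theorem lowE_gen (hN : 1 ≤ N) {K : ℝ} (hK : 0 ≤ K)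
    (b : Finset (Tor n)) {h0 lam ε : ℝ} (hh0 : 0 < h0) (hε : 0 ≤ ε) (hε1 : ε ^ 2 ≤ 1 / 2)
    {μ : Equiv.Perm (Fin (N + 1) × (Tor n × Fin s)) → ℝ} (hG : Vale.Agent.P361.LRO.Net.Good μ)
    (hmag : ∀ h, Fam n h0 lam h → ∀ z : Fin (N + 1) × (Tor n × Fin s), z.1 ≠ 0 →
      1 - ε ^ 2 ≤ mag μ (th (1 / (s : ℝ)) N (hS h) (blk K (b ×ˢ univ))) z) :
    LowE n (N * s) b 1 h0 lam ε (cS3 n s N μ K b) := by
  have hNn : 0 < N := hN
  have hNpos : (0 : ℝ) < N := by exact_mod_cast hNn
  have hsn : 0 < s := Nat.pos_of_ne_zero (NeZero.ne s)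
  have hs : (0 : ℝ) < s := by exact_mod_cast hsn
  obtain ⟨β, hβd⟩ : ∃ β : ℝ, β = 1 / (s : ℝ) := ⟨_, rfl⟩
  have hβ : 0 < β := by rw [hβd]; exact inv_s_pos
  have hNβ : β ≤ N := by rw [hβd]; exact inv_s_le hN
  have hsβ : (s : ℝ) * β = 1 := by rw [hβd]; field_simp
  rw [← hβd] at hmag
  set T : Tor n × Fin s → ℝ := blk K (b ×ˢ univ) with hT
  have hT0 : ∀ z, 0 ≤ T z := fun z => (blk_mem' hK z).1
  have hfpos : ∀ {h : Tor n → ℝ}, Fam n h0 lam h → ∀ x, 0 < h x :=
    fun hf x => hh0.trans_le (hf.1 x).1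
  have hmem : ∀ {h : Tor n → ℝ}, Fam n h0 lam h → ∀ z : Fin (N + 1) × (Tor n × Fin s),
      0 ≤ th β N (hS h) T z ∧ th β N (hS h) T z ≤ 1 := fun {h} hf z =>
    th_mem' (h := hS (s := s) h) hβ hNβ hK _ (fun x => (hfpos hf x.1).le)
      (fun x => (hf.1 x.1).2) z
  have hmono : ∀ {h h' : Tor n → ℝ}, (∀ x, h' x ≤ h x) →
      ∀ z : Fin (N + 1) × (Tor n × Fin s),
      th β N (hS h') T z ≤ th β N (hS h) T z := by
    intro h h' hle z
    unfold th hS
    split_ifs
    · exact le_rfl
    · have := hle z.2.1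
      gcongr
  have hlt : ∀ {h h' : Tor n → ℝ} (z : Fin (N + 1) × (Tor n × Fin s)),
      th β N (hS h') T z < th β N (hS h) T z → z.1 ≠ 0 := by
    intro h h' z hz h0
    unfold th at hz
    simp [h0] at hz
  have hfix : ∀ {h h' : Tor n → ℝ} (z : Fin (N + 1) × (Tor n × Fin s)),
      (z.1 ≠ 0 → h' z.2.1 = h z.2.1) →
      th β N (hS h') T z = th β N (hS h) T z := by
    intro h h' z hz
    unfold th hS
    split_ifs with h1
    · rfl
    · rw [hz h1]
  have hpos : ∀ {h h' : Tor n → ℝ}, Fam n h0 lam h' → ∀ z : Fin (N + 1) × (Tor n × Fin s),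
      th β N (hS h') T z < th β N (hS h) T z → 0 < th β N (hS h') T z := by
    intro h h' hf z hz
    have h1 := hlt z hz
    unfold th
    rw [if_neg h1]
    have := hfpos hf z.2.1
    unfold hS
    positivity
  have hm : ∀ {h h' : Tor n → ℝ}, Fam n h0 lam h → Fam n h0 lam h' → ∀ t : ℝ, 0 ≤ t →
      ∀ z : Fin (N + 1) × (Tor n × Fin s), th β N (hS h') T z < th β N (hS h) T z →
      1 - ε ^ 2 ≤ mag μ (path (th β N (hS h) T) (th β N (hS h') T) t) z := by
    intro h h' hf hf' t ht z hz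
    rw [path_thS hNn hβ hT0 h h' ht]
    exact hmag _ (Fam.lower hh0.le hf hf' ht) z (hlt z hz)
  refine ⟨?_, ?_⟩
  · intro h h' hf hf' hle E G hEG hbE hfixEG S hS1 hsum A hA hLB
    rw [LBn_cS3 hN hK (fun x => (hfpos hf x).le) (fun x => (hf.1 x).2) hG hbE, ← hβd] at hLB
    rw [LBn_cS3 hN hK (fun x => (hfpos hf' x).le) (fun x => (hf'.1 x).2) hG hbE, ← hβd]
    have hE : ∀ z ∈ pre E, th β N (hS h') T z = th β N (hS h) T z := fun z hz =>
      hfix z fun h1 => hfixEG _ (Finset.mem_union_left _ (mem_pre.mp hz))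
        (fun h2 => h1 ((slotF_zero_iff z).mp h2))
    have hG' : ∀ z ∈ pre G, th β N (hS h') T z = th β N (hS h) T z := fun z hz =>
      hfix z fun h1 => hfixEG _ (Finset.mem_union_right _ (mem_pre.mp hz))
        (fun h2 => h1 ((slotF_zero_iff z).mp h2))
    have hpre : Disjoint (pre (s := s) (N := N) E) (pre G) := by
      rw [Finset.disjoint_left] at hEG ⊢
      intro z hz hz'
      exact hEG (mem_pre.mp hz) (mem_pre.mp hz')
    rw [one_mul] at hS1 ⊢
    have key := LB_lower hG hε (fun z => (hmem hf' z).1) (hmono hle) (fun z => (hmem hf z).2)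
      hE hG' hpre (hpos hf') (hm hf hf') (Real.log_nonneg hS1)
      (B := S / 2) (by
        rw [sum_loweredS hβ hNβ T hle]
        have h5 : (s : ℝ) * (β / 2 * ∑ x, (if h' x = h x then 0 else h x)) =
            (s * β) / 2 * ∑ x, (if h' x = h x then 0 else h x) := by ring
        rw [h5, hsβ]
        linarith) hLB
    intro a haE haG
    refine le_trans ?_ (key a haE haG)
    have hSpos : 0 < S := by linarith
    have e1 : Real.exp (-(4 * ε * Real.log S)) = S ^ (-(4 * ε)) := by
      rw [Real.rpow_def_of_pos hSpos]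
      congr 1
      ring
    rw [e1, Real.exp_neg, Real.exp_log hSpos]
    have e2 : 2 * ε * (S / 2) * S⁻¹ = ε := by
      have h5 : S * S⁻¹ = 1 := mul_inv_cancel₀ hSpos.ne'
      linear_combination ε * h5
    rw [e2]
    linarith
  · intro _ hh1 h' hf' E q hbE hfixE hqE hq0 hqnn hq1 R hR hRB
    have hlam : 1 ≤ Real.exp lam := by
      have h1 := hf'.2 0 0
      have h2 := hfpos hf' 0
      have h3 : h' 0 ≤ Real.exp lam * (Real.exp lam * h' 0) :=
        h1.1.trans (mul_le_mul_of_nonneg_left h1.2 (Real.exp_pos _).le)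
      by_contra hcon
      have h4 : Real.exp lam < 1 := not_le.mp hcon
      have h5 := Real.exp_pos lam
      nlinarith [mul_pos h5 h2, mul_pos (sub_pos.mpr h4) h2,
        mul_pos (mul_pos h5 h2) (sub_pos.mpr h4)]
    have hf : Fam n h0 lam fun _ => (1 : ℝ) :=
      ⟨fun x => ⟨hh1, le_rfl⟩, fun x i => ⟨by linarith, by linarith⟩⟩
    rw [RBn_cS3 hN hK (fun x => (hfpos hf x).le) (fun x => (hf.1 x).2) hG hbE hq0, ← hβd] at hRB
    rw [RBn_cS3 hN hK (fun x => (hfpos hf' x).le) (fun x => (hf'.1 x).2) hG hbE hq0, ← hβd]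
    have hle : ∀ x, h' x ≤ (fun _ : Tor n => (1 : ℝ)) x := fun x => (hf'.1 x).2
    have hE : ∀ z ∈ pre E, th β N (hS h') T z = th β N (hS fun _ => 1) T z := fun z hz =>
      hfix z fun h1 => hfixE _ (mem_pre.mp hz) (fun h2 => h1 ((slotF_zero_iff z).mp h2))
    have hlog : 0 ≤ Real.log (1 / h0) := Real.log_nonneg (by rw [le_div_iff₀ hh0]; linarith)
    have hqS1 : ∑ z : Fin (N + 1) × (Tor n × Fin s), qS q z = 1 := by
      have h1 := sum_qS (s := s) (N := N) hq0 (fun _ => 1)
      simp only [mul_one] at h1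
      rw [h1, hq1]
    have key := ode_RB hG (fun z => (hmem hf' z).1) (hmono hle) (fun z => (hmem hf z).2)
      hE hqS1 (τ := 2 * ε) (by positivity)
      (fun t ht z hz => by
        have h1 := hm hf hf' t ht z hz
        refine ⟨sqrt_mag_le hε h1, ?_⟩
        have h2 : 1 / 2 ≤ 1 - ε ^ 2 := by linarith
        exact h2.trans h1)
      hR hRB hlog (fun z => by
        rw [Real.exp_log (by positivity)]
        unfold th
        by_cases hz : z.1 = 0
        · simp only [hz, if_true]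
          have h1 := hT0 z.2
          have h2 : 1 ≤ 1 / h0 := by rw [le_div_iff₀ hh0]; linarith
          nlinarith
        · simp only [hz, if_false, hS]
          have h2 := (hf'.1 z.2.1).1
          have h3 : (1 : ℝ) ≤ 1 / h0 * h' z.2.1 := by
            rw [one_div, inv_mul_eq_div, le_div_iff₀ hh0]
            linarith
          have hc : 0 ≤ β / (2 * N) := by positivity
          calc β * 1 / (2 * N) = β / (2 * N) * 1 := by ring
            _ ≤ β / (2 * N) * (1 / h0 * h' z.2.1) := mul_le_mul_of_nonneg_left h3 hc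
            _ = 1 / h0 * (β * h' z.2.1 / (2 * N)) := by ring)
    intro a ha
    refine (key a ha).trans ?_
    have hKK : 0 ≤ KK μ (th β N (hS h') T) a := by
      rw [← netK_c0]
      refine P361.LRO.netK_nonneg (fun x y => ?_) a
      unfold c0
      split_ifs with hxy
      · exact le_rfl
      · exact hG.ccnn _ (hmem hf') x y hxy
    refine mul_le_mul_of_nonneg_right ?_ hKK
    have e1 : Real.exp (2 * (2 * ε) * Real.log (1 / h0)) = h0 ^ (-(4 * ε)) := by
      rw [Real.rpow_def_of_pos hh0, one_div, Real.log_inv]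
      congr 1
      ring
    rw [e1]
    refine mul_le_mul_of_nonneg_left ?_ (Real.rpow_nonneg hh0.le _)
    refine add_le_add le_rfl ?_
    rw [Real.exp_log (by positivity)]
    have hq2 : ∑ z : Fin (N + 1) × (Tor n × Fin s), qS q z ^ 2 = ∑ u, q u ^ 2 := by
      have h1 := sum_slot (s := s) (N := N) (fun u => q u ^ 2) (fun x => by simp [hq0 x])
      rw [← h1]
      refine Finset.sum_congr rfl fun z _ => ?_
      unfold qS
      split_ifs <;> simp
    have h5 : ∑ z ∈ univ.filter (fun z : Fin (N + 1) × (Tor n × Fin s) =>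
        th β N (hS h') T z < th β N (hS fun _ => 1) T z),
        qS q z ^ 2 / th β N (hS fun _ => 1) T z ≤ 2 * N / β * ∑ u, q u ^ 2 := by
      rw [← hq2, Finset.mul_sum, Finset.sum_filter]
      refine Finset.sum_le_sum fun z _ => ?_
      split_ifs with h1
      · have hz := hlt z h1
        unfold th hS
        rw [if_neg hz]
        apply le_of_eq
        field_simp
      · positivity
    have h6 : 0 ≤ ∑ z ∈ univ.filter (fun z : Fin (N + 1) × (Tor n × Fin s) =>
        th β N (hS h') T z < th β N (hS fun _ => 1) T z),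
        qS q z ^ 2 / th β N (hS fun _ => 1) T z :=
      Finset.sum_nonneg fun z _ => div_nonneg (sq_nonneg _) (hmem hf z).1
    have h7 : 1 / h0 - 1 ≤ 1 / h0 := by linarith
    have h8 : 0 ≤ 1 / h0 := by positivity
    have h9 : 2 * N / β = 2 * (N * s) := by rw [hβd]; field_simp
    calc 4 * (1 / h0 - 1) * ∑ z ∈ univ.filter (fun z : Fin (N + 1) × (Tor n × Fin s) =>
        th β N (hS h') T z < th β N (hS fun _ => 1) T z),
        qS q z ^ 2 / th β N (hS fun _ => 1) T z
        ≤ 4 * (1 / h0) * (2 * N / β * ∑ u, q u ^ 2) := by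
          apply mul_le_mul _ h5 h6 (by positivity)
          linarith
      _ = 8 * ((N * s : ℕ) : ℝ) / (1 * h0) * (∑ u, q u ^ 2) := by
          rw [h9]
          push_cast
          field_simp
          ring

/-- **Lowering the field in the slots network.** -/
theorem lowStmt3S {s : ℕ} (hs : 0 < s) : LowStmt3S s := by
  have : NeZero s := ⟨hs.ne'⟩
  intro n N _ K h0 lam ε b μ hN hK hh0 hε hε1 hG hmag
  exact lowE_gen hN hK b hh0 hε hε1 hG hmag

end

end Vale.Agent.P361.LRO.S3S
end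

section

/-!
P361 LRO: the physical network satisfies `Ind.Low` (block (3) → block (6)).
-/

namespace Vale.Agent.P361.LRO.Ind

open Finset Vale.Agent.P361.LRO _root_.P361.LRO

noncomputable section

end

end Vale.Agent.P361.LRO.Ind
end

section

/-!
P361, stage 3 (K2), the half `N = ∞`: probability of unequal spins / of an exchange at a bond, in
the presence of the extra slice `e^{K n_b}`.
-/

namespace Vale.Agent.P361.LRO.Bloch.TX

open Finset Matrix

noncomputable section

theorem trace_diag3 {ι : Type*} [Fintype ι] [DecidableEq ι] (e : ι → ℝ) (A B : Matrix ι ι ℝ) :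
    trace (diagonal e * A * B) = ∑ p : ι × ι, (A p.1 p.2 * B p.2 p.1) * e p.1 := by
  have := trace_diag4 e (fun _ => 1) A B
  rw [Matrix.diagonal_one, Matrix.mul_one] at this
  rw [this]
  exact Finset.sum_congr rfl fun p _ => by ring

/-- Jensen. -/
theorem jensen_gen {Ω : Type*} [Fintype Ω] (w N : Ω → ℝ) (hw : ∀ ω, 0 ≤ w ω) {k m : ℝ}
    (hm : k * (∑ ω, w ω * N ω) ≤ m * ∑ ω, w ω) :
    Real.exp (-m) * (∑ ω, w ω) ≤ ∑ ω, w ω * Real.exp (-(k * N ω)) := by
  have h1 : ∀ ω, w ω * (Real.exp (-m) * (1 + (m - k * N ω))) ≤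
      w ω * Real.exp (-(k * N ω)) := by
    intro ω
    refine mul_le_mul_of_nonneg_left ?_ (hw ω)
    have h2 := Real.add_one_le_exp (m - k * N ω)
    have h3 : Real.exp (-(k * N ω)) = Real.exp (-m) * Real.exp (m - k * N ω) := by
      rw [← Real.exp_add]; congr 1; ring
    rw [h3]
    exact mul_le_mul_of_nonneg_left (by linarith) (Real.exp_pos _).le
  have h4 := Finset.sum_le_sum fun ω (_ : ω ∈ (univ : Finset Ω)) => h1 ω
  have h6 : ∀ ω, w ω * (Real.exp (-m) * (1 + (m - k * N ω))) =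
      Real.exp (-m) * (w ω + (m * w ω - k * (w ω * N ω))) := fun ω => by ring
  have h5 : ∑ ω, w ω * (Real.exp (-m) * (1 + (m - k * N ω))) =
      Real.exp (-m) * (∑ ω, w ω + (m * ∑ ω, w ω - k * ∑ ω, w ω * N ω)) := by
    rw [Finset.sum_congr rfl fun ω _ => h6 ω, ← Finset.mul_sum, Finset.sum_add_distrib,
      Finset.sum_sub_distrib, ← Finset.mul_sum, ← Finset.mul_sum]
  rw [h5] at h4
  refine le_trans ?_ h4
  exact mul_le_mul_of_nonneg_left (by linarith) (Real.exp_pos _).le

/-- Tilt by a diagonal weight `e^{-k N}`, observable `X` entrywise nonnegative. -/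
theorem tiltX {ι : Type*} [Fintype ι] [DecidableEq ι] (A B X : Matrix ι ι ℝ)
    (hA : ∀ i j, 0 ≤ A i j) (hB : ∀ i j, 0 ≤ B i j) (hX : ∀ i j, 0 ≤ X i j)
    (N : ι → ℝ) (hN : ∀ i, 0 ≤ N i) {k m c : ℝ} (hk : 0 ≤ k)
    (hm : k * trace (diagonal N * A * B) ≤ m * trace (A * B))
    (hc : trace (A * X * B) ≤ c * trace (A * B)) (hc0 : 0 ≤ c) :
    trace (diagonal (fun i => Real.exp (-(k * N i))) * A * X * B) ≤
      Real.exp m * c * trace (diagonal (fun i => Real.exp (-(k * N i))) * A * B) := by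
  have h2 : trace (A * B) = ∑ p : ι × ι, (A p.1 p.2 * B p.2 p.1) := by
    have := trace_diag3 (fun _ => 1) A B
    rw [Matrix.diagonal_one, Matrix.one_mul] at this
    rw [this]
    exact Finset.sum_congr rfl fun p _ => by ring
  have h3 : trace (A * X * B) = ∑ p : ι × ι, ((A * X) p.1 p.2 * B p.2 p.1) := by
    have := trace_diag3 (fun _ => 1) (A * X) B
    rw [Matrix.diagonal_one, Matrix.one_mul] at this
    rw [this]
    exact Finset.sum_congr rfl fun p _ => by ring
  have hAX : ∀ i j, 0 ≤ (A * X) i j := by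
    intro i j
    rw [Matrix.mul_apply]
    exact Finset.sum_nonneg fun l _ => mul_nonneg (hA _ _) (hX _ _)
  have hJ : Real.exp (-m) * trace (A * B) ≤
      trace (diagonal (fun i => Real.exp (-(k * N i))) * A * B) := by
    rw [trace_diag3, h2]
    refine jensen_gen (fun p : ι × ι => A p.1 p.2 * B p.2 p.1) (fun p => N p.1)
      (fun p => mul_nonneg (hA _ _) (hB _ _)) ?_
    rw [trace_diag3, h2] at hm
    exact hm
  have hU : trace (diagonal (fun i => Real.exp (-(k * N i))) * A * X * B) ≤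
      trace (A * X * B) := by
    rw [Matrix.mul_assoc (diagonal _) A X, trace_diag3, h3]
    refine Finset.sum_le_sum fun p _ => ?_
    have h1 : Real.exp (-(k * N p.1)) ≤ 1 := Real.exp_le_one_iff.2 (by
      have := mul_nonneg hk (hN p.1); linarith)
    have h0 := mul_nonneg (hAX p.1 p.2) (hB p.2 p.1)
    nlinarith
  calc trace (diagonal (fun i => Real.exp (-(k * N i))) * A * X * B) ≤ c * trace (A * B) :=
        hU.trans hc
    _ = Real.exp m * c * (Real.exp (-m) * trace (A * B)) := by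
        rw [Real.exp_neg]; field_simp
    _ ≤ _ := mul_le_mul_of_nonneg_left hJ (mul_nonneg (Real.exp_pos _).le hc0)

variable {V : Type} [Fintype V] [DecidableEq V]

omit [DecidableEq V] in
theorem diag_dn (x : V) : (1 / 2 : ℝ) • (1 - szM x) = diagonal (dn x) := half_eq x

/-- Unequal spins: `≤ n_a + n_c`. -/
theorem gib_neM (L : List (V × V)) (β : ℝ) (h : V → ℝ) (hβ : 0 ≤ β) (a c : V) :
    gib L β h (neM a c) ≤ rho L β h a + rho L β h c := by
  unfold rho
  rw [← Bs.gib_add, diag_dn, diag_dn, Matrix.diagonal_add]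
  unfold gib
  refine div_le_div_of_nonneg_right ?_ (Bs.trace_ham_pos L β h).le
  refine Le.trace ?_
  refine Le.mul_left ?_ fun i j => (exp_ham L h hβ).1 i j
  intro i j
  unfold neM eqM
  by_cases hij : i = j
  · subst hij
    rw [Matrix.sub_apply, Matrix.one_apply_eq, Matrix.diagonal_apply_eq, Matrix.diagonal_apply_eq]
    unfold dn
    by_cases h1 : i a = i c
    · rw [if_pos h1, sub_self]
      split_ifs <;> norm_num
    · rw [if_neg h1, sub_zero]
      by_cases h2 : i a = 0
      · rw [if_pos h2, if_neg fun h3 => h1 (h2.trans h3.symm), zero_add]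
      · rw [if_neg h2]
        split_ifs <;> norm_num
  · rw [Matrix.sub_apply, Matrix.one_apply_ne hij, Matrix.diagonal_apply_ne _ hij,
      Matrix.diagonal_apply_ne _ hij]
    norm_num

/-- Exchanges: `exM ≤ neM` as forms. -/
theorem gib_exM (L : List (V × V)) (β : ℝ) (h : V → ℝ) (hβ : 0 ≤ β) (a c : V) :
    gib L β h (exM a c) ≤ rho L β h a + rho L β h c := by
  refine le_trans ?_ (gib_neM L β h hβ a c)
  have h1 := Bs.gib_nonneg L β h (Bs.hM_posSemidef a c)
  have h2 : hM a c = (1 / 2 : ℝ) • (neM a c - exM a c) := by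
    unfold hM neM exM
    congr 1
    abel
  rw [h2, Bs.gib_smul, Bs.gib_sub] at h1
  linarith

/-- **The bound with the extra slice.** `X = neM a c` or `exM a c`. -/
theorem layT_le (L : List (V × V)) {β K η : ℝ} (h : V → ℝ) (b : Finset V) (hb : b.Nonempty)
    (hK : 0 ≤ K) {s t : ℝ} (hs : 0 ≤ s) (ht : 0 ≤ t) (e : s + t = β)
    (hr : ∀ x, rho L β h x ≤ η) {X : MM V} (hX : Le 0 X) {c : ℝ} (hc0 : 0 ≤ c)
    (hc : gib L β h X ≤ c) :
    trace (layT (blk K b) * NormedSpace.exp (-s • ham L h) * X * NormedSpace.exp (-t • ham L h)) ≤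
      Real.exp (K * η) * c *
        trace (layT (blk K b) * NormedSpace.exp (-s • ham L h) * NormedSpace.exp (-t • ham L h)) := by
  have hb0 : (0 : ℝ) < b.card := by exact_mod_cast hb.card_pos
  set A := NormedSpace.exp (-s • ham L h) with hA
  set B := NormedSpace.exp (-t • ham L h) with hB
  have hA0 := exp_ham L h hs
  have hB0 := exp_ham L h ht
  rw [← hA] at hA0
  rw [← hB] at hB0
  have hβ : 0 ≤ β := by linarith
  have hAB : A * B = NormedSpace.exp (-β • ham L h) := exp_split L h e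
  have hBA : B * A = NormedSpace.exp (-β • ham L h) := exp_split L h (by linarith)
  have hZ := Bs.trace_ham_pos L β h
  set q := (1 + Real.tanh (K / (2 * b.card))) ^ b.card with hq
  have hq0 : 0 < q := pow_pos (by have := Real.neg_one_lt_tanh (K / (2 * b.card)); linarith) _
  set k := K / (b.card : ℝ) with hk
  have hk0 : 0 ≤ k := div_nonneg hK hb0.le
  have hlay : layT (blk K b) = q • diagonal fun σ : V → Fin 2 => Real.exp (-(k * nb b σ)) :=
    layT_blk K b hb
  have hm : k * trace (diagonal (nb b) * A * B) ≤ K * η * trace (A * B) := by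
    have e1 : diagonal (nb b) = ∑ y ∈ b, diagonal (dn y) := by
      ext σ τ
      rw [Matrix.sum_apply]
      by_cases hst : σ = τ
      · subst hst
        simp only [Matrix.diagonal_apply_eq]
        rfl
      · simp only [Matrix.diagonal_apply_ne _ hst, Finset.sum_const_zero]
    have e2 : trace (diagonal (nb b) * A * B) = ∑ y ∈ b, trace (A * B * diagonal (dn y)) := by
      rw [Matrix.mul_assoc, e1, Finset.sum_mul, Matrix.trace_sum]
      exact Finset.sum_congr rfl fun y _ => Matrix.trace_mul_comm _ _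
    have e3 : ∀ y, trace (A * B * diagonal (dn y)) ≤ η * trace (A * B) := by
      intro y
      have := hr y
      rw [LRO.rho_eq, ← hAB, div_le_iff₀ (by rw [hAB]; exact hZ)] at this
      exact this
    rw [e2]
    calc k * ∑ y ∈ b, trace (A * B * diagonal (dn y)) ≤ k * ∑ _y ∈ b, η * trace (A * B) :=
          mul_le_mul_of_nonneg_left (Finset.sum_le_sum fun y _ => e3 y) hk0
      _ = K * η * trace (A * B) := by
          rw [Finset.sum_const, nsmul_eq_mul, hk]; field_simp
  have hcX : trace (A * X * B) ≤ c * trace (A * B) := by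
    have h1 : trace (A * X * B) = trace (NormedSpace.exp (-β • ham L h) * X) := by
      rw [Matrix.trace_mul_comm (A * X) B, ← Matrix.mul_assoc, hBA]
    rw [h1, hAB]
    unfold gib at hc
    rwa [div_le_iff₀ hZ] at hc
  have h2 := tiltX A B X hA0.1 hB0.1 (fun i j => hX i j) (nb b) (nb_nonneg b) hk0 hm hcX hc0
  rw [hlay]
  simp only [Matrix.smul_mul, Matrix.trace_smul, smul_eq_mul]
  calc q * _ ≤ q * _ := mul_le_mul_of_nonneg_left h2 hq0.le
    _ = _ := by ring

theorem layT_neM (L : List (V × V)) {β K η : ℝ} (h : V → ℝ) (b : Finset V) (hb : b.Nonempty)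
    (hK : 0 ≤ K) {s t : ℝ} (hs : 0 ≤ s) (ht : 0 ≤ t) (e : s + t = β)
    (hr : ∀ x, rho L β h x ≤ η) (a c : V) :
    trace (layT (blk K b) * NormedSpace.exp (-s • ham L h) * neM a c *
        NormedSpace.exp (-t • ham L h)) ≤ Real.exp (K * η) * (2 * η) *
      trace (layT (blk K b) * NormedSpace.exp (-s • ham L h) * NormedSpace.exp (-t • ham L h)) := by
  have hη : 0 ≤ η := (Bs.rho_nonneg L β h a).trans (hr a)
  refine layT_le L h b hb hK hs ht e hr (neM_nonneg a c) (by linarith) ?_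
  have h1 := gib_neM L β h (by linarith) a c
  have h2 := hr a
  have h3 := hr c
  linarith

theorem layT_exM (L : List (V × V)) {β K η : ℝ} (h : V → ℝ) (b : Finset V) (hb : b.Nonempty)
    (hK : 0 ≤ K) {s t : ℝ} (hs : 0 ≤ s) (ht : 0 ≤ t) (e : s + t = β)
    (hr : ∀ x, rho L β h x ≤ η) (a c : V) :
    trace (layT (blk K b) * NormedSpace.exp (-s • ham L h) * exM a c *
        NormedSpace.exp (-t • ham L h)) ≤ Real.exp (K * η) * (2 * η) *
      trace (layT (blk K b) * NormedSpace.exp (-s • ham L h) * NormedSpace.exp (-t • ham L h)) := by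
  have hη : 0 ≤ η := (Bs.rho_nonneg L β h a).trans (hr a)
  refine layT_le L h b hb hK hs ht e hr (exM_nonneg a c) (by linarith) ?_
  have h1 := gib_exM L β h (by linarith) a c
  have h2 := hr a
  have h3 := hr c
  linarith

end

end Vale.Agent.P361.LRO.Bloch.TX
end

section

/-!
P361, stage 3 (K2), the half `N = ∞`, for the extra slice with the factor at one node removed.
-/

namespace Vale.Agent.P361.LRO.Bloch.TX

open Finset Matrix

noncomputable section

variable {V : Type} [Fintype V] [DecidableEq V]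

/-- Constant slice parameter `tanh (κ / 2)` on `b`. -/
def cst (κ : ℝ) (b : Finset V) : V → ℝ := fun x => if x ∈ b then Real.tanh (κ / 2) else 0

omit [Fintype V] in
theorem blk_eq_cst (K : ℝ) (b : Finset V) : blk K b = cst (K / b.card) b := by
  funext x
  unfold blk cst
  congr 2
  by_cases hb : (b.card : ℝ) = 0
  · rw [hb]; simp
  · field_simp

omit [Fintype V] in
theorem update_blk (K : ℝ) (b : Finset V) (y : V) :
    Function.update (blk K b) y 0 = cst (K / b.card) (b.erase y) := by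
  funext x
  rw [blk_eq_cst]
  unfold cst
  by_cases hx : x = y
  · subst hx
    rw [Function.update_self, if_neg (Finset.notMem_erase x b)]
  · rw [Function.update_of_ne hx]
    simp only [Finset.mem_erase, hx, ne_eq, not_false_eq_true, true_and]

theorem layT_cst (κ : ℝ) (b : Finset V) :
    layT (cst κ b) = (1 + Real.tanh (κ / 2)) ^ b.card •
      diagonal fun σ => Real.exp (-(κ * nb b σ)) := by
  set θ := Real.tanh (κ / 2) with hθ
  have h1 : 1 - θ = (1 + θ) * Real.exp (-κ) := by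
    rw [hθ, one_sub_tanh]
    congr 2
    ring
  unfold layT
  rw [← Matrix.diagonal_smul]
  congr 1
  funext σ
  rw [Pi.smul_apply, smul_eq_mul]
  have h2 : ∀ x, (1 + cst κ b x * (if σ x = 0 then (1 : ℝ) else -1)) =
      if x ∈ b then (1 + θ) * Real.exp (-(κ * if σ x = 0 then 0 else 1)) else 1 := by
    intro x
    unfold cst
    by_cases hx : x ∈ b
    · rw [if_pos hx, if_pos hx]
      by_cases h3 : σ x = 0
      · rw [if_pos h3, if_pos h3, mul_one, mul_zero, neg_zero, Real.exp_zero, mul_one]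
      · rw [if_neg h3, if_neg h3, mul_one, ← h1]; ring
    · rw [if_neg hx, if_neg hx]; ring
  rw [Finset.prod_congr rfl fun x _ => h2 x, Finset.prod_ite_mem, Finset.univ_inter,
    Finset.prod_mul_distrib, Finset.prod_const, ← Real.exp_sum]
  congr 2
  unfold nb
  rw [Finset.mul_sum, ← Finset.sum_neg_distrib]

/-- **The bound with the slice `cst κ b`**, `κ |b| ≤ K`. -/
theorem cst_le (L : List (V × V)) {β K η κ : ℝ} (h : V → ℝ) (b : Finset V)
    (hκ : 0 ≤ κ) (hK : κ * b.card ≤ K) {s t : ℝ} (hs : 0 ≤ s) (ht : 0 ≤ t) (e : s + t = β)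
    (hη : 0 ≤ η) (hr : ∀ x, rho L β h x ≤ η) {X : MM V} (hX : Le 0 X) {c : ℝ} (hc0 : 0 ≤ c)
    (hc : gib L β h X ≤ c) :
    trace (layT (cst κ b) * NormedSpace.exp (-s • ham L h) * X * NormedSpace.exp (-t • ham L h)) ≤
      Real.exp (K * η) * c *
        trace (layT (cst κ b) * NormedSpace.exp (-s • ham L h) * NormedSpace.exp (-t • ham L h)) := by
  set A := NormedSpace.exp (-s • ham L h) with hA
  set B := NormedSpace.exp (-t • ham L h) with hB
  have hA0 := exp_ham L h hs
  have hB0 := exp_ham L h ht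
  rw [← hA] at hA0
  rw [← hB] at hB0
  have hβ : 0 ≤ β := by linarith
  have hAB : A * B = NormedSpace.exp (-β • ham L h) := exp_split L h e
  have hBA : B * A = NormedSpace.exp (-β • ham L h) := exp_split L h (by linarith)
  have hZ := Bs.trace_ham_pos L β h
  set q := (1 + Real.tanh (κ / 2)) ^ b.card with hq
  have hq0 : 0 < q := pow_pos (by have := Real.neg_one_lt_tanh (κ / 2); linarith) _
  have hm : κ * trace (diagonal (nb b) * A * B) ≤ K * η * trace (A * B) := by
    have e1 : diagonal (nb b) = ∑ y ∈ b, diagonal (dn y) := by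
      ext σ τ
      rw [Matrix.sum_apply]
      by_cases hst : σ = τ
      · subst hst
        simp only [Matrix.diagonal_apply_eq]
        rfl
      · simp only [Matrix.diagonal_apply_ne _ hst, Finset.sum_const_zero]
    have e2 : trace (diagonal (nb b) * A * B) = ∑ y ∈ b, trace (A * B * diagonal (dn y)) := by
      rw [Matrix.mul_assoc, e1, Finset.sum_mul, Matrix.trace_sum]
      exact Finset.sum_congr rfl fun y _ => Matrix.trace_mul_comm _ _
    have e3 : ∀ y, trace (A * B * diagonal (dn y)) ≤ η * trace (A * B) := by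
      intro y
      have := hr y
      rw [LRO.rho_eq, ← hAB, div_le_iff₀ (by rw [hAB]; exact hZ)] at this
      exact this
    rw [e2]
    calc κ * ∑ y ∈ b, trace (A * B * diagonal (dn y)) ≤ κ * ∑ _y ∈ b, η * trace (A * B) :=
          mul_le_mul_of_nonneg_left (Finset.sum_le_sum fun y _ => e3 y) hκ
      _ = κ * b.card * (η * trace (A * B)) := by
          rw [Finset.sum_const, nsmul_eq_mul]; ring
      _ ≤ K * (η * trace (A * B)) := by
          refine mul_le_mul_of_nonneg_right hK (mul_nonneg hη ?_)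
          rw [hAB]; exact hZ.le
      _ = K * η * trace (A * B) := by ring
  have hcX : trace (A * X * B) ≤ c * trace (A * B) := by
    have h1 : trace (A * X * B) = trace (NormedSpace.exp (-β • ham L h) * X) := by
      rw [Matrix.trace_mul_comm (A * X) B, ← Matrix.mul_assoc, hBA]
    rw [h1, hAB]
    unfold gib at hc
    rwa [div_le_iff₀ hZ] at hc
  have h2 := tiltX A B X hA0.1 hB0.1 (fun i j => hX i j) (nb b) (nb_nonneg b) hκ hm hcX hc0
  rw [layT_cst]
  simp only [Matrix.smul_mul, Matrix.trace_smul, smul_eq_mul]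
  calc q * _ ≤ q * _ := mul_le_mul_of_nonneg_left h2 hq0.le
    _ = _ := by ring

omit [Fintype V] in
theorem erase_card_le (K : ℝ) (hK : 0 ≤ K) (b : Finset V) (y : V) :
    K / b.card * ((b.erase y).card : ℝ) ≤ K := by
  rcases b.eq_empty_or_nonempty with hb | hb
  · subst hb
    simpa using hK
  · have hb0 : (0 : ℝ) < b.card := by exact_mod_cast hb.card_pos
    have h1 : ((b.erase y).card : ℝ) ≤ b.card := by exact_mod_cast Finset.card_erase_le
    rw [div_mul_eq_mul_div, div_le_iff₀ hb0]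
    exact mul_le_mul_of_nonneg_left h1 hK

theorem updT_neM (L : List (V × V)) {β K η : ℝ} (h : V → ℝ) (b : Finset V) (y : V)
    (hK : 0 ≤ K) {s t : ℝ} (hs : 0 ≤ s) (ht : 0 ≤ t) (e : s + t = β)
    (hr : ∀ x, rho L β h x ≤ η) (a c : V) :
    trace (layT (Function.update (blk K b) y 0) * NormedSpace.exp (-s • ham L h) * neM a c *
        NormedSpace.exp (-t • ham L h)) ≤ Real.exp (K * η) * (2 * η) *
      trace (layT (Function.update (blk K b) y 0) * NormedSpace.exp (-s • ham L h) *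
        NormedSpace.exp (-t • ham L h)) := by
  have hη : 0 ≤ η := (Bs.rho_nonneg L β h a).trans (hr a)
  rw [update_blk]
  refine cst_le L h _ (by positivity) (erase_card_le K hK b y) hs ht e hη hr (neM_nonneg a c)
    (by linarith) ?_
  have h1 := gib_neM L β h (by linarith) a c
  have h2 := hr a
  have h3 := hr c
  linarith

theorem updT_exM (L : List (V × V)) {β K η : ℝ} (h : V → ℝ) (b : Finset V) (y : V)
    (hK : 0 ≤ K) {s t : ℝ} (hs : 0 ≤ s) (ht : 0 ≤ t) (e : s + t = β)
    (hr : ∀ x, rho L β h x ≤ η) (a c : V) :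
    trace (layT (Function.update (blk K b) y 0) * NormedSpace.exp (-s • ham L h) * exM a c *
        NormedSpace.exp (-t • ham L h)) ≤ Real.exp (K * η) * (2 * η) *
      trace (layT (Function.update (blk K b) y 0) * NormedSpace.exp (-s • ham L h) *
        NormedSpace.exp (-t • ham L h)) := by
  have hη : 0 ≤ η := (Bs.rho_nonneg L β h a).trans (hr a)
  rw [update_blk]
  refine cst_le L h _ (by positivity) (erase_card_le K hK b y) hs ht e hη hr (exM_nonneg a c)
    (by linarith) ?_
  have h1 := gib_exM L β h (by linarith) a c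
  have h2 := hr a
  have h3 := hr c
  linarith

end

end Vale.Agent.P361.LRO.Bloch.TX
end

section

/-!
P361, stage 3, K2: the hypothesis `hX` of `cc_long`, for the physical circuit with the extra
slice `blk K b`, `N ≥ N0`.
-/

namespace Vale.Agent.P361.LRO.Bloch.Delta

open Finset Matrix NormedSpace Vale.Agent.P361.LRO Vale.Agent.P361.LRO.Bloch
open Vale.Agent.P361.LRO.Dict

attribute [local instance] Matrix.linftyOpNormedRing Matrix.linftyOpNormedAlgebra

noncomputable section

set_option linter.unusedSectionVars false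

variable {V : Type} [Fintype V] [DecidableEq V]

/-! ### Words of one layer -/

lemma norm_szM' (x : V) : ‖(szM x : MM V)‖ ≤ 1 :=
  norm_diag_le _ fun σ => by split_ifs <;> simp

lemma lg_node (z : V) (t : ℝ) : lg (Lt.node z t) = t • szM z := by
  unfold lg
  change ((1 : MM V) + t • szM z) - 1 = _
  rw [add_sub_cancel_left]

lemma lg_gate (a b : V) (p : ℝ) : lg (Lt.gate a b p) = -((2 * p) • hM a b) := by
  unfold lg hM
  show (1 - p) • (1 : MM V) + p • swapM a b - 1 = _
  rw [smul_smul, show 2 * p * (1 / 2) = p by ring, smul_sub, sub_smul, one_smul]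
  abel

lemma norm_hM (a b : V) : ‖(hM a b : MM V)‖ ≤ 1 := by
  unfold hM
  rw [norm_smul]
  have h1 := (norm_sub_le (1 : MM V) (swapM a b)).trans (add_le_add one_norm (norm_swapM a b))
  have h2 : ‖(1 / 2 : ℝ)‖ = 1 / 2 := by rw [Real.norm_eq_abs, abs_of_pos (by norm_num)]
  rw [h2]
  linarith

lemma sz_gl (L : List (V × V)) {p : ℝ} (hp : 0 ≤ p) : sz (gl L p) ≤ 2 * p * L.length := by
  unfold sz gl
  rw [List.map_map, List.map_map]
  have h1 : ∀ l : List (V × V), (l.map ((norm ∘ lg) ∘ fun e : V × V => Lt.gate e.1 e.2 p)).sum ≤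
      2 * p * l.length := by
    intro l
    induction l with
    | nil => simp
    | cons e l ih =>
      rw [List.map_cons, List.sum_cons, List.length_cons]
      have h2 : ((norm ∘ lg) ∘ fun e : V × V => Lt.gate e.1 e.2 p) e ≤ 2 * p := by
        simp only [Function.comp]
        rw [lg_gate, norm_neg, norm_smul, Real.norm_eq_abs, abs_of_nonneg (by positivity)]
        have := mul_le_mul_of_nonneg_left (norm_hM e.1 e.2) (by positivity : 0 ≤ 2 * p)
        linarith
      push_cast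
      linarith
  have h2 := h1 L.reverse
  rw [List.length_reverse] at h2
  exact h2

lemma sz_nl {t : V → ℝ} {τ : ℝ} (ht : ∀ x, 0 ≤ t x ∧ t x ≤ τ) :
    sz (nl t) ≤ τ * Fintype.card V := by
  unfold sz nl
  rw [List.map_map, List.map_map]
  have h1 : ∀ l : List V, (l.map ((norm ∘ lg) ∘ fun z : V => Lt.node z (t z))).sum ≤
      τ * l.length := by
    intro l
    induction l with
    | nil => simp
    | cons e l ih =>
      rw [List.map_cons, List.sum_cons, List.length_cons]
      have h2 : ((norm ∘ lg) ∘ fun z : V => Lt.node z (t z)) e ≤ τ := by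
        simp only [Function.comp]
        rw [lg_node, norm_smul, Real.norm_eq_abs, abs_of_nonneg (ht e).1]
        have := mul_le_mul_of_nonneg_left (norm_szM' e) (ht e).1
        linarith [(ht e).2]
      push_cast
      linarith
  have h2 := h1 (Finset.univ : Finset V).toList
  rw [Finset.length_toList, Finset.card_univ] at h2
  exact h2

lemma sum_lg_gl (L : List (V × V)) (p : ℝ) :
    ((gl L p).map lg).sum = -((2 * p) • (L.map fun e => (hM e.1 e.2 : MM V)).sum) := by
  unfold gl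
  rw [List.map_map, List.map_reverse, List.sum_reverse]
  have h1 : ∀ l : List (V × V), (l.map (lg ∘ fun e : V × V => Lt.gate e.1 e.2 p)).sum =
      -((2 * p) • (l.map fun e => (hM e.1 e.2 : MM V)).sum) := by
    intro l
    induction l with
    | nil => simp
    | cons e l ih =>
      rw [List.map_cons, List.sum_cons, List.map_cons, List.sum_cons, ih, smul_add]
      simp only [Function.comp]
      rw [lg_gate]
      abel
  exact h1 L

lemma sum_lg_nl (t : V → ℝ) : ((nl t).map lg).sum = ∑ z, t z • (szM z : MM V) := by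
  unfold nl
  rw [List.map_map]
  have h1 : (lg ∘ fun z : V => Lt.node z (t z)) = fun z => t z • (szM z : MM V) := by
    funext z
    exact lg_node z (t z)
  rw [h1]
  exact Finset.sum_map_toList _ _

/-- constant -/
def c0 (L : List (V × V)) (β : ℝ) : ℝ := β * (L.length + Fintype.card V)

/-- the physical slices -/
def tt (β : ℝ) (N : ℕ) (h : V → ℝ) : V → ℝ := fun x => β * h x / (2 * N)

/-- one layer -/
def layW (L : List (V × V)) (β : ℝ) (N : ℕ) (h : V → ℝ) : List (Lt V) :=
  nl (tt β N h) ++ gl L (β / (2 * N))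

section one

variable (L : List (V × V)) {β : ℝ} (hβ : 0 < β) {N : ℕ} (hN : 1 ≤ N) {h : V → ℝ}
  (hh : ∀ x, 0 ≤ h x ∧ h x ≤ 1)

include hβ in
lemma c0_nonneg : 0 ≤ c0 L β := by unfold c0; positivity

include hβ hN hh in
lemma tt_bd (x : V) : 0 ≤ tt β N h x ∧ tt β N h x ≤ β / (2 * N) := by
  have hN' : (0 : ℝ) < N := by exact_mod_cast hN
  unfold tt
  refine ⟨div_nonneg (mul_nonneg hβ.le (hh x).1) (by positivity), ?_⟩
  gcongr
  nlinarith [(hh x).2]

include hβ hN in
lemma sz_glN : sz (gl L (β / (2 * N))) ≤ β * L.length / N := by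
  have hN' : (0 : ℝ) < N := by exact_mod_cast hN
  refine (sz_gl L (by positivity)).trans (le_of_eq ?_)
  field_simp

include hβ hN in
lemma sz_nlN {t : V → ℝ} (ht : ∀ x, 0 ≤ t x ∧ t x ≤ β / (2 * N)) :
    sz (nl t) ≤ β * Fintype.card V / N := by
  have hN' : (0 : ℝ) < N := by exact_mod_cast hN
  refine (sz_nl ht).trans ?_
  have h1 : (0 : ℝ) ≤ Fintype.card V := Nat.cast_nonneg _
  have h2 : β / (2 * N) * Fintype.card V = (β * Fintype.card V / N) / 2 := by
    field_simp
  have h3 : 0 ≤ β * Fintype.card V / N := by positivity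
  rw [h2]
  linarith

include hβ hN in
/-- Words made of slices and gates of one layer. -/
lemma sz_mix {t : V → ℝ} (ht : ∀ x, 0 ≤ t x ∧ t x ≤ β / (2 * N)) :
    sz (nl t ++ gl L (β / (2 * N))) ≤ c0 L β / N := by
  rw [sz_append]
  have h1 := sz_glN L hβ hN
  have h2 := sz_nlN hβ hN ht
  have h3 : c0 L β / N = β * L.length / N + β * Fintype.card V / N := by
    unfold c0; ring
  rw [h3]
  linarith

include hβ hN in
lemma sz_gl' : sz (gl L (β / (2 * N))) ≤ c0 L β / N := by
  have h1 := sz_glN L hβ hN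
  have h3 : c0 L β / N = β * L.length / N + β * Fintype.card V / N := by
    unfold c0; ring
  have h4 : 0 ≤ β * Fintype.card V / N := by positivity
  rw [h3]
  linarith

include hβ hN in
lemma sz_nl' {t : V → ℝ} (ht : ∀ x, 0 ≤ t x ∧ t x ≤ β / (2 * N)) :
    sz (nl t) ≤ c0 L β / N := by
  have h1 := sz_nlN hβ hN ht
  have h3 : c0 L β / N = β * L.length / N + β * Fintype.card V / N := by
    unfold c0; ring
  have h4 : 0 ≤ β * (L.length : ℝ) / N := by positivity
  rw [h3]
  linarith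

/-- the constant of `gen` -/
def cc1 (L : List (V × V)) (β : ℝ) : ℝ := c0 L β * Real.exp (c0 L β)

include hβ in
lemma c0_le : c0 L β ≤ cc1 L β := by
  unfold cc1
  have h1 := c0_nonneg L hβ
  have h2 := Real.one_le_exp h1
  nlinarith

include hβ in
lemma cc1_nonneg : 0 ≤ cc1 L β := (c0_nonneg L hβ).trans (c0_le L hβ)

include hβ hN in
lemma wd_sub_one {w : List (Lt V)} (hw : sz w ≤ c0 L β / N) : ‖wd w - 1‖ ≤ cc1 L β / N := by
  have hN' : (1 : ℝ) ≤ N := by exact_mod_cast hN
  have h0 := c0_nonneg L hβ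
  have h1 : c0 L β / N ≤ c0 L β := div_le_self h0 hN'
  refine (wd_bounds w).2.trans ((exp_sub_one_le (sz_nonneg w)).trans ?_)
  calc sz w * Real.exp (sz w) ≤ c0 L β / N * Real.exp (c0 L β) := by
        gcongr
        exact hw.trans h1
    _ = _ := by unfold cc1; ring

include hβ hN hh in
lemma lay_layW : Lay (ham L h) β (cc1 L β) N (layW L β N h) := by
  have hN' : (0 : ℝ) < N := by exact_mod_cast hN
  refine ⟨?_, ?_⟩
  · unfold layW
    rw [List.map_append, List.sum_append, sum_lg_gl, sum_lg_nl]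
    unfold ham
    rw [smul_sub, neg_sub, Finset.smul_sum, sub_eq_add_neg]
    congr 1
    · refine Finset.sum_congr rfl fun z _ => ?_
      rw [smul_smul]
      congr 1
      unfold tt
      field_simp
    · congr 2
      field_simp
  · refine (sz_mix L hβ hN (tt_bd hβ hN hh)).trans ?_
    have := c0_le L hβ
    gcongr

end one

/-! ### The circuit -/

lemma th_pos {β : ℝ} {N : ℕ} (h T : V → ℝ) {j : ℕ} (h1 : 1 ≤ j) (h2 : j ≤ N) (x : V) :
    th β N h T (Fin.ofNat (N + 1) j, x) = tt β N h x := by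
  unfold th tt
  rw [if_neg]
  intro h0
  have h3 : Fin.ofNat (N + 1) j = Fin.ofNat (N + 1) 0 := h0
  have := ofNat_inj h2 (Nat.zero_le _) h3
  omega

lemma th_zero {β : ℝ} {N : ℕ} (h T : V → ℝ) (x : V) :
    th β N h T (Fin.ofNat (N + 1) 0, x) = T x := by
  unfold th
  exact if_pos rfl

lemma FM_pos {β : ℝ} {N : ℕ} (h T : V → ℝ) {j : ℕ} (h1 : 1 ≤ j) (h2 : j ≤ N) :
    FM N (th β N h T) j = layM fun x => dgM (tt β N h x) := by
  unfold FM
  congr 1
  funext x
  rw [th_pos h T h1 h2]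

lemma layT_eq (T : V → ℝ) : (layM fun x => dgM (T x) : MM V) = layT T := by
  rw [layM_dgM]
  rfl

lemma FM_zero {β : ℝ} {N : ℕ} (h T : V → ℝ) : FM N (th β N h T) 0 = layT T := by
  rw [← layT_eq]
  rfl

lemma down_const {M : Type*} [Monoid M] (g : M) (n : ℕ) : down (fun _ => g) n = g ^ n := by
  induction n with
  | zero => rw [pow_zero]; rfl
  | succ n ih => rw [pow_succ', ← ih]; rfl

lemma wd_layW (L : List (V × V)) (β : ℝ) (N : ℕ) (h : V → ℝ) :
    wd (layW L β N h) = (layM fun x => dgM (tt β N h x)) * gatM L (β / (2 * N)) := by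
  unfold layW
  rw [wd_append, wd_nl, wd_gl]

lemma preM_eq (L : List (V × V)) (β : ℝ) {N : ℕ} (h T : V → ℝ) {k : ℕ} (hk : k ≤ N) :
    preM L (β / (2 * N)) N (th β N h T) k = wd (layW L β N h) ^ (N - k) := by
  unfold preM
  rw [← down_const, wd_layW]
  refine down_congr fun j h1 h2 => ?_
  rw [FM_pos h T (by omega) (by omega)]

lemma down_eq (L : List (V × V)) (β : ℝ) {N : ℕ} (h T : V → ℝ) {k : ℕ} (hk : k ≤ N) :
    down (fun j => FM N (th β N h T) j * gatM L (β / (2 * N))) k = wd (layW L β N h) ^ k := by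
  rw [← down_const, wd_layW]
  refine down_congr fun j h1 h2 => ?_
  rw [FM_pos h T (by omega) (by omega)]

lemma mid_eq (L : List (V × V)) (p : ℝ) (t : ℕ → V → ℝ) (u : V → ℝ) (m : ℕ)
    (ht : ∀ j, 1 ≤ j → j ≤ m → t j = u) :
    mid L p t m = gl L p ++ (List.replicate m (nl u ++ gl L p)).flatten := by
  induction m with
  | zero => simp [mid]
  | succ m ih =>
    simp only [mid]
    rw [ih fun j h1 h2 => ht j h1 (by omega), ht (m + 1) (by omega) le_rfl,
      List.replicate_succ, List.flatten_cons]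
    simp only [List.append_assoc]

lemma mword_eq (L : List (V × V)) (β : ℝ) {N : ℕ} (h T : V → ℝ) {k m : ℕ} (hk : k + m ≤ N) :
    mword L β N (th β N h T) k m =
      gl L (β / (2 * N)) ++ (List.replicate m (layW L β N h)).flatten := by
  unfold mword layW
  refine mid_eq L _ _ _ m fun j h1 h2 => ?_
  funext z
  rw [th_pos h T (by omega) (by omega)]

/-- slices with one removed, as a word -/
lemma rmM_eq (t : V → ℝ) (x : V) : rmM t x = wd (nl (Function.update t x 0)) := by
  unfold rmM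
  rw [layM_up1, wd_nl]

lemma update_bd {t : V → ℝ} {τ : ℝ} (ht : ∀ x, 0 ≤ t x ∧ t x ≤ τ) (x y : V) :
    0 ≤ Function.update t x 0 y ∧ Function.update t x 0 y ≤ τ := by
  by_cases hy : y = x
  · subst hy
    rw [Function.update_self]
    exact ⟨le_rfl, (ht y).1.trans (ht y).2⟩
  · rw [Function.update_of_ne hy]
    exact ht y

/-! ### The extra slice -/

lemma layT_wd (T : V → ℝ) : layT T = wd (nl T) := by
  rw [wd_nl, layT_eq]

lemma norm_layT {T : V → ℝ} (hT : ∀ x, 0 ≤ T x ∧ T x ≤ 1) :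
    ‖layT T‖ ≤ Real.exp (Fintype.card V) := by
  rw [layT_wd]
  refine (wd_bounds _).1.trans (Real.exp_le_exp.2 ?_)
  have := sz_nl hT
  linarith

lemma layT_nonneg {T : V → ℝ} (hT : ∀ x, 0 ≤ T x ∧ T x ≤ 1) : Le 0 (layT T) := by
  rw [layT_wd]
  exact wd_nonneg (ok_nl hT)

lemma layT_one {T : V → ℝ} (hT : ∀ x, 0 ≤ T x ∧ T x ≤ 1) : 1 ≤ layT T 0 0 := by
  rw [layT_wd]
  exact wd_zero (ok_nl hT)

lemma blk_bd {K : ℝ} (hK : 0 ≤ K) (b : Finset V) (x : V) : 0 ≤ blk K b x ∧ blk K b x ≤ 1 :=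
  LRO.blk_mem hK b x

/-- **The hypothesis `hX` of `cc_long`, one insertion.** `E` = extra nonnegative factor between the
layer `N` and the layer `0`. -/
theorem insert_gen (L : List (V × V)) {β δ CT : ℝ} (hβ : 0 < β) (hδ : 0 < δ) :
    ∃ N0 : ℕ, 1 ≤ N0 ∧ ∀ N : ℕ, N0 ≤ N → ∀ (E : MM V) (T h : V → ℝ) (y : V) (X : MM V),
      ‖E‖ ≤ CT → Le 0 E → 1 ≤ E 0 0 → (∀ x, 0 ≤ T x ∧ T x ≤ 1) → (∀ x, 0 ≤ h x ∧ h x ≤ 1) →
      ‖X‖ ≤ 2 →
      (∀ s t : ℝ, 0 ≤ s → 0 ≤ t → s + t = β →
        trace (layT T * E * exp (-s • ham L h) * X * exp (-t • ham L h)) ≤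
          δ * trace (layT T * E * exp (-s • ham L h) * exp (-t • ham L h))) →
      (∀ s t : ℝ, 0 ≤ s → 0 ≤ t → s + t = β →
        trace (layT (Function.update T y 0) * E * exp (-s • ham L h) * X * exp (-t • ham L h)) ≤
          δ * trace (layT (Function.update T y 0) * E * exp (-s • ham L h) *
            exp (-t • ham L h))) →
      ∀ k m : ℕ, k + m + 1 ≤ N → ∀ (x : V) (w1 : List (Lt V)) (g : Lt V) (w2 : List (Lt V)),
        mword L β N (th β N h T) k m = w1 ++ g :: w2 →
        trace (E * lctx L β N (th β N h T) (k + m + 1) x * wd w1 * X * wd w2 *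
            rctx L β N (th β N h T) k y) ≤
          2 * δ * trace (E * lctx L β N (th β N h T) (k + m + 1) x *
            wd (mword L β N (th β N h T) k m) * rctx L β N (th β N h T) k y) := by
  obtain ⟨N0, hN0⟩ := gen (V := V) (β := β) (c := cc1 L β)
    (CT := Real.exp (Fintype.card V) * CT) (δ := δ) hβ (cc1_nonneg L hβ) hδ
  obtain ⟨N1, hN1⟩ := exists_nat_gt β
  refine ⟨N0 + N1 + 1, by omega, ?_⟩
  intro N hN E T h y X hE hE0 hE1 hT hh hX hTX hTX' k m hkm x w1 g w2 hw
  have hN1' : 1 ≤ N := by omega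
  have hNr : (0 : ℝ) < N := by exact_mod_cast hN1'
  have hβN : β ≤ N := by
    have : (N1 : ℝ) ≤ N := by exact_mod_cast (by omega : N1 ≤ N)
    linarith
  set p : ℝ := β / (2 * N) with hp
  have hp0 : 0 ≤ p := by positivity
  have hp1 : p ≤ 1 := by
    rw [hp, div_le_one (by positivity)]
    linarith
  have htt : ∀ x, 0 ≤ tt β N h x ∧ tt β N h x ≤ p := tt_bd hβ hN1' hh
  have htt1 : ∀ x, 0 ≤ tt β N h x ∧ tt β N h x ≤ 1 := fun x => ⟨(htt x).1, (htt x).2.trans hp1⟩
  have hok : ∀ l ∈ layW L β N h, Ok l := by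
    intro l hl
    unfold layW at hl
    rw [List.mem_append] at hl
    rcases hl with hl | hl
    · exact ok_nl htt1 l hl
    · exact ok_gl L hp0 hp1 l hl
  have hokg : ∀ l ∈ gl L p, Ok l := ok_gl L hp0 hp1
  have hgt : sz (gl L p) ≤ cc1 L β / N := by
    refine (sz_gl' L hβ hN1').trans ?_
    have := c0_le L hβ
    gcongr
  have hrm : ∀ z, rmM (tt β N h) z = wd (nl (Function.update (tt β N h) z 0)) := rmM_eq _
  have hokr : ∀ z, ∀ l ∈ nl (Function.update (tt β N h) z 0), Ok l :=
    fun z => ok_nl fun v => update_bd htt1 z v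
  have hD1 : ‖rmM (tt β N h) x - 1‖ ≤ cc1 L β / N := by
    rw [hrm]
    exact wd_sub_one L hβ hN1' (sz_nl' L hβ hN1' fun v => update_bd htt x v)
  have hD10 : Le 0 (rmM (tt β N h) x) := by rw [hrm]; exact wd_nonneg (hokr x)
  have hD11 : 1 ≤ rmM (tt β N h) x 0 0 := by rw [hrm]; exact wd_zero (hokr x)
  have hlctx : lctx L β N (th β N h T) (k + m + 1) x =
      wd (layW L β N h) ^ (N - (k + m + 1)) * rmM (tt β N h) x := by
    unfold lctx
    rw [preM_eq L β h T hkm]
    congr 1
    congr 1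
    funext z
    rw [th_pos h T (by omega) hkm]
  have hmw := mword_eq L β h T (k := k) (m := m) (N := N) (by omega)
  rw [hmw] at hw ⊢
  rw [hlctx]
  have hlay := lay_layW L hβ hN1' hh
  have hCT : 0 ≤ CT := (norm_nonneg _).trans hE
  by_cases hk : k = 0
  · subst hk
    have hup : ∀ x, 0 ≤ Function.update T y 0 x ∧ Function.update T y 0 x ≤ 1 :=
      update_bd hT y
    have hr : rctx L β N (th β N h T) 0 y = layT (Function.update T y 0) := by
      unfold rctx restM
      rw [if_pos rfl, mul_one]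
      have : (fun z => th β N h T (Fin.ofNat (N + 1) 0, z)) = T := by
        funext z
        rw [th_zero]
      rw [this, rmM_eq, layT_wd]
    rw [hr]
    have hnorm : ‖layT (Function.update T y 0) * E‖ ≤ Real.exp (Fintype.card V) * CT :=
      (norm_mul_le _ _).trans (mul_le_mul (norm_layT hup) hE (norm_nonneg _) (Real.exp_pos _).le)
    have key := hN0 N (by omega) (ham L h) (layT (Function.update T y 0) * E) X hX hnorm
      ((layT_nonneg hup).zero_mul hE0) (entry_zero_mul (layT_nonneg hup) hE0 (layT_one hup) hE1)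
      hTX' (layW L β N h) (gl L p) hlay hgt hok hokg (rmM (tt β N h) x) 1 hD1
      (by rw [sub_self, norm_zero]; exact div_nonneg (cc1_nonneg L hβ) hNr.le) hD10 one_nonneg
      hD11 (by rw [Matrix.one_apply_eq]) (N - (0 + m + 1)) m 0 (by omega) (by omega) w1 g w2 hw
    have e : ∀ A B : MM V, trace (E * A * B * X * wd w2 * layT (Function.update T y 0)) =
        trace (A * B * X * wd w2 * (1 * wd (layW L β N h) ^ 0 *
          (layT (Function.update T y 0) * E))) := by
      intro A B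
      rw [pow_zero, Matrix.one_mul, Matrix.one_mul]
      rw [show E * A * B * X * wd w2 * layT (Function.update T y 0) =
        E * (A * B * X * wd w2 * layT (Function.update T y 0)) by
          simp only [Matrix.mul_assoc], Matrix.trace_mul_comm]
      simp only [Matrix.mul_assoc]
    have e' : ∀ A B : MM V, trace (E * A * B * layT (Function.update T y 0)) =
        trace (A * B * (1 * wd (layW L β N h) ^ 0 *
          (layT (Function.update T y 0) * E))) := by
      intro A B
      rw [pow_zero, Matrix.one_mul, Matrix.one_mul]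
      rw [show E * A * B * layT (Function.update T y 0) =
        E * (A * B * layT (Function.update T y 0)) by
          simp only [Matrix.mul_assoc], Matrix.trace_mul_comm]
      simp only [Matrix.mul_assoc]
    rw [e, e']
    exact key
  · have hk1 : 1 ≤ k := by omega
    have hr : rctx L β N (th β N h T) k y = (rmM (tt β N h) y * gatM L p) *
        wd (layW L β N h) ^ (k - 1) * layT T := by
      unfold rctx restM
      rw [if_neg hk, down_eq L β h T (by omega), FM_zero]
      have : (fun z => th β N h T (Fin.ofNat (N + 1) k, z)) = tt β N h := by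
        funext z
        rw [th_pos h T hk1 (by omega)]
      rw [this]
      simp only [Matrix.mul_assoc]
      rfl
    rw [hr]
    have hD2w : rmM (tt β N h) y * gatM L p =
        wd (nl (Function.update (tt β N h) y 0) ++ gl L p) := by
      rw [wd_append, hrm, wd_gl]
    have hok2 : ∀ l ∈ nl (Function.update (tt β N h) y 0) ++ gl L p, Ok l := by
      intro l hl
      rw [List.mem_append] at hl
      rcases hl with hl | hl
      · exact hokr y l hl
      · exact hokg l hl
    have hD2 : ‖rmM (tt β N h) y * gatM L p - 1‖ ≤ cc1 L β / N := by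
      rw [hD2w]
      exact wd_sub_one L hβ hN1' (sz_mix L hβ hN1' fun v => update_bd htt y v)
    have hD20 : Le 0 (rmM (tt β N h) y * gatM L p) := by rw [hD2w]; exact wd_nonneg hok2
    have hD21 : 1 ≤ (rmM (tt β N h) y * gatM L p : MM V) 0 0 := by rw [hD2w]; exact wd_zero hok2
    have hnorm : ‖layT T * E‖ ≤ Real.exp (Fintype.card V) * CT :=
      (norm_mul_le _ _).trans (mul_le_mul (norm_layT hT) hE (norm_nonneg _) (Real.exp_pos _).le)
    have key := hN0 N (by omega) (ham L h) (layT T * E) X hX hnorm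
      ((layT_nonneg hT).zero_mul hE0) (entry_zero_mul (layT_nonneg hT) hE0 (layT_one hT) hE1)
      hTX (layW L β N h) (gl L p) hlay hgt hok hokg (rmM (tt β N h) x)
      (rmM (tt β N h) y * gatM L p) hD1 hD2 hD10 hD20
      hD11 hD21 (N - (k + m + 1)) m (k - 1) (by omega) (by omega) w1 g w2 hw
    have e : ∀ A B D : MM V, trace (E * A * B * X * wd w2 * (D * layT T)) =
        trace (A * B * X * wd w2 * (D * (layT T * E))) := by
      intro A B D
      rw [show E * A * B * X * wd w2 * (D * layT T) =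
        E * (A * B * X * wd w2 * (D * layT T)) by
          simp only [Matrix.mul_assoc], Matrix.trace_mul_comm]
      simp only [Matrix.mul_assoc]
    have e' : ∀ A B D : MM V, trace (E * A * B * (D * layT T)) =
        trace (A * B * (D * (layT T * E))) := by
      intro A B D
      rw [show E * A * B * (D * layT T) = E * (A * B * (D * layT T)) by
          simp only [Matrix.mul_assoc], Matrix.trace_mul_comm]
      simp only [Matrix.mul_assoc]
    rw [e, e']
    exact key

/-- **The hypothesis `hX` of `cc_long`** for the physical circuit, `δ = 4 η e^{K η}`. -/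
theorem hX (L : List (V × V)) {β K η : ℝ} (hβ : 0 < β) (hK : 0 ≤ K) (hη : 0 < η) :
    ∃ N0 : ℕ, 1 ≤ N0 ∧ ∀ N : ℕ, N0 ≤ N → ∀ b : Finset V, b.Nonempty → ∀ h : V → ℝ,
      (∀ x, 0 ≤ h x ∧ h x ≤ 1) → (∀ x, rho L β h x ≤ η) →
      ∀ k m : ℕ, k + m + 1 ≤ N → ∀ (x y : V) (w1 w2 : List (Lt V)) (a c : V) (p : ℝ),
        mword L β N (th β N h (blk K b)) k m = w1 ++ Lt.gate a c p :: w2 →
        trace (lctx L β N (th β N h (blk K b)) (k + m + 1) x * wd w1 * exM a c * wd w2 *
            rctx L β N (th β N h (blk K b)) k y) ≤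
          4 * η * Real.exp (K * η) * trace (lctx L β N (th β N h (blk K b)) (k + m + 1) x *
            wd (mword L β N (th β N h (blk K b)) k m) * rctx L β N (th β N h (blk K b)) k y) ∧
        trace (lctx L β N (th β N h (blk K b)) (k + m + 1) x * wd w1 * neM a c * wd w2 *
            rctx L β N (th β N h (blk K b)) k y) ≤
          4 * η * Real.exp (K * η) * trace (lctx L β N (th β N h (blk K b)) (k + m + 1) x *
            wd (mword L β N (th β N h (blk K b)) k m) * rctx L β N (th β N h (blk K b)) k y) := by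
  have hδ : 0 < Real.exp (K * η) * (2 * η) := by positivity
  obtain ⟨N0, hN00, hN0⟩ := insert_gen L (β := β) (δ := Real.exp (K * η) * (2 * η)) (CT := 1)
    hβ hδ
  refine ⟨N0, hN00, ?_⟩
  intro N hN b hb h hh hr k m hkm x y w1 w2 a c p hw
  have hE1 : 1 ≤ (1 : MM V) 0 0 := by rw [Matrix.one_apply_eq]
  have h1 := hN0 N hN 1 (blk K b) h y (exM a c) one_norm one_nonneg hE1 (blk_bd hK b) hh
    (norm_exM a c)
    (fun s t hs ht e => by
      rw [Matrix.mul_one]
      exact TX.layT_exM L h b hb hK hs ht e hr a c)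
    (fun s t hs ht e => by
      rw [Matrix.mul_one]
      exact TX.updT_exM L h b y hK hs ht e hr a c) k m hkm x w1 _ w2 hw
  have h2 := hN0 N hN 1 (blk K b) h y (neM a c) one_norm one_nonneg hE1 (blk_bd hK b) hh
    (norm_neM a c)
    (fun s t hs ht e => by
      rw [Matrix.mul_one]
      exact TX.layT_neM L h b hb hK hs ht e hr a c)
    (fun s t hs ht e => by
      rw [Matrix.mul_one]
      exact TX.updT_neM L h b y hK hs ht e hr a c) k m hkm x w1 _ w2 hw
  rw [Matrix.one_mul] at h1 h2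
  have e : 2 * (Real.exp (K * η) * (2 * η)) = 4 * η * Real.exp (K * η) := by ring
  rw [e] at h1 h2
  exact ⟨h1, h2⟩

end

end Vale.Agent.P361.LRO.Bloch.Delta
end

section

/-!
P361, Bloch's law for all spins: long windows with copies, abstract part (one strand through a
block of gates).
-/

namespace Vale.Agent.P361.LRO.Bloch.H1

open Finset Matrix

set_option linter.unusedSectionVars false

noncomputable section

variable {V : Type} [Fintype V] [DecidableEq V]

/-- the matrix of one gate -/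
def gm (p : ℝ) (e : V × V) : MM V := (1 - p) • (1 : MM V) + p • swapM e.1 e.2

/-- the matrix of a block of gates -/
def GM (p : ℝ) (E : List (V × V)) : MM V := wd (E.map fun e => Lt.gate e.1 e.2 p)

theorem GM_nil (p : ℝ) : GM p ([] : List (V × V)) = 1 := by
  unfold GM wd; simp

theorem GM_cons (p : ℝ) (e : V × V) (E : List (V × V)) : GM p (e :: E) = gm p e * GM p E := by
  unfold GM wd
  simp only [List.map_cons, List.prod_cons]
  rfl

variable {p : ℝ}

theorem gm_nonneg (h0 : 0 ≤ p) (h1 : p ≤ 1) (e : V × V) : Le 0 (gm p e) :=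
  gate_nonneg _ _ h0 h1

theorem GM_nonneg (h0 : 0 ≤ p) (h1 : p ≤ 1) (E : List (V × V)) : Le 0 (GM p E) := by
  induction E with
  | nil => rw [GM_nil]; exact one_nonneg
  | cons e E ih => rw [GM_cons]; exact (gm_nonneg h0 h1 e).zero_mul ih

/-- the strand stays at `y` -/
def St (p : ℝ) (y : V) : List (V × V) → MM V
  | [] => 1
  | e :: E => (if y = e.1 ∨ y = e.2 then (1 - p) • (1 : MM V) else gm p e) * St p y E

/-- errors for the strand which stays at `y` -/
def Er (p : ℝ) (y : V) : List (V × V) → MM V → MM V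
  | [], _ => 0
  | e :: E, W => (if y = e.1 ∨ y = e.2 then (p • (W * exM e.1 e.2)) * GM p E else 0) +
      Er p y E (W * gm p e)

/-- the strand moves once, from `y` to `v` -/
def Mv (p : ℝ) (y v : V) : List (V × V) → MM V
  | [] => 0
  | e :: E => if y = e.1 ∨ y = e.2 then
      (if v = Equiv.swap e.1 e.2 y then p • (swapM e.1 e.2 * St p v E) else 0) +
        (1 - p) • Mv p y v E else gm p e * Mv p y v E

/-- number of gates between `y` and `v` -/
def cE (y v : V) : List (V × V) → ℕ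
  | [] => 0
  | e :: E => (if (y = e.1 ∨ y = e.2) ∧ v = Equiv.swap e.1 e.2 y then 1 else 0) + cE y v E

/-- number of gates touching `y` -/
def nE (y : V) : List (V × V) → ℕ
  | [] => 0
  | e :: E => (if y = e.1 ∨ y = e.2 then 1 else 0) + nE y E

/-- errors for the strand which moves from `y` to `v` -/
def ErM (p : ℝ) (y v : V) : List (V × V) → MM V → MM V
  | [], _ => 0
  | e :: E, W => (if y = e.1 ∨ y = e.2 then
      (if v = Equiv.swap e.1 e.2 y then ((1 - p) • (W * neM e.1 e.2)) * GM p E +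
        Er p v E (W * gm p e) else 0) + (cE y v E : ℝ) • ((p • (W * exM e.1 e.2)) * GM p E)
      else 0) + ErM p y v E (W * gm p e)

theorem Le.ofEq {A B : MM V} (h : A = B) : Le A B := fun i j => le_of_eq (by rw [h])

theorem St_nonneg (h0 : 0 ≤ p) (h1 : p ≤ 1) (y : V) (E : List (V × V)) : Le 0 (St p y E) := by
  induction E with
  | nil => exact one_nonneg
  | cons e E ih =>
    simp only [St]
    refine Le.zero_mul ?_ ih
    split_ifs
    · exact one_nonneg.zero_smul (by linarith)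
    · exact gm_nonneg h0 h1 e

theorem Mv_nonneg (h0 : 0 ≤ p) (h1 : p ≤ 1) (y v : V) (E : List (V × V)) : Le 0 (Mv p y v E) := by
  induction E with
  | nil => exact Le.refl 0
  | cons e E ih =>
    simp only [Mv]
    split_ifs
    · exact (((swapM_nonneg _ _).zero_mul (St_nonneg h0 h1 v E)).zero_smul h0).zero_add
        (ih.zero_smul (by linarith))
    · exact (Le.refl 0).zero_add (ih.zero_smul (by linarith))
    · exact (gm_nonneg h0 h1 e).zero_mul ih

theorem Er_nonneg (h0 : 0 ≤ p) (h1 : p ≤ 1) (y : V) (E : List (V × V)) :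
    ∀ {W : MM V}, Le 0 W → Le 0 (Er p y E W) := by
  induction E with
  | nil => intro W _; exact Le.refl 0
  | cons e E ih =>
    intro W hW
    simp only [Er]
    refine Le.zero_add ?_ (ih (hW.zero_mul (gm_nonneg h0 h1 e)))
    split_ifs
    · exact ((hW.zero_mul (exM_nonneg _ _)).zero_smul h0).zero_mul (GM_nonneg h0 h1 E)
    · exact Le.refl 0

theorem ErM_nonneg (h0 : 0 ≤ p) (h1 : p ≤ 1) (y v : V) (E : List (V × V)) :
    ∀ {W : MM V}, Le 0 W → Le 0 (ErM p y v E W) := by
  induction E with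
  | nil => intro W _; exact Le.refl 0
  | cons e E ih =>
    intro W hW
    simp only [ErM]
    refine Le.zero_add ?_ (ih (hW.zero_mul (gm_nonneg h0 h1 e)))
    have h2 : Le 0 ((cE y v E : ℝ) • ((p • (W * exM e.1 e.2)) * GM p E)) :=
      (((hW.zero_mul (exM_nonneg _ _)).zero_smul h0).zero_mul (GM_nonneg h0 h1 E)).zero_smul
        (Nat.cast_nonneg _)
    split_ifs
    · refine Le.zero_add ?_ h2
      exact (((hW.zero_mul (neM_nonneg _ _)).zero_smul (by linarith)).zero_mul
        (GM_nonneg h0 h1 E)).zero_add (Er_nonneg h0 h1 v E (hW.zero_mul (gm_nonneg h0 h1 e)))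
    · exact (Le.refl 0).zero_add h2
    · exact Le.refl 0

/-- stay step -/
theorem stay_step (h0 : 0 ≤ p) (h1 : p ≤ 1) (e : V × V) {Y W R : MM V} (hY : Le 0 Y)
    (hR : Le 0 R) (h : Le (W - R) Y) :
    Le (W * gm p e - (R * gm p e + p • (W * exM e.1 e.2))) Y := by
  have hp1 : 0 ≤ 1 - p := by linarith
  have e1 : gm p e - p • exM e.1 e.2 = (1 - p) • (1 : MM V) + p • eqM e.1 e.2 := by
    rw [gm, exM, smul_sub]; abel
  have hg0 : Le 0 (gm p e - p • exM e.1 e.2) := by
    rw [e1]
    exact (one_nonneg.zero_smul hp1).zero_add ((eqM_nonneg _ _).zero_smul h0)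
  have hg1 : Le (gm p e - p • exM e.1 e.2) 1 := by
    rw [e1]
    have : Le ((1 - p) • (1 : MM V) + p • eqM e.1 e.2) ((1 - p) • (1 : MM V) + p • 1) :=
      (Le.refl _).add ((eqM_le_one _ _).smul h0)
    rwa [← add_smul, sub_add_cancel, one_smul] at this
  have h2 := hg1.mul_left hY
  rw [Matrix.mul_one] at h2
  have h3 := h.mul_right hg0
  refine Le.trans ?_ (h3.trans h2)
  intro i k
  have h4 : 0 ≤ (R * exM e.1 e.2) i k := (hR.zero_mul (exM_nonneg _ _)) i k
  have e2 : ((W - R) * (gm p e - p • exM e.1 e.2)) i k =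
      (W * gm p e) i k - p * (W * exM e.1 e.2) i k - (R * gm p e) i k +
        p * (R * exM e.1 e.2) i k := by
    rw [Matrix.sub_mul, Matrix.mul_sub, Matrix.mul_sub, Matrix.mul_smul, Matrix.mul_smul]
    simp only [Matrix.sub_apply, Matrix.smul_apply, smul_eq_mul]
    ring
  rw [e2]
  simp only [Matrix.sub_apply, Matrix.add_apply, Matrix.smul_apply, smul_eq_mul]
  nlinarith [mul_nonneg h0 h4]

/-- move step -/
theorem move_step (h0 : 0 ≤ p) (h1 : p ≤ 1) (e : V × V) {Y W R : MM V} (hY : Le 0 Y)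
    (hR : Le 0 R) (h : Le (W - R) Y) :
    Le (W * gm p e - (R * gm p e + (1 - p) • (W * neM e.1 e.2))) (Y * swapM e.1 e.2) := by
  have hp1 : 0 ≤ 1 - p := by linarith
  have e1 : gm p e - (1 - p) • neM e.1 e.2 = p • swapM e.1 e.2 + (1 - p) • eqM e.1 e.2 := by
    rw [gm, neM, smul_sub]; abel
  have hg0 : Le 0 (gm p e - (1 - p) • neM e.1 e.2) := by
    rw [e1]
    exact ((swapM_nonneg _ _).zero_smul h0).zero_add ((eqM_nonneg _ _).zero_smul hp1)
  have hg1 : Le (gm p e - (1 - p) • neM e.1 e.2) (swapM e.1 e.2) := by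
    rw [e1]
    have : Le (p • swapM e.1 e.2 + (1 - p) • eqM e.1 e.2)
        (p • swapM e.1 e.2 + (1 - p) • swapM e.1 e.2) :=
      (Le.refl _).add ((eqM_le_swapM _ _).smul hp1)
    rwa [← add_smul, add_sub_cancel, one_smul] at this
  have h2 := hg1.mul_left hY
  have h3 := h.mul_right hg0
  refine Le.trans ?_ (h3.trans h2)
  intro i k
  have h4 : 0 ≤ (R * neM e.1 e.2) i k := (hR.zero_mul (neM_nonneg _ _)) i k
  have e2 : ((W - R) * (gm p e - (1 - p) • neM e.1 e.2)) i k =
      (W * gm p e) i k - (1 - p) * (W * neM e.1 e.2) i k - (R * gm p e) i k +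
        (1 - p) * (R * neM e.1 e.2) i k := by
    rw [Matrix.sub_mul, Matrix.mul_sub, Matrix.mul_sub, Matrix.mul_smul, Matrix.mul_smul]
    simp only [Matrix.sub_apply, Matrix.smul_apply, smul_eq_mul]
    ring
  rw [e2]
  simp only [Matrix.sub_apply, Matrix.add_apply, Matrix.smul_apply, smul_eq_mul]
  nlinarith [mul_nonneg hp1 h4]

/-- (B1) the strand which stays. -/
theorem stay_bound (h0 : 0 ≤ p) (h1 : p ≤ 1) (y : V) (E : List (V × V)) :
    ∀ {Y W R : MM V}, Le 0 Y → Le 0 W → Le 0 R → Le (W - R) Y →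
      Le ((1 - p) ^ nE y E • (W * GM p E - (R * GM p E + Er p y E W))) (Y * St p y E) := by
  have hp1 : 0 ≤ 1 - p := by linarith
  induction E with
  | nil =>
    intro Y W R _ _ _ h
    simp only [nE, pow_zero, one_smul, GM_nil, Er, St, Matrix.mul_one, add_zero]
    exact h
  | cons e E ih =>
    intro Y W R hY hW hR h
    have hg := gm_nonneg h0 h1 e
    by_cases hy : y = e.1 ∨ y = e.2
    · have h2 := stay_step h0 h1 e hY hR h
      have h3 := ih hY (hW.zero_mul hg) (((hR.zero_mul hg)).zero_add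
        ((hW.zero_mul (exM_nonneg e.1 e.2)).zero_smul h0)) h2
      have h4 := h3.smul hp1
      simp only [nE, Er, St, if_pos hy, GM_cons]
      have e1 : Y * ((1 - p) • (1 : MM V) * St p y E) = (1 - p) • (Y * St p y E) := by
        rw [Matrix.smul_mul, Matrix.one_mul, Matrix.mul_smul]
      rw [e1]
      refine Le.trans (Le.ofEq ?_) h4
      rw [smul_smul, add_comm 1, pow_succ', Matrix.add_mul]
      simp only [Matrix.mul_assoc]
      congr 1
      abel
    · have h2 : Le (W * gm p e - R * gm p e) (Y * gm p e) := by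
        have := h.mul_right hg
        rwa [Matrix.sub_mul] at this
      have h3 := ih (hY.zero_mul hg) (hW.zero_mul hg) (hR.zero_mul hg) h2
      simp only [nE, Er, St, if_neg hy, GM_cons]
      rw [← Matrix.mul_assoc Y (gm p e)]
      refine Le.trans (Le.ofEq ?_) h3
      rw [zero_add, zero_add]
      simp only [Matrix.mul_assoc]

/-- reduce the exponent -/
theorem reduce {Z X : MM V} (hZ : Le 0 Z) (h0 : 0 ≤ p) (h1 : p ≤ 1) {m K : ℕ} (hm : m ≤ K)
    (h : Le ((1 - p) ^ m • X) Z) : Le ((1 - p) ^ K • X) Z := by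
  intro i k
  have h2 := h i k
  have h3 := hZ i k
  simp only [Matrix.smul_apply, smul_eq_mul, Matrix.zero_apply] at *
  rcases le_or_gt 0 (X i k) with h4 | h4
  · have : (1 - p) ^ K ≤ (1 - p) ^ m := pow_le_pow_of_le_one (by linarith) (by linarith) hm
    exact (mul_le_mul_of_nonneg_right this h4).trans h2
  · have : (1 - p) ^ K * X i k ≤ 0 :=
      mul_nonpos_of_nonneg_of_nonpos (pow_nonneg (by linarith) _) h4.le
    linarith

/-- (B2) the strand which moves once. -/
theorem move_bound (h0 : 0 ≤ p) (h1 : p ≤ 1) (y v : V) (E : List (V × V)) :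
    ∀ {K : ℕ} {Y W R : MM V}, nE y E + nE v E ≤ K → Le 0 Y → Le 0 W → Le 0 R → Le (W - R) Y →
      Le ((p * (1 - p) ^ K) • ((cE y v E : ℝ) • (W * GM p E) -
        ((cE y v E : ℝ) • (R * GM p E) + ErM p y v E W))) (Y * Mv p y v E) := by
  have hp1 : 0 ≤ 1 - p := by linarith
  induction E with
  | nil =>
    intro K Y W R _ _ _ _ _
    simp only [cE, Nat.cast_zero, zero_smul, ErM, Mv, Matrix.mul_zero, add_zero, sub_zero,
      smul_zero]
    exact Le.refl 0
  | cons e E ih =>
    intro K Y W R hK hY hW hR h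
    have hg := gm_nonneg h0 h1 e
    by_cases hy : y = e.1 ∨ y = e.2
    · simp only [nE, if_pos hy] at hK
      obtain ⟨K', rfl⟩ : ∃ K', K = K' + 1 := ⟨K - 1, by omega⟩
      have h2 := stay_step h0 h1 e hY hR h
      have h3 := ih (K := K') (by split_ifs at hK <;> omega) hY (hW.zero_mul hg)
        (((hR.zero_mul hg)).zero_add ((hW.zero_mul (exM_nonneg e.1 e.2)).zero_smul h0)) h2
      have h4 := h3.smul hp1
      by_cases hv : v = Equiv.swap e.1 e.2 y
      · have h5 := move_step h0 h1 e hY hR h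
        have h6 := stay_bound h0 h1 v E (hY.zero_mul (swapM_nonneg e.1 e.2)) (hW.zero_mul hg)
          ((hR.zero_mul hg).zero_add ((hW.zero_mul (neM_nonneg e.1 e.2)).zero_smul hp1)) h5
        have h7 := reduce ((hY.zero_mul (swapM_nonneg e.1 e.2)).zero_mul (St_nonneg h0 h1 v E))
          h0 h1 (m := nE v E) (K := K' + 1) (by split_ifs at hK <;> omega) h6
        have h8 := h7.smul h0
        simp only [cE, Mv, ErM, if_pos hy, if_pos hv, if_pos (And.intro hy hv), GM_cons]
        have e1 : Y * (p • (swapM e.1 e.2 * St p v E) + (1 - p) • Mv p y v E) =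
            p • (Y * swapM e.1 e.2 * St p v E) + (1 - p) • (Y * Mv p y v E) := by
          rw [Matrix.mul_add, Matrix.mul_smul, Matrix.mul_smul, Matrix.mul_assoc]
        rw [e1]
        refine Le.trans (fun i k => le_of_eq ?_) (h8.add h4)
        simp only [Matrix.mul_assoc, Matrix.add_mul, Matrix.smul_mul, Matrix.smul_apply,
          Matrix.sub_apply, Matrix.add_apply, smul_eq_mul]
        push_cast
        ring
      · have hc : ¬ ((y = e.1 ∨ y = e.2) ∧ v = Equiv.swap e.1 e.2 y) := fun hh => hv hh.2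
        simp only [cE, Mv, ErM, if_pos hy, if_neg hv, if_neg hc, GM_cons]
        have e1 : Y * (0 + (1 - p) • Mv p y v E) = (1 - p) • (Y * Mv p y v E) := by
          rw [zero_add, Matrix.mul_smul]
        rw [e1]
        refine Le.trans (fun i k => le_of_eq ?_) h4
        simp only [Matrix.mul_assoc, Matrix.add_mul, Matrix.smul_mul, Matrix.smul_apply,
          Matrix.sub_apply, Matrix.add_apply, smul_eq_mul, Matrix.zero_apply]
        push_cast
        ring
    · have hc : ¬ ((y = e.1 ∨ y = e.2) ∧ v = Equiv.swap e.1 e.2 y) := fun hh => hy hh.1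
      simp only [nE, if_neg hy] at hK
      have h2 : Le (W * gm p e - R * gm p e) (Y * gm p e) := by
        have := h.mul_right hg
        rwa [Matrix.sub_mul] at this
      have h3 := ih (K := K) (by split_ifs at hK <;> omega) (hY.zero_mul hg) (hW.zero_mul hg)
        (hR.zero_mul hg) h2
      simp only [cE, Mv, ErM, if_neg hy, if_neg hc, GM_cons]
      rw [← Matrix.mul_assoc Y (gm p e)]
      refine Le.trans (fun i k => le_of_eq ?_) h3
      simp only [Matrix.mul_assoc, Matrix.smul_apply,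
        Matrix.sub_apply, Matrix.add_apply, smul_eq_mul, Matrix.zero_apply]
      push_cast
      ring

/-- (B3) the strand through the block. -/
theorem strand_block (h0 : 0 ≤ p) (h1 : p ≤ 1) (E : List (V × V)) :
    ∀ y : V, Le (St p y E * sxM y + ∑ v, Mv p y v E * sxM v) (sxM y * GM p E) := by
  have hp1 : 0 ≤ 1 - p := by linarith
  induction E with
  | nil =>
    intro y
    simp only [St, Mv, GM_nil, Matrix.one_mul, Matrix.mul_one, Matrix.zero_mul,
      Finset.sum_const_zero, add_zero]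
    exact Le.refl _
  | cons e E ih =>
    intro y
    rw [GM_cons, ← Matrix.mul_assoc]
    by_cases hy : y = e.1 ∨ y = e.2
    · set y' := Equiv.swap e.1 e.2 y with hy'
      have e1 : (sxM y : MM V) * gm p e = (1 - p) • sxM y + p • (swapM e.1 e.2 * sxM y') :=
        sxM_mul_gate y e.1 e.2 p
      rw [e1, Matrix.add_mul, Matrix.smul_mul, Matrix.smul_mul, Matrix.mul_assoc]
      have h2 := (ih y).smul hp1
      have h3 : Le (St p y' E * sxM y') (sxM y' * GM p E) := by
        refine Le.trans ?_ (ih y')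
        intro i k
        have : 0 ≤ (∑ v, Mv p y' v E * sxM v) i k := by
          have := Le.zero_sum (s := univ) (f := fun v => Mv p y' v E * sxM v)
            (fun v _ => (Mv_nonneg h0 h1 y' v E).zero_mul (sxM_nonneg v)) i k
          simpa using this
        simp only [Matrix.add_apply]
        linarith
      have h4 := (h3.mul_left (swapM_nonneg e.1 e.2)).smul h0
      refine Le.trans (Le.ofEq ?_) (h2.add h4)
      simp only [St, Mv, if_pos hy]
      have e2 : ∑ v, ((if v = y' then p • (swapM e.1 e.2 * St p v E) else 0) +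
          (1 - p) • Mv p y v E) * sxM v =
          p • (swapM e.1 e.2 * (St p y' E * sxM y')) + (1 - p) • ∑ v, Mv p y v E * sxM v := by
        simp only [Matrix.add_mul, Finset.sum_add_distrib]
        congr 1
        · rw [Finset.sum_eq_single y']
          · rw [if_pos rfl, Matrix.smul_mul, Matrix.mul_assoc]
          · intro v _ hv
            rw [if_neg hv, Matrix.zero_mul]
          · intro hh
            exact absurd (Finset.mem_univ _) hh
        · rw [Finset.smul_sum]
          exact Finset.sum_congr rfl fun v _ => Matrix.smul_mul _ _ _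
      rw [e2]
      rw [Matrix.smul_mul, Matrix.smul_mul, Matrix.one_mul, smul_add]
      abel
    · have hsw : Equiv.swap e.1 e.2 y = y := by
        push Not at hy
        exact Equiv.swap_apply_of_ne_of_ne hy.1 hy.2
      have e1 : (sxM y : MM V) * gm p e = gm p e * sxM y := by
        rw [gm, Matrix.mul_add, Matrix.add_mul, Matrix.mul_smul, Matrix.mul_smul,
          Matrix.smul_mul, Matrix.smul_mul, Matrix.mul_one, Matrix.one_mul, sxM_mul_swapM, hsw]
      rw [e1, Matrix.mul_assoc]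
      have h2 := (ih y).mul_left (gm_nonneg h0 h1 e)
      refine Le.trans (Le.ofEq ?_) h2
      simp only [St, Mv, if_neg hy]
      rw [Matrix.mul_add, Finset.mul_sum]
      simp only [Matrix.mul_assoc]

/-! ### Traces of the errors -/

/-- the defects of a block -/
def HB (p : ℝ) (C : MM V) (b : ℝ) : List (V × V) → MM V → Prop
  | [], _ => True
  | e :: E, W => (trace (W * exM e.1 e.2 * GM p E * C) ≤ b ∧
      trace (W * neM e.1 e.2 * GM p E * C) ≤ b) ∧ HB p C b E (W * gm p e)

theorem Er_trace (h0 : 0 ≤ p) (y : V) {C : MM V} {b : ℝ} (hb : 0 ≤ b) (E : List (V × V)) :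
    ∀ {W : MM V}, HB p C b E W → trace (Er p y E W * C) ≤ nE y E * p * b := by
  induction E with
  | nil =>
    intro W _
    simp [Er, nE]
  | cons e E ih =>
    intro W h
    have h2 := ih h.2
    simp only [Er, nE, Matrix.add_mul, Matrix.trace_add]
    split_ifs with hy
    · have h3 := mul_le_mul_of_nonneg_left h.1.1 h0
      have e1 : trace (p • (W * exM e.1 e.2) * GM p E * C) =
          p * trace (W * exM e.1 e.2 * GM p E * C) := by
        rw [Matrix.smul_mul, Matrix.smul_mul, Matrix.trace_smul, smul_eq_mul]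
      rw [e1]
      push_cast
      nlinarith
    · rw [Matrix.zero_mul, Matrix.trace_zero]
      push_cast
      linarith

theorem ErM_trace (h0 : 0 ≤ p) (h1 : p ≤ 1) (y v : V) {C : MM V} {b : ℝ} (hb : 0 ≤ b)
    (E : List (V × V)) : ∀ {W : MM V}, HB p C b E W →
      trace (ErM p y v E W * C) ≤ cE y v E * (1 + p * (nE y E + nE v E)) * b := by
  induction E with
  | nil =>
    intro W _
    simp [ErM, cE]
  | cons e E ih =>
    intro W h
    have h2 := ih h.2
    have hp1 : 0 ≤ 1 - p := by linarith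
    have hcn : (0 : ℝ) ≤ cE y v E := Nat.cast_nonneg _
    have hn1 : (0 : ℝ) ≤ nE y E := Nat.cast_nonneg _
    have hn2 : (0 : ℝ) ≤ nE v E := Nat.cast_nonneg _
    have hpb : 0 ≤ p * b := mul_nonneg h0 hb
    simp only [ErM]
    rw [Matrix.add_mul, Matrix.trace_add]
    by_cases hy : y = e.1 ∨ y = e.2
    · have h3 := mul_le_mul_of_nonneg_left h.1.1 (mul_nonneg hcn h0)
      have e1 : trace ((cE y v E : ℝ) • (p • (W * exM e.1 e.2) * GM p E) * C) =
          cE y v E * p * trace (W * exM e.1 e.2 * GM p E * C) := by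
        rw [Matrix.smul_mul, Matrix.smul_mul, Matrix.smul_mul, Matrix.trace_smul,
          Matrix.trace_smul, smul_eq_mul, smul_eq_mul]
        ring
      by_cases hv : v = Equiv.swap e.1 e.2 y
      · have hv' : v = e.1 ∨ v = e.2 := by
          rcases hy with h | h
          · right; rw [hv, h, Equiv.swap_apply_left]
          · left; rw [hv, h, Equiv.swap_apply_right]
        have h4 := mul_le_mul_of_nonneg_left h.1.2 hp1
        have e2 : trace ((1 - p) • (W * neM e.1 e.2) * GM p E * C) =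
            (1 - p) * trace (W * neM e.1 e.2 * GM p E * C) := by
          rw [Matrix.smul_mul, Matrix.smul_mul, Matrix.trace_smul, smul_eq_mul]
        have h5 := Er_trace h0 v hb E h.2
        simp only [cE, nE, if_pos hy, if_pos hv, if_pos (And.intro hy hv), if_pos hv']
        rw [Matrix.add_mul, Matrix.add_mul, Matrix.trace_add, Matrix.trace_add, e1, e2]
        push_cast
        nlinarith [mul_nonneg hcn hpb, mul_nonneg hn1 hpb, mul_nonneg hn2 hpb,
          mul_nonneg (mul_nonneg hcn hn1) hpb, mul_nonneg (mul_nonneg hcn hn2) hpb]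
      · have hc : ¬ ((y = e.1 ∨ y = e.2) ∧ v = Equiv.swap e.1 e.2 y) := fun hh => hv hh.2
        simp only [cE, nE, if_pos hy, if_neg hv, if_neg hc]
        rw [zero_add, e1]
        have h6 : (cE y v E : ℝ) * (1 + p * (nE y E + nE v E)) * b + cE y v E * p * b ≤
            ((0 + cE y v E : ℕ) : ℝ) * (1 + p * (((1 + nE y E : ℕ) : ℝ) +
              (((if v = e.1 ∨ v = e.2 then 1 else 0) + nE v E : ℕ) : ℝ))) * b := by
          split_ifs
          · push_cast
            nlinarith [mul_nonneg hcn hpb]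
          · push_cast
            nlinarith [mul_nonneg hcn hpb]
        linarith
    · have hc : ¬ ((y = e.1 ∨ y = e.2) ∧ v = Equiv.swap e.1 e.2 y) := fun hh => hy hh.1
      simp only [cE, nE, if_neg hy, if_neg hc]
      rw [Matrix.zero_mul, Matrix.trace_zero, zero_add]
      refine h2.trans ?_
      split_ifs
      · push_cast
        nlinarith [mul_nonneg hcn hpb]
      · push_cast
        nlinarith [mul_nonneg hcn hpb]

end

end Vale.Agent.P361.LRO.Bloch.H1
end

section

/-!
P361, Bloch's law for all spins: long windows with copies, abstract part (families of strands).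
-/

namespace Vale.Agent.P361.LRO.Bloch.H1

open Finset Matrix

set_option linter.unusedSectionVars false

noncomputable section

variable {V : Type} [Fintype V] [DecidableEq V] {X : Type} [Fintype X] [DecidableEq X]

/-- The state of the induction. -/
structure Inv (st : V → X) (s : ℕ) (C : MM V) (B c : ℝ) (w : List (Lt V)) (Q : MM V)
    (q : X → ℕ → ℝ) (a : ℝ) (Y W R : V → ℕ → MM V) : Prop where
  Q0 : Le 0 Q
  q0 : ∀ x j, 0 ≤ q x j
  Y0 : ∀ v j, Le 0 (Y v j)
  W0 : ∀ v j, Le 0 (W v j)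
  R0 : ∀ v j, Le 0 (R v j)
  YW : ∀ v j, Le (W v j - R v j) (Y v j)
  lump : ∀ x j, ∑ v with st v = x, W v j = q x j • Q
  unif : ∀ v j, j ≠ 0 → W v j = (q (st v) j / s) • Q
  RT : ∀ x (j : ℕ), ∑ v with st v = x, trace (R v j * wd w * C) ≤ B * (a + c * j) * q x j

/-- Bounds for the defects at the gates between different sites. -/
def HXI (st : V → X) (C : MM V) (B : ℝ) (w : List (Lt V)) (Q : MM V) : Prop :=
  ∀ w1 w2 a b p, w = w1 ++ Lt.gate a b p :: w2 → st a ≠ st b →
    trace (Q * wd w1 * exM a b * wd w2 * C) ≤ B ∧ trace (Q * wd w1 * neM a b * wd w2 * C) ≤ B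

theorem HXI.tail {st : V → X} {C : MM V} {B : ℝ} {w w' : List (Lt V)} {Q : MM V}
    (h : HXI st C B (w ++ w') Q) : HXI st C B w' (Q * wd w) := by
  intro w1 w2 a b p hw hab
  have := h (w ++ w1) w2 a b p (by rw [hw, List.append_assoc]) hab
  rwa [wd_append, ← Matrix.mul_assoc] at this

theorem W_le {st : V → X} {s : ℕ} {C : MM V} {B c : ℝ} {w : List (Lt V)} {Q : MM V}
    {q : X → ℕ → ℝ} {a : ℝ} {Y W R : V → ℕ → MM V} (h : Inv st s C B c w Q q a Y W R) (v : V)
    (j : ℕ) : Le (W v j) (q (st v) j • Q) := by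
  rw [← h.lump (st v) j]
  intro i k
  rw [Matrix.sum_apply]
  exact Finset.single_le_sum (f := fun u => W u j i k) (fun u _ => h.W0 u j i k)
    (Finset.mem_filter.2 ⟨Finset.mem_univ v, rfl⟩)

/-! ### Gates between two copies of a site -/

theorem SS_intra (J : ℕ) (a b : V) (p : ℝ) (Y : V → ℕ → MM V) :
    SS J (fun v j => (1 - p) • Y v j + p • (Y (Equiv.swap a b v) j * swapM a b)) =
      SS J Y * mt (.gate a b p) := by
  have h1 : SS J Y * mt (.gate a b p) =
      ∑ y, ((∑ j ∈ range J, (1 - p) • (Y y j * sxM y)) +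
        ∑ j ∈ range J, p • (Y y j * (swapM a b * sxM (Equiv.swap a b y)))) := by
    unfold SS
    rw [Finset.sum_mul]
    refine Finset.sum_congr rfl fun y _ => ?_
    rw [Finset.sum_mul, ← Finset.sum_add_distrib]
    refine Finset.sum_congr rfl fun j _ => ?_
    show Y y j * sxM y * ((1 - p) • (1 : MM V) + p • swapM a b) = _
    rw [Matrix.mul_assoc, sxM_mul_gate, Matrix.mul_add, Matrix.mul_smul, Matrix.mul_smul]
  have h2 : ∑ y, ∑ j ∈ range J, p • (Y y j * (swapM a b * sxM (Equiv.swap a b y))) =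
      ∑ y, ∑ j ∈ range J, p • (Y (Equiv.swap a b y) j * (swapM a b * sxM y)) := by
    rw [← Equiv.sum_comp (Equiv.swap a b)
      (fun y => ∑ j ∈ range J, p • (Y y j * (swapM a b * sxM (Equiv.swap a b y))))]
    refine Finset.sum_congr rfl fun y _ => Finset.sum_congr rfl fun j _ => ?_
    rw [Equiv.swap_apply_self]
  rw [h1, Finset.sum_add_distrib, h2, ← Finset.sum_add_distrib]
  unfold SS
  refine Finset.sum_congr rfl fun y _ => ?_
  rw [← Finset.sum_add_distrib]
  refine Finset.sum_congr rfl fun j _ => ?_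
  rw [Matrix.add_mul, Matrix.smul_mul, Matrix.smul_mul, Matrix.mul_assoc]

theorem swap_st {st : V → X} {a b : V} (hab : st a = st b) (v : V) :
    st (Equiv.swap a b v) = st v := by
  rcases eq_or_ne v a with rfl | hva
  · rw [Equiv.swap_apply_left, hab]
  · rcases eq_or_ne v b with rfl | hvb
    · rw [Equiv.swap_apply_right, hab]
    · rw [Equiv.swap_apply_of_ne_of_ne hva hvb]

theorem sum_swap_fiber {M : Type*} [AddCommMonoid M] {st : V → X} {a b : V} (hab : st a = st b)
    (x : X) (f : V → M) :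
    ∑ v with st v = x, f (Equiv.swap a b v) = ∑ v with st v = x, f v := by
  refine Finset.sum_equiv (Equiv.swap a b) (fun v => ?_) (fun v _ => rfl)
  simp only [Finset.mem_filter, Finset.mem_univ, true_and]
  rw [swap_st hab]

theorem intra_step {st : V → X} {s : ℕ} {C : MM V} {B c : ℝ} {w : List (Lt V)} {Q : MM V}
    {q : X → ℕ → ℝ} {a : ℝ} {Y W R : V → ℕ → MM V} {u v : V} {p : ℝ} (h0 : 0 ≤ p) (h1 : p ≤ 1)
    (huv : st u = st v) (h : Inv st s C B c (Lt.gate u v p :: w) Q q a Y W R) (J : ℕ) :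
    ∃ Y' W' R' : V → ℕ → MM V, Inv st s C B c w (Q * mt (.gate u v p)) q a Y' W' R' ∧
      Le (SS J Y') (SS J Y * mt (.gate u v p)) := by
  have hp1 : 0 ≤ 1 - p := by linarith
  have hs := swapM_nonneg u v
  have key : ∀ {Z : V → ℕ → MM V}, (∀ v j, Le 0 (Z v j)) → ∀ y j,
      Le 0 ((1 - p) • Z y j + p • (Z (Equiv.swap u v y) j * swapM u v)) := fun hZ y j =>
    ((hZ y j).zero_smul hp1).zero_add (((hZ _ j).zero_mul hs).zero_smul h0)
  refine ⟨fun y j => (1 - p) • Y y j + p • (Y (Equiv.swap u v y) j * swapM u v),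
    fun y j => (1 - p) • W y j + p • (W (Equiv.swap u v y) j * swapM u v),
    fun y j => (1 - p) • R y j + p • (R (Equiv.swap u v y) j * swapM u v),
    ⟨h.Q0.zero_mul (gate_nonneg u v h0 h1), h.q0, key h.Y0, key h.W0, key h.R0, ?_, ?_, ?_, ?_⟩,
    Le.ofEq (SS_intra J u v p Y)⟩
  · intro y j
    have h2 := (h.YW y j).smul hp1
    have h3 := ((h.YW (Equiv.swap u v y) j).mul_right hs).smul h0
    refine Le.trans (Le.ofEq ?_) (h2.add h3)
    rw [Matrix.sub_mul, smul_sub, smul_sub]
    abel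
  · intro x j
    rw [Finset.sum_add_distrib, ← Finset.smul_sum, ← Finset.smul_sum,
      sum_swap_fiber huv x (fun y => W y j * swapM u v), ← Finset.sum_mul, h.lump x j]
    show (1 - p) • q x j • Q + p • (q x j • Q * swapM u v) =
      q x j • (Q * ((1 - p) • (1 : MM V) + p • swapM u v))
    rw [Matrix.mul_add, Matrix.mul_smul, Matrix.mul_smul, Matrix.mul_one, Matrix.smul_mul, smul_add,
      smul_comm (1 - p) (q x j), smul_comm p (q x j)]
  · intro y j hj
    rw [h.unif y j hj, h.unif _ j hj, swap_st huv]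
    show (1 - p) • (q (st y) j / s) • Q + p • ((q (st y) j / s) • Q * swapM u v) =
      (q (st y) j / s) • (Q * ((1 - p) • (1 : MM V) + p • swapM u v))
    rw [Matrix.mul_add, Matrix.mul_smul, Matrix.mul_smul, Matrix.mul_one, Matrix.smul_mul, smul_add,
      smul_comm (1 - p) (q (st y) j / s), smul_comm p (q (st y) j / s)]
  · intro x j
    refine le_trans (le_of_eq ?_) (h.RT x j)
    have e1 : ∀ y, trace (((1 - p) • R y j + p • (R (Equiv.swap u v y) j * swapM u v)) * wd w * C) =
        (1 - p) * trace (R y j * wd w * C) +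
          p * trace (R (Equiv.swap u v y) j * (swapM u v * wd w * C)) := by
      intro y
      rw [Matrix.add_mul, Matrix.add_mul, Matrix.trace_add, Matrix.smul_mul, Matrix.smul_mul,
        Matrix.smul_mul, Matrix.smul_mul, Matrix.trace_smul, Matrix.trace_smul, smul_eq_mul,
        smul_eq_mul]
      simp only [Matrix.mul_assoc]
    simp only [e1]
    rw [Finset.sum_add_distrib, ← Finset.mul_sum, ← Finset.mul_sum,
      sum_swap_fiber huv x (fun y => trace (R y j * (swapM u v * wd w * C))), Finset.mul_sum,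
      Finset.mul_sum, ← Finset.sum_add_distrib]
    refine Finset.sum_congr rfl fun y _ => ?_
    rw [wd_cons]
    show _ = trace (R y j * (((1 - p) • (1 : MM V) + p • swapM u v) * wd w) * C)
    rw [Matrix.add_mul, Matrix.mul_add, Matrix.add_mul, Matrix.trace_add, Matrix.smul_mul,
      Matrix.smul_mul, Matrix.mul_smul, Matrix.mul_smul, Matrix.smul_mul, Matrix.smul_mul,
      Matrix.trace_smul, Matrix.trace_smul, smul_eq_mul, smul_eq_mul, Matrix.one_mul]
    simp only [Matrix.mul_assoc]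

theorem intra_word {st : V → X} {s : ℕ} {C : MM V} {B c : ℝ} {p : ℝ} (h0 : 0 ≤ p) (h1 : p ≤ 1)
    (J : ℕ) (I : List (V × V)) : (∀ e ∈ I, st e.1 = st e.2) → ∀ {w : List (Lt V)} {Q : MM V}
    {q : X → ℕ → ℝ} {a : ℝ} {Y W R : V → ℕ → MM V},
    Inv st s C B c ((I.map fun e => Lt.gate e.1 e.2 p) ++ w) Q q a Y W R →
    ∃ Y' W' R' : V → ℕ → MM V,
      Inv st s C B c w (Q * wd (I.map fun e => Lt.gate e.1 e.2 p)) q a Y' W' R' ∧
      Le (SS J Y') (SS J Y * wd (I.map fun e => Lt.gate e.1 e.2 p)) := by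
  induction I with
  | nil =>
    intro _ w Q q a Y W R h
    refine ⟨Y, W, R, ?_, ?_⟩
    · simpa [wd] using h
    · simp only [wd, List.map_nil, List.prod_nil, Matrix.mul_one]
      exact Le.refl _
  | cons e I ih =>
    intro hI w Q q a Y W R h
    rw [List.map_cons, List.cons_append] at h
    obtain ⟨Y1, W1, R1, h2, h3⟩ := intra_step h0 h1 (hI e (by simp)) h J
    obtain ⟨Y2, W2, R2, h4, h5⟩ := ih (fun e' he' => hI e' (by simp [he'])) h2
    refine ⟨Y2, W2, R2, ?_, ?_⟩
    · rw [List.map_cons, wd_cons, ← Matrix.mul_assoc]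
      exact h4
    · rw [List.map_cons, wd_cons, ← Matrix.mul_assoc]
      refine h5.trans (h3.mul_right (wd_nonneg fun l hl => ?_))
      rw [List.mem_map] at hl
      obtain ⟨e', _, rfl⟩ := hl
      exact ⟨h0, h1⟩

/-! ### The slices of a layer -/

theorem node_sx {τ : ℝ} (v z : V) {t : ℝ} (h0 : 0 ≤ t) (hτ : t ≤ τ) (hτ1 : τ ≤ 1) :
    Le ((if z = v then (1 - τ) / (1 + τ) else 1) • (mt (.node z t) * sxM v : MM V))
      (sxM v * mt (.node z t)) := by
  by_cases hz : z = v
  · subst hz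
    rw [if_pos rfl]
    have hτ0 : 0 ≤ τ := h0.trans hτ
    have hr : (1 - τ) / (1 + τ) * (1 + t) ≤ 1 - t := by
      rw [div_mul_eq_mul_div, div_le_iff₀ (by linarith)]
      nlinarith
    have hr1 : (1 - τ) / (1 + τ) ≤ 1 := by
      rw [div_le_one (by linarith)]; linarith
    have hr0 : 0 ≤ (1 - τ) / (1 + τ) := div_nonneg (by linarith) (by linarith)
    intro σ ρ
    have h2 := sxM_nonneg z σ ρ
    show ((1 - τ) / (1 + τ)) * (((1 + t • szM z : MM V) * sxM z) σ ρ) ≤
      ((sxM z : MM V) * (1 + t • szM z)) σ ρ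
    rw [Matrix.add_mul, Matrix.mul_add, Matrix.one_mul, Matrix.mul_one, Matrix.smul_mul,
      Matrix.mul_smul, szM]
    simp only [Matrix.add_apply, Matrix.smul_apply, Matrix.diagonal_mul, Matrix.mul_diagonal,
      smul_eq_mul]
    by_cases hx : σ = Function.update ρ z (1 - ρ z)
    · have h3 : (sxM z : MM V) σ ρ = 1 := by simp [sxM, hx]
      rw [h3]
      have h4 : (if σ z = 0 then (1 : ℝ) else -1) = -(if ρ z = 0 then (1 : ℝ) else -1) := by
        rw [hx, Function.update_self]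
        generalize ρ z = b
        fin_cases b <;> simp
      rw [h4]
      split_ifs
      · nlinarith
      · nlinarith
    · have h3 : (sxM z : MM V) σ ρ = 0 := by simp [sxM, hx]
      rw [h3]
      simp
  · rw [if_neg hz, one_smul]
    refine Le.ofEq ?_
    show (1 + t • szM z : MM V) * sxM v = sxM v * (1 + t • szM z)
    rw [Matrix.mul_add, Matrix.add_mul, Matrix.mul_one, Matrix.one_mul, Matrix.mul_smul,
      Matrix.smul_mul, sxM_mul_szM (Ne.symm hz)]

theorem nodes_sx {τ : ℝ} (hτ0 : 0 ≤ τ) (hτ1 : τ ≤ 1) (v : V) {t : V → ℝ} (h0 : ∀ z, 0 ≤ t z)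
    (hτ : ∀ z, t z ≤ τ) (l : List V) :
    Le (((1 - τ) / (1 + τ)) ^ l.count v • (wd (l.map fun z => Lt.node z (t z)) * sxM v))
      (sxM v * wd (l.map fun z => Lt.node z (t z))) := by
  induction l with
  | nil =>
    simp only [List.map_nil, List.count_nil, pow_zero, one_smul]
    unfold wd
    simp only [List.map_nil, List.prod_nil, Matrix.one_mul, Matrix.mul_one]
    exact Le.refl _
  | cons z l ih =>
    have hr0 : 0 ≤ (1 - τ) / (1 + τ) := div_nonneg (by linarith) (by linarith)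
    rw [List.map_cons, wd_cons, ← Matrix.mul_assoc]
    have hwn : Le 0 (wd (l.map fun z => Lt.node z (t z))) := wd_nonneg fun l' hl' => by
      rw [List.mem_map] at hl'
      obtain ⟨z', _, rfl⟩ := hl'
      exact ⟨h0 z', (hτ z').trans hτ1⟩
    have h2 := (node_sx v z (h0 z) (hτ z) hτ1).mul_right hwn
    refine Le.trans ?_ h2
    have hmn : Le 0 (mt (.node z (t z)) : MM V) := node_nonneg z (h0 z) ((hτ z).trans hτ1)
    have h3 := (ih.mul_left hmn).smul (c := if z = v then (1 - τ) / (1 + τ) else 1)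
      (by split_ifs <;> [exact hr0; norm_num])
    refine Le.trans (Le.ofEq ?_) (h3.trans (Le.ofEq ?_))
    · rw [List.count_cons, Matrix.mul_smul, smul_smul, Matrix.mul_assoc]
      congr 1
      by_cases hz : z = v
      · simp [hz, pow_succ']
      · simp [hz]
    · rw [Matrix.smul_mul, Matrix.mul_assoc]

theorem slices_step {st : V → X} {s : ℕ} {C : MM V} {B c : ℝ} {w : List (Lt V)} {Q : MM V}
    {q : X → ℕ → ℝ} {a : ℝ} {Y W R : V → ℕ → MM V} {τ : ℝ} (hτ0 : 0 ≤ τ) (hτ1 : τ ≤ 1)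
    {t : V → ℝ} (h0 : ∀ z, 0 ≤ t z) (hτ : ∀ z, t z ≤ τ)
    (h : Inv st s C B c (nl t ++ w) Q q a Y W R) (J : ℕ) :
    ∃ Y' W' R' : V → ℕ → MM V, Inv st s C B c w (Q * wd (nl t))
      (fun x j => (1 - τ) / (1 + τ) * q x j) a Y' W' R' ∧
      Le (SS J Y') (SS J Y * wd (nl t)) := by
  have hr0 : 0 ≤ (1 - τ) / (1 + τ) := div_nonneg (by linarith) (by linarith)
  have hN : Le 0 (wd (nl t)) := wd_nonneg (ok_nl fun z => ⟨h0 z, (hτ z).trans hτ1⟩)
  set r := (1 - τ) / (1 + τ) with hr
  refine ⟨fun v j => r • (Y v j * wd (nl t)), fun v j => r • (W v j * wd (nl t)),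
    fun v j => r • (R v j * wd (nl t)), ⟨h.Q0.zero_mul hN, fun x j => mul_nonneg hr0 (h.q0 x j),
    fun v j => ((h.Y0 v j).zero_mul hN).zero_smul hr0,
    fun v j => ((h.W0 v j).zero_mul hN).zero_smul hr0,
    fun v j => ((h.R0 v j).zero_mul hN).zero_smul hr0, ?_, ?_, ?_, ?_⟩, ?_⟩
  · intro v j
    have h2 := ((h.YW v j).mul_right hN).smul hr0
    refine Le.trans (Le.ofEq ?_) h2
    rw [Matrix.sub_mul, smul_sub]
  · intro x j
    rw [← Finset.smul_sum, ← Finset.sum_mul, h.lump x j, Matrix.smul_mul, smul_smul]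
  · intro v j hj
    rw [h.unif v j hj, Matrix.smul_mul, smul_smul, mul_div_assoc]
  · intro x j
    have h2 := mul_le_mul_of_nonneg_left (h.RT x j) hr0
    refine le_trans (le_of_eq ?_) (h2.trans (le_of_eq ?_))
    · rw [Finset.mul_sum]
      refine Finset.sum_congr rfl fun v _ => ?_
      rw [Matrix.smul_mul, Matrix.smul_mul, Matrix.trace_smul, smul_eq_mul, wd_append]
      simp only [Matrix.mul_assoc]
    · ring
  · unfold SS
    rw [Finset.sum_mul]
    refine Le.sum fun v _ => ?_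
    rw [Finset.sum_mul]
    refine Le.sum fun j _ => ?_
    have h2 := nodes_sx hτ0 hτ1 v h0 hτ (Finset.univ : Finset V).toList
    rw [List.count_eq_one_of_mem (Finset.nodup_toList _)
      (Finset.mem_toList.2 (Finset.mem_univ v)), pow_one] at h2
    have h3 := h2.mul_left (h.Y0 v j)
    refine Le.trans (Le.ofEq ?_) (h3.trans (Le.ofEq ?_))
    · rw [Matrix.smul_mul, Matrix.mul_smul, Matrix.mul_assoc]
      rfl
    · rw [Matrix.mul_assoc]
      rfl

end

end Vale.Agent.P361.LRO.Bloch.H1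
end

section

/-!
P361, Bloch's law for all spins: long windows with copies, abstract part (one block of gates
between different sites).
-/

namespace Vale.Agent.P361.LRO.Bloch.H1

open Finset Matrix

set_option linter.unusedSectionVars false

noncomputable section

variable {V : Type} [Fintype V] [DecidableEq V] {X : Type} [Fintype X] [DecidableEq X]

theorem HB_of_HXI {st : V → X} {C : MM V} {B p : ℝ} {w : List (Lt V)} (E : List (V × V))
    (hE : ∀ e ∈ E, st e.1 ≠ st e.2) : ∀ {Q : MM V},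
    HXI st C B ((E.map fun e => Lt.gate e.1 e.2 p) ++ w) Q → HB p (wd w * C) B E Q := by
  induction E with
  | nil => intro Q _; trivial
  | cons e E ih =>
    intro Q h
    refine ⟨?_, ?_⟩
    · have h2 := h [] ((E.map fun e => Lt.gate e.1 e.2 p) ++ w) e.1 e.2 p rfl (hE e (by simp))
      have e1 : wd ([] : List (Lt V)) = 1 := by simp [wd]
      rw [e1, Matrix.mul_one, wd_append] at h2
      have e2 : wd (E.map fun e => Lt.gate e.1 e.2 p) = GM p E := rfl
      rw [e2] at h2
      simp only [Matrix.mul_assoc] at h2 ⊢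
      exact h2
    · refine ih (fun e' he' => hE e' (by simp [he'])) ?_
      have h3 : HXI st C B ([Lt.gate e.1 e.2 p] ++ ((E.map fun e => Lt.gate e.1 e.2 p) ++ w)) Q :=
        h
      have h4 := h3.tail
      have e3 : wd [Lt.gate e.1 e.2 p] = gm p e := by
        unfold wd
        rw [List.map_cons, List.map_nil, List.prod_cons, List.prod_nil, mul_one]
        rfl
      rwa [e3] at h4

theorem HB_mono {C' : MM V} (hC : Le 0 C') {B p κ : ℝ} (h0 : 0 ≤ p) (h1 : p ≤ 1) (hκ : 0 ≤ κ)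
    (E : List (V × V)) : ∀ {Q W : MM V}, HB p C' B E Q → Le W (κ • Q) →
    HB p C' (κ * B) E W := by
  induction E with
  | nil => intro Q W _ _; trivial
  | cons e E ih =>
    intro Q W h hW
    have key : ∀ D : MM V, Le 0 D → trace (Q * D * GM p E * C') ≤ B →
        trace (W * D * GM p E * C') ≤ κ * B := by
      intro D hD hb
      have h2 := (((hW.mul_right hD).mul_right (GM_nonneg h0 h1 E)).mul_right hC).trace
      refine h2.trans ?_
      rw [Matrix.smul_mul, Matrix.smul_mul, Matrix.smul_mul, Matrix.trace_smul, smul_eq_mul]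
      exact mul_le_mul_of_nonneg_left hb hκ
    refine ⟨⟨key _ (exM_nonneg _ _) h.1.1, key _ (neM_nonneg _ _) h.1.2⟩, ih h.2 ?_⟩
    have := hW.mul_right (gm_nonneg h0 h1 e)
    rwa [Matrix.smul_mul] at this

/-- sums over neighbours -/
theorem sum_cE {M : Type*} [AddCommGroup M] [Module ℝ M] {st : V → X} {E : List (V × V)}
    {cX : X → X → ℕ} (hc : ∀ y v, cE y v E = cX (st y) (st v)) (v : V) (Z : V → M) :
    ∑ y, (cE y v E : ℝ) • Z y =
      ∑ x', (cX x' (st v) : ℝ) • ∑ y with st y = x', Z y := by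
  rw [← Finset.sum_fiberwise (Finset.univ : Finset V) st]
  refine Finset.sum_congr rfl fun x' _ => ?_
  rw [Finset.smul_sum]
  refine Finset.sum_congr rfl fun y hy => ?_
  rw [hc, (Finset.mem_filter.1 hy).2]

theorem sum_cE2 {M : Type*} [AddCommGroup M] [Module ℝ M] {st : V → X} {s : ℕ}
    (hs : ∀ x, (univ.filter fun v => st v = x).card = s) {E : List (V × V)}
    {cX : X → X → ℕ} (hc : ∀ y v, cE y v E = cX (st y) (st v)) (x : X) (Z : V → M) :
    ∑ v with st v = x, ∑ y, (cE y v E : ℝ) • Z y =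
      (s : ℝ) • ∑ x', (cX x' x : ℝ) • ∑ y with st y = x', Z y := by
  rw [Finset.sum_congr rfl (g := fun _ => ∑ x', (cX x' x : ℝ) • ∑ y with st y = x', Z y)
    fun v hv => by rw [sum_cE hc v Z, (Finset.mem_filter.1 hv).2]]
  rw [Finset.sum_const, hs x, Nat.cast_smul_eq_nsmul]

/-- **One block of gates between different sites.** -/
theorem inter_block {st : V → X} {s : ℕ} (hs : ∀ x, (univ.filter fun v => st v = x).card = s)
    {C : MM V} (hC : Le 0 C) {B : ℝ} (hB : 0 ≤ B) {c : ℝ} {p : ℝ} (h0 : 0 ≤ p) (h1 : p ≤ 1)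
    {D : ℕ} (E : List (V × V)) (hE : ∀ e ∈ E, st e.1 ≠ st e.2) (hD : ∀ v, nE v E ≤ D)
    (cX : X → X → ℕ) (hc : ∀ y v, cE y v E = cX (st y) (st v))
    (hcc : s * (1 + 2 * D * p) ≤ c) {w : List (Lt V)} (hw : ∀ l ∈ w, Ok l) {Q : MM V}
    {q : X → ℕ → ℝ} {a : ℝ} {Y W R : V → ℕ → MM V}
    (hX : HXI st C B ((E.map fun e => Lt.gate e.1 e.2 p) ++ w) Q)
    (h : Inv st s C B c ((E.map fun e => Lt.gate e.1 e.2 p) ++ w) Q q a Y W R) (J : ℕ) :
    ∃ Y' W' R' : V → ℕ → MM V, Inv st s C B c w (Q * GM p E)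
      (fun x j => (1 - p) ^ D * q x j + s * p * (1 - p) ^ (2 * D) *
        (if j = 0 then 0 else ∑ x', (cX x' x : ℝ) * q x' (j - 1))) (a + s * D * p) Y' W' R' ∧
      Le (SS J Y') (SS J Y * GM p E) := by
  have hp1 : 0 ≤ 1 - p := by linarith
  have hG := GM_nonneg h0 h1 E
  set G := GM p E with hGdef
  have hPD : 0 ≤ (1 - p) ^ D := pow_nonneg hp1 _
  set κ : ℝ := p * (1 - p) ^ (2 * D) with hκ
  have hκ0 : 0 ≤ κ := mul_nonneg h0 (pow_nonneg hp1 _)
  have hwC : Le 0 (wd w * C) := (wd_nonneg hw).zero_mul hC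
  have hwd : wd ((E.map fun e => Lt.gate e.1 e.2 p) ++ w) = G * wd w := by
    rw [wd_append]; rfl
  have hHB := HB_of_HXI E hE hX
  have hHBW : ∀ v j, HB p (wd w * C) (q (st v) j * B) E (W v j) := fun v j =>
    HB_mono hwC h0 h1 (h.q0 _ _) E hHB (W_le h v j)
  have hqB : ∀ x j, 0 ≤ q x j * B := fun x j => mul_nonneg (h.q0 x j) hB
  have hDr : ∀ v, (nE v E : ℝ) ≤ D := fun v => by exact_mod_cast hD v
  have hEr : ∀ v j, trace (Er p v E (W v j) * (wd w * C)) ≤ D * p * (q (st v) j * B) := by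
    intro v j
    refine (Er_trace h0 v (hqB _ _) E (hHBW v j)).trans ?_
    exact mul_le_mul_of_nonneg_right (mul_le_mul_of_nonneg_right (hDr v) h0) (hqB _ _)
  have hErM : ∀ y v j, trace (ErM p y v E (W y j) * (wd w * C)) ≤
      (cE y v E : ℝ) * ((1 + 2 * D * p) * (q (st y) j * B)) := by
    intro y v j
    refine (ErM_trace h0 h1 y v (hqB _ _) E (hHBW y j)).trans ?_
    rw [mul_assoc]
    refine mul_le_mul_of_nonneg_left ?_ (Nat.cast_nonneg _)
    refine mul_le_mul_of_nonneg_right ?_ (hqB _ _)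
    nlinarith [hDr y, hDr v]
  refine ⟨fun v j => Y v j * St p v E + (if j = 0 then 0 else ∑ y, Y y (j - 1) * Mv p y v E),
    fun v j => (1 - p) ^ D • (W v j * G) +
      (if j = 0 then 0 else κ • ∑ y, (cE y v E : ℝ) • (W y (j - 1) * G)),
    fun v j => (1 - p) ^ D • (R v j * G + Er p v E (W v j)) +
      (if j = 0 then 0 else κ • ∑ y, ((cE y v E : ℝ) • (R y (j - 1) * G) +
        ErM p y v E (W y (j - 1)))), ⟨h.Q0.zero_mul hG, ?_, ?_, ?_, ?_, ?_, ?_, ?_, ?_⟩, ?_⟩
  · -- q
    intro x j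
    refine add_nonneg (mul_nonneg hPD (h.q0 x j)) (mul_nonneg (mul_nonneg (mul_nonneg
      (Nat.cast_nonneg _) h0) (pow_nonneg hp1 _)) ?_)
    split_ifs
    · exact le_rfl
    · exact Finset.sum_nonneg fun x' _ => mul_nonneg (Nat.cast_nonneg _) (h.q0 _ _)
  · -- Y
    intro v j
    refine ((h.Y0 v j).zero_mul (St_nonneg h0 h1 v E)).zero_add ?_
    split_ifs
    · exact Le.refl 0
    · exact Le.zero_sum fun y _ => (h.Y0 _ _).zero_mul (Mv_nonneg h0 h1 _ _ E)
  · -- W
    intro v j
    refine (((h.W0 v j).zero_mul hG).zero_smul hPD).zero_add ?_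
    split_ifs
    · exact Le.refl 0
    · exact (Le.zero_sum fun y _ => ((h.W0 _ _).zero_mul hG).zero_smul
        (Nat.cast_nonneg _)).zero_smul hκ0
  · -- R
    intro v j
    refine ((((h.R0 v j).zero_mul hG).zero_add (Er_nonneg h0 h1 v E (h.W0 v j))).zero_smul
      hPD).zero_add ?_
    split_ifs
    · exact Le.refl 0
    · exact (Le.zero_sum fun y _ => (((h.R0 _ _).zero_mul hG).zero_smul
        (Nat.cast_nonneg _)).zero_add (ErM_nonneg h0 h1 y v E (h.W0 _ _))).zero_smul hκ0
  · -- YW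
    intro v j
    have h2 := reduce ((h.Y0 v j).zero_mul (St_nonneg h0 h1 v E)) h0 h1 (hD v)
      (stay_bound h0 h1 v E (h.Y0 v j) (h.W0 v j) (h.R0 v j) (h.YW v j))
    by_cases hj : j = 0
    · simp only [if_pos hj, add_zero]
      refine Le.trans (Le.ofEq ?_) h2
      rw [← smul_sub]
    · simp only [if_neg hj]
      have h3 : Le (∑ y, κ • ((cE y v E : ℝ) • (W y (j - 1) * G) -
          ((cE y v E : ℝ) • (R y (j - 1) * G) + ErM p y v E (W y (j - 1)))))
          (∑ y, Y y (j - 1) * Mv p y v E) := by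
        refine Le.sum fun y _ => ?_
        exact move_bound h0 h1 y v E (K := 2 * D) (by have := hD y; have := hD v; omega)
          (h.Y0 _ _) (h.W0 _ _) (h.R0 _ _) (h.YW _ _)
      refine Le.trans (Le.ofEq ?_) (h2.add h3)
      rw [← Finset.smul_sum, Finset.sum_sub_distrib, smul_sub, smul_sub]
      abel
  · -- lump
    intro x j
    rw [Finset.sum_add_distrib, ← Finset.smul_sum, ← Finset.sum_mul, h.lump x j]
    by_cases hj : j = 0
    · simp only [if_pos hj, Finset.sum_const_zero, add_zero, mul_zero]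
      rw [Matrix.smul_mul, smul_smul]
    · simp only [if_neg hj]
      rw [← Finset.smul_sum, sum_cE2 hs hc x]
      have e1 : ∀ x', ∑ y with st y = x', W y (j - 1) * G = q x' (j - 1) • (Q * G) := by
        intro x'
        rw [← Finset.sum_mul, h.lump x' (j - 1), Matrix.smul_mul]
      simp only [e1]
      have e2 : ∑ x', (cX x' x : ℝ) • q x' (j - 1) • (Q * G) =
          (∑ x', (cX x' x : ℝ) * q x' (j - 1)) • (Q * G) := by
        rw [Finset.sum_smul]
        exact Finset.sum_congr rfl fun x' _ => by rw [mul_smul]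
      rw [e2, smul_smul, smul_smul, Matrix.smul_mul, smul_smul, ← add_smul]
      congr 1
      rw [hκ]
      ring
  · -- unif
    intro v j hj
    have hs0 : (s : ℝ) ≠ 0 := by
      have : 0 < s := by
        rw [← hs (st v)]
        exact Finset.card_pos.2 ⟨v, Finset.mem_filter.2 ⟨Finset.mem_univ v, rfl⟩⟩
      positivity
    simp only [if_neg hj]
    rw [h.unif v j hj, sum_cE hc v]
    have e1 : ∀ x', ∑ y with st y = x', W y (j - 1) * G = q x' (j - 1) • (Q * G) := by
      intro x'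
      rw [← Finset.sum_mul, h.lump x' (j - 1), Matrix.smul_mul]
    simp only [e1]
    have e2 : ∑ x', (cX x' (st v) : ℝ) • q x' (j - 1) • (Q * G) =
        (∑ x', (cX x' (st v) : ℝ) * q x' (j - 1)) • (Q * G) := by
      rw [Finset.sum_smul]
      exact Finset.sum_congr rfl fun x' _ => by rw [mul_smul]
    rw [e2, Matrix.smul_mul, smul_smul, smul_smul, ← add_smul]
    congr 1
    rw [hκ]
    field_simp
  · -- RT
    intro x j
    have e0 : ∀ v, trace (((1 - p) ^ D • (R v j * G + Er p v E (W v j)) +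
        (if j = 0 then 0 else κ • ∑ y, ((cE y v E : ℝ) • (R y (j - 1) * G) +
        ErM p y v E (W y (j - 1))))) * wd w * C) =
        (1 - p) ^ D * (trace (R v j * wd ((E.map fun e => Lt.gate e.1 e.2 p) ++ w) * C) +
          trace (Er p v E (W v j) * (wd w * C))) +
        (if j = 0 then 0 else κ * (∑ y, ((cE y v E : ℝ) •
          trace (R y (j - 1) * wd ((E.map fun e => Lt.gate e.1 e.2 p) ++ w) * C)) +
          ∑ y, trace (ErM p y v E (W y (j - 1)) * (wd w * C)))) := by
      intro v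
      rw [Matrix.mul_assoc _ (wd w) C, Matrix.add_mul, Matrix.trace_add, Matrix.smul_mul,
        Matrix.trace_smul, smul_eq_mul, Matrix.add_mul, Matrix.trace_add, hwd]
      congr 1
      · simp only [Matrix.mul_assoc]
      · by_cases hj : j = 0
        · simp only [if_pos hj, Matrix.zero_mul, Matrix.trace_zero]
        · simp only [if_neg hj]
          rw [Matrix.smul_mul, Matrix.trace_smul, smul_eq_mul, Finset.sum_mul, Matrix.trace_sum,
            ← Finset.sum_add_distrib]
          congr 1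
          refine Finset.sum_congr rfl fun y _ => ?_
          rw [Matrix.add_mul, Matrix.trace_add, Matrix.smul_mul, Matrix.trace_smul]
          simp only [Matrix.mul_assoc]
    simp only [e0]
    rw [Finset.sum_add_distrib, ← Finset.mul_sum, Finset.sum_add_distrib]
    have hst := h.RT x j
    have hEs : ∑ v with st v = x, trace (Er p v E (W v j) * (wd w * C)) ≤
        s * (D * p * (q x j * B)) := by
      refine (Finset.sum_le_sum fun v _ => hEr v j).trans (le_of_eq ?_)
      rw [Finset.sum_congr rfl (g := fun _ => D * p * (q x j * B)) fun v hv => by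
        rw [(Finset.mem_filter.1 hv).2], Finset.sum_const, hs x, nsmul_eq_mul]
    have h4 := mul_le_mul_of_nonneg_left (add_le_add hst hEs) hPD
    by_cases hj : j = 0
    · simp only [if_pos hj, Finset.sum_const_zero, add_zero, mul_zero]
      refine h4.trans (le_of_eq ?_)
      ring
    · simp only [if_neg hj]
      rw [← Finset.mul_sum, Finset.sum_add_distrib, sum_cE2 hs hc x]
      have hj1 : ((j - 1 : ℕ) : ℝ) = (j : ℝ) - 1 := by
        rw [Nat.cast_sub (Nat.one_le_iff_ne_zero.2 hj)]; simp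
      set S : ℝ := ∑ x', (cX x' x : ℝ) * q x' (j - 1) with hS
      have hS0 : 0 ≤ S :=
        Finset.sum_nonneg fun x' _ => mul_nonneg (Nat.cast_nonneg _) (h.q0 _ _)
      have h5 : ∑ x', (cX x' x : ℝ) • ∑ y with st y = x',
          trace (R y (j - 1) * wd ((E.map fun e => Lt.gate e.1 e.2 p) ++ w) * C) ≤
          B * (a + c * (j - 1)) * S := by
        rw [hS, Finset.mul_sum]
        refine Finset.sum_le_sum fun x' _ => ?_
        have h6 := h.RT x' (j - 1)
        rw [hj1] at h6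
        rw [smul_eq_mul]
        have h7 := mul_le_mul_of_nonneg_left h6 (Nat.cast_nonneg (α := ℝ) (cX x' x))
        linarith
      have h8 : ∑ v with st v = x, ∑ y, trace (ErM p y v E (W y (j - 1)) * (wd w * C)) ≤
          s * (s * ((1 + 2 * D * p) * B) * S) := by
        refine (Finset.sum_le_sum fun v _ => Finset.sum_le_sum fun y _ => hErM y v (j - 1)).trans
          (le_of_eq ?_)
        have e3 : ∀ v, ∑ y, (cE y v E : ℝ) * ((1 + 2 * D * p) * (q (st y) (j - 1) * B)) =
            ∑ y, (cE y v E : ℝ) • ((1 + 2 * D * p) * (q (st y) (j - 1) * B)) := fun v => rfl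
        simp only [e3]
        rw [sum_cE2 hs hc x, smul_eq_mul]
        congr 1
        rw [hS, Finset.mul_sum]
        refine Finset.sum_congr rfl fun x' _ => ?_
        rw [Finset.sum_congr rfl (g := fun _ => (1 + 2 * D * p) * (q x' (j - 1) * B))
          fun y hy => by rw [(Finset.mem_filter.1 hy).2], Finset.sum_const, hs x', nsmul_eq_mul,
          smul_eq_mul]
        ring
      have h9 := mul_le_mul_of_nonneg_left (add_le_add
        (mul_le_mul_of_nonneg_left h5 (Nat.cast_nonneg (α := ℝ) s)) h8) hκ0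
      have h10 := add_le_add h4 h9
      rw [smul_eq_mul]
      refine h10.trans ?_
      have hk : 0 ≤ κ * s * B * S :=
        mul_nonneg (mul_nonneg (mul_nonneg hκ0 (Nat.cast_nonneg _)) hB) hS0
      have h11 : κ * s * B * S * (a + c * (j - 1) + s * (1 + 2 * D * p)) ≤
          κ * s * B * S * (a + s * D * p + c * j) := by
        refine mul_le_mul_of_nonneg_left ?_ hk
        have : 0 ≤ (s : ℝ) * D * p := by positivity
        linarith
      have e4 : (s : ℝ) * p * (1 - p) ^ (2 * D) = κ * s := by rw [hκ]; ring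
      rw [e4]
      nlinarith [h11]
  · -- SS
    have hF : ∀ j, Le 0 (∑ v, ∑ y, Y y j * Mv p y v E * sxM v) := fun j =>
      Le.zero_sum fun v _ => Le.zero_sum fun y _ =>
        ((h.Y0 _ _).zero_mul (Mv_nonneg h0 h1 _ _ E)).zero_mul (sxM_nonneg v)
    have e1 : SS J (fun v j => Y v j * St p v E +
        (if j = 0 then 0 else ∑ y, Y y (j - 1) * Mv p y v E)) =
        (∑ j ∈ range J, ∑ v, Y v j * St p v E * sxM v) +
        ∑ j ∈ range J, (if j = 0 then 0 else
          (fun j => ∑ v, ∑ y, Y y j * Mv p y v E * sxM v) (j - 1)) := by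
      unfold SS
      rw [Finset.sum_comm, ← Finset.sum_add_distrib]
      refine Finset.sum_congr rfl fun j _ => ?_
      by_cases hj : j = 0
      · simp only [if_pos hj, add_zero]
      · simp only [if_neg hj]
        rw [← Finset.sum_add_distrib]
        refine Finset.sum_congr rfl fun v _ => ?_
        rw [Matrix.add_mul, Finset.sum_mul]
    rw [e1]
    refine Le.trans ((Le.refl _).add (shift_le hF J)) ?_
    rw [← Finset.sum_add_distrib]
    have e2 : SS J Y * G = ∑ j ∈ range J, ∑ y, Y y j * (sxM y * G) := by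
      unfold SS
      rw [Finset.sum_comm, Finset.sum_mul]
      refine Finset.sum_congr rfl fun j _ => ?_
      rw [Finset.sum_mul]
      exact Finset.sum_congr rfl fun y _ => by rw [Matrix.mul_assoc]
    rw [e2]
    refine Le.sum fun j _ => ?_
    rw [Finset.sum_comm (f := fun v y => Y y j * Mv p y v E * sxM v), ← Finset.sum_add_distrib]
    refine Le.sum fun y _ => ?_
    have h2 := (strand_block h0 h1 E y).mul_left (h.Y0 y j)
    refine Le.trans (Le.ofEq ?_) h2
    rw [Matrix.mul_add, Finset.mul_sum]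
    simp only [Matrix.mul_assoc]

end

end Vale.Agent.P361.LRO.Bloch.H1
end

section

/-!
P361, Bloch's law for all spins: long windows with copies, the word induction.
-/

namespace Vale.Agent.P361.LRO.Bloch.H1

open Finset Matrix

set_option linter.unusedSectionVars false

noncomputable section

variable {V : Type} [Fintype V] [DecidableEq V] {X : Type} [Fintype X] [DecidableEq X]

/-- the weights after one more layer -/
def stepQ (s D : ℕ) (p : ℝ) (cX : X → X → ℕ) (q : X → ℕ → ℝ) : X → ℕ → ℝ := fun x j =>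
  (1 - p) ^ D * q x j + s * p * (1 - p) ^ (2 * D) *
    (if j = 0 then 0 else ∑ x', (cX x' x : ℝ) * q x' (j - 1))

theorem stepQ_smul (s D : ℕ) (p : ℝ) (cX : X → X → ℕ) (κ : ℝ) (q : X → ℕ → ℝ) :
    stepQ s D p cX (fun x j => κ * q x j) = fun x j => κ * stepQ s D p cX q x j := by
  funext x j
  unfold stepQ
  split_ifs
  · ring
  · rw [mul_add, Finset.mul_sum, Finset.mul_sum, Finset.mul_sum]
    congr 1
    · ring
    · exact Finset.sum_congr rfl fun x' _ => by ring

theorem gl_step {st : V → X} {s : ℕ} (hs : ∀ x, (univ.filter fun v => st v = x).card = s)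
    {C : MM V} (hC : Le 0 C) {B : ℝ} (hB : 0 ≤ B) {c : ℝ} {p : ℝ} (h0 : 0 ≤ p) (h1 : p ≤ 1)
    {D : ℕ} {E I : List (V × V)} (hE : ∀ e ∈ E, st e.1 ≠ st e.2) (hI : ∀ e ∈ I, st e.1 = st e.2)
    (hD : ∀ v, nE v E ≤ D) {cX : X → X → ℕ} (hc : ∀ y v, cE y v E = cX (st y) (st v))
    (hcc : s * (1 + 2 * D * p) ≤ c) {L : List (V × V)}
    (hgl : gl L p = (I.map fun e => Lt.gate e.1 e.2 p) ++ (E.map fun e => Lt.gate e.1 e.2 p))
    (J : ℕ) {w : List (Lt V)} (hw : ∀ l ∈ w, Ok l) {Q : MM V}
    {q : X → ℕ → ℝ} {a : ℝ} {Y W R : V → ℕ → MM V}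
    (hX : HXI st C B (gl L p ++ w) Q) (h : Inv st s C B c (gl L p ++ w) Q q a Y W R) :
    ∃ Y' W' R' : V → ℕ → MM V, Inv st s C B c w (Q * wd (gl L p))
      (stepQ s D p cX q) (a + s * D * p) Y' W' R' ∧ Le (SS J Y') (SS J Y * wd (gl L p)) := by
  rw [hgl, List.append_assoc] at h hX
  obtain ⟨Y1, W1, R1, h2, h3⟩ := intra_word h0 h1 J I hI h
  obtain ⟨Y2, W2, R2, h4, h5⟩ := inter_block hs hC hB h0 h1 E hE hD cX hc hcc hw hX.tail h2 J
  have e1 : ∀ M : MM V, M * wd (gl L p) = M * wd (I.map fun e => Lt.gate e.1 e.2 p) * GM p E := by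
    intro M
    rw [hgl, wd_append, Matrix.mul_assoc]
    rfl
  refine ⟨Y2, W2, R2, ?_, ?_⟩
  · rw [e1]
    exact h4
  · rw [e1]
    exact h5.trans (h3.mul_right (GM_nonneg h0 h1 E))

theorem mid_ind {st : V → X} {s : ℕ} (hs : ∀ x, (univ.filter fun v => st v = x).card = s)
    {C : MM V} (hC : Le 0 C) {B : ℝ} (hB : 0 ≤ B) {c : ℝ} {p : ℝ} (h0 : 0 ≤ p) (h1 : p ≤ 1)
    {D : ℕ} {E I : List (V × V)} (hE : ∀ e ∈ E, st e.1 ≠ st e.2) (hI : ∀ e ∈ I, st e.1 = st e.2)
    (hD : ∀ v, nE v E ≤ D) {cX : X → X → ℕ} (hc : ∀ y v, cE y v E = cX (st y) (st v))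
    (hcc : s * (1 + 2 * D * p) ≤ c) {L : List (V × V)}
    (hgl : gl L p = (I.map fun e => Lt.gate e.1 e.2 p) ++ (E.map fun e => Lt.gate e.1 e.2 p))
    {τ : ℝ} (hτ0 : 0 ≤ τ) (hτ1 : τ ≤ 1) {t : ℕ → V → ℝ} (ht : ∀ j z, 0 ≤ t j z ∧ t j z ≤ 1)
    (J : ℕ) {qs : ℕ → X → ℕ → ℝ} (hqs : ∀ k, qs (k + 1) = stepQ s D p cX (qs k)) (m : ℕ) :
    (∀ j z, 1 ≤ j → j ≤ m → t j z ≤ τ) → ∀ {w : List (Lt V)}, (∀ l ∈ w, Ok l) → ∀ {Q : MM V}
    {κ : ℝ} {k : ℕ} {a : ℝ} {Y W R : V → ℕ → MM V}, HXI st C B (mid L p t m ++ w) Q →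
    Inv st s C B c (mid L p t m ++ w) Q (fun x j => κ * qs k x j) a Y W R →
    ∃ Y' W' R' : V → ℕ → MM V, Inv st s C B c w (Q * wd (mid L p t m))
      (fun x j => κ * ((1 - τ) / (1 + τ)) ^ m * qs (k + m + 1) x j) (a + (m + 1) * (s * D * p))
      Y' W' R' ∧ Le (SS J Y') (SS J Y * wd (mid L p t m)) := by
  induction m with
  | zero =>
    intro _ w hw Q κ k a Y W R hX h
    simp only [mid] at hX h ⊢
    obtain ⟨Y1, W1, R1, h2, h3⟩ := gl_step hs hC hB h0 h1 hE hI hD hc hcc hgl J hw hX h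
    refine ⟨Y1, W1, R1, ?_, h3⟩
    rw [stepQ_smul, ← hqs] at h2
    have e1 : (fun x j => κ * ((1 - τ) / (1 + τ)) ^ 0 * qs (k + 0 + 1) x j) =
        fun x j => κ * qs (k + 1) x j := by
      funext x j
      rw [pow_zero, mul_one]
    have e2 : a + (((0 : ℕ) : ℝ) + 1) * (s * D * p) = a + s * D * p := by
      rw [Nat.cast_zero]; ring
    rw [e1, e2]
    exact h2
  | succ m ih =>
    intro hτ w hw Q κ k a Y W R hX h
    simp only [mid, List.append_assoc] at hX h
    have hwm : ∀ l ∈ mid L p t m ++ w, Ok l := by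
      intro l hl
      rw [List.mem_append] at hl
      rcases hl with hl | hl
      · exact ok_mid L h0 h1 ht m l hl
      · exact hw l hl
    have hwn : ∀ l ∈ nl (t (m + 1)) ++ (mid L p t m ++ w), Ok l := by
      intro l hl
      rw [List.mem_append] at hl
      rcases hl with hl | hl
      · exact ok_nl (ht _) l hl
      · exact hwm l hl
    obtain ⟨Y1, W1, R1, h2, h3⟩ := gl_step hs hC hB h0 h1 hE hI hD hc hcc hgl J hwn hX h
    rw [stepQ_smul, ← hqs] at h2
    obtain ⟨Y2, W2, R2, h4, h5⟩ := slices_step hτ0 hτ1 (fun z => (ht (m + 1) z).1)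
      (fun z => hτ (m + 1) z (by omega) le_rfl) h2 J
    have e0 : (fun x j => (1 - τ) / (1 + τ) * (κ * qs (k + 1) x j)) =
        fun x j => (1 - τ) / (1 + τ) * κ * qs (k + 1) x j := by
      funext x j; ring
    rw [e0] at h4
    obtain ⟨Y3, W3, R3, h6, h7⟩ := ih (fun j z hj hjm => hτ j z hj (by omega)) hw
      hX.tail.tail h4
    have e1 : ∀ M : MM V, M * wd (mid L p t (m + 1)) =
        M * wd (gl L p) * wd (nl (t (m + 1))) * wd (mid L p t m) := by
      intro M
      simp only [mid]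
      rw [wd_append, wd_append]
      simp only [Matrix.mul_assoc]
    refine ⟨Y3, W3, R3, ?_, ?_⟩
    · rw [e1]
      have e2 : (fun x j => κ * ((1 - τ) / (1 + τ)) ^ (m + 1) * qs (k + (m + 1) + 1) x j) =
          fun x j => (1 - τ) / (1 + τ) * κ * ((1 - τ) / (1 + τ)) ^ m * qs (k + 1 + m + 1) x j := by
        funext x j
        rw [show k + (m + 1) + 1 = k + 1 + m + 1 by omega, pow_succ]
        ring
      have e3 : a + (((m + 1 : ℕ) : ℝ) + 1) * (s * D * p) =
          a + s * D * p + ((m : ℝ) + 1) * (s * D * p) := by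
        push_cast; ring
      rw [e2, e3]
      exact h6
    · rw [e1]
      have hmn : Le 0 (wd (mid L p t m)) := wd_nonneg (ok_mid L h0 h1 ht m)
      have hnn : Le 0 (wd (nl (t (m + 1)))) := wd_nonneg (ok_nl (ht _))
      refine h7.trans (Le.mul_right ?_ hmn)
      exact h5.trans (h3.mul_right hnn)

/-- **Long windows with copies, trace form.** -/
theorem long_copies {st : V → X} {s : ℕ} (hs : ∀ x, (univ.filter fun v => st v = x).card = s)
    {A C : MM V} (hA : Le 0 A) (hC : Le 0 C) {p : ℝ} (h0 : 0 ≤ p) (h1 : p ≤ 1)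
    {D : ℕ} {E I : List (V × V)} (hE : ∀ e ∈ E, st e.1 ≠ st e.2) (hI : ∀ e ∈ I, st e.1 = st e.2)
    (hD : ∀ v, nE v E ≤ D) {cX : X → X → ℕ} (hc : ∀ y v, cE y v E = cX (st y) (st v))
    {L : List (V × V)}
    (hgl : gl L p = (I.map fun e => Lt.gate e.1 e.2 p) ++ (E.map fun e => Lt.gate e.1 e.2 p))
    {τ : ℝ} (hτ0 : 0 ≤ τ) (hτ1 : τ ≤ 1) {t : ℕ → V → ℝ} (ht : ∀ j z, 0 ≤ t j z ∧ t j z ≤ 1)
    (m : ℕ) (hτ : ∀ j z, 1 ≤ j → j ≤ m → t j z ≤ τ) (x y : V) {qs : ℕ → X → ℕ → ℝ}
    (hq0 : ∀ v j, qs 0 v j = if v = st x ∧ j = 0 then 1 else 0)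
    (hqs : ∀ k, qs (k + 1) = stepQ s D p cX (qs k)) {δ : ℝ} (hδ : 0 ≤ δ)
    (hX : HXI st C (δ * trace (A * wd (mid L p t m) * C)) (mid L p t m) A) (J : ℕ) :
    ((1 - τ) / (1 + τ)) ^ m * (∑ l ∈ Ico 1 J, qs (m + 1) (st y) l *
      (1 / s - δ * ((m + 1) * (s * D * p) + s * (1 + 2 * D * p) * l))) *
      trace (A * wd (mid L p t m) * C) ≤
      trace (A * sxM x * wd (mid L p t m) * (sxM y * C)) := by
  set w := mid L p t m with hw
  have hok : ∀ l ∈ w, Ok l := ok_mid L h0 h1 ht m
  have hwn : Le 0 (wd w) := wd_nonneg hok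
  have hZ : 0 ≤ trace (A * wd w * C) := by
    have := ((hA.zero_mul hwn).zero_mul hC).trace
    rwa [Matrix.trace_zero] at this
  have hB : 0 ≤ δ * trace (A * wd w * C) := mul_nonneg hδ hZ
  rcases Nat.eq_zero_or_pos J with hJ | hJ
  · subst hJ
    have e : Ico 1 0 = (∅ : Finset ℕ) := by simp
    rw [e, Finset.sum_empty, mul_zero, zero_mul]
    have := (((hA.zero_mul (sxM_nonneg x)).zero_mul hwn).zero_mul
      ((sxM_nonneg y).zero_mul hC)).trace
    rwa [Matrix.trace_zero] at this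
  set Y : V → ℕ → MM V := fun v j => if v = x ∧ j = 0 then A else 0 with hY
  have hYn : ∀ v j, Le 0 (Y v j) := by
    intro v j
    rw [hY]
    simp only
    split_ifs
    · exact hA
    · exact Le.refl 0
  have hSS : SS J Y = A * sxM x := by
    unfold SS
    rw [Finset.sum_eq_single x]
    · rw [Finset.sum_eq_single 0]
      · rw [hY]; simp
      · intro j _ hj
        rw [hY]; simp [hj]
      · intro h
        exact absurd (Finset.mem_range.2 hJ) h
    · intro v _ hv
      refine Finset.sum_eq_zero fun j _ => ?_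
      rw [hY]; simp [hv]
    · intro h
      exact absurd (Finset.mem_univ _) h
  have hInv : Inv st s C (δ * trace (A * wd w * C)) (s * (1 + 2 * D * p)) (w ++ []) A
      (fun v j => 1 * qs 0 v j) 0 Y Y (fun _ _ => 0) := by
    refine ⟨hA, fun v j => ?_, hYn, hYn, fun _ _ => Le.refl 0, fun v j => ?_, fun v j => ?_,
      fun v j hj => ?_, fun v j => ?_⟩
    · rw [hq0, one_mul]; split_ifs <;> norm_num
    · rw [sub_zero]; exact Le.refl _
    · rw [hq0, one_mul]
      by_cases hv : v = st x ∧ j = 0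
      · rw [if_pos hv, one_smul, Finset.sum_eq_single x]
        · rw [hY]; simp [hv.2]
        · intro u _ hu
          rw [hY]; simp [hu]
        · intro h
          exact absurd (Finset.mem_filter.2 ⟨Finset.mem_univ x, hv.1.symm⟩) h
      · rw [if_neg hv, zero_smul]
        refine Finset.sum_eq_zero fun u hu => ?_
        rw [hY]
        simp only
        rw [if_neg]
        rintro ⟨rfl, hj⟩
        exact hv ⟨(Finset.mem_filter.1 hu).2.symm, hj⟩
    · rw [hq0, hY]
      simp [hj]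
    · simp only [Matrix.zero_mul, Matrix.trace_zero, Finset.sum_const_zero]
      rw [hq0]
      split_ifs with hv
      · rw [hv.2]; simp
      · simp
  obtain ⟨Y', W', R', h2, h3⟩ := mid_ind hs hC hB h0 h1 hE hI hD hc le_rfl hgl hτ0 hτ1 ht J hqs m
    hτ (w := []) (by simp) (by rw [← hw, List.append_nil]; exact hX) (by rw [← hw]; exact hInv)
  rw [← hw] at h2 h3
  rw [hSS] at h3
  have hsC : Le 0 ((sxM y : MM V) * C) := (sxM_nonneg y).zero_mul hC
  have h4 := (h3.mul_right hsC).trace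
  refine le_trans ?_ h4
  have hsx : (sxM y : MM V) * sxM y = 1 := by
    ext σ τ
    rw [Matrix.mul_apply, Finset.sum_eq_single (Function.update τ y (1 - τ y))]
    · have e : Function.update (Function.update τ y (1 - τ y)) y
          (1 - (Function.update τ y (1 - τ y)) y) = τ := by
        funext v
        rcases eq_or_ne v y with rfl | hv
        · simp
        · simp [Function.update_of_ne hv]
      simp only [sxM, Matrix.of_apply, if_true, mul_one, e, Matrix.one_apply]
    · intro ρ _ hρ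
      simp [sxM, hρ]
    · intro h
      exact absurd (Finset.mem_univ _) h
  have h5 : ∑ j ∈ range J, trace (Y' y j * C) ≤ trace (SS J Y' * (sxM y * C)) := by
    unfold SS
    rw [Finset.sum_mul, Matrix.trace_sum,
      ← Finset.add_sum_erase Finset.univ _ (Finset.mem_univ y)]
    have h6 : trace ((∑ j ∈ range J, Y' y j * sxM y) * (sxM y * C)) =
        ∑ j ∈ range J, trace (Y' y j * C) := by
      rw [Finset.sum_mul, Matrix.trace_sum]
      refine Finset.sum_congr rfl fun j _ => ?_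
      rw [Matrix.mul_assoc, ← Matrix.mul_assoc (sxM y) (sxM y) C, hsx, Matrix.one_mul]
    rw [h6]
    have h7 : 0 ≤ ∑ v ∈ Finset.univ.erase y,
        trace ((∑ j ∈ range J, Y' v j * sxM v) * (sxM y * C)) := by
      refine Finset.sum_nonneg fun v _ => ?_
      have := ((Le.zero_sum fun j _ => (h2.Y0 v j).zero_mul
        (sxM_nonneg v)).zero_mul hsC (A := ∑ j ∈ range J, Y' v j * sxM v)).trace
      rwa [Matrix.trace_zero] at this
    linarith
  have h8 : ∑ j ∈ Ico 1 J, trace (Y' y j * C) ≤ ∑ j ∈ range J, trace (Y' y j * C) := by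
    refine Finset.sum_le_sum_of_subset_of_nonneg (fun j hj => ?_) fun j _ _ => ?_
    · rw [Finset.mem_Ico] at hj
      exact Finset.mem_range.2 hj.2
    · have := ((h2.Y0 y j).zero_mul hC).trace
      rwa [Matrix.trace_zero] at this
  refine le_trans ?_ (h8.trans h5)
  rw [Finset.mul_sum, Finset.sum_mul]
  refine Finset.sum_le_sum fun j hj => ?_
  have hj0 : j ≠ 0 := by
    rw [Finset.mem_Ico] at hj
    omega
  have h9 := ((h2.YW y j).mul_right hC).trace
  rw [Matrix.sub_mul, Matrix.trace_sub, h2.unif y j hj0, Matrix.smul_mul, Matrix.trace_smul,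
    smul_eq_mul] at h9
  have h10 := h2.RT (st y) j
  have h11 : trace (R' y j * C) ≤ ∑ v with st v = st y, trace (R' v j * wd [] * C) := by
    have e1 : wd ([] : List (Lt V)) = 1 := by simp [wd]
    rw [e1]
    simp only [Matrix.mul_one]
    refine Finset.single_le_sum (f := fun v => trace (R' v j * C)) (fun v _ => ?_)
      (Finset.mem_filter.2 ⟨Finset.mem_univ y, rfl⟩)
    have := ((h2.R0 v j).zero_mul hC).trace
    rwa [Matrix.trace_zero] at this
  have e0 : (0 : ℕ) + m + 1 = m + 1 := by omega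
  rw [e0] at h9 h10
  refine le_trans (le_of_eq ?_) ((sub_le_sub_left (h11.trans h10) _).trans h9)
  ring

end

end Vale.Agent.P361.LRO.Bloch.H1
end

section

/-!
P361, Bloch's law for all spins: counting the gates between different sites.
-/

namespace Vale.Agent.P361.LRO.Bloch.H1.C527

open Finset Matrix Vale.Agent.P361.LRO.GenS Vale.Agent.P361.LRO.S3S.KerS

set_option linter.unusedSectionVars false

noncomputable section

variable {V : Type} [Fintype V] [DecidableEq V]

theorem cE_sum (y v : V) (E : List (V × V)) : cE y v E =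
    (E.map fun e => if (y = e.1 ∨ y = e.2) ∧ v = Equiv.swap e.1 e.2 y then 1 else 0).sum := by
  induction E with
  | nil => simp [cE]
  | cons e E ih => simp [cE, ih]

theorem nE_sum (y : V) (E : List (V × V)) : nE y E =
    (E.map fun e => if y = e.1 ∨ y = e.2 then 1 else 0).sum := by
  induction E with
  | nil => simp [nE]
  | cons e E ih => simp [nE, ih]

variable {n s : ℕ} [NeZero n]

theorem sum_interE_map (f : (Tor n × Fin s) × (Tor n × Fin s) → ℕ) :
    ((interE n s).map f).sum =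
      ∑ d : Fin 3, ∑ z : Tor n, ∑ i : Fin s, ∑ j : Fin s, f ((z, i), (z + Pi.single d 1, j)) := by
  have hf : ∀ g : Fin s → ℕ, ((List.finRange s).map g).sum = ∑ i, g i := by
    intro g
    rw [← List.sum_ofFn, List.ofFn_eq_map]
  have h0 : ∀ (l : List (Tor n × Tor n)),
      ((l.flatMap fun e => (List.finRange s).flatMap fun i => (List.finRange s).map fun j =>
        ((e.1, i), (e.2, j))).map f).sum =
      (l.map fun e => ∑ i : Fin s, ∑ j : Fin s, f ((e.1, i), (e.2, j))).sum := by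
    intro l
    induction l with
    | nil => simp
    | cons e l ih =>
      rw [List.flatMap_cons, List.map_append, List.sum_append, ih, List.map_cons, List.sum_cons]
      congr 1
      rw [List.map_flatMap, ← hf]
      have h4 : ∀ (q : List (Fin s)) (F : Fin s → List ℕ),
          (q.flatMap F).sum = (q.map fun i => (F i).sum).sum := by
        intro q F
        induction q with
        | nil => simp
        | cons a q ih => rw [List.flatMap_cons, List.sum_append, ih, List.map_cons, List.sum_cons]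
      rw [h4]
      congr 1
      refine List.map_congr_left fun i _ => ?_
      rw [List.map_map, ← hf]
      rfl
  unfold interE
  rw [h0]
  unfold edges
  rw [List.map_map]
  have h1 := Finset.sum_map_toList (Finset.univ : Finset (Tor n × Fin 3))
    (fun z => ∑ i : Fin s, ∑ j : Fin s, f ((z.1, i), (z.1 + Pi.single z.2 1, j)))
  have h2 : ((fun e : Tor n × Tor n => ∑ i : Fin s, ∑ j : Fin s, f ((e.1, i), (e.2, j))) ∘
      fun z : Tor n × Fin 3 => (z.1, z.1 + Pi.single z.2 1)) =
      fun z => ∑ i : Fin s, ∑ j : Fin s, f ((z.1, i), (z.1 + Pi.single z.2 1, j)) := rfl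
  rw [h2, h1, Fintype.sum_prod_type, Finset.sum_comm]

theorem sum_reverse_map (f : (Tor n × Fin s) × (Tor n × Fin s) → ℕ)
    (E : List ((Tor n × Fin s) × (Tor n × Fin s))) :
    (E.reverse.map f).sum = (E.map f).sum := by
  rw [List.map_reverse, List.sum_reverse]

theorem single_ne {n : ℕ} (hn : 2 ≤ n) (d : Fin 3) : (Pi.single d 1 : Tor n) ≠ 0 := by
  intro h
  have := congrFun h d
  rw [Pi.single_eq_same, Pi.zero_apply] at this
  have : Fact (1 < n) := ⟨hn⟩
  exact one_ne_zero ‹_›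

/-- Every copy is touched by at most `6 s` gates. -/
theorem nE_inter (v : Tor n × Fin s) : nE v (interE n s).reverse ≤ 6 * s := by
  rw [nE_sum, sum_reverse_map, sum_interE_map]
  have h1 : ∀ (d : Fin 3) (z : Tor n) (i j : Fin s),
      (if v = (z, i) ∨ v = (z + Pi.single d 1, j) then 1 else 0) ≤
      (if z = v.1 then (if i = v.2 then 1 else 0) else 0) +
      (if z = v.1 - Pi.single d 1 then (if j = v.2 then 1 else 0) else 0) := by
    intro d z i j
    obtain ⟨x, a⟩ := v
    simp only [Prod.mk.injEq]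
    by_cases h : x = z ∧ a = i
    · obtain ⟨rfl, rfl⟩ := h
      simp
    · by_cases h' : x = z + Pi.single d 1 ∧ a = j
      · obtain ⟨rfl, rfl⟩ := h'
        have : z = z + Pi.single d 1 - Pi.single d 1 := by abel
        simp
      · rw [if_neg (by tauto)]
        exact Nat.zero_le _
  refine (Finset.sum_le_sum fun d _ => Finset.sum_le_sum fun z _ => Finset.sum_le_sum fun i _ =>
    Finset.sum_le_sum fun j _ => h1 d z i j).trans ?_
  have h2 : ∀ d : Fin 3, ∑ z : Tor n, ∑ i : Fin s, ∑ j : Fin s,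
      ((if z = v.1 then (if i = v.2 then 1 else 0) else 0) +
      (if z = v.1 - Pi.single d 1 then (if j = v.2 then 1 else 0) else 0)) = 2 * s := by
    intro d
    simp only [Finset.sum_add_distrib, Finset.sum_const, Finset.card_univ, Fintype.card_fin,
      smul_eq_mul]
    have e1 : ∀ z : Tor n, ∑ i : Fin s, s * (if z = v.1 then (if i = v.2 then 1 else 0) else 0) =
        if z = v.1 then s else 0 := by
      intro z
      by_cases hz : z = v.1
      · simp [hz]
      · simp [hz]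
    have e2 : ∀ z : Tor n, s * ∑ j : Fin s,
        (if z = v.1 - Pi.single d 1 then (if j = v.2 then 1 else 0) else 0) =
        if z = v.1 - Pi.single d 1 then s else 0 := by
      intro z
      by_cases hz : z = v.1 - Pi.single d 1
      · simp [hz]
      · simp [hz]
    rw [Finset.sum_congr rfl fun z _ => e1 z, Finset.sum_congr rfl fun z _ => e2 z]
    simp
    ring
  rw [Finset.sum_congr rfl fun d _ => h2 d, Finset.sum_const, Finset.card_univ, Fintype.card_fin,
    smul_eq_mul]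
  omega

/-- Number of edges between two sites. -/
def cT (n : ℕ) [NeZero n] (x' x : Tor n) : ℕ :=
  ∑ d : Fin 3, ((if x' = x + Pi.single d 1 then 1 else 0) +
    (if x' = x - Pi.single d 1 then 1 else 0))

theorem cE_inter (hn : 2 ≤ n) (y v : Tor n × Fin s) :
    cE y v (interE n s).reverse = cT n y.1 v.1 := by
  rw [cE_sum, sum_reverse_map, sum_interE_map]
  unfold cT
  refine Finset.sum_congr rfl fun d _ => ?_
  obtain ⟨y, b⟩ := y
  obtain ⟨x, a⟩ := v
  have hne : ∀ (z : Tor n) (i j : Fin s), ((z, i) : Tor n × Fin s) ≠ (z + Pi.single d 1, j) := by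
    intro z i j h
    have h2 := congrArg Prod.fst h
    exact single_ne hn d (left_eq_add.1 h2)
  have h1 : ∀ (z : Tor n) (i j : Fin s),
      (if ((y, b) = (z, i) ∨ (y, b) = (z + Pi.single d 1, j)) ∧
        (x, a) = Equiv.swap (z, i) (z + Pi.single d 1, j) (y, b) then 1 else 0) =
      (if z = x then (if i = a then (if j = b then
        (if y = x + Pi.single d 1 then 1 else 0) else 0) else 0) else 0) +
      (if z = y then (if i = b then (if j = a then
        (if y = x - Pi.single d 1 then 1 else 0) else 0) else 0) else 0) := by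
    intro z i j
    by_cases hA : (y, b) = ((z, i) : Tor n × Fin s)
    · have hy : y = z := congrArg Prod.fst hA
      have hb : b = i := congrArg Prod.snd hA
      subst hy hb
      rw [Equiv.swap_apply_left]
      have e1 : ¬ (y = x ∧ y = x + Pi.single d 1) := by
        rintro ⟨h1, h2⟩
        rw [h1] at h2
        exact single_ne hn d (left_eq_add.1 h2)
      have e2 : (((y, b) = ((y, b) : Tor n × Fin s) ∨ (y, b) = (y + Pi.single d 1, j)) ∧
          (x, a) = ((y + Pi.single d 1, j) : Tor n × Fin s)) ↔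
          (j = a ∧ y = x - Pi.single d 1) := by
        simp only [true_or, true_and, Prod.mk.injEq]
        constructor
        · rintro ⟨h1, h2⟩; exact ⟨h2.symm, by rw [h1]; abel⟩
        · rintro ⟨h1, h2⟩; exact ⟨by rw [h2]; abel, h1.symm⟩
      have e3 : (if y = x then (if b = a then (if j = b then
          (if y = x + Pi.single d 1 then (1:ℕ) else 0) else 0) else 0) else 0) = 0 := by
        by_cases h1 : y = x
        · rw [if_pos h1]
          have : ¬ (y = x + Pi.single d 1) := fun h2 => e1 ⟨h1, h2⟩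
          simp [this]
        · rw [if_neg h1]
      rw [if_congr e2 rfl rfl, e3, zero_add, if_pos (rfl : y = y), if_pos (rfl : b = b), ite_and]
    · by_cases hB : (y, b) = ((z + Pi.single d 1, j) : Tor n × Fin s)
      · have hy : y = z + Pi.single d 1 := congrArg Prod.fst hB
        have hb : b = j := congrArg Prod.snd hB
        subst hy hb
        rw [Equiv.swap_apply_right]
        have hz : ¬ z = z + Pi.single d 1 := fun h => single_ne hn d (left_eq_add.1 h)
        have e2 : (((z + Pi.single d 1, b) = ((z, i) : Tor n × Fin s) ∨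
            (z + Pi.single d 1, b) = ((z + Pi.single d 1, b) : Tor n × Fin s)) ∧
            (x, a) = ((z, i) : Tor n × Fin s)) ↔ (z = x ∧ i = a) := by
          simp only [or_true, true_and, Prod.mk.injEq]
          constructor
          · rintro ⟨h1, h2⟩; exact ⟨h1.symm, h2.symm⟩
          · rintro ⟨h1, h2⟩; exact ⟨h1.symm, h2.symm⟩
        rw [if_congr e2 rfl rfl, if_neg hz, add_zero, ite_and]
        by_cases h1 : z = x
        · rw [if_pos h1, if_pos h1, if_pos (rfl : b = b), h1, if_pos rfl]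
        · rw [if_neg h1, if_neg h1]
      · rw [if_neg (by tauto)]
        symm
        rw [Nat.add_eq_zero_iff]
        constructor
        · by_cases h1 : z = x
          · by_cases h2 : j = b
            · have : ¬ (y = x + Pi.single d 1) := by
                intro h3
                apply hB
                rw [h3, h1, h2]
              simp [this]
            · simp [h2]
          · rw [if_neg h1]
        · by_cases h1 : z = y
          · by_cases h2 : i = b
            · exact absurd (by rw [h1, h2]) hA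
            · simp [h2]
          · rw [if_neg h1]
  simp only [h1]
  simp only [Finset.sum_add_distrib]
  congr 1
  · have e1 : ∀ z : Tor n, ∑ i : Fin s, ∑ j : Fin s, (if z = x then (if i = a then (if j = b then
        (if y = x + Pi.single d 1 then (1:ℕ) else 0) else 0) else 0) else 0) =
        if z = x then (if y = x + Pi.single d 1 then 1 else 0) else 0 := by
      intro z
      by_cases hz : z = x
      · simp [hz]
      · simp [hz]
    rw [Finset.sum_congr rfl fun z _ => e1 z]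
    simp
  · have e1 : ∀ z : Tor n, ∑ i : Fin s, ∑ j : Fin s, (if z = y then (if i = b then (if j = a then
        (if y = x - Pi.single d 1 then (1:ℕ) else 0) else 0) else 0) else 0) =
        if z = y then (if y = x - Pi.single d 1 then 1 else 0) else 0 := by
      intro z
      by_cases hz : z = y
      · simp [hz]
      · simp [hz]
    rw [Finset.sum_congr rfl fun z _ => e1 z]
    simp

theorem sum_cT (q : Tor n → ℝ) (x : Tor n) : ∑ x', (cT n x' x : ℝ) * q x' = Vale.Agent.P361.LRO.S3S.KerS.nb q x := by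
  unfold cT Vale.Agent.P361.LRO.S3S.KerS.nb
  have h1 : ∀ x', ((∑ d : Fin 3, ((if x' = x + Pi.single d 1 then 1 else 0) +
      (if x' = x - Pi.single d 1 then 1 else 0)) : ℕ) : ℝ) * q x' =
      ∑ d : Fin 3, ((if x' = x + Pi.single d 1 then q x' else 0) +
        (if x' = x - Pi.single d 1 then q x' else 0)) := by
    intro x'
    push_cast
    rw [Finset.sum_mul]
    refine Finset.sum_congr rfl fun d _ => ?_
    split_ifs <;> ring
  simp only [h1]
  rw [Finset.sum_comm]
  refine Finset.sum_congr rfl fun d _ => ?_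
  rw [Finset.sum_add_distrib, Finset.sum_ite_eq', Finset.sum_ite_eq']
  simp

theorem inter_ne (hn : 2 ≤ n) : ∀ e ∈ (interE n s).reverse, e.1.1 ≠ e.2.1 := by
  intro e he
  rw [List.mem_reverse] at he
  unfold interE at he
  simp only [List.mem_flatMap, List.mem_map] at he
  obtain ⟨e', he', i, -, j, -, rfl⟩ := he
  unfold edges at he'
  obtain ⟨z, -, rfl⟩ := List.mem_map.1 he'
  intro h
  exact single_ne hn z.2 (left_eq_add.1 h)

theorem intra_eq (M : ℕ) : ∀ e ∈ ((List.replicate M (intraE n s)).flatten).reverse,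
    e.1.1 = e.2.1 := by
  intro e he
  rw [List.mem_reverse, List.mem_flatten] at he
  obtain ⟨l, hl, he⟩ := he
  rw [List.eq_of_mem_replicate hl] at he
  unfold intraE at he
  obtain ⟨z, -, rfl⟩ := List.mem_map.1 he
  rfl

theorem gl_edgesS (M : ℕ) (p : ℝ) : gl (edgesS n s M) p =
    ((((List.replicate M (intraE n s)).flatten).reverse).map fun e => Lt.gate e.1 e.2 p) ++
      ((interE n s).reverse.map fun e => Lt.gate e.1 e.2 p) := by
  unfold gl edgesS
  rw [List.reverse_append, List.map_append]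

end

end Vale.Agent.P361.LRO.Bloch.H1.C527
end

section

/-!
P361, low-temperature order: the step of the bootstrap from the blocks.
-/

namespace Vale.Agent.P361.LRO

open Filter Finset Matrix

noncomputable section

/-- in the cube the field varies slowly -/
theorem fam_log {n : ℕ} [NeZero n] {h0 lam : ℝ} {h : Tor n → ℝ} (hh : Fam n h0 lam h)
    (h0p : 0 < h0) (x : Tor n) (i : Fin 3) :
    |Real.log (h (x + Pi.single i 1)) - Real.log (h x)| ≤ lam := by
  have hp : ∀ y, 0 < h y := fun y => h0p.trans_le (hh.1 y).1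
  obtain ⟨h1, h2⟩ := hh.2 x i
  have h3 := Real.log_le_log (hp _) h1
  have h4 := Real.log_le_log (hp _) h2
  rw [Real.log_mul (Real.exp_pos _).ne' (hp _).ne', Real.log_exp] at h3 h4
  rw [abs_le]
  constructor <;> linarith

theorem fam_log_nat {n : ℕ} [NeZero n] {h0 lam : ℝ} {h : Tor n → ℝ} (hh : Fam n h0 lam h)
    (h0p : 0 < h0) (i : Fin 3) (k : ℕ) (x : Tor n) :
    |Real.log (h (x + Pi.single i (k : ZMod n))) - Real.log (h x)| ≤ k * lam := by
  induction k with
  | zero =>
    rw [Nat.cast_zero, Pi.single_zero, add_zero, sub_self, abs_zero, Nat.cast_zero, zero_mul]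
  | succ k ih =>
    have h1 : x + Pi.single i ((k + 1 : ℕ) : ZMod n) =
        x + Pi.single i (k : ZMod n) + Pi.single i 1 := by
      rw [Nat.cast_succ, Pi.single_add, add_assoc]
    rw [h1]
    have h2 := fam_log hh h0p (x + Pi.single i (k : ZMod n)) i
    have h3 := abs_add_le (Real.log (h (x + Pi.single i (k : ZMod n) + Pi.single i 1)) -
      Real.log (h (x + Pi.single i (k : ZMod n))))
      (Real.log (h (x + Pi.single i (k : ZMod n))) - Real.log (h x))
    rw [sub_add_sub_cancel] at h3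
    push_cast
    linarith

theorem fam_log_vec {n : ℕ} [NeZero n] {h0 lam : ℝ} {h : Tor n → ℝ} (hh : Fam n h0 lam h)
    (h0p : 0 < h0) (l : ℕ) (k : Fin 3 → ℕ) (hk : ∀ i, k i ≤ l) (hlam : 0 ≤ lam) (x : Tor n) :
    |Real.log (h (x + fun i => (k i : ZMod n))) - Real.log (h x)| ≤ 3 * l * lam := by
  have h1 : (x + fun i => (k i : ZMod n)) = x + Pi.single 0 (k 0 : ZMod n) +
      Pi.single 1 (k 1 : ZMod n) + Pi.single 2 (k 2 : ZMod n) := by
    funext i
    fin_cases i <;> simp
  rw [h1]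
  have e0 := fam_log_nat hh h0p 0 (k 0) x
  have e1 := fam_log_nat hh h0p 1 (k 1) (x + Pi.single 0 (k 0 : ZMod n))
  have e2 := fam_log_nat hh h0p 2 (k 2) (x + Pi.single 0 (k 0 : ZMod n) +
    Pi.single 1 (k 1 : ZMod n))
  have hb : ∀ i, (k i : ℝ) * lam ≤ l * lam := fun i =>
    mul_le_mul_of_nonneg_right (by exact_mod_cast hk i) hlam
  have b0 := hb 0
  have b1 := hb 1
  have b2 := hb 2
  rw [abs_le] at *
  constructor <;> linarith [e0.1, e0.2, e1.1, e1.2, e2.1, e2.2]

end

end Vale.Agent.P361.LRO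
end

section

/-!
P361, low-temperature order: the bootstrap from the interface statements.
-/

namespace Vale.Agent.P361.LRO

open Filter Finset Matrix

noncomputable section

/-! ### The parameters -/

/-! ### The bootstrap -/

end

end Vale.Agent.P361.LRO
end

section

/-!
P361 LRO, all spins: the bootstrap from the interface statements.
-/

namespace Vale.Agent.P361.LRO.GenS

open Finset Matrix Filter Topology

noncomputable section

theorem card_cubeS {n s w : ℕ} (hwn : w ≤ n) (z : Tor n) : (cubeS n s z w).card = w ^ 3 * s := by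
  unfold cubeS
  rw [Finset.card_product, Finset.card_univ, Fintype.card_fin]
  congr 1
  unfold cube
  rw [Finset.card_image_of_injective, Finset.card_univ, Fintype.card_fun, Fintype.card_fin,
    Fintype.card_fin]
  intro a b hab
  have h2 := add_left_cancel hab
  funext i
  have h3 := congrFun h2 i
  have h4 : ((a i : ℕ) : ZMod n) = ((b i : ℕ) : ZMod n) := h3
  rw [ZMod.natCast_eq_natCast_iff'] at h4
  rw [Nat.mod_eq_of_lt ((a i).2.trans_le hwn), Nat.mod_eq_of_lt ((b i).2.trans_le hwn)] at h4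
  exact Fin.ext h4

end

end Vale.Agent.P361.LRO.GenS
end

section

/-!
P361 LRO, all spins: the start of the bootstrap (`h ≡ 1`).
-/

namespace Vale.Agent.P361.LRO.GenS

open Finset Matrix Filter Topology

noncomputable section

end

end Vale.Agent.P361.LRO.GenS
end

section

/-!
P361 LRO, all spins: from the bootstrap on `Tor n × Fin s` to the spontaneous magnetization of the
spin `s / 2` model.
-/

namespace Vale.Agent.P361.LRO.GenS

open Finset Matrix Filter Topology

noncomputable section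

/-- (M4), the limit `M → ∞` of the total magnetization on the torus. -/
def LimStmtS (s : ℕ) : Prop :=
  ∀ (n : ℕ) [NeZero n], 3 ≤ n → ∀ β h : ℝ, 0 < β → 0 < h →
    Tendsto (fun M : ℕ => ∑ z : Tor n × Fin s, (1 / 2 - rho (edgesS n s M) β (hS fun _ => h) z))
      atTop (𝓝 (gibbsMagV s (torusAdj n) β h))

end

end Vale.Agent.P361.LRO.GenS
end
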