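import Mathlib
import Vale.Agent.P361.Bd6.B7
import Vale.Agent.P361.Bd6.B9
import Vale.Agent.P361.Bd6.B6
import Vale.Agent.P361.Bd6.B1
import Vale.Agent.P361.Bd6.B3
import Vale.Agent.P361.Bd6.B8
import Vale.Agent.P361.Bd6.B4
import Vale.Agent.P361.Bd6.B5
import Vale.Agent.P361.Bd6.B2

set_option linter.all false

section

/-!
Model-level forms of the results on the magnetization in a field.
-/

namespace Vale.Agent.P361.BridgeB

open Filter Topology MeasureTheory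

theorem mag_uniform (n : ℕ) (hn : 1 ≤ n) (κ : ℝ) (hκ2 : κ < 1 / 21) (ε : ℝ) (hε : 0 < ε) :
    ∀ᶠ β : ℝ in atTop, ∀ h : ℝ, β ^ (-1 - κ) ≤ h →
      |β ^ (3 / 2 : ℝ) * ((n : ℝ) / 2 - Model.mag n β h) -
        Model.idealDeficit ((n : ℝ) / 2) (β * h)| ≤ ε := by
  have hS : 0 < (n : ℝ) / 2 := by
    have : (1 : ℝ) ≤ n := by exact_mod_cast hn
    linarith
  simp only [mag_eq, ideal_eq hS]
  exact B.bloch_uniform hn hκ2 hε

end Vale.Agent.P361.BridgeB
end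

section

/-!
P361 LRO, stage 3, all spins: `LocalStmt3S` from the long-window bound `CCgeS` and the defect
bound `DeltaStmt`.
-/

namespace Vale.Agent.P361.LRO.S3S

open Finset Vale.Agent.P361.LRO _root_.P361.LRO Vale.Agent.P361.LRO.Ind
  Vale.Agent.P361.LRO.Ind3 Vale.Agent.P361.LRO.GenS

noncomputable section

/-- **The local instance for all spins.** -/
theorem localStmt3S_of {s : ℕ} (hs : 0 < s) (hCC : CCgeS s) (hΔ : DeltaStmt) :
    LocalStmt3S s := by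
  obtain ⟨c1, hc1, H⟩ := localC3_inst s hs hCC hΔ
  refine ⟨c1, hc1, fun C7 Lam hC7 hLam => ?_⟩
  have hsr : (1 : ℝ) ≤ s := by exact_mod_cast hs
  obtain ⟨β0, hβ08, H⟩ := H (C7 + Lam * C7) (by positivity)
  refine ⟨β0, fun β hβ => ⟨2, ?_⟩⟩
  intro n _ hn M e K b he1 he2 hK1 hKL hKb
  have hβ8 : 8 ≤ β := hβ08.trans hβ
  have hβp : 0 < β := by linarith
  have hη : 0 < C7 * β ^ (-(3 / 2) : ℝ) := by
    have := Real.rpow_pos_of_pos hβp (-(3 / 2) : ℝ)
    positivity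
  have hprod : β ^ (3 / 2 : ℝ) * β ^ (-(3 / 2) : ℝ) = 1 := by
    rw [← Real.rpow_add hβp]
    norm_num
  have hKη : K * (C7 * β ^ (-(3 / 2) : ℝ)) ≤ C7 + Lam * C7 := by
    have h1 : K * (C7 * β ^ (-(3 / 2) : ℝ)) ≤ (Lam * β ^ (3 / 2 : ℝ)) *
        (C7 * β ^ (-(3 / 2) : ℝ)) := mul_le_mul_of_nonneg_right hKL hη.le
    have h2 : (Lam * β ^ (3 / 2 : ℝ)) * (C7 * β ^ (-(3 / 2) : ℝ)) =
        Lam * C7 * (β ^ (3 / 2 : ℝ) * β ^ (-(3 / 2) : ℝ)) := by ring
    rw [h2, hprod, mul_one] at h1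
    linarith
  have hbp : (0 : ℝ) < b.card := by linarith
  have hbn : b.Nonempty := by
    rw [← Finset.card_pos]
    exact_mod_cast hbp
  have hsq : β ^ (1 / 2 : ℝ) = √β := (Real.sqrt_eq_rpow β).symm
  rw [hsq] at he1 he2
  obtain ⟨N0, H⟩ := H β hβ e n M K (C7 * β ^ (-(3 / 2) : ℝ)) b hn he2 (by
      have : (0 : ℝ) < 3 ^ e := by positivity
      linarith) (by linarith) (by nlinarith) hbn hη
    (mul_le_mul_of_nonneg_right (by nlinarith) (Real.rpow_pos_of_pos hβp _).le) hKη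
  refine ⟨max N0 1, fun W hW g hg hrho => ?_⟩
  have hW0 : N0 ≤ 4 * W := by
    have := (le_max_left N0 1).trans hW
    omega
  have hW1 : 0 < W := (le_max_right N0 1).trans hW
  have h := H (4 * W) W hW0 rfl g (fun x => ⟨(hg x).1.le, (hg x).2⟩) hrho
  rw [th_scaledS hs hβp] at h
  exact local3_slots hs hW1 h

end

end Vale.Agent.P361.LRO.S3S
end

section

/-!
# P361 LRO, block (6), package GEOB: the distance to a cube of the torus
-/

set_option linter.all false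

namespace Vale.Agent.P361.LRO.Ind

open Finset Vale.Agent.P361.LRO _root_.P361.LRO

end Vale.Agent.P361.LRO.Ind
end

section

/-!
P361 LRO, block (6), leaf S2: one step of the induction over scales, before lowering.
-/

namespace Vale.Agent.P361.LRO.Ind

open Finset Vale.Agent.P361.LRO _root_.P361.LRO

theorem sm_lay_ne_zero {N W m w j : ℕ} (hN : N = m * W) (hw : w < m) (hj : j < W) :
    lay N W w j ≠ 0 := by
  have h : 1 + w * W + j < N + 1 := by
    have h1 : (w + 1) * W ≤ m * W := Nat.mul_le_mul_right W hw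
    have h2 : (w + 1) * W = w * W + W := by ring
    omega
  unfold lay
  rw [dif_pos h]
  intro h0
  have h1 := congrArg Fin.val h0
  simp only [Fin.val_zero] at h1
  omega

theorem sm_mem_EE6 {n N : ℕ} [NeZero n] {o : Tor n} {b : Finset (Tor n)} {r : ℕ}
    {k : Fin (N + 1)} {x : Tor n} (hk : k ≠ 0) (hx : x ∈ cube n o r) :
    (k, x) ∈ EE6 n N o b r := by
  unfold EE6
  refine Finset.mem_union_right _ ?_
  simp [hk, hx]

theorem sm_E4_nonneg (S T : ℕ) (U : ℕ → ℕ → ℕ → ℕ → ℝ) : 0 ≤ E4 S T U := by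
  unfold E4 Esp Eti
  have h : ∀ (A B C D : Finset ℕ) (f : ℕ → ℕ → ℕ → ℕ → ℝ),
      0 ≤ ∑ x ∈ A, ∑ y ∈ B, ∑ z ∈ C, ∑ w ∈ D, (f x y z w) ^ 2 := fun A B C D f =>
    Finset.sum_nonneg fun _ _ => Finset.sum_nonneg fun _ _ => Finset.sum_nonneg fun _ _ =>
      Finset.sum_nonneg fun _ _ => sq_nonneg _
  exact add_nonneg (add_nonneg (add_nonneg
    (h _ _ _ _ fun x y z w => U (x + 1) y z w - U x y z w)
    (h _ _ _ _ fun x y z w => U x (y + 1) z w - U x y z w))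
    (h _ _ _ _ fun x y z w => U x y (z + 1) w - U x y z w))
    (h _ _ _ _ fun x y z w => U x y z (w + 1) - U x y z w)

theorem sm_netK_nonneg {X : Type} [Fintype X] {c : X → X → ℝ} (hc : ∀ u v, 0 ≤ c u v)
    (a : X → ℝ) : 0 ≤ netK c a := by
  unfold netK
  refine mul_nonneg (by norm_num) (Finset.sum_nonneg fun x _ => Finset.sum_nonneg fun y _ => ?_)
  exact mul_nonneg (hc _ _) (sq_nonneg _)

end Vale.Agent.P361.LRO.Ind
end

section

/-!
P361 LRO, stage 3, network chapter on cells, leaf S2: one step of the induction over scales.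
-/

namespace Vale.Agent.P361.LRO.Ind3

open Finset Vale.Agent.P361.LRO _root_.P361.LRO Vale.Agent.P361.LRO.Ind

/-- cell averages are `1` over the electrode. -/
theorem sm3_UC_one {n N e : ℕ} [NeZero n] (hN : 0 < N) {o : Tor n}
    {b : Finset (Tor n)} {r : ℕ} (her : e ≤ r) {a : Nd n N → ℝ}
    (ha : ∀ z ∈ EE6 n N o b (3 ^ r), a z = 1)
    {x y z : ℕ} (hx : x < 3 ^ (r - e)) (hy : y < 3 ^ (r - e)) (hz : z < 3 ^ (r - e)) :
    UC n N e o a x y z = 1 := by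
  have hcell : ∀ (u i : ℕ), u < 3 ^ (r - e) → i < 3 ^ e → 3 ^ e * u + i < 3 ^ r := by
    intro u i hu hi
    have h1 : 3 ^ e * (u + 1) ≤ 3 ^ e * 3 ^ (r - e) := Nat.mul_le_mul_left _ hu
    have h2 : (3 : ℕ) ^ e * 3 ^ (r - e) = 3 ^ r := by
      rw [← pow_add, Nat.add_sub_cancel' her]
    have h3 : 3 ^ e * (u + 1) = 3 ^ e * u + 3 ^ e := by ring
    omega
  unfold UC
  have h1 : ∀ i ∈ range (3 ^ e), ∀ j ∈ range (3 ^ e), ∀ k ∈ range (3 ^ e), ∀ t ∈ range N,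
      a (lay N N 0 t, pt n o (3 ^ e * x + i) (3 ^ e * y + j) (3 ^ e * z + k)) = 1 := by
    intro i hi j hj k hk t ht
    refine ha _ (sm_mem_EE6 (sm_lay_ne_zero (m := 1) (one_mul N).symm one_pos
      (mem_range.1 ht)) ?_)
    exact (mem_cube_iff o _ _).2 ⟨_, hcell x i hx (mem_range.1 hi), _,
      hcell y j hy (mem_range.1 hj), _, hcell z k hz (mem_range.1 hk), rfl⟩
  rw [Finset.sum_congr rfl fun i hi => Finset.sum_congr rfl fun j hj =>
    Finset.sum_congr rfl fun k hk => Finset.sum_congr rfl fun t ht => h1 i hi j hj k hk t ht]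
  simp only [Finset.sum_const, Finset.card_range, nsmul_eq_mul, mul_one]
  have hN0 : (N : ℝ) ≠ 0 := by exact_mod_cast hN.ne'
  have h27 : (27 : ℝ) ^ e = (3 : ℝ) ^ e * ((3 : ℝ) ^ e * (3 : ℝ) ^ e) := by
    rw [← mul_pow, ← mul_pow]; norm_num
  rw [h27]
  push_cast
  have h3 : (3 : ℝ) ^ e ≠ 0 := by positivity
  field_simp

theorem sm3_start {n N e r : ℕ} [NeZero n] (hN : 0 < N) (her : e ≤ r)
    {o : Tor n} {b : Finset (Tor n)} {a : Nd n N → ℝ}
    (haE : ∀ z ∈ EE6 n N o b (3 ^ r), a z = 1) :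
    (∑ x ∈ range (3 ^ (r - e)), ∑ y ∈ range (3 ^ (r - e)), ∑ z ∈ range (3 ^ (r - e)),
      (1 - (1 / ((1 : ℕ) : ℝ)) * ∑ w ∈ range 1, UT n N e o a x y z w)) ≤
      (27 : ℝ) ^ (r - e) / 16 := by
  have hz : ∀ x ∈ range (3 ^ (r - e)), ∀ y ∈ range (3 ^ (r - e)), ∀ z ∈ range (3 ^ (r - e)),
      (1 - (1 / ((1 : ℕ) : ℝ)) * ∑ w ∈ range 1, UT n N e o a x y z w) = 0 := by
    intro x hx y hy z hz
    have h1 : ∀ w ∈ range 1, UT n N e o a x y z w = 1 := fun w _ =>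
      sm3_UC_one hN her haE (mem_range.1 hx) (mem_range.1 hy) (mem_range.1 hz)
    rw [Finset.sum_congr rfl h1]
    simp
  rw [Finset.sum_eq_zero fun x hx => Finset.sum_eq_zero fun y hy =>
    Finset.sum_eq_zero fun z hz' => hz x hx y hy z hz']
  positivity

theorem sm3_total {n N W e : ℕ} [NeZero n] {K c1 : ℝ} {o : Tor n} {b b' : Finset (Tor n)}
    {h : Tor n → ℝ} {c : Nd n N → Nd n N → ℝ} {s : ℕ} (hloc : Local3 n N W e K c1 b' h c)
    (hh1 : ∀ x ∈ cube n o s, h x = 1) (a : Nd n N → ℝ) (F : Finset (Nd n N))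
    (hF : hatb N b ⊆ F) :
    (∑ z ∈ (EE6 n N o b s \ F).filter (fun z => a z < 1 / 2), ∑ v, c z v) ≤
      ((((univ.filter fun k => k ≠ 0) ×ˢ cube n o s : Finset (Nd n N)).filter
        fun z => a z < 1 / 2).card : ℝ) * (1 / (2 * N)) := by
  have hsub : (EE6 n N o b s \ F).filter (fun z => a z < 1 / 2) ⊆
      (((univ.filter fun k => k ≠ 0) ×ˢ cube n o s : Finset (Nd n N)).filter
      fun z => a z < 1 / 2) := by
    intro z hz
    rw [Finset.mem_filter, Finset.mem_sdiff] at hz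
    rw [Finset.mem_filter]
    refine ⟨?_, hz.2⟩
    obtain ⟨⟨hz1, hz2⟩, _⟩ := hz
    unfold EE6 at hz1
    rw [Finset.mem_union] at hz1
    rcases hz1 with hz1 | hz1
    · exact absurd (hF hz1) hz2
    · exact hz1
  have hterm : ∀ z ∈ (((univ.filter fun k => k ≠ 0) ×ˢ cube n o s :
      Finset (Nd n N)).filter fun z => a z < 1 / 2), ∑ v, c z v ≤ 1 / (2 * N) := by
    intro z hz
    rw [Finset.mem_filter, Finset.mem_product, Finset.mem_filter] at hz
    have h1 := hloc.tot z.1 z.2 hz.1.1.2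
    rw [hh1 z.2 hz.1.2] at h1
    exact h1
  refine (Finset.sum_le_sum_of_subset_of_nonneg hsub
    (fun z _ _ => Finset.sum_nonneg fun v _ => hloc.nonneg _ _)).trans ?_
  refine (Finset.sum_le_sum hterm).trans (le_of_eq ?_)
  rw [Finset.sum_const, nsmul_eq_mul]

/-- energy bound. -/
theorem sm3_energy {c1 D Y k E : ℝ} (hc1 : 0 < c1) (hD : D = 1000 / c1) (hY : 0 < Y)
    (hk : 0 ≤ k) (h1 : c1 * Y * E ≤ 16 * k) : E ≤ D * (k / Y) := by
  rw [hD, div_mul_eq_mul_div, le_div_iff₀ hc1, mul_div_assoc', le_div_iff₀ hY]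
  linarith

theorem sm3_collect {c1 C' D Y N k E dev cn crd A S : ℝ} (hc1 : 0 < c1) (hC' : 0 < C')
    (hD : D = 1000 / c1) (hY : 0 < Y) (hN0 : 0 < N) (hE0 : 0 ≤ E) (hk0 : 0 ≤ k)
    (hE : E ≤ D * (k / Y)) (h2 : c1 / N * dev ≤ 1000 * k)
    (h3 : cn ≤ C' * (1 ^ 2 * E + E ^ 3 / 1 ^ 2)) (h4 : crd ≤ 64 * dev + N * Y * cn)
    (h5 : A ≤ 4 * k + S) (h6 : S ≤ crd * (1 / (2 * N))) :
    A ≤ (4 + 32 * D + C' * D) * k + C' * D ^ 3 * (k ^ 3 / Y ^ 2) := by
  have hD0 : 0 < D := by rw [hD]; positivity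
  -- deviation
  have hX : dev / N ≤ D * k := by
    have e1 : c1 / N * dev = c1 * (dev / N) := by ring
    rw [e1] at h2
    have e2 : D * k = 1000 * k / c1 := by rw [hD]; ring
    rw [e2, le_div_iff₀ hc1]
    linarith
  -- count
  have hcn : cn ≤ C' * (D * (k / Y) + (D * (k / Y)) ^ 3) := by
    refine h3.trans (mul_le_mul_of_nonneg_left ?_ hC'.le)
    have h7 : E ^ 3 ≤ (D * (k / Y)) ^ 3 := pow_le_pow_left₀ hE0 hE 3
    norm_num
    linarith
  -- sum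
  have h7 : crd * (1 / (2 * N)) ≤ (64 * dev + N * Y * cn) * (1 / (2 * N)) :=
    mul_le_mul_of_nonneg_right h4 (by positivity)
  have h8 : (64 * dev + N * Y * cn) * (1 / (2 * N)) = 32 * (dev / N) + Y / 2 * cn := by
    field_simp
    ring
  have h9 : Y / 2 * cn ≤ Y / 2 * (C' * (D * (k / Y) + (D * (k / Y)) ^ 3)) :=
    mul_le_mul_of_nonneg_left hcn (by positivity)
  have h10 : Y / 2 * (C' * (D * (k / Y) + (D * (k / Y)) ^ 3)) =
      C' * D * k / 2 + C' * D ^ 3 * (k ^ 3 / Y ^ 2) / 2 := by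
    field_simp
  have h11 : 0 ≤ C' * D ^ 3 * (k ^ 3 / Y ^ 2) := by positivity
  have h12 : 0 ≤ C' * D * k := by positivity
  have h13 : (4 + 32 * D + C' * D) * k = 4 * k + 32 * (D * k) + C' * D * k := by ring
  rw [h13]
  linarith

theorem sm3_last {P Q Y k A B : ℝ} (hP : 0 < P) (hQ : 0 < Q) (hY : 0 < Y) (hk0 : 0 ≤ k)
    (hfin : A ≤ P * k + Q * (k ^ 3 / Y ^ 2)) (hA1 : 2 * P * B ≤ A)
    (hA2 : 2 * Q * B ^ 3 ≤ A * Y ^ 2) : B ≤ k := by
  by_contra hlt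
  have hlt' : k < B := not_le.1 hlt
  have hY2 : 0 < Y ^ 2 := by positivity
  have e2 : k ^ 3 / Y ^ 2 ≤ B ^ 3 / Y ^ 2 :=
    div_le_div_of_nonneg_right (pow_le_pow_left₀ hk0 hlt'.le 3) hY2.le
  have e3 := mul_lt_mul_of_pos_left hlt' hP
  have e4 := mul_le_mul_of_nonneg_left e2 hQ.le
  have hA2' : 2 * Q * (B ^ 3 / Y ^ 2) ≤ A := by
    rw [← mul_div_assoc, div_le_iff₀ hY2]
    exact hA2
  linarith

/-- One step of the induction over scales, before lowering: small radius `3 ^ r`, large radius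
`3 ^ s`. -/
theorem step_mid3 (c1 : ℝ) (hc1 : 0 < c1) : ∃ C : ℝ, 0 < C ∧ ∀ (n N W e : ℕ) [NeZero n]
    (K : ℝ) (o : Tor n) (b : Finset (Tor n)) (h : Tor n → ℝ) (c : Nd n N → Nd n N → ℝ)
    (r s : ℕ) (G : Finset (Nd n N)) (A B : ℝ),
    0 < W → N = 4 * W → e ≤ r → r ≤ s → 3 ^ s < n →
    (∀ x, h x ≤ 1) → (∀ x ∈ cube n o (3 ^ s), h x = 1) →
    Local3 n N W e K c1 b h c → Disjoint (EE6 n N o b (3 ^ s)) G →
    LBn c (EE6 n N o b (3 ^ s)) G A →
    0 ≤ B → C * B ≤ 9 ^ e * 3 ^ r → C * B ≤ A → C * B ^ 3 ≤ A * (27 ^ e) ^ 2 →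
    LBn c (EE6 n N o b (3 ^ r)) G B := by
  obtain ⟨C', hC'0, hC'⟩ := chain3
  set D : ℝ := 1000 / c1 with hD
  have hD0 : 0 < D := by positivity
  obtain ⟨P, hPe⟩ : ∃ P : ℝ, P = 4 + 32 * D + C' * D := ⟨_, rfl⟩
  obtain ⟨Q, hQe⟩ : ∃ Q : ℝ, Q = C' * D ^ 3 := ⟨_, rfl⟩
  have hP : 0 < P := by rw [hPe]; positivity
  have hQ : 0 < Q := by rw [hQe]; positivity
  refine ⟨2 * P + 2 * Q + C' * D, by positivity, ?_⟩
  intro n N W e _ K o b h c r s G A B hW hN her hrs hsn _hh hh1 hloc hdisj hA hB0 hB1 hB2 hB3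
  have hes : e ≤ s := her.trans hrs
  have hcube : 3 ^ e * 3 ^ (s - e) = 3 ^ s := by rw [← pow_add, Nat.add_sub_cancel' hes]
  have hNp : 0 < N := by omega
  have hNR : (0 : ℝ) < N := by exact_mod_cast hNp
  have hY : (0 : ℝ) < 27 ^ e := by positivity
  refine LBn_of_trunc hloc.nonneg ?_
  intro a ha01 haE haG
  by_contra hlt
  have hlt' : netK c a < B := not_le.1 hlt
  apply hlt
  have hk0 : 0 ≤ netK c a := sm_netK_nonneg hloc.nonneg a
  have hE := E4_le3 hW hN hc1 hloc o (3 ^ (s - e)) (by rw [hcube]; exact hsn)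
    (by rw [hcube]; exact hh1) a
  have hdev := dev_le3 hW hN hc1 hloc o (3 ^ (s - e)) (by rw [hcube]; exact hsn)
    (by rw [hcube]; exact hh1) a
  have hcard := card_low_le3 (e := e) hW hN o (3 ^ (s - e)) (by rw [hcube]; exact hsn.le) a
  rw [hcube] at hcard
  have hE0 : 0 ≤ E4 (3 ^ (s - e)) 1 (UT n N e o a) := sm_E4_nonneg _ _ _
  have hED := sm3_energy hc1 hD hY hk0 hE
  have hch := hC' (r - e) (s - e) 1 one_pos (Nat.sub_le_sub_right hrs e) (UT n N e o a)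
    (sm3_start hNp her haE) ?_
  · have htest := test_le (E := EE6 n N o b (3 ^ r)) hloc.symm hloc.nonneg hA hdisj
      (fun x => (ha01 x).1) haE haG
    have hS := sm3_total hloc hh1 a (EE6 n N o b (3 ^ r)) Finset.subset_union_left
    have hch' : cnt (3 ^ (s - e)) 1 (5 / 8) (UT n N e o a) ≤
        C' * (1 ^ 2 * E4 (3 ^ (s - e)) 1 (UT n N e o a) +
          E4 (3 ^ (s - e)) 1 (UT n N e o a) ^ 3 / 1 ^ 2) := by
      refine hch.trans (le_of_eq ?_)
      norm_num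
    have hcol := sm3_collect hc1 hC'0 hD hY hNR hE0 hk0 hED hdev hch' hcard htest hS
    rw [← hPe, ← hQe] at hcol
    have hCD : 0 < C' * D := mul_pos hC'0 hD0
    refine sm3_last hP hQ hY hk0 hcol ?_ ?_
    · refine le_trans ?_ hB2
      exact mul_le_mul_of_nonneg_right (by linarith) hB0
    · refine le_trans ?_ hB3
      exact mul_le_mul_of_nonneg_right (by linarith) (by positivity)
  · have h0 : C' * E4 (3 ^ (s - e)) 1 (UT n N e o a) ≤ C' * (D * (netK c a / 27 ^ e)) :=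
      mul_le_mul_of_nonneg_left hED hC'0.le
    refine h0.trans ?_
    have h2 : C' * D * netK c a ≤ C' * D * B :=
      mul_le_mul_of_nonneg_left hlt'.le (by positivity)
    have h3 : C' * D * B ≤ (2 * P + 2 * Q + C' * D) * B := by
      refine mul_le_mul_of_nonneg_right ?_ hB0
      linarith
    have h4 : (9 : ℝ) ^ e * 3 ^ r = 27 ^ e * 3 ^ (r - e) := by
      have h5 : (3 : ℝ) ^ r = 3 ^ e * 3 ^ (r - e) := by
        rw [← pow_add, Nat.add_sub_cancel' her]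
      rw [h5, ← mul_assoc, ← mul_pow]; norm_num
    have h6 : C' * (D * (netK c a / 27 ^ e)) = (C' * D * netK c a) / 27 ^ e := by ring
    rw [h6, div_le_iff₀ hY]
    push_cast
    linarith

end Vale.Agent.P361.LRO.Ind3
end

section

/-!
# P361 LRO, stage 3, network chapter, all spins (`LowE`): one rung of the ladder (helper494, from
helper487's Ind3/LadMid.lean)
-/

namespace Vale.Agent.P361.LRO.Ind3

open Finset Vale.Agent.P361.LRO _root_.P361.LRO Vale.Agent.P361.LRO.Ind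

private theorem lm3e_num_a {C X κ μ : ℝ} (hC : 0 < C) (hX1 : 1 ≤ X) (hκ : 1 ≤ κ) (hμ : 1 ≤ μ) :
    C * (X ^ (4 / 9 : ℝ) / (1 + C)) ≤ κ * X ∧
    C * (X ^ (4 / 9 : ℝ) / (1 + C)) ≤ X ^ (4 / 3 : ℝ) ∧
    C * (X ^ (4 / 9 : ℝ) / (1 + C)) ^ 3 ≤ X ^ (4 / 3 : ℝ) * μ ^ 2 := by
  have hX0 : 0 < X := by linarith
  have hC1 : C / (1 + C) ≤ 1 := by rw [div_le_one (by positivity)]; linarith
  have hC0 : 0 ≤ C / (1 + C) := by positivity
  have hmain : C * (X ^ (4 / 9 : ℝ) / (1 + C)) ≤ X ^ (4 / 9 : ℝ) := by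
    calc C * (X ^ (4 / 9 : ℝ) / (1 + C)) = C / (1 + C) * X ^ (4 / 9 : ℝ) := by ring
      _ ≤ 1 * X ^ (4 / 9 : ℝ) := mul_le_mul_of_nonneg_right hC1 (by positivity)
      _ = _ := one_mul _
  refine ⟨?_, ?_, ?_⟩
  · have h1 : X ^ (4 / 9 : ℝ) ≤ X := by
      conv_rhs => rw [← Real.rpow_one X]
      exact Real.rpow_le_rpow_of_exponent_le hX1 (by norm_num)
    nlinarith
  · exact hmain.trans (Real.rpow_le_rpow_of_exponent_le hX1 (by norm_num))
  · have h6 : (X ^ (4 / 9 : ℝ)) ^ 3 = X ^ (4 / 3 : ℝ) := by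
      rw [← Real.rpow_natCast, ← Real.rpow_mul hX0.le]; norm_num
    have h7 : C / (1 + C) ^ 3 ≤ 1 := by
      rw [div_le_one (by positivity)]
      nlinarith [sq_nonneg C, pow_pos hC 3]
    have h8 : 1 ≤ μ ^ 2 := one_le_pow₀ hμ
    calc C * (X ^ (4 / 9 : ℝ) / (1 + C)) ^ 3
        = C / (1 + C) ^ 3 * (X ^ (4 / 9 : ℝ)) ^ 3 := by
          rw [div_pow]; field_simp
      _ = C / (1 + C) ^ 3 * X ^ (4 / 3 : ℝ) := by rw [h6]
      _ ≤ 1 * X ^ (4 / 3 : ℝ) := mul_le_mul_of_nonneg_right h7 (by positivity)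
      _ = X ^ (4 / 3 : ℝ) * 1 := by ring
      _ ≤ X ^ (4 / 3 : ℝ) * μ ^ 2 := mul_le_mul_of_nonneg_left h8 (by positivity)

private theorem lm3e_num_b {C X lam ε : ℝ} (hC : 0 < C) (hX8 : 8 ≤ X)
    (hXC : 2 * (1 + C) ≤ X ^ (1 / 20 : ℝ)) (hlam0 : 0 < lam)
    (h2l : 2 / lam ≤ X ^ 4) (hε : 0 ≤ ε) (hε1 : ε ≤ 1 / 1000) :
    X ^ (1 / 3 : ℝ) ≤
      (1 * (X ^ 4 + 2 / lam) ^ 3) ^ (-(4 * ε)) * (X ^ (4 / 9 : ℝ) / (1 + C)) - 2 * ε := by
  have hX1 : 1 ≤ X := by linarith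
  have hX0 : 0 < X := by linarith
  have hpos : 0 < 1 * (X ^ 4 + 2 / lam) ^ 3 := by positivity
  have hle : 1 * (X ^ 4 + 2 / lam) ^ 3 ≤ X ^ 13 := by
    calc 1 * (X ^ 4 + 2 / lam) ^ 3 ≤ 1 * (2 * X ^ 4) ^ 3 := by
          gcongr
          linarith
      _ = 8 * X ^ 12 := by ring
      _ ≤ X * X ^ 12 := by gcongr
      _ = X ^ 13 := by ring
  have h1 : X ^ (-(52 / 1000) : ℝ) ≤ (1 * (X ^ 4 + 2 / lam) ^ 3) ^ (-(4 * ε)) := by
    calc X ^ (-(52 / 1000) : ℝ) ≤ X ^ (-(52 * ε)) :=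
          Real.rpow_le_rpow_of_exponent_le hX1 (by linarith)
      _ = (X ^ 13) ^ (-(4 * ε)) := by
          rw [← Real.rpow_natCast X 13, ← Real.rpow_mul hX0.le]
          congr 1
          push_cast
          ring
      _ ≤ _ := Real.rpow_le_rpow_of_nonpos hpos hle (by linarith)
  have h6 : 2 * X ^ (1 / 3 : ℝ) ≤
      X ^ (-(52 / 1000) : ℝ) * (X ^ (4 / 9 : ℝ) / (1 + C)) := by
    have h7 : X ^ (1 / 3 : ℝ) * X ^ (1 / 20 : ℝ) ≤ X ^ (-(52 / 1000) : ℝ) * X ^ (4 / 9 : ℝ) := by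
      rw [← Real.rpow_add hX0, ← Real.rpow_add hX0]
      exact Real.rpow_le_rpow_of_exponent_le hX1 (by norm_num)
    have h8 : 2 * (1 + C) * X ^ (1 / 3 : ℝ) ≤ X ^ (-(52 / 1000) : ℝ) * X ^ (4 / 9 : ℝ) := by
      calc 2 * (1 + C) * X ^ (1 / 3 : ℝ) ≤ X ^ (1 / 20 : ℝ) * X ^ (1 / 3 : ℝ) :=
            mul_le_mul_of_nonneg_right hXC (by positivity)
        _ = X ^ (1 / 3 : ℝ) * X ^ (1 / 20 : ℝ) := mul_comm _ _
        _ ≤ _ := h7
    have e1 : X ^ (-(52 / 1000) : ℝ) * (X ^ (4 / 9 : ℝ) / (1 + C)) =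
        (X ^ (-(52 / 1000) : ℝ) * X ^ (4 / 9 : ℝ)) / (1 + C) := by ring
    rw [e1, le_div_iff₀ (by positivity)]
    calc 2 * X ^ (1 / 3 : ℝ) * (1 + C) = 2 * (1 + C) * X ^ (1 / 3 : ℝ) := by ring
      _ ≤ _ := h8
  have h9 : X ^ (-(52 / 1000) : ℝ) * (X ^ (4 / 9 : ℝ) / (1 + C)) ≤
      (1 * (X ^ 4 + 2 / lam) ^ 3) ^ (-(4 * ε)) * (X ^ (4 / 9 : ℝ) / (1 + C)) :=
    mul_le_mul_of_nonneg_right h1 (by positivity)
  have h10 : 1 ≤ X ^ (1 / 3 : ℝ) := Real.one_le_rpow hX1 (by norm_num)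
  linarith

/-- One rung of the ladder. -/
theorem lad_mid3E (c1 : ℝ) (hc1 : 0 < c1) : ∃ e0 : ℕ, 1 ≤ e0 ∧ ∀ (n N W e : ℕ) [NeZero n]
    (K h0 lam ε : ℝ) (o : Tor n) (b : Finset (Tor n)) (h : Tor n → ℝ)
    (c : (Tor n → ℝ) → Nd n N → Nd n N → ℝ) (r S : ℕ),
    e0 ≤ e → 0 < W → N = 4 * W → 4 * r ≤ S → 8 * 3 ^ S < n →
    0 < h0 → h0 ≤ 1 → 1 / 3 ^ (10 * e) ≤ lam → 0 ≤ ε → ε ≤ 1 / 1000 →
    100 * e ≤ r → h0⁻¹ ≤ ((3 : ℝ) ^ S) ^ (5 / 2 : ℝ) →
    (∀ g, Fam n h0 lam g → Local3 n N W e K c1 b g (c g)) → LowE n N b 1 h0 lam ε c →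
    Fam n h0 lam h →
    LBn (c (HH n lam o (3 ^ (4 * r)) h)) (EE6 n N o b (3 ^ (4 * r))) (GG6 n N o (3 ^ S))
      (((3 : ℝ) ^ (4 * r)) ^ (1 / 3 : ℝ)) →
    LBn (c (HH n lam o (3 ^ r) h)) (EE6 n N o b (3 ^ r)) (GG6 n N o (3 ^ S))
      (((3 : ℝ) ^ r) ^ (1 / 3 : ℝ)) := by
  obtain ⟨C, hC, hstep⟩ := step_mid3 c1 hc1
  obtain ⟨eg, heg, hground⟩ := num_ground3
  obtain ⟨e1, he1⟩ := pow_unbounded_of_one_lt (2 * (1 + C)) (show (1 : ℝ) < 3 by norm_num)
  refine ⟨max eg e1, heg.trans (le_max_left _ _), ?_⟩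
  intro n N W e _ K h0 lam ε o b h c r S he hW hN hrS hSn hh0 hh01 hlam hε hε1
    hr hS hloc hlow hfam hLB
  have heg' : eg ≤ e := (le_max_left _ _).trans he
  have he1' : e1 ≤ e := (le_max_right _ _).trans he
  have he0 : 1 ≤ e := heg.trans heg'
  have hlam0 : 0 < lam := lt_of_lt_of_le (by positivity) hlam
  have h4rS : (3 : ℕ) ^ (4 * r) ≤ 3 ^ S := Nat.pow_le_pow_right (by norm_num) hrS
  have hrr : (3 : ℕ) ^ r ≤ 3 ^ (4 * r) := Nat.pow_le_pow_right (by norm_num) (by omega)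
  have h8 : (3 : ℕ) ^ S ≤ 8 * 3 ^ S := by omega
  have h4rn : (3 : ℕ) ^ (4 * r) < n := by omega
  have hrn : (3 : ℕ) ^ r ≤ n := by omega
  have hfam4 : Fam n h0 lam (HH n lam o (3 ^ (4 * r)) h) := Fam_HH hlam0.le o (by positivity) hfam
  have hfam1 : Fam n h0 lam (HH n lam o (3 ^ r) h) := Fam_HH hlam0.le o (by positivity) hfam
  have hXe : ((3 : ℝ) ^ (4 * r)) ^ (1 / 3 : ℝ) = ((3 : ℝ) ^ r) ^ (4 / 3 : ℝ) := by
    rw [mul_comm 4 r, pow_mul, ← Real.rpow_natCast ((3 : ℝ) ^ r) 4,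
      ← Real.rpow_mul (by positivity)]
    norm_num
  have hX1 : (1 : ℝ) ≤ (3 : ℝ) ^ r := one_le_pow₀ (by norm_num)
  obtain ⟨hB1, hB2, hB3⟩ := lm3e_num_a (κ := 9 ^ e) (μ := 27 ^ e) hC hX1
    (one_le_pow₀ (by norm_num)) (one_le_pow₀ (by norm_num))
  rw [hXe] at hLB
  have hstep1 := hstep n N W e K o b (HH n lam o (3 ^ (4 * r)) h)
    (c (HH n lam o (3 ^ (4 * r)) h)) r (4 * r) (GG6 n N o (3 ^ S))
    (((3 : ℝ) ^ r) ^ (4 / 3 : ℝ)) (((3 : ℝ) ^ r) ^ (4 / 9 : ℝ) / (1 + C))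
    hW hN (by omega) (by omega) h4rn
    (fun x => (hfam4.1 x).2) (fun x hx => HH_one hlam0.le o h4rn.le hfam hx) (hloc _ hfam4)
    (disj_EG o _ h4rS hSn.le) hLB (by positivity) hB1 hB2 hB3
  have hsm := hground h0 lam e S heg' hh0 hlam (by omega) hS
  have hlow1 := hlow.prim (HH n lam o (3 ^ (4 * r)) h) (HH n lam o (3 ^ r) h) hfam4 hfam1
    (fun x => HH_mono hlam0.le o hrr h x)
    (EE6 n N o b (3 ^ r)) (GG6 n N o (3 ^ S)) (disj_EG o _ (hrr.trans h4rS) hSn.le)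
    Finset.subset_union_left (by
      intro z hz hz0
      rcases mem_union.1 hz with hz | hz
      · unfold EE6 at hz
        rcases mem_union.1 hz with hz | hz
        · exfalso
          apply hz0
          unfold hatb at hz
          exact mem_singleton.1 (mem_product.1 hz).1
        · have hx := (mem_product.1 hz).2
          rw [HH_one hlam0.le o hrn hfam hx]
          have hx4 : z.2 ∈ cube n o (3 ^ (4 * r)) := by
            unfold cube at hx ⊢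
            rw [mem_image] at hx ⊢
            obtain ⟨y, -, hy⟩ := hx
            exact ⟨fun i => ⟨(y i : ℕ), lt_of_lt_of_le (y i).2 hrr⟩, mem_univ _, hy⟩
          rw [HH_one hlam0.le o h4rn.le hfam hx4]
      · unfold GG6 at hz
        have hx := (mem_product.1 hz).2
        rw [HH_ground hlam0.le o (hrr.trans h4rS) hSn.le hfam (by push_cast; exact hsm) hx,
          HH_ground hlam0.le o h4rS hSn.le hfam (by push_cast; exact hsm) hx])
    (((3 ^ (4 * r) : ℕ) + 2 / lam) ^ 3) (by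
      have h1r : (1 : ℝ) ≤ ((3 ^ (4 * r) : ℕ) : ℝ) := by
        push_cast; exact one_le_pow₀ (by norm_num)
      have h2 : (1 : ℝ) ≤ ((3 ^ (4 * r) : ℕ) : ℝ) + 2 / lam := by
        have : 0 ≤ 2 / lam := by positivity
        linarith
      have h3 : (1 : ℝ) ≤ (((3 ^ (4 * r) : ℕ) : ℝ) + 2 / lam) ^ 3 := one_le_pow₀ h2
      linarith)
    (sum_lowered hlam0 o hrr h) (((3 : ℝ) ^ r) ^ (4 / 9 : ℝ) / (1 + C)) (by positivity)
    hstep1
  have hX8 : (8 : ℝ) ≤ (3 : ℝ) ^ r := by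
    calc (8 : ℝ) ≤ 3 ^ 2 := by norm_num
      _ ≤ 3 ^ r := pow_le_pow_right₀ (by norm_num) (by omega)
  have hXC : 2 * (1 + C) ≤ ((3 : ℝ) ^ r) ^ (1 / 20 : ℝ) := by
    calc 2 * (1 + C) ≤ (3 : ℝ) ^ e1 := he1.le
      _ ≤ (3 : ℝ) ^ e := pow_le_pow_right₀ (by norm_num) he1'
      _ = (3 : ℝ) ^ (e : ℝ) := (Real.rpow_natCast _ _).symm
      _ ≤ (3 : ℝ) ^ ((r : ℝ) * (1 / 20)) := by
          apply Real.rpow_le_rpow_of_exponent_le (by norm_num)
          have : (100 * e : ℝ) ≤ r := by exact_mod_cast hr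
          have h0e : (0 : ℝ) ≤ e := Nat.cast_nonneg _
          linarith
      _ = ((3 : ℝ) ^ r) ^ (1 / 20 : ℝ) := by
          rw [Real.rpow_mul (by norm_num), Real.rpow_natCast]
  have h2l : 2 / lam ≤ ((3 : ℝ) ^ r) ^ 4 := by
    have h1 : 2 / lam ≤ 2 * 3 ^ (10 * e) := by
      rw [div_le_iff₀ hlam0]
      have h3 := mul_le_mul_of_nonneg_left hlam (show (0 : ℝ) ≤ 2 * 3 ^ (10 * e) by positivity)
      have e2 : (2 : ℝ) * 3 ^ (10 * e) * (1 / 3 ^ (10 * e)) = 2 := by field_simp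
      linarith
    have h2 : (2 : ℝ) * 3 ^ (10 * e) ≤ ((3 : ℝ) ^ r) ^ 4 := by
      calc (2 : ℝ) * 3 ^ (10 * e) ≤ 3 ^ 1 * 3 ^ (10 * e) := by
            apply mul_le_mul_of_nonneg_right (by norm_num) (by positivity)
        _ = 3 ^ (1 + 10 * e) := (pow_add _ _ _).symm
        _ ≤ 3 ^ (r * 4) := pow_le_pow_right₀ (by norm_num) (by omega)
        _ = _ := pow_mul _ _ _
    exact h1.trans h2
  have hnum := lm3e_num_b hC hX8 hXC hlam0 h2l hε hε1
  intro f hf hg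
  refine le_trans hnum ?_
  have h5 := hlow1 f hf hg
  have e3 : ((3 ^ (4 * r) : ℕ) : ℝ) = ((3 : ℝ) ^ r) ^ 4 := by
    push_cast
    rw [mul_comm 4 r, pow_mul]
  rw [e3] at h5
  exact h5

end Vale.Agent.P361.LRO.Ind3
end

section

/-!
# P361 LRO, stage 3, network chapter, all spins (`LowE`): the last rung of the ladder (helper494,
from helper808's Ind3/LadLast0.lean)
-/

namespace Vale.Agent.P361.LRO.Ind3

open Finset Vale.Agent.P361.LRO _root_.P361.LRO Vale.Agent.P361.LRO.Ind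

/-- `3 ^ (33 e) ≤ (3 ^ (100 e)) ^ (1/3)`. -/
private theorem ladlast3e_A (e : ℕ) : (3 : ℝ) ^ (33 * e) ≤ ((3 : ℝ) ^ (100 * e)) ^ (1 / 3 : ℝ) := by
  have h1 : (3 : ℝ) ^ (33 * e) = ((3 : ℝ) ^ (99 * e)) ^ (1 / 3 : ℝ) := by
    rw [← Real.rpow_natCast, ← Real.rpow_natCast, ← Real.rpow_mul (by norm_num)]
    congr 1
    push_cast
    ring
  rw [h1]
  exact Real.rpow_le_rpow (by positivity) (pow_le_pow_right₀ (by norm_num) (by omega))
    (by norm_num)

private theorem ladlast3e_num_a {C K : ℝ} {e : ℕ} (hC : 0 < C) (hCe : C ≤ 3 ^ e)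
    (hK : 0 ≤ K) (hKe : K ≤ 27 ^ (2 * e)) :
    C * K ≤ ((3 : ℝ) ^ (100 * e)) ^ (1 / 3 : ℝ) ∧
    C * K ^ 3 ≤ ((3 : ℝ) ^ (100 * e)) ^ (1 / 3 : ℝ) * (27 ^ e) ^ 2 := by
  have hK' : K ≤ 3 ^ (6 * e) := by
    refine hKe.trans_eq ?_
    rw [show (27 : ℝ) = 3 ^ 3 by norm_num, ← pow_mul]
    congr 1
    ring
  have hA := ladlast3e_A e
  have h27 : (27 : ℝ) ^ e = 3 ^ (3 * e) := by
    rw [show (27 : ℝ) = 3 ^ 3 by norm_num, ← pow_mul]
  constructor
  · calc C * K ≤ 3 ^ e * 3 ^ (6 * e) := mul_le_mul hCe hK' hK (by positivity)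
      _ = 3 ^ (7 * e) := by rw [← pow_add]; congr 1; ring
      _ ≤ 3 ^ (33 * e) := pow_le_pow_right₀ (by norm_num) (by omega)
      _ ≤ _ := hA
  · calc C * K ^ 3 ≤ 3 ^ e * (3 ^ (6 * e)) ^ 3 :=
          mul_le_mul hCe (pow_le_pow_left₀ hK hK' 3) (by positivity) (by positivity)
      _ = 3 ^ (19 * e) := by rw [← pow_mul, ← pow_add]; congr 1; ring
      _ ≤ 3 ^ (39 * e) := pow_le_pow_right₀ (by norm_num) (by omega)
      _ = 3 ^ (33 * e) * (27 ^ e) ^ 2 := by rw [h27, ← pow_mul, ← pow_add]; congr 1; ring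
      _ ≤ _ := mul_le_mul_of_nonneg_right hA (by positivity)

private theorem ladlast3e_num_b {lam ε : ℝ} {e : ℕ} (he : 1 ≤ e) (hlam : 1 / 3 ^ (10 * e) ≤ lam)
    (hε : 0 ≤ ε) (hεe : ε * e ≤ 1 / 5000) :
    1 / 2 ≤ (1 * ((3 : ℝ) ^ (100 * e) + 2 / lam) ^ 3) ^ (-(4 * ε)) := by
  have hlam0 : 0 < lam := lt_of_lt_of_le (by positivity) hlam
  have h2 : 2 / lam ≤ 2 * 3 ^ (10 * e) := by
    rw [div_le_iff₀ hlam0]
    have := mul_le_mul_of_nonneg_left hlam (show (0 : ℝ) ≤ 2 * 3 ^ (10 * e) by positivity)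
    refine le_trans ?_ this
    rw [mul_one_div, mul_div_assoc, div_self (by positivity), mul_one]
  have h3 : (3 : ℝ) ^ (10 * e) ≤ 3 ^ (100 * e) := pow_le_pow_right₀ (by norm_num) (by omega)
  have h4 : (3 : ℝ) ^ (100 * e) + 2 / lam ≤ 3 ^ (101 * e) := by
    calc (3 : ℝ) ^ (100 * e) + 2 / lam ≤ 3 * 3 ^ (100 * e) := by linarith
      _ = 3 ^ (100 * e + 1) := by rw [pow_succ]; ring
      _ ≤ 3 ^ (101 * e) := pow_le_pow_right₀ (by norm_num) (by omega)
  have hpos : 0 < (3 : ℝ) ^ (100 * e) + 2 / lam := by positivity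
  have h6 : 1 * ((3 : ℝ) ^ (100 * e) + 2 / lam) ^ 3 ≤ 3 ^ (303 * e) := by
    calc 1 * ((3 : ℝ) ^ (100 * e) + 2 / lam) ^ 3 ≤ (3 ^ (101 * e)) ^ 3 := by
          rw [one_mul]; exact pow_le_pow_left₀ hpos.le h4 3
      _ = _ := by rw [← pow_mul]; congr 1; ring
  have hpos2 : 0 < 1 * ((3 : ℝ) ^ (100 * e) + 2 / lam) ^ 3 := by positivity
  have h7 : Real.log (1 * ((3 : ℝ) ^ (100 * e) + 2 / lam) ^ 3) ≤ 606 * e := by
    have h71 := Real.log_le_log hpos2 h6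
    rw [Real.log_pow] at h71
    push_cast at h71
    have h72 : Real.log 3 ≤ 2 := by
      have := Real.log_le_sub_one_of_pos (show (0 : ℝ) < 3 by norm_num)
      linarith
    have h73 : 303 * (e : ℝ) * Real.log 3 ≤ 303 * e * 2 :=
      mul_le_mul_of_nonneg_left h72 (by positivity)
    linarith
  rw [Real.rpow_def_of_pos hpos2]
  have h8 : -(1 / 2 : ℝ) ≤
      Real.log (1 * ((3 : ℝ) ^ (100 * e) + 2 / lam) ^ 3) * -(4 * ε) := by
    have h9 := mul_le_mul_of_nonneg_right h7 hε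
    nlinarith
  have h10 := Real.add_one_le_exp
    (Real.log (1 * ((3 : ℝ) ^ (100 * e) + 2 / lam) ^ 3) * -(4 * ε))
  linarith

/-- The last rung, from `step_last3`. -/
theorem lad_last3E_of (c1 : ℝ) (hstep3 : ∃ C : ℝ, 0 < C ∧ ∀ (n N W e : ℕ) [NeZero n]
    (K : ℝ) (o : Tor n) (a : ℕ) (h : Tor n → ℝ) (c : Nd n N → Nd n N → ℝ)
    (s : ℕ) (G : Finset (Nd n N)) (A : ℝ),
    0 < W → N = 4 * W → e ≤ a → a ≤ s → 3 ^ s < n →
    0 < K → C * K ≤ 27 ^ a → C * K ≤ 9 ^ e * 3 ^ a →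
    (∀ x, h x ≤ 1) → (∀ x ∈ cube n o (3 ^ s), h x = 1) →
    Local3 n N W e K c1 (cube n o (3 ^ a)) h c →
    Disjoint (EE6 n N o (cube n o (3 ^ a)) (3 ^ s)) G →
    LBn c (EE6 n N o (cube n o (3 ^ a)) (3 ^ s)) G A →
    C * K ≤ A → C * K ^ 3 ≤ A * (27 ^ e) ^ 2 →
    LBn c (hatb N (cube n o (3 ^ a))) G (K / C)) :
    ∃ (e0 : ℕ) (C5 c3 c4 : ℝ), 1 ≤ e0 ∧ 0 < C5 ∧
    0 < c3 ∧ 0 < c4 ∧ ∀ (n N W e : ℕ) [NeZero n]
    (K h0 lam ε : ℝ) (o : Tor n) (a : ℕ) (h : Tor n → ℝ)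
    (c : (Tor n → ℝ) → Nd n N → Nd n N → ℝ) (S : ℕ),
    e0 ≤ e → 0 < W → N = 4 * W → 100 * e ≤ S → 8 * 3 ^ S < n →
    e ≤ a → a ≤ 2 * e → 1 ≤ K → K ≤ 27 ^ (2 * e) → C5 * K ≤ 27 ^ a → C5 * K ≤ 9 ^ e * 3 ^ a →
    0 < h0 → h0 ≤ 1 → 1 / 3 ^ (10 * e) ≤ lam → 0 ≤ ε → ε * e ≤ c4 →
    h0⁻¹ ≤ ((3 : ℝ) ^ S) ^ (5 / 2 : ℝ) →
    (∀ g, Fam n h0 lam g → Local3 n N W e K c1 (cube n o (3 ^ a)) g (c g)) →
    LowE n N (cube n o (3 ^ a)) 1 h0 lam ε c →
    Fam n h0 lam h →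
    LBn (c (HH n lam o (3 ^ (100 * e)) h)) (EE6 n N o (cube n o (3 ^ a)) (3 ^ (100 * e)))
      (GG6 n N o (3 ^ S)) (((3 : ℝ) ^ (100 * e)) ^ (1 / 3 : ℝ)) →
    LBn (c h) (hatb N (cube n o (3 ^ a))) (GG6 n N o (3 ^ S)) (c3 * K) := by
  obtain ⟨C, hC, hstep⟩ := hstep3
  obtain ⟨e1, he1, hground⟩ := num_ground3
  obtain ⟨e2, he2⟩ := pow_unbounded_of_one_lt C (show (1 : ℝ) < 3 by norm_num)
  refine ⟨max e1 e2, C, 1 / (4 * C), min (1 / 5000) (1 / (8 * C)), he1.trans (le_max_left _ _),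
    hC, by positivity, by positivity, ?_⟩
  intro n N W e _ K h0 lam ε o a h c S he hW hN hrS hSn hea ha2 hK hKe hCK hCK2 hh0 hh01 hlam hε
    hεe hS hloc hlow hfam hLB
  have he1' : e1 ≤ e := (le_max_left _ _).trans he
  have he2' : e2 ≤ e := (le_max_right _ _).trans he
  have he0 : 1 ≤ e := he1.trans he1'
  have hCe : C ≤ 3 ^ e := he2.le.trans (pow_le_pow_right₀ (by norm_num) he2')
  have hlam0 : 0 < lam := lt_of_lt_of_le (by positivity) hlam
  have hK0 : 0 < K := by linarith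
  have h3rS : (3 : ℕ) ^ (100 * e) ≤ 3 ^ S := Nat.pow_le_pow_right (by norm_num) hrS
  have h3rn : (3 : ℕ) ^ (100 * e) < n := by
    have : (3 : ℕ) ^ S ≤ 8 * 3 ^ S := by omega
    omega
  have hfamH : Fam n h0 lam (HH n lam o (3 ^ (100 * e)) h) :=
    Fam_HH hlam0.le o (by positivity) hfam
  obtain ⟨hA1, hA2⟩ := ladlast3e_num_a hC hCe hK0.le hKe
  have hstep1 := hstep n N W e K o a (HH n lam o (3 ^ (100 * e)) h)
    (c (HH n lam o (3 ^ (100 * e)) h)) (100 * e)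
    (GG6 n N o (3 ^ S)) (((3 : ℝ) ^ (100 * e)) ^ (1 / 3 : ℝ)) hW hN hea (by omega) h3rn hK0
    hCK hCK2
    (fun x => (hfamH.1 x).2) (fun x hx => HH_one hlam0.le o h3rn.le hfam hx) (hloc _ hfamH)
    (disj_EG o _ h3rS hSn.le) hLB hA1 hA2
  have hsm := hground h0 lam e S he1' hh0 hlam hrS hS
  have hlow1 := hlow.prim (HH n lam o (3 ^ (100 * e)) h) h hfamH hfam (fun x => le_max_left _ _)
    (hatb N (cube n o (3 ^ a))) (GG6 n N o (3 ^ S)) (disj_hat o _ _) (Finset.Subset.refl _) (by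
      intro z hz hz0
      rcases mem_union.1 hz with hz | hz
      · exfalso
        apply hz0
        unfold hatb at hz
        exact mem_singleton.1 (mem_product.1 hz).1
      · unfold GG6 at hz
        symm
        exact HH_ground hlam0.le o h3rS hSn.le hfam (by push_cast; exact hsm)
          (mem_product.1 hz).2)
    (((3 ^ (100 * e) : ℕ) + 2 / lam) ^ 3) (by
      have h1r : (1 : ℝ) ≤ ((3 ^ (100 * e) : ℕ) : ℝ) := by
        push_cast; exact one_le_pow₀ (by norm_num)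
      have h2 : (1 : ℝ) ≤ ((3 ^ (100 * e) : ℕ) : ℝ) + 2 / lam := by
        have : 0 ≤ 2 / lam := by positivity
        linarith
      have h3 : (1 : ℝ) ≤ (((3 ^ (100 * e) : ℕ) : ℝ) + 2 / lam) ^ 3 := one_le_pow₀ h2
      linarith)
    (sum_lowered' hlam0 o (3 ^ (100 * e)) h) (K / C) (by positivity) hstep1
  have hhalf := ladlast3e_num_b he0 hlam hε (hεe.trans (min_le_left _ _))
  intro f hf hg
  refine le_trans ?_ (hlow1 f hf hg)
  push_cast
  have hε1 : ε ≤ 1 / (8 * C) := by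
    have h0 : (1 : ℝ) ≤ e := by exact_mod_cast he0
    have h1 : ε * 1 ≤ ε * e := mul_le_mul_of_nonneg_left h0 hε
    have h2 := hεe.trans (min_le_right _ _)
    linarith
  have h1 : 1 / 2 * (K / C) ≤
      (1 * ((3 : ℝ) ^ (100 * e) + 2 / lam) ^ 3) ^ (-(4 * ε)) * (K / C) :=
    mul_le_mul_of_nonneg_right hhalf (by positivity)
  have h2 : 2 * ε ≤ K / (4 * C) := by
    calc 2 * ε ≤ 2 * (1 / (8 * C)) := by linarith
      _ = 1 / (4 * C) := by field_simp; norm_num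
      _ ≤ K / (4 * C) := by gcongr
  have h3 : 1 / (4 * C) * K = 1 / 2 * (K / C) - K / (4 * C) := by field_simp; norm_num
  linarith

end Vale.Agent.P361.LRO.Ind3
end

section

/-!
# P361 LRO, stage 3, cells, S1: the top step (helper442)
-/

namespace Vale.Agent.P361.LRO.Ind3

open Finset Vale.Agent.P361.LRO _root_.P361.LRO Vale.Agent.P361.LRO.Ind

/-- a sum over a cube of side `S * T`, cell by cell -/
theorem st3_cells (S T : ℕ) (F : ℕ → ℕ → ℕ → ℝ) :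
    ∑ x ∈ range (S * T), ∑ y ∈ range (S * T), ∑ z ∈ range (S * T), F x y z =
    ∑ x ∈ range S, ∑ y ∈ range S, ∑ z ∈ range S, ∑ i ∈ range T, ∑ j ∈ range T, ∑ k ∈ range T,
      F (T * x + i) (T * y + j) (T * z + k) := by
  simp only [st_blocks]
  refine Finset.sum_congr rfl fun x _ => ?_
  rw [Finset.sum_comm]
  refine Finset.sum_congr rfl fun y _ => ?_
  rw [Finset.sum_comm (s := range S) (t := range T)]
  refine Finset.sum_congr rfl fun i _ => ?_
  rw [Finset.sum_comm (s := range S) (t := range T)]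
  refine Finset.sum_congr rfl fun j _ => ?_
  refine Finset.sum_congr rfl fun z _ => ?_
  refine Finset.sum_congr rfl fun k _ => ?_
  rw [mul_comm x, mul_comm y, mul_comm z]

/-- sum over the physical layers -/
theorem st3_layers {N : ℕ} (f : Fin (N + 1) → ℝ) :
    ∑ k ∈ univ.filter (fun k => k ≠ 0), f k = ∑ t ∈ range N, f (lay N N 0 t) := by
  rw [st_layers (N := N) (W := N) (m := 1) (one_mul N).symm f, Finset.sum_range_one]

/-- top: resistance to the uniform charge on the ground cube in the field `1`, on cells. -/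
theorem step_top3 (c1 : ℝ) (hc1 : 0 < c1) : ∃ C : ℝ, 0 < C ∧ ∀ (n N W e : ℕ) [NeZero n]
    (K : ℝ) (o : Tor n) (b : Finset (Tor n)) (c : Nd n N → Nd n N → ℝ) (s : ℕ),
    0 < W → N = 4 * W → e ≤ s → 8 * 3 ^ s < n →
    Local3 n N W e K c1 b (fun _ => 1) c →
    RBn c (EE6 n N o b (3 ^ s))
      (fun z => if z ∈ GG6 n N o (3 ^ s) then 1 / ((N : ℝ) * (3 ^ s) ^ 3) else 0)
      (C / (9 ^ e * 3 ^ s)) := by
  refine ⟨64 / c1, by positivity, ?_⟩
  intro n N W e _ K o b c s hW hN hes hn hc a ha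
  obtain ⟨d, rfl⟩ := Nat.exists_eq_add_of_le hes
  have hN0 : 0 < N := by omega
  have hNR : (0 : ℝ) < N := by exact_mod_cast hN0
  have hd : (0 : ℕ) < 3 ^ d := by positivity
  have hsT : 3 ^ d * 3 ^ e = 3 ^ (e + d) := by rw [pow_add, mul_comm]
  have hE := E4_le3 (h := fun _ => (1 : ℝ)) hW hN hc1 hc o (5 * 3 ^ d) (by
    have : 3 ^ e * (5 * 3 ^ d) = 5 * 3 ^ (e + d) := by rw [← hsT]; ring
    omega) (fun _ _ => rfl) a
  have hL := lines (3 ^ d) 1 hd one_pos (UT n N e o a) ?_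
  · have h27 : (27 : ℝ) ^ e = (3 ^ e) ^ 3 := by
      rw [← pow_mul, mul_comm e 3, pow_mul]; norm_num
    have hq : ∑ z, (if z ∈ GG6 n N o (3 ^ (e + d)) then
        1 / ((N : ℝ) * (3 ^ (e + d)) ^ 3) else 0) * a z =
        (1 / (((3 ^ d : ℕ) : ℝ) ^ 3 * (1 : ℕ))) * ∑ x ∈ range (3 ^ d), ∑ y ∈ range (3 ^ d),
          ∑ z ∈ range (3 ^ d), ∑ w ∈ range 1, UT n N e o a (x + 4 * 3 ^ d) y z w := by
      have e1 : ∑ z, (if z ∈ GG6 n N o (3 ^ (e + d)) then
          1 / ((N : ℝ) * (3 ^ (e + d)) ^ 3) else 0) * a z =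
          1 / ((N : ℝ) * (3 ^ (e + d)) ^ 3) * ∑ z ∈ GG6 n N o (3 ^ (e + d)), a z := by
        rw [Finset.mul_sum,
          ← Finset.sum_filter_add_sum_filter_not univ (fun z => z ∈ GG6 n N o (3 ^ (e + d)))]
        rw [Finset.sum_eq_zero (s := univ.filter fun z => ¬ z ∈ GG6 n N o (3 ^ (e + d))), add_zero]
        · rw [Finset.filter_mem_eq_inter, Finset.univ_inter]
          exact Finset.sum_congr rfl fun z hz => by rw [if_pos hz]
        · intro z hz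
          rw [if_neg (Finset.mem_filter.1 hz).2, zero_mul]
      have e2 : ∑ z ∈ GG6 n N o (3 ^ (e + d)), a z = ∑ x ∈ range (3 ^ d), ∑ y ∈ range (3 ^ d),
          ∑ z ∈ range (3 ^ d), ((N : ℝ) * 27 ^ e) * UC n N e o a (x + 4 * 3 ^ d) y z := by
        unfold GG6
        rw [Finset.sum_product_right, sum_cube _ (3 ^ (e + d)) (by omega), ← hsT, st3_cells]
        refine Finset.sum_congr rfl fun x _ => Finset.sum_congr rfl fun y _ =>
          Finset.sum_congr rfl fun z _ => ?_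
        unfold UC
        have hne : ((N : ℝ) * 27 ^ e) ≠ 0 := by positivity
        rw [← mul_assoc ((N : ℝ) * 27 ^ e), mul_one_div_cancel hne, one_mul]
        refine Finset.sum_congr rfl fun i _ => Finset.sum_congr rfl fun j _ =>
          Finset.sum_congr rfl fun k _ => ?_
        rw [st3_layers (fun l => a (l, pt n (pt n o (4 * (3 ^ d * 3 ^ e)) 0 0) (3 ^ e * x + i)
          (3 ^ e * y + j) (3 ^ e * z + k))), pt_pt]
        refine Finset.sum_congr rfl fun t _ => ?_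
        congr 2
        have q1 : 4 * (3 ^ d * 3 ^ e) + (3 ^ e * x + i) = 3 ^ e * (x + 4 * 3 ^ d) + i := by ring
        rw [q1, zero_add, zero_add]
      rw [e1, e2]
      simp only [← Finset.mul_sum, Finset.sum_range_one, UT]
      rw [← mul_assoc, pow_add, h27]
      push_cast
      congr 1
      field_simp
    rw [hq]
    refine hL.trans ?_
    have h39 : (27 : ℝ) ^ e = 9 ^ e * 3 ^ e := by rw [← mul_pow]; norm_num
    have h3 : (3 : ℝ) ^ (e + d) = 3 ^ e * 3 ^ d := pow_add _ _ _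
    have hE' : E4 (5 * 3 ^ d) 1 (UT n N e o a) ≤ 16 / (c1 * 27 ^ e) * netK c a := by
      rw [div_mul_eq_mul_div, le_div_iff₀ (by positivity)]
      linarith
    calc 4 / (((3 ^ d : ℕ) : ℝ) * (1 : ℕ)) * E4 (5 * 3 ^ d) 1 (UT n N e o a)
        ≤ 4 / (((3 ^ d : ℕ) : ℝ) * (1 : ℕ)) * (16 / (c1 * 27 ^ e) * netK c a) :=
          mul_le_mul_of_nonneg_left hE' (by positivity)
      _ = 64 / c1 / (9 ^ e * 3 ^ (e + d)) * netK c a := by
          rw [h39, h3]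
          push_cast
          field_simp
          ring
  · intro x hx y hy z hz w hw
    unfold UT UC
    have h1 : ∀ i ∈ range (3 ^ e), ∀ j ∈ range (3 ^ e), ∀ k ∈ range (3 ^ e), ∀ t ∈ range N,
        a (lay N N 0 t, pt n o (3 ^ e * x + i) (3 ^ e * y + j) (3 ^ e * z + k)) = 1 := by
      intro i hi j hj k hk t ht
      refine ha _ ?_
      unfold EE6
      rw [Finset.mem_union]
      right
      rw [Finset.mem_product]
      have key : ∀ {x i : ℕ}, x < 3 ^ d → i ∈ range (3 ^ e) → 3 ^ e * x + i < 3 ^ (e + d) := by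
        intro x i hx hi
        rw [← hsT, mul_comm (3 ^ d) (3 ^ e)]
        have h1 := Finset.mem_range.1 hi
        calc 3 ^ e * x + i < 3 ^ e * x + 3 ^ e := by omega
          _ = 3 ^ e * (x + 1) := by ring
          _ ≤ 3 ^ e * 3 ^ d := Nat.mul_le_mul_left _ hx
      refine ⟨?_, ?_⟩
      · rw [Finset.mem_filter]
        exact ⟨Finset.mem_univ _, st_lay_ne (m := 1) (one_mul N).symm one_pos
          (Finset.mem_range.1 ht)⟩
      · exact (mem_cube_iff o _ _).2 ⟨_, key hx hi, _, key hy hj, _, key hz hk, rfl⟩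
    rw [Finset.sum_congr rfl fun i hi => Finset.sum_congr rfl fun j hj =>
      Finset.sum_congr rfl fun k hk => Finset.sum_congr rfl fun t ht => h1 i hi j hj k hk t ht]
    simp only [Finset.sum_const, Finset.card_range, nsmul_eq_mul, mul_one]
    push_cast
    rw [show (27 : ℝ) ^ e = 3 ^ e * 3 ^ e * 3 ^ e by rw [← mul_pow, ← mul_pow]; norm_num]
    field_simp

end Vale.Agent.P361.LRO.Ind3
end

section

/-!
# P361 LRO, stage 3, network chapter for all spins: `block3E` (`LowE` instead of `Low`)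

(helper494, from helper678's Ind3/Final0.lean)
-/

namespace Vale.Agent.P361.LRO.Ind3

open Finset Vale.Agent.P361.LRO _root_.P361.LRO Vale.Agent.P361.LRO.Ind

/-- The top of the ladder (`LowE`). -/
theorem lad_top3E (c1 : ℝ) (hc1 : 0 < c1) : ∃ e0 : ℕ, 1 ≤ e0 ∧ ∀ (n N W e : ℕ) [NeZero n]
    (K h0 lam ε : ℝ) (o : Tor n) (b : Finset (Tor n)) (h : Tor n → ℝ)
    (c : (Tor n → ℝ) → Nd n N → Nd n N → ℝ) (s : ℕ),
    e0 ≤ e → 0 < W → N = 4 * W → 8 * 3 ^ s < n →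
    0 < h0 → h0 ≤ 1 → 1 / 3 ^ (10 * e) ≤ lam → 0 ≤ ε → ε ≤ 1 / 1000 →
    100 * e ≤ s → h0⁻¹ ≤ ((3 : ℝ) ^ s) ^ (5 / 2 : ℝ) →
    (∀ g, Fam n h0 lam g → Local3 n N W e K c1 b g (c g)) → LowE n N b 1 h0 lam ε c →
    Fam n h0 lam h →
    LBn (c (HH n lam o (3 ^ s) h)) (EE6 n N o b (3 ^ s)) (GG6 n N o (3 ^ s))
      (((3 : ℝ) ^ s) ^ (1 / 3 : ℝ)) :=
  lad_top3E_of c1 (step_top3 c1 hc1)

/-- The last rung (`LowE`). -/
theorem lad_last3E (c1 : ℝ) (hc1 : 0 < c1) : ∃ (e0 : ℕ) (C5 c3 c4 : ℝ), 1 ≤ e0 ∧ 0 < C5 ∧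
    0 < c3 ∧ 0 < c4 ∧ ∀ (n N W e : ℕ) [NeZero n]
    (K h0 lam ε : ℝ) (o : Tor n) (a : ℕ) (h : Tor n → ℝ)
    (c : (Tor n → ℝ) → Nd n N → Nd n N → ℝ) (S : ℕ),
    e0 ≤ e → 0 < W → N = 4 * W → 100 * e ≤ S → 8 * 3 ^ S < n →
    e ≤ a → a ≤ 2 * e → 1 ≤ K → K ≤ 27 ^ (2 * e) → C5 * K ≤ 27 ^ a → C5 * K ≤ 9 ^ e * 3 ^ a →
    0 < h0 → h0 ≤ 1 → 1 / 3 ^ (10 * e) ≤ lam → 0 ≤ ε → ε * e ≤ c4 →
    h0⁻¹ ≤ ((3 : ℝ) ^ S) ^ (5 / 2 : ℝ) →
    (∀ g, Fam n h0 lam g → Local3 n N W e K c1 (cube n o (3 ^ a)) g (c g)) →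
    LowE n N (cube n o (3 ^ a)) 1 h0 lam ε c →
    Fam n h0 lam h →
    LBn (c (HH n lam o (3 ^ (100 * e)) h)) (EE6 n N o (cube n o (3 ^ a)) (3 ^ (100 * e)))
      (GG6 n N o (3 ^ S)) (((3 : ℝ) ^ (100 * e)) ^ (1 / 3 : ℝ)) →
    LBn (c h) (hatb N (cube n o (3 ^ a))) (GG6 n N o (3 ^ S)) (c3 * K) :=
  lad_last3E_of c1 (step_last3 c1 hc1)

/-- **STAGE 3 NETWORK CHAPTER, all spins.** `c3, C5` absolute (do not depend on `K`). -/
theorem block3E (c1 : ℝ) (hc1 : 0 < c1) : ∃ (e0 : ℕ) (C5 c3 c4 : ℝ), 1 ≤ e0 ∧ 0 < C5 ∧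
    0 < c3 ∧ 0 < c4 ∧ ∀ e : ℕ, e0 ≤ e → ∃ n0 : ℕ, ∀ (n N W : ℕ) [NeZero n]
    (K h0 lam ε : ℝ) (o : Tor n) (a : ℕ) (h : Tor n → ℝ)
    (c : (Tor n → ℝ) → Nd n N → Nd n N → ℝ),
    n0 ≤ n → 0 < W → N = 4 * W → e ≤ a → a ≤ 2 * e →
    1 ≤ K → K ≤ 27 ^ (2 * e) → C5 * K ≤ 27 ^ a → C5 * K ≤ 9 ^ e * 3 ^ a →
    (n : ℝ) ^ (-(1 / 4 : ℝ)) ≤ h0 → h0 ≤ 1 → 1 / 3 ^ (10 * e) ≤ lam → 0 ≤ ε → ε * e ≤ c4 →
    (∀ g, Fam n h0 lam g → Local3 n N W e K c1 (cube n o (3 ^ a)) g (c g)) →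
    LowE n N (cube n o (3 ^ a)) 1 h0 lam ε c →
    Fam n h0 lam h →
    c3 * K ≤ netK (c h) (fun z => if z ∈ hatb N (cube n o (3 ^ a)) then 1 else 0) := by
  obtain ⟨b1, hb1, H1⟩ := lad_top3E c1 hc1
  obtain ⟨b2, hb2, H2⟩ := lad_mid3E c1 hc1
  obtain ⟨b3, C5, c3, c4, hb3, hC5, hc3, hc4, H3⟩ := lad_last3E c1 hc1
  refine ⟨max b1 (max b2 b3), C5, c3, min c4 (1 / 1000), le_max_of_le_left hb1, hC5, hc3,
    lt_min hc4 (by norm_num), ?_⟩
  intro e he
  have he1 : b1 ≤ e := le_trans (le_max_left _ _) he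
  have he2 : b2 ≤ e := le_trans (le_trans (le_max_left _ _) (le_max_right _ _)) he
  have he3 : b3 ≤ e := le_trans (le_trans (le_max_right _ _) (le_max_right _ _)) he
  have hepos : 1 ≤ e := hb1.trans he1
  obtain ⟨n0, hn0⟩ := num_ladder3 e hepos
  refine ⟨n0, ?_⟩
  intro n N W _ K h0 lam ε o a h c hn hW hN hea ha2 hK hK2 hK3 hK4 hh0 hh1 hlam hε hεl hloc hlow
    hfam
  have hnpos : (0 : ℝ) < n := by exact_mod_cast Nat.pos_of_ne_zero (NeZero.ne n)
  have hh0pos : 0 < h0 := lt_of_lt_of_le (Real.rpow_pos_of_pos hnpos _) hh0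
  have he1' : (1 : ℝ) ≤ e := by exact_mod_cast hepos
  have hε1 : ε ≤ 1 / 1000 := by
    have h1 : ε * e ≤ 1 / 1000 := le_trans hεl (min_le_right _ _)
    nlinarith
  have hε4 : ε * e ≤ c4 := le_trans hεl (min_le_left _ _)
  obtain ⟨I, hI, hIn⟩ := hn0 n h0 hn hh0 hh1
  have hpow : ∀ i : ℕ, 100 * e ≤ 4 ^ i * (100 * e) := fun i =>
    Nat.le_mul_of_pos_left _ (by positivity)
  -- downward induction
  have key : ∀ k i : ℕ, i + k = I →
      LBn (c (HH n lam o (3 ^ (4 ^ i * (100 * e))) h))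
        (EE6 n N o (cube n o (3 ^ a)) (3 ^ (4 ^ i * (100 * e))))
        (GG6 n N o (3 ^ (4 ^ I * (100 * e)))) (((3 : ℝ) ^ (4 ^ i * (100 * e))) ^ (1 / 3 : ℝ)) := by
    intro k
    induction k with
    | zero =>
      intro i hi
      have : i = I := by omega
      subst this
      exact H1 n N W e K h0 lam ε o _ h c _ he1 hW hN hIn hh0pos hh1 hlam hε hε1
        (hpow _) hI hloc hlow hfam
    | succ k ih =>
      intro i hi
      have h1 := ih (i + 1) (by omega)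
      have e' : 4 ^ (i + 1) * (100 * e) = 4 * (4 ^ i * (100 * e)) := by ring
      rw [e'] at h1
      have hle : 4 * (4 ^ i * (100 * e)) ≤ 4 ^ I * (100 * e) := by
        rw [← e']
        exact Nat.mul_le_mul_right _ (Nat.pow_le_pow_right (by norm_num) (by omega))
      exact H2 n N W e K h0 lam ε o _ h c _ _ he2 hW hN hle hIn hh0pos hh1 hlam hε hε1
        (hpow _) hI hloc hlow hfam h1
  have h0' := key I 0 (by omega)
  simp only [pow_zero, one_mul] at h0'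
  have hfin := H3 n N W e K h0 lam ε o a h c (4 ^ I * (100 * e)) he3 hW hN (hpow I) hIn hea ha2
    hK hK2 hK3 hK4 hh0pos hh1 hlam hε hε4 hI hloc hlow hfam h0'
  apply hfin
  · intro x hx
    simp [hx]
  · intro x hx
    have hx0 : x.1 ≠ 0 := by
      simp only [GG6, mem_product, mem_filter, mem_univ, true_and] at hx
      exact hx.1
    have : x ∉ hatb N (cube n o (3 ^ a)) := by
      intro h
      simp only [hatb, mem_product, mem_singleton] at h
      exact hx0 h.1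
    simp [this]

end Vale.Agent.P361.LRO.Ind3
end

section

/-!
P361 LRO, stage 3, network chapter, package L1: the top of the ladder (port of Ind/LadTop.lean).
-/

namespace Vale.Agent.P361.LRO.Ind3

open Finset Vale.Agent.P361.LRO _root_.P361.LRO Vale.Agent.P361.LRO.Ind

end Vale.Agent.P361.LRO.Ind3
end

section

/-!
# P361 LRO, stage 3, network chapter: one rung of the ladder
-/

namespace Vale.Agent.P361.LRO.Ind3

open Finset Vale.Agent.P361.LRO _root_.P361.LRO Vale.Agent.P361.LRO.Ind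

end Vale.Agent.P361.LRO.Ind3
end

section

/-!
# P361 LRO, stage 3, network chapter: assembly
-/

namespace Vale.Agent.P361.LRO.Ind3

open Finset Vale.Agent.P361.LRO _root_.P361.LRO Vale.Agent.P361.LRO.Ind

end Vale.Agent.P361.LRO.Ind3
end

section

/-!
P361 LRO, stage 3: `LocalStmt3` (input of `Ind3/Kappa.lean`) from `local3_inst`.
-/

namespace Vale.Agent.P361.LRO.Ind3

open Finset Vale.Agent.P361.LRO _root_.P361.LRO Vale.Agent.P361.LRO.Ind

noncomputable section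

end

end Vale.Agent.P361.LRO.Ind3
end

section

/-!
Spin algebra: commutation relations and the bond inequality.
-/

namespace Vale.Agent.P361

open Matrix Finset
open scoped ComplexOrder

/-- Raising matrix `S⁺ = (S⁻)ᴴ`. -/
noncomputable def spinRaise (n : ℕ) : Matrix (Fin (n + 1)) (Fin (n + 1)) ℂ := (spinLower n)ᴴ

variable {n : ℕ} {Λ : Finset Site}

end Vale.Agent.P361
end

section

/-!
The double commutator of a weighted raising operator with the Heisenberg exponent.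
-/

namespace Vale.Agent.P361

open Matrix Finset
open scoped ComplexOrder

variable {n : ℕ} {Λ : Finset Site}

/-- The pair interaction in terms of raising and lowering operators. -/
noncomputable def pairH (n : ℕ) {Λ : Finset Site} (x y : Λ) :
    Matrix (Λ → Fin (n + 1)) (Λ → Fin (n + 1)) ℂ :=
  siteOp x (spinZ n) * siteOp y (spinZ n) +
      (1 / 2 : ℂ) • (siteOp x (spinRaise n) * siteOp y (spinLower n) +
        siteOp x (spinLower n) * siteOp y (spinRaise n))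

end Vale.Agent.P361
end

section

/-!
P361 LRO, stage 3: the defect bound `DeltaStmt` (input of `Ind3/LocalInst.lean`), hence
`LocalStmt3`.
-/

namespace Vale.Agent.P361.LRO.Ind3

open Finset Matrix Vale.Agent.P361.LRO _root_.P361.LRO Vale.Agent.P361.LRO.Ind
  Vale.Agent.P361.LRO.Bloch

noncomputable section

/-- **The defect bound.** -/
theorem deltaStmt : DeltaStmt := by
  refine ⟨4, by norm_num, ?_⟩
  intro V _ _ L β K η b hβ hK _ hb hη
  obtain ⟨N0, hN00, hN0⟩ := Delta.hX L hβ hK.le hη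
  obtain ⟨N1, hN1⟩ := exists_nat_gt β
  refine ⟨N0 + N1, ?_⟩
  intro N hN h hh hr k m hkm x y w1 w2 a c p hw
  obtain ⟨h1, h2⟩ := hN0 N (by omega) b hb h hh hr k m hkm x y w1 w2 a c p hw
  have hN' : 1 ≤ N := by omega
  have hNr : (0 : ℝ) < N := by exact_mod_cast hN'
  have hβN : β ≤ N := by
    have : (N1 : ℝ) ≤ N := by exact_mod_cast (by omega : N1 ≤ N)
    linarith
  have hp0 : 0 ≤ β / (2 * N) := by positivity
  have hp1 : β / (2 * N) ≤ 1 := by
    rw [div_le_one (by positivity)]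
    linarith
  have hθ : ∀ z, 0 ≤ th β N h (blk K b) z ∧ th β N h (blk K b) z ≤ 1 := by
    intro z
    unfold th
    split_ifs with h0
    · exact Delta.blk_bd hK.le b _
    · have h3 := Delta.tt_bd hβ hN' hh z.2
      unfold Delta.tt at h3
      exact ⟨h3.1, h3.2.trans hp1⟩
  have hA : Le 0 (lctx L β N (th β N h (blk K b)) (k + m + 1) x) :=
    (preM_nonneg L hp0 hp1 hθ _).zero_mul (rmM_nonneg (fun _ => hθ _) _)
  have hC : Le 0 (rctx L β N (th β N h (blk K b)) k y) :=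
    (rmM_nonneg (fun _ => hθ _) _).zero_mul (restM_nonneg L hp0 hp1 hθ _)
  have hW : Le 0 (wd (mword L β N (th β N h (blk K b)) k m)) :=
    wd_nonneg (ok_mid L hp0 hp1 (fun _ _ => hθ _) m)
  have hZ : 0 ≤ trace (lctx L β N (th β N h (blk K b)) (k + m + 1) x *
      wd (mword L β N (th β N h (blk K b)) k m) * rctx L β N (th β N h (blk K b)) k y) := by
    have := ((hA.zero_mul hW).zero_mul hC).trace
    rwa [Matrix.trace_zero] at this
  have hc : 4 * η * Real.exp (K * η) ≤ 4 * η * Real.exp (4 * (K * η)) := by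
    have h5 : 0 ≤ K * η := by positivity
    have h6 : Real.exp (K * η) ≤ Real.exp (4 * (K * η)) := Real.exp_le_exp.2 (by linarith)
    exact mul_le_mul_of_nonneg_left h6 (by positivity)
  have h4 := mul_le_mul_of_nonneg_right hc hZ
  exact ⟨h1.trans h4, h2.trans h4⟩

end

end Vale.Agent.P361.LRO.Ind3
end

section

/-!
P361 LRO, stage 3, block (K): the stiffness statement `kappaStmt3`.
-/

namespace Vale.Agent.P361.LRO.Ind3

end Vale.Agent.P361.LRO.Ind3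
end

section

/-!
P361 LRO, stage 3, all spins: `KappaStmt3S s` from the local instance.
-/

namespace Vale.Agent.P361.LRO.S3S

/-- **Stiffness, all spins**, from the long-window local instance. -/
theorem kappaStmt3S_of_local {s : ℕ} (hs : 0 < s) (hL : LocalStmt3S s) : KappaStmt3S s :=
  kappaStmt3S_of hs (fun c1 hc1 => Ind3.block3E c1 hc1) hL (lowStmt3S hs)

/-- **Stiffness, all spins**, from the long-window conductance bound. -/
theorem kappaStmt3S_of_CC {s : ℕ} (hs : 0 < s) (hCC : GenS.CCgeS s) : KappaStmt3S s :=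
  kappaStmt3S_of_local hs (localStmt3S_of hs hCC Ind3.deltaStmt)

end Vale.Agent.P361.LRO.S3S
end

section

/-!
P361, Bloch's law for all spins: `LongTr s`.
-/

namespace Vale.Agent.P361.LRO.S3S

open Finset Matrix Vale.Agent.P361.LRO _root_.P361.LRO Vale.Agent.P361.LRO.Bloch
  Vale.Agent.P361.LRO.Bloch.H1 Vale.Agent.P361.LRO.S3S.KerS Vale.Agent.P361.LRO.GenS

noncomputable section

theorem longTr_of (s : ℕ)
    (hcE : ∀ (n : ℕ) [NeZero n], 2 ≤ n → ∃ cX : Tor n → Tor n → ℕ,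
      (∀ y v : Tor n × Fin s, cE y v (interE n s).reverse = cX y.1 v.1) ∧
      ∀ (f : Tor n → ℝ) (x : Tor n), ∑ x', (cX x' x : ℝ) * f x' = Vale.Agent.P361.LRO.S3S.KerS.nb f x)
    (hnE : ∀ (n : ℕ) [NeZero n] (v : Tor n × Fin s), nE v (interE n s).reverse ≤ 6 * s)
    (hgl : ∀ (n M : ℕ) [NeZero n] (p : ℝ), gl (edgesS n s M) p =
      (((List.replicate M (intraE n s)).flatten.reverse).map fun e => Lt.gate e.1 e.2 p) ++
        ((interE n s).reverse.map fun e => Lt.gate e.1 e.2 p))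
    (hintra : ∀ (n M : ℕ) [NeZero n], ∀ e ∈ (List.replicate M (intraE n s)).flatten.reverse,
      e.1.1 = e.2.1)
    (hinter : ∀ (n : ℕ) [NeZero n], 2 ≤ n → ∀ e ∈ (interE n s).reverse, e.1.1 ≠ e.2.1) :
    LongTr s := by
  intro n M _ β N hn hβ hβN hN θ hθ hθc τ hτ0 hτ1 hτ k m hkm δ hδ x y i j hX J
  have hNr : (0 : ℝ) < N := by exact_mod_cast hN
  have hp0 : 0 ≤ β / (2 * N) := by positivity
  have hp1 : β / (2 * N) ≤ 1 := by
    rw [div_le_one (by positivity)]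
    linarith
  obtain ⟨cX, hcX, hnb⟩ := hcE n hn
  have hcard : ∀ x : Tor n, (univ.filter fun v : Tor n × Fin s => v.1 = x).card = s := by
    intro x
    have e : (univ.filter fun v : Tor n × Fin s => v.1 = x) =
        ({x} : Finset (Tor n)) ×ˢ (univ : Finset (Fin s)) := by
      ext v
      rw [Finset.mem_filter, Finset.mem_product, Finset.mem_singleton]
      simp
    rw [e, Finset.card_product, Finset.card_singleton, Finset.card_univ, Fintype.card_fin,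
      one_mul]
  have hAn : Le 0 (lctx (edgesS n s M) β N θ (k + m + 1) (x, i)) :=
    (preM_nonneg _ hp0 hp1 hθ _).zero_mul (rmM_nonneg (fun _ => hθ _) _)
  have hCn : Le 0 (rctx (edgesS n s M) β N θ k (y, j)) :=
    (rmM_nonneg (fun _ => hθ _) _).zero_mul (restM_nonneg _ hp0 hp1 hθ _)
  have key := long_copies (st := fun v : Tor n × Fin s => v.1) (s := s) hcard hAn hCn hp0 hp1
    (D := 6 * s) (hinter n hn) (hintra n M) (hnE n) hcX (hgl n M (β / (2 * N))) hτ0 hτ1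
    (t := fun j z => θ (Fin.ofNat (N + 1) (k + j), z)) (fun _ _ => hθ _) m
    (fun l z h1 h2 => hτ _ (by
      intro h
      have h3 := congrArg Fin.val h
      simp only [Fin.val_ofNat, Fin.val_zero] at h3
      rw [Nat.mod_eq_of_lt (by omega)] at h3
      omega))
    (x, i) (y, j)
    (qs := fun k => Vale.Agent.P361.LRO.S3S.KerS.qS ((1 - β / (2 * N)) ^ (6 * s))
      (s * (β / (2 * N)) * (1 - β / (2 * N)) ^ (12 * s)) x k)
    (fun v l => rfl)
    (fun k => by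
      funext v l
      simp only [Vale.Agent.P361.LRO.S3S.KerS.qS, stepQ]
      rw [show 12 * s = 2 * (6 * s) by ring]
      congr 1
      split_ifs
      · rfl
      · rw [hnb])
    hδ (fun w1 w2 a b p hw hab => hX w1 w2 a b p hab hw) J
  refine le_trans (le_of_eq ?_) key
  unfold mword
  push_cast
  congr 2
  refine Finset.sum_congr rfl fun l _ => ?_
  ring

/-- **Long windows for all spins.** -/
theorem longTr (s : ℕ) : LongTr s :=
  longTr_of s
    (fun n _ hn => ⟨C527.cT n, fun y v => C527.cE_inter hn y v, fun f x => C527.sum_cT f x⟩)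
    (fun _ _ v => C527.nE_inter v)
    (fun _ M _ p => C527.gl_edgesS M p)
    (fun _ M _ => C527.intra_eq M)
    (fun _ _ hn => C527.inter_ne hn)

end

end Vale.Agent.P361.LRO.S3S
end

section

/-!
P361, stage 3, all spins, block (E): the numbers (helper683).  Inputs: the geometry half `GeoE` and
the limit `M → ∞` on the free box `BoxE`.
-/

namespace Vale.Agent.P361.LRO.S3S

open Finset Matrix Filter Topology Vale.Agent.P361.LRO.GenS Vale.Agent.P361.LRO.S3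

noncomputable section

/-- Partition function of the free box with `2 M`-fold coupling inside the sites. -/
def ZbE (s l M : ℕ) (β : ℝ) : ℝ :=
  trace (NormedSpace.exp (-(β / 4) • ham (Lm (nnL (B.cube l)) s (2 * M)) 0))

/-- Geometry half. -/
def GeoE (s : ℕ) : Prop :=
  ∀ (n M : ℕ) [NeZero n] (β : ℝ) (h : Tor n → ℝ) (x : Tor n) (w m : ℕ), 0 < β →
    (∀ x, 0 ≤ h x) → 1 ≤ w → 1 ≤ m → w * m + 2 ≤ n →
    (∑ y : Fin 3 → Fin m, yb (edgesS n s M) β (hS h)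
      (cubeS n s (x + fun i => ((w * (y i : ℕ) : ℕ) : ZMod n)) w)) / (m : ℝ) ^ 3 ≤
      (40 * s + 64) / ((s : ℝ) ^ 2 * β * w * (m : ℝ) ^ 3) *
        (2 * (Real.log (ZbE s (w * m + 2) M β) + 6 * (s : ℝ) ^ 2 * β * ((w * m + 2 : ℕ) : ℝ) ^ 2))

/-- Free box, `M → ∞`. -/
def BoxE (s : ℕ) : Prop :=
  ∀ (l : ℕ) (β : ℝ), 0 < β →
    Tendsto (fun M : ℕ => ZbE s l M β) atTop (𝓝 (B.Zt s (B.cube l) (β / 2) 0))

/-- `M0` uniform in the finitely many boxes. -/
theorem energy_M0 {s : ℕ} (hZ : BoxE s) {β : ℝ} (hβ : 0 < β) (K : ℕ) :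
    ∃ M0 : ℕ, ∀ M : ℕ, M0 ≤ M → ∀ l : ℕ, l ≤ K →
      Real.log (ZbE s l M β) ≤ Real.log (B.Zt s (B.cube l) (β / 2) 0) + 1 := by
  have h1 : ∀ l : ℕ, ∀ᶠ M : ℕ in atTop,
      Real.log (ZbE s l M β) ≤ Real.log (B.Zt s (B.cube l) (β / 2) 0) + 1 := by
    intro l
    have hpos : 0 < B.Zt s (B.cube l) (β / 2) 0 := B.Zt_pos _ _
    have h2 := (hZ l β hβ).log hpos.ne'
    exact (h2.eventually (Iio_mem_nhds (lt_add_one _))).mono fun M hM => le_of_lt hM
  have h2 : ∀ᶠ M : ℕ in atTop, ∀ l ∈ Finset.range (K + 1),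
      Real.log (ZbE s l M β) ≤ Real.log (B.Zt s (B.cube l) (β / 2) 0) + 1 :=
    (Filter.eventually_all_finset _).2 fun l _ => h1 l
  obtain ⟨M0, hM0⟩ := Filter.eventually_atTop.1 h2
  exact ⟨M0, fun M hM l hl => hM0 M hM l (Finset.mem_range.2 (by omega))⟩

/-- The arithmetic. -/
theorem energy_num {A C β w m l E : ℝ} (hA : 0 ≤ A) (hC : 0 ≤ C) (hβ : 1 ≤ β) (hw : 1 ≤ w)
    (hm : 0 < m) (hw3 : w ≤ 3 * Real.sqrt β) (h1 : β ^ (3 : ℝ) ≤ w * m) (h2 : 2 ≤ w * m)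
    (hl : l = w * m + 2) (hE : E ≤ C * l ^ 3 * β ^ (-(3 / 2) : ℝ) + C * β * l ^ 2) :
    A / (β * w * m ^ 3) * E ≤ 9 * A * (12 * C) * β ^ (-(3 / 2) : ℝ) := by
  have hβ0 : 0 < β := by linarith
  have hw0 : 0 < w := by linarith
  have hr : 0 < β ^ (-(3 / 2) : ℝ) := Real.rpow_pos_of_pos hβ0 _
  set r : ℝ := β ^ (-(3 / 2) : ℝ) with hrdef
  set q : ℝ := w * m with hq
  have hq0 : 0 < q := mul_pos hw0 hm
  have hl2 : l ≤ 2 * q := by rw [hl]; linarith
  have hl0 : 0 ≤ l := by rw [hl]; linarith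
  have e3 : β ^ (3 : ℝ) = β ^ 3 := by
    rw [← Real.rpow_natCast]; norm_num
  rw [e3] at h1
  have hw2 : w ^ 2 ≤ 9 * β := by
    have h3 : w ^ 2 ≤ (3 * Real.sqrt β) ^ 2 := pow_le_pow_left₀ hw0.le hw3 2
    rw [mul_pow, Real.sq_sqrt hβ0.le] at h3
    linarith
  -- r ≥ β^{-2}
  have hr2 : 1 / β ^ 2 ≤ r := by
    have h4 : β ^ (-(2 : ℝ)) ≤ β ^ (-(3 / 2) : ℝ) :=
      Real.rpow_le_rpow_of_exponent_le hβ (by norm_num)
    have h5 : β ^ (-(2 : ℝ)) = 1 / β ^ 2 := by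
      rw [Real.rpow_neg hβ0.le, one_div]
      congr 1
      rw [← Real.rpow_natCast]; norm_num
    rw [← h5]; exact h4
  have hE1 : E ≤ 8 * C * q ^ 3 * r + 4 * C * β * q ^ 2 := by
    have h3 : l ^ 3 ≤ (2 * q) ^ 3 := pow_le_pow_left₀ hl0 hl2 3
    have h4 : l ^ 2 ≤ (2 * q) ^ 2 := pow_le_pow_left₀ hl0 hl2 2
    have h5 : C * l ^ 3 * r ≤ C * (2 * q) ^ 3 * r := by gcongr
    have h6 : C * β * l ^ 2 ≤ C * β * (2 * q) ^ 2 := by gcongr
    linarith only [hE, h5, h6]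
  have hpos : 0 < β * w * m ^ 3 := by positivity
  have hid : A / (β * w * m ^ 3) * (8 * C * q ^ 3 * r + 4 * C * β * q ^ 2) =
      8 * A * C * r * (w ^ 2 / β) + 4 * A * C * (w ^ 2 / q) := by
    rw [hq]
    field_simp
  have h7 : w ^ 2 / β ≤ 9 := by
    rw [div_le_iff₀ hβ0]; linarith
  have h8 : w ^ 2 / q ≤ 9 * r := by
    have h9 : w ^ 2 / q ≤ 9 * β / β ^ 3 := by
      apply div_le_div₀ (by positivity) hw2 (by positivity) h1
    refine h9.trans ?_
    have h10 : 9 * β / β ^ 3 = 9 * (1 / β ^ 2) := by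
      field_simp
    rw [h10]
    exact mul_le_mul_of_nonneg_left hr2 (by norm_num)
  calc A / (β * w * m ^ 3) * E ≤ A / (β * w * m ^ 3) * (8 * C * q ^ 3 * r + 4 * C * β * q ^ 2) :=
        mul_le_mul_of_nonneg_left hE1 (by positivity)
    _ = 8 * A * C * r * (w ^ 2 / β) + 4 * A * C * (w ^ 2 / q) := hid
    _ ≤ 8 * A * C * r * 9 + 4 * A * C * (9 * r) := by
        gcongr
    _ = _ := by ring

/-- **(E) for all spins** from the two inputs. -/
theorem energyStmt3S_of {s : ℕ} (hs : 1 ≤ s) (hG : GeoE s) (hZ : BoxE s) : EnergyStmt3S s := by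
  obtain ⟨C0, b0, hC0, hb0, hlog⟩ := B.log_Zt_zero' (n := s) hs
  have hs' : (0 : ℝ) < s := by exact_mod_cast hs
  set A : ℝ := 2 * (40 * s + 64) / (s : ℝ) ^ 2 with hA
  set C : ℝ := 8 * C0 + 6 * (s : ℝ) ^ 2 + 1 with hC
  refine ⟨9 * A * (12 * C), max (4 * b0) 2, ?_⟩
  intro β hβ
  have hβb : 4 * b0 ≤ β := (le_max_left _ _).trans hβ
  have hβ2 : 2 ≤ β := (le_max_right _ _).trans hβ
  have hβ0 : 0 < β := by linarith
  refine ⟨⌈2 * β ^ (3 : ℝ)⌉₊ + 2, ?_⟩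
  intro n _ hn
  obtain ⟨M0, hM0⟩ := energy_M0 hZ hβ0 n
  refine ⟨M0, ?_⟩
  intro M hM g hg x w m hw hw3 h1 h2
  have e3 : β ^ (3 : ℝ) = β ^ 3 := by
    rw [← Real.rpow_natCast]; norm_num
  have hβ3 : 2 ≤ β ^ (3 : ℝ) := by
    rw [e3]
    exact hβ2.trans (le_self_pow₀ (by linarith only [hβ2]) (by norm_num))
  have hwm : w * m + 2 ≤ n := by
    have h3 : ((w * m : ℕ) : ℝ) ≤ ((⌈2 * β ^ (3 : ℝ)⌉₊ : ℕ) : ℝ) := by
      push_cast
      exact h2.trans (Nat.le_ceil _)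
    have h4 : w * m ≤ ⌈2 * β ^ (3 : ℝ)⌉₊ := by exact_mod_cast h3
    omega
  have hm0 : 1 ≤ m := by
    rcases Nat.eq_zero_or_pos m with rfl | h
    · exfalso
      rw [Nat.cast_zero, mul_zero] at h1
      linarith
    · exact h
  have hw' : (1 : ℝ) ≤ w := by exact_mod_cast hw
  have hm' : (0 : ℝ) < m := by exact_mod_cast hm0
  have h5 := hG n M β (fun z => g z / (s * β)) x w m hβ0
    (fun z => (div_pos (hg z).1 (by positivity)).le) hw hm0 hwm
  refine h5.trans ?_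
  have h6 := hM0 M hM (w * m + 2) hwm
  have h7 := hlog (β / 4) (by linarith) (w * m + 2)
  have e1 : 2 * (β / 4) = β / 2 := by ring
  rw [e1] at h7
  set l : ℝ := ((w * m + 2 : ℕ) : ℝ) with hl
  have hl' : l = w * m + 2 := by rw [hl]; push_cast; ring
  have e2 : (β / 4) ^ (-(3 / 2) : ℝ) = 8 * β ^ (-(3 / 2) : ℝ) := by
    rw [Real.div_rpow hβ0.le (by norm_num)]
    have : (4 : ℝ) ^ (-(3 / 2) : ℝ) = 1 / 8 := by
      rw [show (4 : ℝ) = 2 ^ (2 : ℝ) by norm_num, ← Real.rpow_mul (by norm_num),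
        show (2 : ℝ) * (-(3 / 2)) = -(3 : ℝ) by norm_num, Real.rpow_neg (by norm_num)]
      norm_num
    rw [this]
    ring
  have e4 : (β / 4) ^ (0.51 : ℝ) ≤ β := by
    have h8 : (β / 4) ^ (0.51 : ℝ) ≤ β ^ (0.51 : ℝ) :=
      Real.rpow_le_rpow (by positivity) (by linarith) (by norm_num)
    have h9 : β ^ (0.51 : ℝ) ≤ β ^ (1 : ℝ) :=
      Real.rpow_le_rpow_of_exponent_le (by linarith) (by norm_num)
    rw [Real.rpow_one] at h9
    exact h8.trans h9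
  rw [e2] at h7
  have hr : 0 < β ^ (-(3 / 2) : ℝ) := Real.rpow_pos_of_pos hβ0 _
  have hl1 : 1 ≤ l := by
    rw [hl']
    have : 0 ≤ (w : ℝ) * m := by positivity
    linarith
  have h10 : Real.log (ZbE s (w * m + 2) M β) + 6 * (s : ℝ) ^ 2 * β * l ^ 2 ≤
      C * l ^ 3 * β ^ (-(3 / 2) : ℝ) + C * β * l ^ 2 := by
    have a1 : C0 * (β / 4) ^ (0.51 : ℝ) * l ^ 2 ≤ C0 * β * l ^ 2 := by gcongr
    have a2 : (1 : ℝ) ≤ β * l ^ 2 :=
      one_le_mul_of_one_le_of_one_le (by linarith only [hβ2]) (one_le_pow₀ hl1)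
    have a3 : 0 ≤ (6 * (s : ℝ) ^ 2 + 1) * l ^ 3 * β ^ (-(3 / 2) : ℝ) := by positivity
    have a4 : 0 ≤ C0 * β * l ^ 2 := by positivity
    have a5 : C * l ^ 3 * β ^ (-(3 / 2) : ℝ) + C * β * l ^ 2 =
        (8 * C0 * l ^ 3 * β ^ (-(3 / 2) : ℝ) + (6 * (s : ℝ) ^ 2 + 1) * l ^ 3 * β ^ (-(3 / 2) : ℝ)) +
          (8 * (C0 * β * l ^ 2) + 6 * (s : ℝ) ^ 2 * β * l ^ 2 + β * l ^ 2) := by
      rw [hC]; ring
    have a6 : C0 * l ^ 3 * (8 * β ^ (-(3 / 2) : ℝ)) = 8 * C0 * l ^ 3 * β ^ (-(3 / 2) : ℝ) := by ring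
    rw [a5]
    rw [a6] at h7
    linarith
  have hq2 : (2 : ℝ) ≤ w * m := hβ3.trans h1
  have h11 := energy_num (A := A) (C := C) (β := β) (w := w) (m := m) (l := l)
    (E := Real.log (ZbE s (w * m + 2) M β) + 6 * (s : ℝ) ^ 2 * β * l ^ 2)
    (by rw [hA]; positivity) (by rw [hC]; positivity) (by linarith) hw' hm' hw3 h1 hq2 hl' h10
  refine le_trans (le_of_eq ?_) h11
  rw [hA]
  field_simp

end

end Vale.Agent.P361.LRO.S3S
end

section

/-!
P361, all spins: `W = P exp(-β H)` with the symmetriser `P` satisfies the hypotheses of the joint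
law.
-/

namespace Vale.Agent.P361.LRO.TwJ

set_option linter.all false

open Matrix Finset GenS
open scoped ComplexOrder

variable {V : Type} [Fintype V] [DecidableEq V] {m : ℕ} [NeZero m]

end Vale.Agent.P361.LRO.TwJ
end

section

/-!
P361, stage 3, all spins, lower tail: (LT0S) from the identification of the spin `s / 2` trace,
by (LT0) at `M` intra edges and the limit `M → ∞`.
-/

namespace Vale.Agent.P361.LRO.S3S

open Matrix Finset Filter Topology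
open Vale.Agent.P361.LRO.TwJ Vale.Agent.P361.LRO.GenS Vale.Agent.P361.LRO.S3

set_option linter.all false

noncomputable section

section general

variable {V : Type} [Fintype V] [DecidableEq V]

theorem trace_exp_pos_real {A : Matrix (V → Fin 2) (V → Fin 2) ℝ} (hA : Aᵀ = A) :
    0 < trace (NormedSpace.exp A) := by
  have hC : NormedSpace.exp A = (NormedSpace.exp ((1 / 2 : ℝ) • A))ᴴ *
      NormedSpace.exp ((1 / 2 : ℝ) • A) := by
    rw [Matrix.conjTranspose_eq_transpose_of_trivial, ← Matrix.exp_transpose, transpose_smul,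
      hA, ← Matrix.exp_add_of_commute _ _ rfl, ← add_smul]
    norm_num
  have hpsd : (NormedSpace.exp A).PosSemidef := by
    rw [hC]
    exact Matrix.posSemidef_conjTranspose_mul_self _
  refine lt_of_le_of_ne hpsd.trace_nonneg fun h0 => ?_
  rw [hC] at h0
  have h1 := (Matrix.trace_conjTranspose_mul_self_eq_zero_iff).1 h0.symm
  exact (Matrix.isUnit_exp ((1 / 2 : ℝ) • A)).ne_zero h1

theorem aeval_transpose {A : Matrix (V → Fin 2) (V → Fin 2) ℝ} (hA : Aᵀ = A)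
    (P : Polynomial ℝ) : (Polynomial.aeval A P)ᵀ = Polynomial.aeval A P := by
  induction P using Polynomial.induction_on with
  | C a =>
    rw [Polynomial.aeval_C, Algebra.algebraMap_eq_smul_one, transpose_smul, transpose_one]
  | add p q hp hq => rw [map_add, transpose_add, hp, hq]
  | monomial n a ih =>
    rw [pow_succ, ← mul_assoc, map_mul, Polynomial.aeval_X, transpose_mul, ih, hA]
    exact Vale.Agent.P361.LRO.TwJ.commute_aeval (Commute.refl A) _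

theorem Om_transpose (b : Finset V) : (Om b)ᵀ = Om b := by
  rw [Om, transpose_sum]
  refine Finset.sum_congr rfl fun x _ => ?_
  rw [transpose_sum]
  exact Finset.sum_congr rfl fun y _ => Lim.hM_transpose x y

end general

variable {Λ : Finset Site} {s : ℕ} [NeZero s]

/-- The limit `M → ∞` of one partition function. -/
theorem tendsto_Z1 (hs : 1 ≤ s) {β : ℝ} (hβ : 0 < β) (τ : ℝ) :
    Tendsto (fun M : ℕ => trace (NormedSpace.exp (-(β / 2) • ham (Lm (nnL Λ) s M)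
        0 - τ • Dn (univ : Finset (Λ × Fin s))))) atTop
      (𝓝 (trace (symProd Λ s * NormedSpace.exp (-(β / 2) • ham (interL (nnL Λ) s) 0 -
        τ • Dn (univ : Finset (Λ × Fin s)))))) := by
  have hz : (0 : Λ × Fin s → ℝ) = fun _ => 0 := rfl
  have hl : lift s (fun _ : Λ => (0 : ℝ)) = (0 : Λ × Fin s → ℝ) := rfl
  -- everything commutes with the total spin
  have hcomm : ∀ L : List ((Λ × Fin s) × (Λ × Fin s)),
      Commute (ham L (fun _ => 0)) (Dn (univ : Finset (Λ × Fin s))) := fun L =>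
    (comm_of_Sg (Vale.Agent.P361.LRO.TwJ.ham_comm_Sg (b := univ) (L := L) fun e _ => ⟨mem_univ _, mem_univ _⟩)).2
  have e1 : ∀ L : List ((Λ × Fin s) × (Λ × Fin s)),
      NormedSpace.exp (-(β / 2) • ham L (fun _ => 0) - τ • Dn (univ : Finset (Λ × Fin s))) =
      NormedSpace.exp (-(β / 2) • ham L (fun _ => 0)) *
        NormedSpace.exp (-τ • Dn (univ : Finset (Λ × Fin s))) := by
    intro L
    rw [sub_eq_add_neg, ← neg_smul]
    exact Matrix.exp_add_of_commute _ _ (((hcomm L).smul_left _).smul_right _)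
  simp only [e1, hz]
  have hpsd : (intraM Λ s).PosSemidef := Lim.sum_hM_posSemidef _
  have hker : ∀ v, intraM Λ s *ᵥ v = 0 → symProd Λ s *ᵥ v = v := fun v hv =>
    symProd_mulVec_of_intra v hv
  have hAB : Commute (intraM Λ s) (ham (interL (nnL Λ) s) (fun _ => 0)) := by
    rw [intraM]
    have key : ∀ l : List ((Λ × Fin s) × (Λ × Fin s)), (∀ e ∈ l, e.1.1 = e.2.1) →
        Commute (l.map fun e => hM e.1 e.2).sum (ham (interL (nnL Λ) s) (fun _ => 0)) := by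
      intro l hl'
      induction l with
      | nil => simp
      | cons e l ih =>
        rw [List.map_cons, List.sum_cons]
        refine Commute.add_left ?_ (ih fun e he => hl' e (by simp [he]))
        have he := hl' e (by simp)
        obtain ⟨⟨x, a⟩, ⟨y, c⟩⟩ := e
        dsimp only at he
        subst he
        rw [hM]
        have h1 := comm_ham (nnL Λ) (fun _ : Λ => (0 : ℝ)) x a c
        exact ((Commute.one_left _).sub_left h1).smul_left _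
    exact key _ fun e he => (mem_intraL.1 he).1
  have h3 := Lim.tendsto_trace_proj (intraM Λ s) (ham (interL (nnL Λ) s) (fun _ => 0))
    (NormedSpace.exp (-τ • Dn (univ : Finset (Λ × Fin s)))) (symProd Λ s) hpsd
    symProd_transpose intraM_mul_symProd hker hAB (b := β / 2) (by positivity)
  rw [mul_assoc] at h3
  refine h3.congr fun M => ?_
  rw [ham_Lm]

/-- The same along the even numbers. -/
theorem tendsto_Z (hs : 1 ≤ s) {β : ℝ} (hβ : 0 < β) (τ : ℝ) :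
    Tendsto (fun M : ℕ => trace (NormedSpace.exp (-(β / 2) • ham (Lm (nnL Λ) s (2 * M))
        (fun _ => 0) - τ • Dn (univ : Finset (Λ × Fin s))))) atTop
      (𝓝 (trace (symProd Λ s * NormedSpace.exp (-(β / 2) • ham (interL (nnL Λ) s) 0 -
        τ • Dn (univ : Finset (Λ × Fin s)))))) := by
  have h4 : Tendsto (fun M : ℕ => 2 * M) atTop atTop :=
    tendsto_atTop_mono (fun n => by simp only [id]; omega) tendsto_id
  exact (tendsto_Z1 hs hβ τ).comp h4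

theorem lt0S_of (hs : 1 ≤ s) (Λ : Finset Site) {β : ℝ} (hβ : 0 < β)
    (hZ : ∀ τ : ℝ, B.Zt s Λ β τ = trace (symProd Λ s * NormedSpace.exp
      (-(β / 2) • ham (interL (nnL Λ) s) 0 - τ • Dn (univ : Finset (Λ × Fin s)))))
    {G : Polynomial ℝ} {τ1 τ2 c1 c2 : ℝ} (h1 : 0 < τ1) (h2 : 0 < τ2)
    (hc1 : 0 ≤ c1) (hc2 : 0 ≤ c2)
    (hG : ∀ r : ℕ, 2 * r ≤ s * Λ.card →
      Real.exp (G.eval ((r : ℝ) * ((s : ℝ) * Λ.card - r + 1))) ≤
        c1 * Real.exp (-(τ1 * r)) + c2 * Real.exp (-(τ2 * r)))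
    {ε : ℝ} (hε : 0 < ε) :
    ∃ M0 : ℕ, ∀ M, M0 ≤ M →
      Real.log (trace (NormedSpace.exp (-(β / 2) • ham (Lm (nnL Λ) s (2 * M)) 0 +
        Polynomial.aeval (Om (univ : Finset (Λ × Fin s))) G))) ≤
      Real.log (((s : ℝ) * Λ.card + 1) * (c1 * B.Zt s Λ β τ1 + c2 * B.Zt s Λ β τ2)) + ε := by
  have hcard : (univ : Finset (Λ × Fin s)).card = s * Λ.card := by
    rw [Finset.card_univ, Fintype.card_prod, Fintype.card_fin, Fintype.card_coe, mul_comm]
  have hcard' : ((univ : Finset (Λ × Fin s)).card : ℝ) = (s : ℝ) * Λ.card := by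
    rw [hcard]; push_cast; ring
  -- positivity of the coefficients
  have hc : 0 < c1 + c2 := by
    have := hG 0 (by omega)
    simp only [Nat.cast_zero, mul_zero, neg_zero, Real.exp_zero, mul_one, zero_mul] at this
    exact lt_of_lt_of_le (Real.exp_pos _) this
  have hZ1 := B.Zt_pos (n := s) (Λ := Λ) β τ1
  have hZ2 := B.Zt_pos (n := s) (Λ := Λ) β τ2
  set R := ((s : ℝ) * Λ.card + 1) * (c1 * B.Zt s Λ β τ1 + c2 * B.Zt s Λ β τ2) with hR
  have hRpos : 0 < R := by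
    have h3 : 0 < (s : ℝ) * Λ.card + 1 := by positivity
    have h4 : 0 < c1 * B.Zt s Λ β τ1 + c2 * B.Zt s Λ β τ2 := by
      rcases eq_or_lt_of_le hc1 with h | h
      · rw [← h, zero_add] at hc
        have := mul_pos hc hZ2
        rw [← h, zero_mul, zero_add]
        exact this
      · have := mul_pos h hZ1
        have := mul_nonneg hc2 hZ2.le
        linarith
    exact mul_pos h3 h4
  -- finite `M`
  have hfin : ∀ M : ℕ, trace (NormedSpace.exp (-(β / 2) • ham (Lm (nnL Λ) s (2 * M)) 0 +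
        Polynomial.aeval (Om (univ : Finset (Λ × Fin s))) G)) ≤
      ((s : ℝ) * Λ.card + 1) * (c1 * trace (NormedSpace.exp (-(β / 2) •
          ham (Lm (nnL Λ) s (2 * M)) (fun _ => 0) - τ1 • Dn (univ : Finset (Λ × Fin s)))) +
        c2 * trace (NormedSpace.exp (-(β / 2) •
          ham (Lm (nnL Λ) s (2 * M)) (fun _ => 0) - τ2 • Dn (univ : Finset (Λ × Fin s))))) := by
    intro M
    have h := lt0_law (b := (univ : Finset (Λ × Fin s))) (L := Lm (nnL Λ) s (2 * M))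
      (fun e _ => ⟨mem_univ _, mem_univ _⟩) (β / 2)
      (g := fun r : ℕ => G.eval ((r : ℝ) *
        (((univ : Finset (Λ × Fin s)).card : ℝ) - r + 1))) (G := G) (fun r _ => rfl)
      hc1 hc2 h1.le h2.le (fun r hr => by
        rw [hcard'] at *
        have := hG r (by rw [hcard] at hr; exact hr)
        simp only [neg_mul]
        exact this)
    rw [hcard'] at h
    exact h
  have hlim : Tendsto (fun M : ℕ => ((s : ℝ) * Λ.card + 1) * (c1 * trace (NormedSpace.exp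
      (-(β / 2) • ham (Lm (nnL Λ) s (2 * M)) (fun _ => 0) -
        τ1 • Dn (univ : Finset (Λ × Fin s)))) +
        c2 * trace (NormedSpace.exp (-(β / 2) • ham (Lm (nnL Λ) s (2 * M)) (fun _ => 0) -
          τ2 • Dn (univ : Finset (Λ × Fin s)))))) atTop (𝓝 R) := by
    rw [hR, hZ, hZ]
    exact (((tendsto_Z hs hβ τ1).const_mul _).add ((tendsto_Z hs hβ τ2).const_mul _)).const_mul _
  have hev := hlim.eventually_le_const (u := R * Real.exp ε)
    (lt_mul_of_one_lt_right hRpos (Real.one_lt_exp_iff.2 hε))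
  obtain ⟨M0, hM0⟩ := eventually_atTop.1 hev
  refine ⟨M0, fun M hM => ?_⟩
  have h5 := (hfin M).trans (hM0 M hM)
  have h6 : 0 < trace (NormedSpace.exp (-(β / 2) • ham (Lm (nnL Λ) s (2 * M)) 0 +
        Polynomial.aeval (Om (univ : Finset (Λ × Fin s))) G)) := by
    apply trace_exp_pos_real
    rw [transpose_add, transpose_smul, EnR.ham_transpose, aeval_transpose (Om_transpose _)]
  calc _ ≤ Real.log (R * Real.exp ε) := Real.log_le_log h6 h5
    _ = _ := by rw [Real.log_mul hRpos.ne' (Real.exp_pos _).ne', Real.log_exp]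

end

end Vale.Agent.P361.LRO.S3S
end

section

/-!
P361, stage 3, all spins: **block (E)**, `EnergyStmt3S s` (helper683; geometry helper793).
-/

namespace Vale.Agent.P361.LRO.S3S

open Finset Matrix Filter Topology Vale.Agent.P361.LRO.GenS Vale.Agent.P361.LRO.S3

noncomputable section

theorem geoE {s : ℕ} (hs : 1 ≤ s) : GeoE s := by
  intro n M _ β h x w m hβ hh hw hm hwm
  have h1 := energyS_blocks (n := n) (s := s) hs M hβ hh x w m hw hm hwm
  rw [ZbM_eq] at h1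
  exact h1

theorem boxE {s : ℕ} (hs : 1 ≤ s) : BoxE s := by
  haveI : NeZero s := ⟨by omega⟩
  intro l β hβ
  have h1 := tendsto_Z (Λ := B.cube l) (s := s) hs (β := β / 2) (by positivity) 0
  rw [← Zt_eq (s := s) (B.cube l) (β / 2) 0] at h1
  refine h1.congr fun M => ?_
  rw [ZbE]
  have e : -(β / 2 / 2) • ham (Lm (nnL (B.cube l)) s (2 * M)) (fun _ => 0) -
      (0 : ℝ) • TwJ.Dn (univ : Finset (B.cube l × Fin s)) =
      -(β / 4) • ham (Lm (nnL (B.cube l)) s (2 * M)) 0 := by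
    rw [zero_smul, sub_zero, show β / 2 / 2 = β / 4 by ring]
    rfl
  rw [e]

/-- **(E)** crude energy for all profiles, every spin. -/
theorem energyStmt3S (s : ℕ) (hs : 1 ≤ s) : EnergyStmt3S s :=
  energyStmt3S_of hs (geoE hs) (boxE hs)

end

end Vale.Agent.P361.LRO.S3S
end

section

/-!
P361, stage 3, all spins, block (B0): the start of the bootstrap.
-/

namespace Vale.Agent.P361.LRO.S3S

open Finset Filter Topology Vale.Agent.P361.LRO.GenS Vale.Agent.P361.LRO.S3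

/-- All densities of a uniform field are equal. -/
theorem b0s_rho_eq (n s M : ℕ) [NeZero n] (β h : ℝ) (z z' : Tor n × Fin s) :
    rho (edgesS n s M) β (hS fun _ => h) z = rho (edgesS n s M) β (hS fun _ => h) z' := by
  have h1 := transStmtS s n M β (fun _ => h) z.1 (z'.1 - z.1) z.2 z'.2
  rw [add_sub_cancel] at h1
  exact h1

/-- The densities converge as `M → ∞`. -/
theorem b0s_tendsto {n s : ℕ} [NeZero n] [NeZero s] (hn : 3 ≤ n) {β : ℝ} (hβ : 0 < β) (h : ℝ)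
    (z : Tor n × Fin s) :
    Tendsto (fun M : ℕ => rho (edgesS n s M) β (hS fun _ => h) z) atTop
      (𝓝 (1 / 2 - gibbsMagV s (torusAdj n) β h / (s * (n : ℝ) ^ 3))) := by
  have hs0 : (s : ℝ) ≠ 0 := Nat.cast_ne_zero.2 (NeZero.ne s)
  have hn0 : (n : ℝ) ≠ 0 := Nat.cast_ne_zero.2 (NeZero.ne n)
  have hcard : (Fintype.card (Tor n × Fin s) : ℝ) = s * (n : ℝ) ^ 3 := by
    rw [Fintype.card_prod, Fintype.card_fin, Fintype.card_fun, ZMod.card, Fintype.card_fin]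
    push_cast
    ring
  have h1 := ((tendsto_gibbsMag (s := s) hn hβ h).div_const (s * (n : ℝ) ^ 3)).const_sub (1 / 2)
  refine h1.congr fun M => ?_
  rw [Finset.sum_congr rfl fun z' _ => by rw [b0s_rho_eq n s M β h z' z],
    Finset.sum_const, Finset.card_univ, nsmul_eq_mul, hcard]
  field_simp
  ring

/-- (B0) from the uniform Bloch asymptotics of the landed part. -/
theorem startStmt3S_of (s : ℕ) (hs : 1 ≤ s) (hU : ∀ κ : ℝ, κ < 1 / 21 → ∀ ε : ℝ, 0 < ε →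
    ∀ᶠ β : ℝ in atTop, ∀ h : ℝ, β ^ (-1 - κ) ≤ h →
      |β ^ (3 / 2 : ℝ) * ((s : ℝ) / 2 - Model.mag s β h) -
        Model.idealDeficit ((s : ℝ) / 2) (β * h)| ≤ ε) : StartStmt3S s := by
  have hs0 : (0 : ℝ) < s := Nat.cast_pos.2 hs
  have _ : NeZero s := ⟨by omega⟩
  obtain ⟨C, β0, hC⟩ := magTorus_start s (c := 1 / s) (by positivity) hU
  refine ⟨C / s + 1, max β0 1, fun β hβ => ?_⟩
  have hb0 : (0 : ℝ) < β := lt_of_lt_of_le one_pos (le_trans (le_max_right _ _) hβ)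
  obtain ⟨N0, hN0⟩ := hC β (le_trans (le_max_left _ _) hβ)
  refine ⟨2 * N0 + 3, fun n _ hn hodd => ?_⟩
  obtain ⟨N, hN⟩ := hodd
  subst hN
  have h1 := (hN0 N (by omega)).2
  have hfield : (1 : ℝ) / s / β = 1 / (s * β) := by rw [div_div]
  rw [hfield] at h1
  have hpow : 0 < β ^ (-(3 / 2) : ℝ) := Real.rpow_pos_of_pos hb0 _
  have hlim : 1 / 2 - gibbsMagV s (torusAdj (2 * N + 1)) β (1 / (s * β)) /
      (s * ((2 * N + 1 : ℕ) : ℝ) ^ 3) ≤ C / s * β ^ (-(3 / 2) : ℝ) := by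
    have e1 : 1 / 2 - gibbsMagV s (torusAdj (2 * N + 1)) β (1 / (s * β)) /
        (s * ((2 * N + 1 : ℕ) : ℝ) ^ 3) = ((s : ℝ) / 2 -
          gibbsMagV s (torusAdj (2 * N + 1)) β (1 / (s * β)) / (2 * N + 1) ^ 3) / s := by
      push_cast
      field_simp
    rw [e1, div_le_iff₀ hs0]
    calc _ ≤ C * β ^ (-(3 / 2) : ℝ) := h1
      _ = C / s * β ^ (-(3 / 2) : ℝ) * s := by field_simp
  have hz : ∃ M0 : ℕ, ∀ M : ℕ, M0 ≤ M →
      rho (edgesS (2 * N + 1) s M) β (hS fun _ => 1 / (s * β)) (0, ⟨0, by omega⟩) ≤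
        (C / s + 1) * β ^ (-(3 / 2) : ℝ) := by
    have h2 := b0s_tendsto (n := 2 * N + 1) (s := s) (by omega) hb0 (1 / (s * β))
      ((0 : Tor (2 * N + 1)), (⟨0, by omega⟩ : Fin s))
    have h3 := (tendsto_order.1 h2).2 ((C / s + 1) * β ^ (-(3 / 2) : ℝ)) (by
      rw [add_mul, one_mul]
      linarith)
    obtain ⟨M0, hM0⟩ := eventually_atTop.1 h3
    exact ⟨M0, fun M hM => (hM0 M hM).le⟩
  obtain ⟨M0, hM0⟩ := hz
  refine ⟨M0, fun M hM z => ?_⟩
  rw [b0s_rho_eq (2 * N + 1) s M β (1 / (s * β)) z (0, ⟨0, by omega⟩)]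
  exact hM0 M hM

end Vale.Agent.P361.LRO.S3S
end

section

/-! P361, stage 3, all spins, block (B0). -/

namespace Vale.Agent.P361.LRO.S3S

theorem startStmt3S (s : ℕ) (hs : 1 ≤ s) : StartStmt3S s :=
  startStmt3S_of s hs fun κ hκ ε hε => Vale.Agent.P361.BridgeB.mag_uniform s hs κ hκ ε hε

end Vale.Agent.P361.LRO.S3S
end

section

/-!
P361, block (8): from the finite Trotter number (`FinReg`) to the Gibbs state (`RegStmt`).
-/

namespace Vale.Agent.P361.LRO.LY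

open Finset Matrix Filter Topology

noncomputable section

/-- The regularity at finite Trotter number. -/
def FinReg : Prop :=
  ∀ (V : Type) [Fintype V] [DecidableEq V] (L : List (V × V)) (β : ℝ) (h h' : V → ℝ) (s : ℝ)
    (N : ℕ) (z : V), 0 < β → (∀ x, 0 < h x) → (∀ x, 0 < h' x) → 0 ≤ s → 3 * s < Real.pi / 2 →
    (∀ x, |Real.log (h x) - Real.log (h' x)| ≤ s) → 2 ≤ N →
    0 < (stepC L β h N ^ N).trace.re → 0 < (stepC L β h' N ^ N).trace.re →
    0 < (stepC L β h N ^ N * cM (szM z)).trace.re ∧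
    0 < (stepC L β h' N ^ N * cM (szM z)).trace.re ∧
    (stepC L β h' N ^ N).trace.re / (stepC L β h' N ^ N * cM (szM z)).trace.re - 1 ≤
      2 * ((stepC L β h N ^ N).trace.re / (stepC L β h N ^ N * cM (szM z)).trace.re - 1) +
        9 / 2 * s ^ 2

section Limit

variable {V : Type} [Fintype V] [DecidableEq V] (L : List (V × V)) (β : ℝ) (h : V → ℝ) (z : V)

/-- Partition function. -/
def ZS : ℝ := Matrix.trace (NormedSpace.exp (-β • ham L h))

/-- The numerator of the magnetization. -/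
def AS : ℝ := Matrix.trace (NormedSpace.exp (-β • ham L h) * szM z)

theorem ZS_pos : 0 < ZS L β h := Z_pos L β h

theorem one_sub_two_rho : 1 - 2 * rho L β h z = AS L β h z / ZS L β h := by
  have hZ := (ZS_pos L β h).ne'
  unfold rho gib
  rw [Matrix.mul_smul, Matrix.trace_smul, Matrix.mul_sub, Matrix.mul_one, Matrix.trace_sub,
    smul_eq_mul]
  change 1 - 2 * (1 / 2 * (ZS L β h - AS L β h z) / ZS L β h) = _
  field_simp
  ring

theorem ZS_tendsto : Tendsto (fun N : ℕ => (stepC L β h N ^ N).trace.re) atTop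
    (𝓝 (ZS L β h)) := by
  have h1 := trace_tendsto L β h 1
  have h2 : (cM (1 : Matrix (V → Fin 2) (V → Fin 2) ℝ)) = 1 := by
    ext i j
    by_cases hij : i = j
    · subst hij; simp [cM]
    · simp [cM, hij]
  simp only [h2, Matrix.mul_one] at h1
  have h3 := (Complex.continuous_re.tendsto _).comp h1
  rw [Complex.ofReal_re] at h3
  exact h3

theorem AS_tendsto : Tendsto (fun N : ℕ => (stepC L β h N ^ N * cM (szM z)).trace.re) atTop
    (𝓝 (AS L β h z)) := by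
  have h1 := trace_tendsto L β h (szM z)
  have h3 := (Complex.continuous_re.tendsto _).comp h1
  rw [Complex.ofReal_re] at h3
  exact h3

end Limit

section Lim2

variable {V : Type} [Fintype V] [DecidableEq V] (L : List (V × V)) {β : ℝ} {h h' : V → ℝ} {s : ℝ}

/-- The limit of the inequality. -/
theorem lim_ineq (H : FinReg) (hβ : 0 < β) (hh : ∀ x, 0 < h x) (hh' : ∀ x, 0 < h' x) (hs : 0 ≤ s)
    (hs' : 3 * s < Real.pi / 2) (hd : ∀ x, |Real.log (h x) - Real.log (h' x)| ≤ s) (z : V) :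
    0 ≤ AS L β h z ∧ 0 ≤ AS L β h' z ∧
    (ZS L β h' - AS L β h' z) * AS L β h z ≤
      2 * (ZS L β h - AS L β h z) * AS L β h' z + 9 / 2 * s ^ 2 * (AS L β h z * AS L β h' z) := by
  have hF : ∀ᶠ N : ℕ in atTop, 2 ≤ N ∧ 0 < (stepC L β h N ^ N).trace.re ∧
      0 < (stepC L β h' N ^ N).trace.re :=
    (eventually_ge_atTop 2).and
      (((ZS_tendsto L β h).eventually (lt_mem_nhds (ZS_pos L β h))).and
        ((ZS_tendsto L β h').eventually (lt_mem_nhds (ZS_pos L β h'))))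
  refine ⟨?_, ?_, ?_⟩
  · refine ge_of_tendsto (AS_tendsto L β h z) ?_
    filter_upwards [hF] with N hN
    exact (H V L β h h' s N z hβ hh hh' hs hs' hd hN.1 hN.2.1 hN.2.2).1.le
  · refine ge_of_tendsto (AS_tendsto L β h' z) ?_
    filter_upwards [hF] with N hN
    exact (H V L β h h' s N z hβ hh hh' hs hs' hd hN.1 hN.2.1 hN.2.2).2.1.le
  · have t1 := ((ZS_tendsto L β h').sub (AS_tendsto L β h' z)).mul (AS_tendsto L β h z)
    have t2 := ((((ZS_tendsto L β h).sub (AS_tendsto L β h z)).const_mul 2).mul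
      (AS_tendsto L β h' z)).add
      (((AS_tendsto L β h z).mul (AS_tendsto L β h' z)).const_mul (9 / 2 * s ^ 2))
    refine le_of_tendsto_of_tendsto t1 t2 ?_
    filter_upwards [hF] with N hN
    obtain ⟨hA, hA', hI⟩ := H V L β h h' s N z hβ hh hh' hs hs' hd hN.1 hN.2.1 hN.2.2
    set Z := (stepC L β h N ^ N).trace.re
    set A := (stepC L β h N ^ N * cM (szM z)).trace.re
    set Z' := (stepC L β h' N ^ N).trace.re
    set A' := (stepC L β h' N ^ N * cM (szM z)).trace.re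
    have e1 : (Z' - A') * A = (Z' / A' - 1) * (A * A') := by
      field_simp
    have e2 : 2 * (Z - A) * A' + 9 / 2 * s ^ 2 * (A * A') =
        (2 * (Z / A - 1) + 9 / 2 * s ^ 2) * (A * A') := by
      field_simp
    calc (Z' - A') * A = (Z' / A' - 1) * (A * A') := e1
      _ ≤ (2 * (Z / A - 1) + 9 / 2 * s ^ 2) * (A * A') :=
          mul_le_mul_of_nonneg_right hI (mul_pos hA hA').le
      _ = 2 * (Z - A) * A' + 9 / 2 * s ^ 2 * (A * A') := e2.symm

/-- Positivity propagates. -/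
theorem pos_step (H : FinReg) (hβ : 0 < β) (hh : ∀ x, 0 < h x) (hh' : ∀ x, 0 < h' x) (hs : 0 ≤ s)
    (hs' : 3 * s < Real.pi / 2) (hd : ∀ x, |Real.log (h x) - Real.log (h' x)| ≤ s) {z : V}
    (hp : 0 < AS L β h z) : 0 < AS L β h' z := by
  obtain ⟨_, h2, h3⟩ := lim_ineq L H hβ hh hh' hs hs' hd z
  rcases h2.lt_or_eq with h2 | h2
  · exact h2
  · exfalso
    rw [← h2, mul_zero, mul_zero, mul_zero, sub_zero, add_zero] at h3
    exact absurd (mul_pos (ZS_pos L β h') hp) (not_lt.mpr h3)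

end Lim2

section Large

variable {V : Type} [Fintype V] [DecidableEq V] (L : List (V × V)) {β : ℝ} {h : V → ℝ}

theorem swapM_up (x y : V) : (swapM x y : Matrix (V → Fin 2) (V → Fin 2) ℝ) 0 0 = 1 := by
  unfold swapM
  rw [Matrix.of_apply, if_pos]
  rfl

theorem hM_up (x y : V) : (hM x y : Matrix (V → Fin 2) (V → Fin 2) ℝ) 0 0 = 0 := by
  unfold hM
  rw [Matrix.smul_apply, Matrix.sub_apply, swapM_up, Matrix.one_apply_eq]
  simp

theorem ham_up (h : V → ℝ) : (ham L h) 0 0 = -∑ x, h x / 2 := by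
  unfold ham
  have h1 : ∀ l : List (V × V), ((l.map fun e => hM e.1 e.2).sum :
      Matrix (V → Fin 2) (V → Fin 2) ℝ) 0 0 = 0 := by
    intro l
    induction l with
    | nil => simp
    | cons e l ih => rw [List.map_cons, List.sum_cons, Matrix.add_apply, ih, hM_up, add_zero]
  rw [Matrix.sub_apply, h1, Matrix.sum_apply, zero_sub]
  congr 1
  refine Finset.sum_congr rfl fun x _ => ?_
  simp [szM]

theorem exp_le_ZS (h : V → ℝ) : Real.exp (β * ∑ x, h x / 2) ≤ ZS L β h := by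
  have hs := exponent_isSymm L β h
  have hH := LRO.cM_isHermitian hs
  have h1 := Vale.Agent.P361.peierls hH (V := 1) (by simp)
  rw [exp_cM, trace_cM_re] at h1
  refine le_trans ?_ h1
  have h2 : ∀ i : V → Fin 2,
      (star (1 : Matrix (V → Fin 2) (V → Fin 2) ℂ) * LRO.cM (-β • ham L h) *
        (1 : Matrix (V → Fin 2) (V → Fin 2) ℂ)) i i = (((-β • ham L h) i i : ℝ) : ℂ) := by
    intro i
    rw [star_one, Matrix.one_mul, Matrix.mul_one, LRO.cM_apply]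
  have h3 : Real.exp (β * ∑ x, h x / 2) = Real.exp ((((-β • ham L h) 0 0 : ℝ) : ℂ).re) := by
    congr 1
    rw [Complex.ofReal_re, Matrix.smul_apply, ham_up, smul_eq_mul]
    ring
  simp only [h2]
  rw [h3]
  exact Finset.single_le_sum (f := fun i : V → Fin 2 => Real.exp
    ((((-β • ham L h) i i : ℝ) : ℂ).re))
    (fun i _ => (Real.exp_pos _).le) (Finset.mem_univ (0 : V → Fin 2))

theorem ham_update (h : V → ℝ) (z : V) (t : ℝ) :
    ham L (Function.update h z (h z + t)) = ham L h - (t / 2) • szM z := by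
  unfold ham
  rw [sub_sub]
  congr 1
  have h1 : ∀ x, (Function.update h z (h z + t) x / 2) • szM x =
      (h x / 2) • szM x + (if x = z then (t / 2) • szM z else 0) := by
    intro x
    by_cases hx : x = z
    · subst hx
      rw [Function.update_self, if_pos rfl, ← add_smul]
      congr 1
      ring
    · rw [Function.update_of_ne hx, if_neg hx, add_zero]
  simp only [h1, Finset.sum_add_distrib, Finset.sum_ite_eq', Finset.mem_univ, if_true]

/-- Some large field makes the magnetization positive. -/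
theorem exists_pos (hβ : 0 < β) (hh : ∀ x, 0 < h x) (z : V) :
    ∃ t : ℝ, 0 < t ∧ 0 < AS L β (Function.update h z (h z + t)) z := by
  set S := |Real.log (ZS L β h)| + 1 with hS
  have hS0 : 0 < S := by positivity
  refine ⟨2 * S / β, by positivity, ?_⟩
  set t := 2 * S / β with ht
  set h' := Function.update h z (h z + t) with hh'
  have hX := exponent_isSymm L β h'
  have hY : ((-(β * t / 2)) • szM z : Matrix (V → Fin 2) (V → Fin 2) ℝ).IsSymm := by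
    rw [Matrix.IsSymm, Matrix.transpose_smul, szM_isSymm]
  have hXY : (-β • ham L h') + (-(β * t / 2)) • szM z = -β • ham L h := by
    rw [hh', ham_update, smul_sub, smul_smul, sub_eq_add_neg, add_assoc, ← neg_smul, ← add_smul]
    have : (-(-β * (t / 2)) + -(β * t / 2)) = 0 := by ring
    rw [this, zero_smul, add_zero]
  have h1 := peierls_bogoliubov_real hX hY
  rw [hXY, Matrix.mul_smul, Matrix.trace_smul, smul_eq_mul] at h1
  change Real.log (ZS L β h') + -(β * t / 2) * AS L β h' z / ZS L β h' ≤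
    Real.log (ZS L β h) at h1
  have h2 : β * ∑ x, h' x / 2 ≤ Real.log (ZS L β h') := by
    rw [Real.le_log_iff_exp_le (ZS_pos L β h')]
    exact exp_le_ZS L h'
  have h3 : β * t / 2 ≤ β * ∑ x, h' x / 2 := by
    have h4 : t / 2 ≤ ∑ x, h' x / 2 := by
      have h5 : h' z / 2 ≤ ∑ x, h' x / 2 := by
        refine Finset.single_le_sum (f := fun x => h' x / 2) (fun x _ => ?_) (Finset.mem_univ z)
        have : 0 < h' x := by
          rw [hh']
          by_cases hx : x = z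
          · subst hx
            rw [Function.update_self]
            have := hh x
            positivity
          · rw [Function.update_of_ne hx]
            exact hh x
        positivity
      have h6 : t ≤ h' z := by
        rw [hh', Function.update_self]
        have := hh z
        linarith
      linarith
    calc β * t / 2 = β * (t / 2) := by ring
      _ ≤ _ := mul_le_mul_of_nonneg_left h4 hβ.le
  have h7 : β * t / 2 = S := by
    rw [ht]; field_simp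
  have h8 : Real.log (ZS L β h) < S := by
    rw [hS]
    have := le_abs_self (Real.log (ZS L β h))
    linarith
  by_contra hc
  rw [not_lt] at hc
  have h9 : 0 ≤ -(β * t / 2) * AS L β h' z / ZS L β h' := by
    refine div_nonneg ?_ (ZS_pos L β h').le
    rw [neg_mul]
    have : 0 ≤ β * t / 2 := by rw [h7]; exact hS0.le
    nlinarith
  linarith

end Large

section Final

variable {V : Type} [Fintype V] [DecidableEq V] (L : List (V × V)) {β : ℝ}

omit [Fintype V] in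
theorem update_exp_pos {h : V → ℝ} (hh : ∀ x, 0 < h x) (z : V) (u : ℝ) (x : V) :
    0 < Function.update h z (Real.exp u) x := by
  by_cases hx : x = z
  · subst hx
    rw [Function.update_self]
    exact Real.exp_pos u
  · rw [Function.update_of_ne hx]
    exact hh x

omit [Fintype V] in
theorem log_update {h : V → ℝ} (z : V) (u v : ℝ) (x : V) :
    |Real.log (Function.update h z (Real.exp u) x) -
      Real.log (Function.update h z (Real.exp v) x)| ≤ |u - v| := by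
  by_cases hx : x = z
  · subst hx
    rw [Function.update_self, Function.update_self, Real.log_exp, Real.log_exp]
  · rw [Function.update_of_ne hx, Function.update_of_ne hx, sub_self, abs_zero]
    exact abs_nonneg _

theorem AS_pos_chain (H : FinReg) (hβ : 0 < β) {h : V → ℝ} (hh : ∀ x, 0 < h x) (z : V) :
    ∀ (n : ℕ) (u v : ℝ), |u - v| ≤ n / 2 →
      0 < AS L β (Function.update h z (Real.exp u)) z →
      0 < AS L β (Function.update h z (Real.exp v)) z := by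
  have h0 : ∀ u v : ℝ, |u - v| ≤ 1 / 2 → 0 < AS L β (Function.update h z (Real.exp u)) z →
      0 < AS L β (Function.update h z (Real.exp v)) z := by
    intro u v huv hp
    refine pos_step L H hβ (update_exp_pos hh z u) (update_exp_pos hh z v) (s := 1 / 2)
      (by norm_num) (by have := Real.pi_gt_three; linarith)
      (fun x => (log_update z u v x).trans huv) hp
  intro n
  induction n with
  | zero =>
    intro u v huv hp
    rw [Nat.cast_zero, zero_div] at huv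
    have : u = v := by
      have := abs_nonneg (u - v)
      have h1 : |u - v| = 0 := le_antisymm huv this
      exact sub_eq_zero.mp (abs_eq_zero.mp h1)
    rwa [← this]
  | succ n ih =>
    intro u v huv hp
    push_cast at huv
    rcases le_or_gt |u - v| (1 / 2) with hle | hgt
    · exact h0 u v hle hp
    · rcases abs_cases (u - v) with ⟨ha, hb⟩ | ⟨ha, hb⟩
      · refine ih (u - 1 / 2) v ?_ (h0 u (u - 1 / 2) ?_ hp)
        · rw [abs_le]; constructor <;> linarith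
        · rw [abs_le]; constructor <;> linarith
      · refine ih (u + 1 / 2) v ?_ (h0 u (u + 1 / 2) ?_ hp)
        · rw [abs_le]; constructor <;> linarith
        · rw [abs_le]; constructor <;> linarith

theorem AS_pos (H : FinReg) (hβ : 0 < β) {h : V → ℝ} (hh : ∀ x, 0 < h x) (z : V) :
    0 < AS L β h z := by
  obtain ⟨t, ht, hp⟩ := exists_pos L hβ hh z
  have hz := hh z
  have e1 : Function.update h z (h z + t) = Function.update h z (Real.exp (Real.log (h z + t))) := by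
    rw [Real.exp_log (by linarith)]
  have e2 : h = Function.update h z (Real.exp (Real.log (h z))) := by
    rw [Real.exp_log hz, Function.update_eq_self]
  rw [e1] at hp
  obtain ⟨n, hn⟩ := exists_nat_ge (2 * |Real.log (h z + t) - Real.log (h z)|)
  rw [e2]
  exact AS_pos_chain L H hβ hh z n _ _ (by linarith) hp

end Final

/-- `RegStmt` from the regularity at finite Trotter number. -/
theorem regStmt_of (H : FinReg) : RegStmt := by
  intro V _ _ L β h h' s hβ hh hh' hs hs' hd z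
  have hA := AS_pos L H hβ hh z
  have hA' := AS_pos L H hβ hh' z
  have hZ := ZS_pos L β h
  have hZ' := ZS_pos L β h'
  obtain ⟨_, _, h3⟩ := lim_ineq L H hβ hh hh' hs hs' hd z
  rw [one_sub_two_rho, one_sub_two_rho, one_div_div, one_div_div]
  refine ⟨div_pos hA hZ, ?_⟩
  have e1 : ZS L β h' / AS L β h' z - 1 =
      ((ZS L β h' - AS L β h' z) * AS L β h z) / (AS L β h z * AS L β h' z) := by
    field_simp
  have e2 : 2 * (ZS L β h / AS L β h z - 1) + 9 / 2 * s ^ 2 =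
      (2 * (ZS L β h - AS L β h z) * AS L β h' z + 9 / 2 * s ^ 2 * (AS L β h z * AS L β h' z)) /
        (AS L β h z * AS L β h' z) := by
    field_simp
  rw [e1, e2]
  exact div_le_div_of_nonneg_right h3 (mul_pos hA hA').le

end

end Vale.Agent.P361.LRO.LY
end

section

/-!
P361, block (8): the regularity statements `RegStmt`, `PHarn`.
-/

namespace Vale.Agent.P361.LRO.LY

open Finset Matrix Filter Topology

noncomputable section

section Conn

variable {V : Type} [Fintype V] [DecidableEq V]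

theorem swapMat_eq (x y : V) : swapMat x y = swapC x y := by
  ext σ τ
  simp only [swapMat, swapC, Matrix.of_apply]
  have : τ = σ ∘ Equiv.swap x y ↔ σ = τ ∘ Equiv.swap x y := by
    constructor
    · rintro rfl; funext z; simp
    · rintro rfl; funext z; simp
  simp only [this]

theorem gate_eq (x y : V) (p : ℝ) : gate (1 - p) p x y = gateC x y p := by
  unfold gate gateC
  rw [swapMat_eq]

theorem fieldMat_eq (b : V → ℝ) : fieldMat (fun y => ((b y / 2 : ℝ) : ℂ)) = sliceC b := by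
  rw [fieldMat_eq_diagonal, sliceC]
  congr 1
  funext σ
  refine Finset.prod_congr rfl fun y _ => ?_
  generalize σ y = i
  fin_cases i <;> simp [fieldFac]

theorem ins_eq (z : V) : ins z s3 = cM (szM z) := by
  ext σ τ
  rw [ins_apply]
  simp only [cM, szM, Matrix.map_apply, Matrix.diagonal_apply]
  by_cases h : σ = τ
  · subst h
    rw [if_pos rfl]
    have h1 : ∏ y ∈ Finset.univ.erase z, (1 : Matrix (Fin 2) (Fin 2) ℂ) (σ y) (σ y) = 1 :=
      Finset.prod_eq_one fun y _ => by simp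
    rw [h1, mul_one]
    generalize σ z = i
    fin_cases i <;> simp [s3]
  · rw [if_neg h, Complex.ofReal_zero]
    obtain ⟨y, hy⟩ := Function.ne_iff.mp h
    by_cases hyz : y = z
    · subst hyz
      have : s3 (σ y) (τ y) = 0 := by
        generalize σ y = i at hy
        generalize τ y = j at hy
        fin_cases i <;> fin_cases j <;> simp_all [s3]
      rw [this, zero_mul]
    · have h2 : ∏ y ∈ Finset.univ.erase z, (1 : Matrix (Fin 2) (Fin 2) ℂ) (σ y) (τ y) = 0 :=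
        Finset.prod_eq_zero (Finset.mem_erase.mpr ⟨hyz, Finset.mem_univ y⟩)
          (Matrix.one_apply_ne hy)
      rw [h2, mul_zero]

theorem mul_pow_comm' {m : Type} [Fintype m] [DecidableEq m] (A B : Matrix m m ℂ) (n : ℕ) :
    (A * B) ^ (n + 1) = A * (B * A) ^ n * B := by
  induction n with
  | zero => simp
  | succ n ih =>
    rw [pow_succ, ih, pow_succ]
    simp only [Matrix.mul_assoc]

/-- The two orders of the Trotter step have the same traces. -/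
theorem trace_reorder {m : Type} [Fintype m] [DecidableEq m] (A B S : Matrix m m ℂ)
    (h : S * A = A * S) (n : ℕ) :
    ((A * B) ^ n * S).trace = (S * (B * A) ^ n).trace := by
  cases n with
  | zero => simp
  | succ n =>
    rw [mul_pow_comm', mul_pow_comm' B A]
    have e2 : (B * (A * B) ^ n * A : Matrix m m ℂ) = (B * A) ^ (n + 1) := (mul_pow_comm' B A n).symm
    rw [Matrix.mul_assoc, Matrix.mul_assoc, Matrix.trace_mul_comm]
    have e3 : (B * A) ^ n * (B * S) * A = (B * A) ^ (n + 1) * S := by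
      rw [pow_succ]
      simp only [Matrix.mul_assoc]
      rw [h]
    rw [e3, e2, Matrix.trace_mul_comm]

variable (L : List (V × V)) (β : ℝ) (h : V → ℝ) (N : ℕ)

theorem stepC_eq : stepC L β h N = fieldMat (fun y => ((β * h y / N / 2 : ℝ) : ℂ)) *
    gprod L (1 - (1 - Real.exp (-(β / N))) / 2) ((1 - Real.exp (-(β / N))) / 2) := by
  unfold stepC gprod
  rw [fieldMat_eq (fun y => β * h y / N)]
  congr 2
  refine List.map_congr_left fun e _ => ?_
  rw [gate_eq]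

theorem szM_comm (z : V) (b : V → ℝ) : cM (szM z) * sliceC b = sliceC b * cM (szM z) := by
  have h1 : cM (szM z) = Matrix.diagonal fun σ : V → Fin 2 =>
      (((if σ z = 0 then 1 else -1 : ℝ)) : ℂ) := by
    ext σ τ
    simp only [cM, szM, Matrix.map_apply, Matrix.diagonal_apply]
    split_ifs <;> simp
  rw [h1, sliceC, Matrix.diagonal_mul_diagonal, Matrix.diagonal_mul_diagonal]
  congr 1
  funext σ
  ring

theorem trace_W (z : V) : (stepC L β h N ^ N * cM (szM z)).trace =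
    WW L (1 - (1 - Real.exp (-(β / N))) / 2) ((1 - Real.exp (-(β / N))) / 2) N z
      (fun y => ((β * h y / N / 2 : ℝ) : ℂ)) := by
  rw [stepC_eq, trace_reorder, WW, ins_eq]
  · rfl
  · rw [fieldMat_eq (fun y => β * h y / N), szM_comm]

theorem trace_Z : (stepC L β h N ^ N).trace =
    ZW L (1 - (1 - Real.exp (-(β / N))) / 2) ((1 - Real.exp (-(β / N))) / 2) N
      (fun y => ((β * h y / N / 2 : ℝ) : ℂ)) := by
  have h1 := trace_reorder (fieldMat (fun y => ((β * h y / N / 2 : ℝ) : ℂ)))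
    (gprod L (1 - (1 - Real.exp (-(β / N))) / 2) ((1 - Real.exp (-(β / N))) / 2)) 1
    (by rw [Matrix.one_mul, Matrix.mul_one]) N
  rw [Matrix.mul_one, Matrix.one_mul] at h1
  rw [stepC_eq, h1, ZW]
  rfl

end Conn

/-- Division of two real complex numbers. -/
theorem re_div_of_im {z w : ℂ} (hz : z.im = 0) (hw : w.im = 0) : (z / w).re = z.re / w.re := by
  have e1 : z = ((z.re : ℝ) : ℂ) := by apply Complex.ext <;> simp [hz]
  have e2 : w = ((w.re : ℝ) : ℂ) := by apply Complex.ext <;> simp [hw]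
  rw [e1, e2, ← Complex.ofReal_div, Complex.ofReal_re, Complex.ofReal_re, Complex.ofReal_re]

theorem finReg : FinReg := by
  intro V _ _ L β h h' s N z hβ hh hh' hs hs' hd hN hZ hZ'
  have hN0 : (0 : ℝ) < N := by
    have : 0 < N := by omega
    exact_mod_cast this
  have hp0 : 0 ≤ (1 - Real.exp (-(β / N))) / 2 := by
    have : Real.exp (-(β / N)) ≤ 1 := Real.exp_le_one_iff.mpr (by
      have : 0 ≤ β / N := by positivity
      linarith)
    linarith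
  have hp1 : 0 ≤ 1 - (1 - Real.exp (-(β / N))) / 2 := by
    have := Real.exp_pos (-(β / N))
    linarith
  have hab : 0 < 1 - (1 - Real.exp (-(β / N))) / 2 + (1 - Real.exp (-(β / N))) / 2 := by
    linarith
  set c : V → ℝ := fun y => β * h y / N / 2 with hc
  set c' : V → ℝ := fun y => β * h' y / N / 2 with hc'
  have hcp : ∀ y, 0 < c y := fun y => by
    have := hh y
    rw [hc]; positivity
  have hcp' : ∀ y, 0 < c' y := fun y => by
    have := hh' y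
    rw [hc']; positivity
  have hlog : ∀ y, |Real.log (c' y) - Real.log (c y)| ≤ s := fun y => by
    have e1 : c' y = (β / N / 2) * h' y := by rw [hc']; ring
    have e2 : c y = (β / N / 2) * h y := by rw [hc]; ring
    have h0 : β / N / 2 ≠ 0 := by positivity
    rw [e1, e2, Real.log_mul h0 (hh' y).ne', Real.log_mul h0 (hh y).ne', add_sub_add_left_eq_sub,
      abs_sub_comm]
    exact hd y
  have key := finite_harnack L hp1 hp0 hab hN z hcp hcp' hs' hlog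
  have im0 : ∀ y, (((c y : ℝ)) : ℂ).im = 0 := fun y => Complex.ofReal_im _
  have im0' : ∀ y, (((c' y : ℝ)) : ℂ).im = 0 := fun y => Complex.ofReal_im _
  have r1 := re_ZW_div (l := L) hp1 hp0 hab hN z (al := 0) le_rfl (by positivity)
    (s := fun y => ((c y : ℝ) : ℂ)) (fun g hg x => by
      rw [Complex.ofReal_im, Complex.ofReal_re, abs_zero, zero_mul]
      rw [sub_zero, abs_lt] at hg
      exact mul_pos (hcp x) (Real.cos_pos_of_mem_Ioo ⟨by linarith [hg.1], hg.2⟩))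
  have r1' := re_ZW_div (l := L) hp1 hp0 hab hN z (al := 0) le_rfl (by positivity)
    (s := fun y => ((c' y : ℝ) : ℂ)) (fun g hg x => by
      rw [Complex.ofReal_im, Complex.ofReal_re, abs_zero, zero_mul]
      rw [sub_zero, abs_lt] at hg
      exact mul_pos (hcp' x) (Real.cos_pos_of_mem_Ioo ⟨by linarith [hg.1], hg.2⟩))
  rw [Real.cos_zero] at r1 r1'
  have eZ := trace_Z L β h N
  have eZ' := trace_Z L β h' N
  have eW := trace_W L β h N z
  have eW' := trace_W L β h' N z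
  rw [re_div_of_im (ZW_im im0) (WW_im im0)] at r1 key
  rw [re_div_of_im (ZW_im im0') (WW_im im0')] at r1' key
  rw [eW, eW', eZ, eZ']
  rw [eZ] at hZ
  rw [eZ'] at hZ'
  refine ⟨?_, ?_, key⟩
  · by_contra hcon
    rw [not_lt] at hcon
    have : (ZW L (1 - (1 - Real.exp (-(β / N))) / 2) ((1 - Real.exp (-(β / N))) / 2) N
      (fun y => ((c y : ℝ) : ℂ))).re / (WW L (1 - (1 - Real.exp (-(β / N))) / 2)
        ((1 - Real.exp (-(β / N))) / 2) N z (fun y => ((c y : ℝ) : ℂ))).re ≤ 0 :=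
      div_nonpos_of_nonneg_of_nonpos hZ.le hcon
    linarith
  · by_contra hcon
    rw [not_lt] at hcon
    have : (ZW L (1 - (1 - Real.exp (-(β / N))) / 2) ((1 - Real.exp (-(β / N))) / 2) N
      (fun y => ((c' y : ℝ) : ℂ))).re / (WW L (1 - (1 - Real.exp (-(β / N))) / 2)
        ((1 - Real.exp (-(β / N))) / 2) N z (fun y => ((c' y : ℝ) : ℂ))).re ≤ 0 :=
      div_nonpos_of_nonneg_of_nonpos hZ'.le hcon
    linarith

/-- Block (8). -/
theorem regStmt : RegStmt := regStmt_of finReg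

end

end Vale.Agent.P361.LRO.LY
end

section

/-!
P361, step (8): the name `reg` for `LY.regStmt`.
-/

namespace Vale.Agent.P361.LRO

/-- Step (8): the Lee-Yang regularity. -/
theorem reg : RegStmt := LY.regStmt

end Vale.Agent.P361.LRO
end

section

/-!
P361, STAGE 3 for all spins, block (B): the bootstrap at Bloch's order `β ^ (-3/2)` for the graph
`edgesS n s M` (the version with copies of `S3/BootB.lean` of helper678).
-/

namespace Vale.Agent.P361.LRO.S3S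

open Finset Matrix Filter Topology Vale.Agent.P361.LRO.GenS Vale.Agent.P361.LRO.S3

noncomputable section

namespace BootS

/-! ### The scales -/

/-- the scale exponent: `√β ≤ 3 ^ a ≤ 3 √β` -/
def aC (β : ℝ) : ℕ := Nat.clog 3 ⌈Real.sqrt β⌉₊

/-- the side of the blocks -/
def wC (β : ℝ) : ℕ := 3 ^ aC β

/-- the number of the blocks: `β ^ 3 ≤ w m ≤ 2 β ^ 3` -/
def mC (β : ℝ) : ℕ := ⌈β ^ (3 : ℝ) / wC β⌉₊

theorem wC_ge (β : ℝ) : Real.sqrt β ≤ wC β := by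
  refine (Nat.le_ceil _).trans ?_
  exact_mod_cast Nat.le_pow_clog (by norm_num) _

theorem wC_le {β : ℝ} (hβ : 1 < β) : (wC β : ℝ) ≤ 3 * Real.sqrt β := by
  have h1 : 1 < Real.sqrt β := by
    rw [Real.lt_sqrt (by norm_num)]
    linarith
  have h2 : 1 < ⌈Real.sqrt β⌉₊ := by
    rw [Nat.lt_ceil]
    exact_mod_cast h1
  have h3 := Nat.pow_pred_clog_lt_self (b := 3) (by norm_num) h2
  have h4 : ((3 ^ (Nat.clog 3 ⌈Real.sqrt β⌉₊).pred : ℕ) : ℝ) < Real.sqrt β := by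
    rwa [← Nat.lt_ceil]
  have h5 : 0 < Nat.clog 3 ⌈Real.sqrt β⌉₊ := Nat.clog_pos (by norm_num) h2
  unfold wC aC
  obtain ⟨k, hk⟩ := Nat.exists_eq_succ_of_ne_zero h5.ne'
  rw [hk] at h4 ⊢
  rw [Nat.pred_succ] at h4
  push_cast at h4 ⊢
  rw [pow_succ]
  linarith

theorem wC_pos (β : ℝ) : 0 < wC β := by unfold wC; positivity

theorem sqrt_le_self {β : ℝ} (hβ : 9 ≤ β) : 3 * Real.sqrt β ≤ β := by
  have h1 : (3 : ℝ) ≤ Real.sqrt β := by
    rw [Real.le_sqrt' (by norm_num)]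
    linarith
  have h2 := Real.mul_self_sqrt (show (0 : ℝ) ≤ β by linarith)
  nlinarith

theorem two_le_wC {β : ℝ} (hβ : 9 ≤ β) : 2 ≤ wC β := by
  have h1 : (3 : ℝ) ≤ Real.sqrt β := by
    rw [Real.le_sqrt' (by norm_num)]
    linarith
  have h2 : (3 : ℝ) ≤ wC β := h1.trans (wC_ge β)
  have h3 : 3 ≤ wC β := by exact_mod_cast h2
  omega

theorem wC_le34 {β : ℝ} (hβ : 81 ≤ β) : (wC β : ℝ) ≤ β ^ (3 / 4 : ℝ) := by
  have hβ0 : 0 < β := by linarith
  refine (wC_le (by linarith)).trans ?_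
  have h1 : (3 : ℝ) ≤ β ^ (1 / 4 : ℝ) := by
    have h2 : (81 : ℝ) ^ (1 / 4 : ℝ) = 3 := by
      rw [show (81 : ℝ) = (3 : ℝ) ^ (4 : ℝ) by norm_num, ← Real.rpow_mul (by norm_num)]
      norm_num
    rw [← h2]
    exact Real.rpow_le_rpow (by norm_num) hβ (by norm_num)
  have h3 : β ^ (3 / 4 : ℝ) = β ^ (1 / 4 : ℝ) * β ^ (1 / 2 : ℝ) := by
    rw [← Real.rpow_add hβ0]
    norm_num
  rw [h3, Real.sqrt_eq_rpow]
  exact mul_le_mul_of_nonneg_right h1 (Real.rpow_pos_of_pos hβ0 _).le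

theorem mC_spec {β : ℝ} (hβ : 9 ≤ β) : 1 ≤ mC β ∧ β ^ (3 : ℝ) ≤ (wC β : ℝ) * mC β ∧
    (wC β : ℝ) * mC β ≤ 2 * β ^ (3 : ℝ) := by
  have hw : (0 : ℝ) < wC β := by exact_mod_cast wC_pos β
  have hβ0 : 0 < β := by linarith
  have hβ3 : 0 < β ^ (3 : ℝ) := Real.rpow_pos_of_pos hβ0 _
  have h1 : β ^ (3 : ℝ) / wC β ≤ mC β := Nat.le_ceil _
  have h2 : (mC β : ℝ) < β ^ (3 : ℝ) / wC β + 1 := Nat.ceil_lt_add_one (by positivity)
  have h3 : 0 < mC β := by
    have : (0 : ℝ) < mC β := lt_of_lt_of_le (by positivity) h1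
    exact_mod_cast this
  have h4 : (wC β : ℝ) ≤ β := (wC_le (by linarith)).trans (sqrt_le_self hβ)
  have h5 : β ≤ β ^ (3 : ℝ) := by
    have := Real.rpow_le_rpow_of_exponent_le (show (1 : ℝ) ≤ β by linarith)
      (show (1 : ℝ) ≤ 3 by norm_num)
    rwa [Real.rpow_one] at this
  refine ⟨h3, ?_, ?_⟩
  · rw [div_le_iff₀ hw] at h1
    linarith
  · have h6 := mul_le_mul_of_nonneg_left h2.le hw.le
    have h7 : (wC β : ℝ) * (β ^ (3 : ℝ) / wC β + 1) = β ^ (3 : ℝ) + wC β := by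
      field_simp
    linarith

/-! ### Cubes -/

/-- From a bound for the average of the block averages to a good point. -/
theorem good_pointS {n s : ℕ} [NeZero n] {w m : ℕ} (hs : 0 < s) (hw : 0 < w) (hm : 0 < m)
    (hwn : w ≤ n) (x : Tor n) (f : Tor n × Fin s → ℝ) (t : ℝ)
    (h : ∑ y : Fin 3 → Fin m,
      (∑ z ∈ cubeS n s (x + fun i => ((w * (y i : ℕ) : ℕ) : ZMod n)) w, f z) /
      (cubeS n s (x + fun i => ((w * (y i : ℕ) : ℕ) : ZMod n)) w).card ≤ (m : ℝ) ^ 3 * t) :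
    ∃ (k : Fin 3 → ℕ) (j : Fin s), (∀ i, k i ≤ w * m) ∧
      f (x + fun i => (k i : ZMod n), j) ≤ t := by
  set bl : (Fin 3 → Fin m) → Finset (Tor n × Fin s) := fun y =>
    cubeS n s (x + fun i => ((w * (y i : ℕ) : ℕ) : ZMod n)) w with hbl
  obtain ⟨y, z, hz, hρz⟩ : ∃ y, ∃ z ∈ bl y, f z ≤ t := by
    by_contra hcon
    push Not at hcon
    have hcp' : ∀ y, 0 < (bl y).card := by
      intro y
      rw [hbl]
      dsimp only
      rw [card_cubeS hwn]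
      positivity
    have hcp : ∀ y, (0 : ℝ) < (bl y).card := fun y => by exact_mod_cast hcp' y
    have h2 : ∀ y, t < (∑ z ∈ bl y, f z) / (bl y).card := by
      intro y
      rw [lt_div_iff₀ (hcp y)]
      have h3 : ∑ z ∈ bl y, t < ∑ z ∈ bl y, f z :=
        Finset.sum_lt_sum_of_nonempty (Finset.card_pos.1 (hcp' y)) fun z hz => hcon y z hz
      rw [Finset.sum_const, nsmul_eq_mul] at h3
      linarith
    have : Nonempty (Fin m) := ⟨⟨0, hm⟩⟩
    have h3 : ∑ y : Fin 3 → Fin m, t < ∑ y, (∑ z ∈ bl y, f z) / (bl y).card :=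
      Finset.sum_lt_sum_of_nonempty Finset.univ_nonempty fun y _ => h2 y
    rw [Finset.sum_const, Finset.card_univ, Fintype.card_fun, Fintype.card_fin, Fintype.card_fin,
      nsmul_eq_mul] at h3
    push_cast at h3
    linarith
  obtain ⟨z1, j⟩ := z
  have hz' := hz
  rw [hbl] at hz'
  unfold cubeS cube at hz'
  dsimp only at hz'
  rw [Finset.mem_product, Finset.mem_image] at hz'
  obtain ⟨a, -, ha⟩ := hz'.1
  refine ⟨fun i => w * (y i : ℕ) + (a i : ℕ), j, fun i => ?_, ?_⟩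
  · have h2 : (y i : ℕ) + 1 ≤ m := (y i).2
    have h3 := Nat.mul_le_mul_left w h2
    have h4 : (a i : ℕ) < w := (a i).2
    rw [mul_add, mul_one] at h3
    exact (Nat.add_le_add_left h4.le _).trans h3
  · have h5 : (x + fun i => ((w * (y i : ℕ) + (a i : ℕ) : ℕ) : ZMod n)) = z1 := by
      have ha' : (x + fun i => ((w * (y i : ℕ) : ℕ) : ZMod n)) + (fun i => ((a i : ℕ) : ZMod n)) =
          z1 := ha
      rw [← ha', add_assoc]
      congr 1
      funext i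
      simp only [Pi.add_apply]
      push_cast
      ring
    rw [h5]
    exact hρz

theorem avg_le {m : ℕ} (hm : 0 < m) (F G : (Fin 3 → Fin m) → ℝ) {A B E : ℝ} (hA : 0 ≤ A)
    (hF : ∀ y, F y ≤ A * G y + B) (hG : (∑ y, G y) / (m : ℝ) ^ 3 ≤ E) :
    ∑ y, F y ≤ (m : ℝ) ^ 3 * (A * E + B) := by
  have hm' : (0 : ℝ) < (m : ℝ) ^ 3 := by positivity
  refine (Finset.sum_le_sum fun y _ => hF y).trans ?_
  rw [Finset.sum_add_distrib, ← Finset.mul_sum, Finset.sum_const, Finset.card_univ,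
    Fintype.card_fun, Fintype.card_fin, Fintype.card_fin, nsmul_eq_mul]
  push_cast
  rw [div_le_iff₀ hm'] at hG
  have h5 := mul_le_mul_of_nonneg_left hG hA
  linarith

/-! ### Harnack -/

theorem num_d {β C7 : ℝ} (hC7 : 0 < C7) (hβ9 : 9 ≤ β) (hb3 : 1134 / C7 ≤ β ^ (3 / 2 : ℝ)) {l : ℕ}
    (hl : (l : ℝ) ≤ 2 * β ^ (3 : ℝ)) :
    0 ≤ 3 * l * β ^ (-(9 / 2) : ℝ) ∧ 3 * (3 * l * β ^ (-(9 / 2) : ℝ)) < Real.pi / 2 ∧
      9 / 2 * (3 * l * β ^ (-(9 / 2) : ℝ)) ^ 2 ≤ C7 * β ^ (-(3 / 2) : ℝ) / 7 := by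
  have hβ : 0 < β := by linarith
  have hp : ∀ a : ℝ, 0 < β ^ a := fun a => Real.rpow_pos_of_pos hβ a
  have hmul : ∀ a b : ℝ, β ^ a * β ^ b = β ^ (a + b) := fun a b => (Real.rpow_add hβ a b).symm
  set d : ℝ := 3 * l * β ^ (-(9 / 2) : ℝ) with hd
  have hd0 : 0 ≤ d := by
    have := hp (-(9 / 2))
    rw [hd]
    positivity
  have hd6 : d ≤ 6 * (β ^ (3 / 2 : ℝ))⁻¹ := by
    have h1 : 3 * (l : ℝ) * β ^ (-(9 / 2) : ℝ) ≤ 3 * (2 * β ^ (3 : ℝ)) * β ^ (-(9 / 2) : ℝ) :=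
      mul_le_mul_of_nonneg_right (by linarith) (hp _).le
    refine h1.trans (le_of_eq ?_)
    have h2 : β ^ (3 : ℝ) * β ^ (-(9 / 2) : ℝ) = (β ^ (3 / 2 : ℝ))⁻¹ := by
      rw [hmul, ← Real.rpow_neg hβ.le]
      norm_num
    rw [← h2]
    ring
  have hβ2 : (27 : ℝ) ≤ β ^ (3 / 2 : ℝ) := by
    have h1 : (9 : ℝ) ^ (3 / 2 : ℝ) ≤ β ^ (3 / 2 : ℝ) :=
      Real.rpow_le_rpow (by norm_num) hβ9 (by norm_num)
    have h2 : (9 : ℝ) ^ (3 / 2 : ℝ) = 27 := by
      rw [show (9 : ℝ) = (3 : ℝ) ^ (2 : ℝ) by norm_num, ← Real.rpow_mul (by norm_num)]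
      norm_num
    rwa [h2] at h1
  refine ⟨hd0, ?_, ?_⟩
  · have h1 : (β ^ (3 / 2 : ℝ))⁻¹ ≤ (27 : ℝ)⁻¹ := inv_anti₀ (by norm_num) hβ2
    have h2 := Real.pi_gt_three
    have h3 : (27 : ℝ)⁻¹ ≤ 1 / 27 := by norm_num
    linarith
  · have h1 : d ^ 2 ≤ (6 * (β ^ (3 / 2 : ℝ))⁻¹) ^ 2 := pow_le_pow_left₀ hd0 hd6 2
    have h3 : β ^ (-(3 / 2) : ℝ) = (β ^ (3 / 2 : ℝ))⁻¹ := Real.rpow_neg hβ.le _
    have h2 : (6 * (β ^ (3 / 2 : ℝ))⁻¹) ^ 2 = 36 * (β ^ (-(3 / 2) : ℝ) * β ^ (-(3 / 2) : ℝ)) := by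
      rw [h3]
      ring
    rw [h2] at h1
    have h4 : 162 * β ^ (-(3 / 2) : ℝ) ≤ C7 / 7 := by
      rw [div_le_iff₀ hC7] at hb3
      rw [h3, ← div_eq_mul_inv, div_le_div_iff₀ (hp _) (by norm_num)]
      linarith
    have h5 := mul_le_mul_of_nonneg_right h4 (hp (-(3 / 2))).le
    calc 9 / 2 * d ^ 2 ≤ 9 / 2 * (36 * (β ^ (-(3 / 2) : ℝ) * β ^ (-(3 / 2) : ℝ))) := by linarith
      _ = 162 * β ^ (-(3 / 2) : ℝ) * β ^ (-(3 / 2) : ℝ) := by ring
      _ ≤ C7 / 7 * β ^ (-(3 / 2) : ℝ) := h5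
      _ = _ := by ring

/-- Transport of the density by Harnack's inequality. -/
theorem transport {n s : ℕ} [NeZero n] (hs : 1 ≤ s) (M : ℕ) {β g0 lam η : ℝ}
    (hβ : 0 < β) (h0p : 0 < g0) (hlam : 0 ≤ lam) (hη0 : 0 < η) (hη1 : η ≤ 1)
    {g : Tor n → ℝ} (hg : Fam n g0 lam g) {l : ℕ} {k : Fin 3 → ℕ} (hk : ∀ i, k i ≤ l)
    (hd0 : 0 ≤ 3 * l * lam) (hd2 : 3 * (3 * l * lam) < Real.pi / 2)
    (hd9 : 9 / 2 * (3 * l * lam) ^ 2 ≤ η / 7) (x : Tor n) (i j : Fin s)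
    (hz : rho (edgesS n s M) β (hS fun y => g y / (s * β)) (x + fun i => (k i : ZMod n), j) ≤
      η / 16) :
    rho (edgesS n s M) β (hS fun y => g y / (s * β)) (x, i) ≤ η / 2 := by
  have hsβ : (0 : ℝ) < s * β := by
    have : (1 : ℝ) ≤ s := by exact_mod_cast hs
    positivity
  have hpos : ∀ y, 0 < g y := fun y => h0p.trans_le (hg.1 y).1
  have hpos' : ∀ y, 0 < g y / (s * β) := fun y => div_pos (hpos y) hsβ
  set v : Tor n := fun i => (k i : ZMod n) with hv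
  set h : Tor n → ℝ := fun y => g y / (s * β) with hh
  have hlog : ∀ u, |Real.log (h (u + v)) - Real.log (h u)| ≤ 3 * l * lam := by
    intro u
    have h1 := fam_log_vec hg h0p l k hk hlam u
    rw [hh]
    dsimp only
    rw [Real.log_div (hpos _).ne' hsβ.ne', Real.log_div (hpos _).ne' hsβ.ne',
      sub_sub_sub_cancel_right]
    exact h1
  obtain ⟨hM, hH⟩ := reg (Tor n × Fin s) (edgesS n s M) β (hS fun y => h (y + v)) (hS h)
    (3 * l * lam) hβ (fun u => hpos' _) (fun u => hpos' _) hd0 hd2 (fun u => hlog u.1) (x, i)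
  have hM' := (reg (Tor n × Fin s) (edgesS n s M) β (hS h) (hS h) 0 hβ
    (fun u => hpos' _) (fun u => hpos' _) le_rfl (by rw [mul_zero]; positivity)
    (fun u => by rw [sub_self, abs_zero]) (x, i)).1
  have hT := transStmtS s n M β h x v i j
  rw [hT] at hM hH
  have h10 : 1 / (1 - 2 * rho (edgesS n s M) β (hS h) (x + v, j)) ≤ 1 + η / 7 := by
    rw [div_le_iff₀ hM]
    nlinarith
  have h11 : 1 / (1 - 2 * rho (edgesS n s M) β (hS h) (x, i)) ≤ 1 + 3 * (η / 7) := by linarith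
  rw [div_le_iff₀ hM'] at h11
  by_contra hcon
  push Not at hcon
  nlinarith

/-! ### The step -/

theorem step3S (s : ℕ) (hs : 1 ≤ s) (hK : KappaStmt3S s) (hD : DirStmt3) (hE : EnergyStmt3S s)
    (CS : ℝ) : ∃ C7 : ℝ, 0 < C7 ∧ CS ≤ C7 ∧ ∀ᶠ β : ℝ in atTop,
      ∀ᶠ n : ℕ in atTop, Odd n → ∀ [NeZero n], ∃ M0 : ℕ, ∀ M : ℕ, M0 ≤ M →
        ∀ g0 : ℝ, (n : ℝ) ^ (-(1 / 4) : ℝ) ≤ g0 →
        g0 ≤ 1 → BH3S n s M β (C7 * β ^ (-(3 / 2) : ℝ)) g0 →
        BH3S n s M β (C7 * β ^ (-(3 / 2) : ℝ) / 2) g0 := by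
  obtain ⟨CD, hCD, hD⟩ := hD
  obtain ⟨c2, c3, hc2, hc3, hK⟩ := hK
  obtain ⟨CE, βE, hE⟩ := hE
  have hsR : (1 : ℝ) ≤ s := by exact_mod_cast hs
  have hCE' : CE ≤ max CE 1 := le_max_left _ _
  have hCE1 : 1 ≤ max CE 1 := le_max_right _ _
  set CE' := max CE 1 with hCE'def
  set B0 : ℝ := CD * (1 + 1 / c3) * CE' + CD / (c3 * c2) with hB0
  have hB0p : 0 < B0 := by positivity
  set C7 : ℝ := max CS (16 * B0) with hC7def
  have hC7 : 0 < C7 := lt_max_of_lt_right (by positivity)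
  have hC7B : 16 * B0 ≤ C7 := le_max_right _ _
  refine ⟨C7, hC7, le_max_left _ _, ?_⟩
  obtain ⟨β1, hK⟩ := hK C7 c2 hC7 hc2
  have hlim : ∀ (a : ℝ), 0 < a → ∀ B : ℝ, ∀ᶠ β : ℝ in atTop, B ≤ β ^ a := fun a ha B =>
    (tendsto_rpow_atTop ha).eventually_ge_atTop B
  filter_upwards [eventually_ge_atTop β1, eventually_ge_atTop βE, eventually_ge_atTop (81 : ℝ),
    hlim (3 / 2) (by norm_num) C7, hlim (3 / 2) (by norm_num) (1 / c2),
    hlim (3 / 2) (by norm_num) (1134 / C7)] with β hβ1 hβE hβ81 hb1 hb2 hb3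
  have hβ9 : 9 ≤ β := by linarith
  have hβ : 0 < β := by linarith
  have hsβ : (0 : ℝ) < s * β := by positivity
  obtain ⟨n1, hK⟩ := hK β hβ1
  obtain ⟨n2, hE⟩ := hE β hβE
  obtain ⟨hm1, hl1, hl2⟩ := mC_spec hβ9
  have hw0 := wC_pos β
  have hw2 := two_le_wC hβ9
  have hwge := wC_ge β
  have hwle := wC_le (show 1 < β by linarith)
  have hwβ := wC_le34 hβ81
  have hp : ∀ a : ℝ, 0 < β ^ a := fun a => Real.rpow_pos_of_pos hβ a
  have hmul : ∀ a b : ℝ, β ^ a * β ^ b = β ^ (a + b) := fun a b => (Real.rpow_add hβ a b).symm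
  have hinv : β ^ (-(3 / 2) : ℝ) = (β ^ (3 / 2 : ℝ))⁻¹ := Real.rpow_neg hβ.le _
  set η : ℝ := C7 * β ^ (-(3 / 2) : ℝ) with hη
  have hη0 : 0 < η := mul_pos hC7 (hp _)
  have hη1 : η ≤ 1 := by
    rw [hη, hinv, ← div_eq_mul_inv, div_le_one (hp _)]
    exact hb1
  filter_upwards [eventually_ge_atTop n1, eventually_ge_atTop n2, eventually_ge_atTop 3,
    eventually_ge_atTop (wC β * mC β)] with n hn1 hn2 hn3 hnw
  intro hodd _
  obtain ⟨M0, hE⟩ := hE n hn2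
  refine ⟨M0, fun M hM g0 hg0 hg01 hB g hg z => ?_⟩
  obtain ⟨x, i⟩ := z
  have hwn : wC β ≤ n := le_trans (Nat.le_mul_of_pos_right _ hm1) hnw
  have hn0 : (0 : ℝ) < n := by
    have : (3 : ℝ) ≤ n := by exact_mod_cast hn3
    linarith
  have h0p : 0 < g0 := (Real.rpow_pos_of_pos hn0 _).trans_le hg0
  have hpos : ∀ y, 0 < g y := fun y => h0p.trans_le (hg.1 y).1
  have hpos' : ∀ y, 0 < g y / (s * β) := fun y => div_pos (hpos y) hsβ
  -- the parameter `K`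
  set K : ℝ := c2 * β ^ (3 / 2 : ℝ) with hKdef
  have hK1 : 1 ≤ K := by
    rw [div_le_iff₀ hc2] at hb2
    rw [hKdef]
    linarith
  have h3a : ((wC β : ℕ) : ℝ) = (3 : ℝ) ^ aC β := by
    unfold wC
    push_cast
    rfl
  have hKw : K ≤ c2 * β * 3 ^ aC β := by
    have h1 : β ^ (3 / 2 : ℝ) = β * Real.sqrt β := by
      rw [Real.sqrt_eq_rpow]
      conv_rhs =>
        lhs
        rw [← Real.rpow_one β]
      rw [hmul]
      norm_num
    rw [hKdef, h1, ← h3a, mul_assoc]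
    exact mul_le_mul_of_nonneg_left (mul_le_mul_of_nonneg_left hwge hβ.le) hc2.le
  have htw : ∀ z : Tor n, (∑ u ∈ cubeS n s z (wC β),
      rho (edgesS n s M) β (hS fun y => g y / (s * β)) u) / (cubeS n s z (wC β)).card ≤
      CD * (1 + 1 / c3) *
        yb (edgesS n s M) β (hS fun y => g y / (s * β)) (cubeS n s z (wC β)) +
        CD / (c3 * c2) * β ^ (-(3 / 2) : ℝ) := by
    intro z
    have h2 := hD (Tor n × Fin s) (edgesS n s M) β (hS fun y => g y / (s * β)) K (c3 * K)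
      (cubeS n s z (wC β)) hβ
      (fun y => (hpos' _).le) hK1 (by positivity)
      (by
        rw [← Finset.card_pos, card_cubeS hwn]
        positivity)
      (hK n hn1 hodd M (aC β) (h3a ▸ hwge) (h3a ▸ hwβ) K hK1 le_rfl hKw g0 hg0 hg01 hB g hg z)
    have h3 : K / (c3 * K) = 1 / c3 := by
      have : 0 < K := by linarith
      field_simp
    have h4 : CD / (c3 * K) = CD / (c3 * c2) * β ^ (-(3 / 2) : ℝ) := by
      rw [hinv, hKdef]
      have := hp (3 / 2)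
      field_simp
    rw [h3, h4] at h2
    exact h2
  -- the average
  have hm' : (0 : ℝ) < (mC β : ℝ) ^ 3 := by
    have : 0 < mC β := hm1
    positivity
  have hsum : ∑ y : Fin 3 → Fin (mC β),
      (∑ z ∈ cubeS n s (x + fun i => ((wC β * (y i : ℕ) : ℕ) : ZMod n)) (wC β),
        rho (edgesS n s M) β (hS fun y => g y / (s * β)) z) /
      (cubeS n s (x + fun i => ((wC β * (y i : ℕ) : ℕ) : ZMod n)) (wC β)).card ≤
      (mC β : ℝ) ^ 3 * (η / 16) := by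
    have h2 := hE M hM g (fun y => ⟨hpos y, (hg.1 y).2⟩) x (wC β) (mC β) (by omega) hwle hl1 hl2
    have h4 : 0 ≤ CD * (1 + 1 / c3) := by positivity
    refine (avg_le hm1 _ _ h4 (fun y => htw _) h2).trans ?_
    refine mul_le_mul_of_nonneg_left ?_ hm'.le
    have h3 : CD * (1 + 1 / c3) * (CE * β ^ (-(3 / 2) : ℝ)) ≤
        CD * (1 + 1 / c3) * (CE' * β ^ (-(3 / 2) : ℝ)) :=
      mul_le_mul_of_nonneg_left (mul_le_mul_of_nonneg_right hCE' (hp _).le) h4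
    have h6 : B0 * β ^ (-(3 / 2) : ℝ) ≤ η / 16 := by
      rw [hη]
      have := mul_le_mul_of_nonneg_right hC7B (hp (-(3 / 2))).le
      linarith
    have h7 : CD * (1 + 1 / c3) * (CE' * β ^ (-(3 / 2) : ℝ)) +
        CD / (c3 * c2) * β ^ (-(3 / 2) : ℝ) = B0 * β ^ (-(3 / 2) : ℝ) := by
      rw [hB0]
      ring
    linarith
  obtain ⟨k, j, hk, hz⟩ := good_pointS hs hw0 hm1 hwn x _ _ hsum
  obtain ⟨hd0, hd2, hd9⟩ := num_d hC7 hβ9 hb3 (l := wC β * mC β) (by push_cast; exact hl2)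
  exact transport hs M hβ h0p (hp _).le hη0 hη1 hg hk hd0 hd2 hd9 x i j hz

/-- The continuity argument for the capped family. -/
theorem bootS3 {n s : ℕ} [NeZero n] (M : ℕ) {β η lam a : ℝ} (hη : 0 < η) (hlam : 0 ≤ lam)
    (ha0 : 0 < a) (ha1 : a ≤ 1)
    (h1 : ∀ z, rho (edgesS n s M) β (hS fun _ => 1 / (s * β)) z ≤ η)
    (hstep : ∀ h0, a ≤ h0 → h0 ≤ 1 →
      (∀ g : Tor n → ℝ, Fam n h0 lam g →
        ∀ z, rho (edgesS n s M) β (hS fun y => g y / (s * β)) z ≤ η) →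
      ∀ g : Tor n → ℝ, Fam n h0 lam g →
        ∀ z, rho (edgesS n s M) β (hS fun y => g y / (s * β)) z ≤ η / 2) :
    ∀ g : Tor n → ℝ, Fam n a lam g →
      ∀ z, rho (edgesS n s M) β (hS fun y => g y / (s * β)) z ≤ η / 2 := by
  rcases Nat.eq_zero_or_pos s with rfl | hs
  · rintro g hg ⟨x, i⟩
    exact i.elim0
  have hexp : 1 ≤ Real.exp lam := Real.one_le_exp hlam
  have hcont : ∀ i : Fin s, ∀ x : Tor n, Continuous fun h : Tor n → ℝ =>
      rho (edgesS n s M) β (hS fun y => h y / (s * β)) (x, i) := by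
    intro i x
    exact (continuous_rho (edgesS n s M) β (x, i)).comp
      (continuous_pi fun z => (continuous_apply (A := fun _ : Tor n => ℝ) z.1).div_const _)
  have key := bootstrap_abs (V := Tor n)
    (fun h x => (univ : Finset (Fin s)).sup' ⟨⟨0, hs⟩, mem_univ _⟩
      fun i => rho (edgesS n s M) β (hS fun y => h y / (s * β)) (x, i))
    (fun x => Continuous.finset_sup'_apply _ fun i _ => hcont i x)
    (fun h => ∀ (x : Tor n) (i : Fin 3), h x ≤ Real.exp lam * h (x + Pi.single i 1) ∧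
      h (x + Pi.single i 1) ≤ Real.exp lam * h x) ?_ ha0 hη
    (fun x => Finset.sup'_le _ _ fun i _ => h1 (x, i)) ?_ ha1
  · intro h hh z
    exact (Finset.le_sup' (fun i => rho (edgesS n s M) β (hS fun y => h y / (s * β)) (z.1, i))
      (mem_univ z.2)).trans (key h hh.1 hh.2 z.1)
  · intro h c hc hreg x i
    have hm : ∀ u v : ℝ, u ≤ Real.exp lam * v → max u c ≤ Real.exp lam * max v c := by
      intro u v huv
      refine max_le (huv.trans ?_) ?_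
      · exact mul_le_mul_of_nonneg_left (le_max_left _ _) (Real.exp_pos _).le
      · calc c ≤ Real.exp lam * c := by nlinarith
          _ ≤ _ := mul_le_mul_of_nonneg_left (le_max_right _ _) (Real.exp_pos _).le
    exact ⟨hm _ _ (hreg x i).1, hm _ _ (hreg x i).2⟩
  · intro h0 h2 h3 h4 h h5 h6 x
    refine Finset.sup'_le _ _ fun i _ => ?_
    refine hstep h0 h2 h3 (fun h' hh' z => ?_) h ⟨h5, h6⟩ (x, i)
    exact (Finset.le_sup' (fun i => rho (edgesS n s M) β (hS fun y => h' y / (s * β)) (z.1, i))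
      (mem_univ z.2)).trans (h4 h' hh'.1 hh'.2 z.1)

end BootS

/-! ### The bootstrap -/

/-- **Block (B) for spin `s / 2`**: the bootstrap at Bloch's order. -/
theorem bootStmt3S_of (s : ℕ) (hs : 1 ≤ s) (hK : KappaStmt3S s) (hD : DirStmt3)
    (hE : EnergyStmt3S s) (hS0 : StartStmt3S s) : BootStmt3S s := by
  obtain ⟨CS, βS, hS0⟩ := hS0
  obtain ⟨C7, hC7, hCS, hstep⟩ := BootS.step3S s hs hK hD hE CS
  obtain ⟨β0, H⟩ := eventually_atTop.1
    (hstep.and ((eventually_ge_atTop βS).and (eventually_ge_atTop (1 : ℝ))))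
  refine ⟨C7, β0, hC7, fun β hβ0 => ?_⟩
  obtain ⟨hst, hβS, hβ1⟩ := H β hβ0
  have hβ : 0 < β := by linarith
  obtain ⟨n1, Hn⟩ := eventually_atTop.1 hst
  obtain ⟨n2, hS0⟩ := hS0 β hβS
  refine ⟨max n1 n2, fun n _ hn hodd => ?_⟩
  have hn1 : n1 ≤ n := (le_max_left _ _).trans hn
  have hn2 : n2 ≤ n := (le_max_right _ _).trans hn
  obtain ⟨M1, Hn⟩ := Hn n hn1 hodd
  obtain ⟨M2, hS0⟩ := hS0 n hn2 hodd
  refine ⟨max M1 M2, fun M hM g0 hg0 hg01 g hg z => ?_⟩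
  have hM1 : M1 ≤ M := (le_max_left _ _).trans hM
  have hM2 : M2 ≤ M := (le_max_right _ _).trans hM
  have hn0 : (0 : ℝ) < n := by exact_mod_cast NeZero.pos n
  have ha0 : (0 : ℝ) < (n : ℝ) ^ (-(1 / 4) : ℝ) := Real.rpow_pos_of_pos hn0 _
  have hpow : 0 < β ^ (-(3 / 2) : ℝ) := Real.rpow_pos_of_pos hβ _
  set η : ℝ := C7 * β ^ (-(3 / 2) : ℝ) with hη
  have hη0 : 0 < η := mul_pos hC7 hpow
  have key := BootS.bootS3 (n := n) (s := s) M (β := β) hη0
    (Real.rpow_pos_of_pos hβ (-(9 / 2))).le ha0 (hg0.trans hg01)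
    (fun z => (hS0 M hM2 z).trans (mul_le_mul_of_nonneg_right hCS hpow.le))
    (fun h0 hh0 hh01 hB => Hn M hM1 h0 hh0 hh01 hB) g
    ⟨fun y => ⟨hg0.trans (hg.1 y).1, (hg.1 y).2⟩, hg.2⟩ z
  linarith

end

end Vale.Agent.P361.LRO.S3S
end

section

/-!
P361, stage 3, all spins, block (M), item (C): the block rewards of all translates of the cube
together are bounded by the second quantisation of `gmatS` (helper44).
-/

set_option linter.unusedSectionVars false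

namespace Vale.Agent.P361.LRO.S3S

open Finset Matrix Vale.Agent.P361.LRO.GenS Vale.Agent.P361.LRO.S3

noncomputable section

variable {n s : ℕ} [NeZero n]

/-- Translation of the sites, copies fixed. -/
def trS (a : Tor n) : (Tor n × Fin s) ≃ (Tor n × Fin s) :=
  (Equiv.addRight a).prodCongr (Equiv.refl (Fin s))

theorem edgesS_translate {A : Type*} [AddCommMonoid A] (M : ℕ)
    (f : (Tor n × Fin s) → (Tor n × Fin s) → A) (a : Tor n) :
    ((edgesS n s M).map fun e => f e.1 e.2).sum =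
      ((edgesS n s M).map fun e => f (trS a e.1) (trS a e.2)).sum := by
  rw [TransS.edgesS_map_sum M f, TransS.edgesS_map_sum M (fun u v => f (trS a u) (trS a v))]
  have h1 : ((interE n s).map fun e => f (trS a e.1) (trS a e.2)).sum =
      ((interE n s).map fun e => f e.1 e.2).sum :=
    TransS.interE_inv a (Equiv.refl (Fin s)) f
  have h2 : ((intraE n s).map fun e => f (trS a e.1) (trS a e.2)).sum =
      ((intraE n s).map fun e => f e.1 e.2).sum := by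
    rw [TransS.intraE_map_sum, TransS.intraE_map_sum (fun u v => f (trS a u) (trS a v)),
      Finset.sum_filter, Finset.sum_filter, Fintype.sum_prod_type, Fintype.sum_prod_type]
    refine Fintype.sum_equiv (Equiv.addRight a) _ _ fun x => ?_
    refine Finset.sum_congr rfl fun p _ => ?_
    rfl
  rw [h1, h2]

theorem gib_hM_translateS (M : ℕ) (β h : ℝ) (x y v : Tor n) (i l : Fin s) :
    gib (edgesS n s M) β (hS fun _ => h) (hM (x + v, i) (y + v, l)) =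
      gib (edgesS n s M) β (hS fun _ => h) (hM (x, i) (y, l)) := by
  have h1 := gib_relab (edgesS n s M) (trS v) (fun f => edgesS_translate M f v) β
    (hS fun _ => h) (hM (x + v, i) (y + v, l))
  have h2 : (hM (x + v, i) (y + v, l) :
      Matrix (Tor n × Fin s → Fin 2) (Tor n × Fin s → Fin 2) ℝ).submatrix
      (Bs.relab (trS v)) (Bs.relab (trS v)) = hM (x, i) (y, l) :=
    Bs.hM_relab (trS v) (x, i) (y, l)
  rw [h2] at h1
  exact h1.symm

omit [NeZero n] in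
theorem sum_cubeSM {w : ℕ} (hw : w ≤ n) {A : Type*} [AddCommMonoid A] (z : Tor n)
    (f : Tor n × Fin s → A) :
    ∑ x ∈ cubeS n s z w, f x = ∑ a : Fin 3 → Fin w, ∑ i : Fin s, f (ptc z a, i) := by
  unfold cubeS
  rw [Finset.sum_product, sum_cubeM hw]

omit [NeZero n] in
theorem card_cubeSM {w : ℕ} (hw : w ≤ n) (z : Tor n) : (cubeS n s z w).card = w ^ 3 * s := by
  unfold cubeS
  rw [Finset.card_product, card_cubeM hw, Finset.card_univ, Fintype.card_fin]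

theorem gib_CM_eqS {w : ℕ} (hw : w ≤ n) (M : ℕ) (β h : ℝ) (z : Tor n) :
    gib (edgesS n s M) β (hS fun _ => h) (CM (cubeS n s z w)) =
      ∑ a : Fin 3 → Fin w, ∑ i : Fin s, ∑ b : Fin 3 → Fin w, ∑ l : Fin s,
        gib (edgesS n s M) β (hS fun _ => h) (hM (ptc z a, i) (ptc z b, l)) := by
  unfold CM
  rw [Bs.gib_sum, sum_cubeSM hw]
  refine Finset.sum_congr rfl fun a _ => Finset.sum_congr rfl fun i _ => ?_
  rw [Bs.gib_sum, sum_cubeSM hw]

theorem gib_CM_translateS {w : ℕ} (hw : w ≤ n) (M : ℕ) (β h : ℝ) (z z' : Tor n) :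
    gib (edgesS n s M) β (hS fun _ => h) (CM (cubeS n s z w)) =
      gib (edgesS n s M) β (hS fun _ => h) (CM (cubeS n s z' w)) := by
  rw [gib_CM_eqS hw, gib_CM_eqS hw]
  refine Finset.sum_congr rfl fun a _ => Finset.sum_congr rfl fun i _ =>
    Finset.sum_congr rfl fun b _ => Finset.sum_congr rfl fun l _ => ?_
  have h1 : ∀ c : Fin 3 → Fin w, ptc z c = ptc z' c + (z - z') := by
    intro c
    unfold ptc
    abel
  rw [h1 a, h1 b, gib_hM_translateS]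

theorem yb_eqS [NeZero s] {w : ℕ} (hw : w ≤ n) (hw0 : 0 < w) (M : ℕ) (β h : ℝ) (x : Tor n) :
    ((n : ℝ) ^ 3 * s) * yb (edgesS n s M) β (hS fun _ => h) (cubeS n s x w) =
      (1 / ((w : ℝ) ^ 6 * s)) * ∑ z : Tor n, ∑ a : Fin 3 → Fin w, ∑ i : Fin s,
        ∑ b : Fin 3 → Fin w, ∑ l : Fin s,
        gib (edgesS n s M) β (hS fun _ => h) (hM (ptc z a, i) (ptc z b, l)) := by
  have h1 : ∀ z : Tor n, ∑ a : Fin 3 → Fin w, ∑ i : Fin s, ∑ b : Fin 3 → Fin w, ∑ l : Fin s,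
      gib (edgesS n s M) β (hS fun _ => h) (hM (ptc z a, i) (ptc z b, l)) =
      gib (edgesS n s M) β (hS fun _ => h) (CM (cubeS n s x w)) := by
    intro z
    rw [← gib_CM_eqS hw, gib_CM_translateS hw M β h z x]
  simp only [h1, Finset.sum_const, Finset.card_univ, nsmul_eq_mul]
  unfold yb
  rw [card_cubeSM hw, Fintype.card_fun, ZMod.card, Fintype.card_fin]
  push_cast
  have hw1 : (0 : ℝ) < w := by exact_mod_cast hw0
  have hs : (0 : ℝ) < s := by exact_mod_cast Nat.pos_of_ne_zero (NeZero.ne s)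
  field_simp

theorem hcM_gmatS (w : ℕ) : hcM (gmatS n s w) = (1 / (2 * ((w : ℝ) ^ 6 * s))) •
    ∑ z : Tor n, ∑ a : Fin 3 → Fin w, ∑ b : Fin 3 → Fin w, ∑ i : Fin s, ∑ l : Fin s,
      hcM (OB.dd ((ptc z a, i) : Tor n × Fin s) (ptc z b, l)) := by
  have h0 : gmatS n s w = fun u v => (1 / (2 * ((w : ℝ) ^ 6 * s))) *
      ∑ z : Tor n, ∑ a : Fin 3 → Fin w, ∑ b : Fin 3 → Fin w, ∑ i : Fin s, ∑ l : Fin s,
        OB.dd ((ptc z a, i) : Tor n × Fin s) (ptc z b, l) u v := by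
    funext u v
    unfold gmatS
    rw [div_eq_inv_mul, one_div]
    rfl
  rw [h0, hcM_smul, hcM_sum]
  congr 1
  refine Finset.sum_congr rfl fun z _ => ?_
  rw [hcM_sum]
  refine Finset.sum_congr rfl fun a _ => ?_
  rw [hcM_sum]
  refine Finset.sum_congr rfl fun b _ => ?_
  rw [hcM_sum]
  refine Finset.sum_congr rfl fun i _ => ?_
  rw [hcM_sum]

/-- **Item (C), all spins**: `s n³ y_b ≤ <dΓ(g)>`. -/
theorem yb_le_gmatS [NeZero s] {w : ℕ} (hw0 : 1 ≤ w) (hw : w ≤ n) (M : ℕ) (β h : ℝ) (x : Tor n) :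
    ((n : ℝ) ^ 3 * s) * yb (edgesS n s M) β (hS fun _ => h) (cubeS n s x w) ≤
      gib (edgesS n s M) β (hS fun _ => h) (hcM (gmatS n s w)) := by
  rw [yb_eqS hw hw0, hcM_gmatS, Mean.gib_smul, Mean.gib_sum]
  have h1 : ∀ z : Tor n, 2 * ∑ a : Fin 3 → Fin w, ∑ i : Fin s, ∑ b : Fin 3 → Fin w, ∑ l : Fin s,
      gib (edgesS n s M) β (hS fun _ => h) (hM (ptc z a, i) (ptc z b, l)) ≤
      gib (edgesS n s M) β (hS fun _ => h) (∑ a : Fin 3 → Fin w, ∑ b : Fin 3 → Fin w,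
        ∑ i : Fin s, ∑ l : Fin s, hcM (OB.dd ((ptc z a, i) : Tor n × Fin s) (ptc z b, l))) := by
    intro z
    rw [Mean.gib_sum, Finset.mul_sum]
    refine Finset.sum_le_sum fun a _ => ?_
    rw [Mean.gib_sum, Finset.sum_comm, Finset.mul_sum]
    refine Finset.sum_le_sum fun b _ => ?_
    rw [Mean.gib_sum, Finset.mul_sum]
    refine Finset.sum_le_sum fun i _ => ?_
    rw [Mean.gib_sum, Finset.mul_sum]
    exact Finset.sum_le_sum fun l _ => gib_hcM_dd _ _ _ _ _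
  have h2 := Finset.sum_le_sum fun (z : Tor n) (_ : z ∈ Finset.univ) => h1 z
  rw [← Finset.mul_sum] at h2
  have hs : (0 : ℝ) < s := by exact_mod_cast Nat.pos_of_ne_zero (NeZero.ne s)
  have hw6 : (0 : ℝ) < (w : ℝ) ^ 6 := by
    have : (0 : ℝ) < w := by exact_mod_cast hw0
    positivity
  calc (1 / ((w : ℝ) ^ 6 * s)) * ∑ z : Tor n, ∑ a : Fin 3 → Fin w, ∑ i : Fin s,
        ∑ b : Fin 3 → Fin w, ∑ l : Fin s,
        gib (edgesS n s M) β (hS fun _ => h) (hM (ptc z a, i) (ptc z b, l))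
      = (1 / (2 * ((w : ℝ) ^ 6 * s))) * (2 * ∑ z : Tor n, ∑ a : Fin 3 → Fin w, ∑ i : Fin s,
        ∑ b : Fin 3 → Fin w, ∑ l : Fin s,
        gib (edgesS n s M) β (hS fun _ => h) (hM (ptc z a, i) (ptc z b, l))) := by
        field_simp
    _ ≤ _ := mul_le_mul_of_nonneg_left h2 (by positivity)

end

end Vale.Agent.P361.LRO.S3S
end

section

/-!
P361 stage 3, block (M): the numbers, final forms (with the landed lower bound of the pressure in
the form of `TorLow.logZ_lower`, and with the split right-hand side of `MeanMain.finite_ineq`).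
-/

namespace Vale.Agent.P361.LRO.S3

open Filter Topology Vale.Agent.P361.B

end Vale.Agent.P361.LRO.S3
end

section

/-!
P361 stage 3, block (M) for all spins `s / 2`: the numbers.
-/

namespace Vale.Agent.P361.LRO.S3S

open Filter Topology Vale.Agent.P361.B Vale.Agent.P361.LRO.S3

theorem aS_eq_BCS (s : ℕ) : Vale.Agent.P361.B.aS ((s : ℝ) / 2) = BCS s := by
  have hpi := Real.pi_pos
  unfold Vale.Agent.P361.B.aS BCS
  have hs0 : (0 : ℝ) ≤ (s : ℝ) / 2 := by positivity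
  have h1 : Real.sqrt (4 * Real.pi * ((s : ℝ) / 2)) ^ 3 = (4 * Real.pi * ((s : ℝ) / 2)) ^ (3 / 2 : ℝ) := by
    rw [Real.sqrt_eq_rpow, ← Real.rpow_natCast, ← Real.rpow_mul (by positivity)]
    norm_num
  have h2 : (8 : ℝ) * Real.pi ^ (3 / 2 : ℝ) * ((s : ℝ) / 2) ^ (3 / 2 : ℝ) =
      (4 * Real.pi * ((s : ℝ) / 2)) ^ (3 / 2 : ℝ) := by
    have h8 : (8 : ℝ) = 4 ^ (3 / 2 : ℝ) := by
      rw [show (4 : ℝ) = 2 ^ (2 : ℝ) by norm_num, ← Real.rpow_mul (by norm_num)]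
      norm_num
    rw [h8, ← Real.mul_rpow (by norm_num) hpi.le, ← Real.mul_rpow (by positivity) hs0]
  rw [h1, h2, inv_mul_eq_div]

theorem aS_pos {s : ℕ} (hs : 1 ≤ s) : 0 < Vale.Agent.P361.B.aS ((s : ℝ) / 2) := by
  have hsR : (1 : ℝ) ≤ s := by exact_mod_cast hs
  have h1 : 0 < fS ((s : ℝ) / 2) 0 := by
    unfold fS
    have hpi := Real.pi_pos
    refine mul_pos (by positivity) ?_
    refine (summable_f le_rfl).tsum_pos (fun r => by positivity) 0 ?_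
    positivity
  rwa [fS_zero] at h1

/-- The bounding function, any positive limit `A0`. -/
theorem G_lim_gen {A0 C0 c c' d D1 D2 C1 C7 δ : ℝ} (hA0 : 0 < A0) (hδ : 0 < δ)
    (hcd : 0 < c' - 2 * d) (h1c : 0 < 1 - c') (hcc : 0 < c - c') (hc2 : 0 < 1 / 2 - c') :
    ∀ᶠ β : ℝ in atTop, ((Real.sqrt (1 - 9 * |C0| * β ^ (-(c' - 2 * d))) ^ 3)⁻¹ *
      (A0 + D2 / β) + (D1 * β ^ (-(1 - c')) + |C1| * β ^ (-(c - c'))) +
      24 * C7 ^ 2 * β ^ (-(1 / 2 - c')) ≤ (1 + δ) * A0) ∧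
      9 * |C0| * β ^ (-(c' - 2 * d)) ≤ 1 / 2 := by
  have T1 : Tendsto (fun β : ℝ => 9 * |C0| * β ^ (-(c' - 2 * d))) atTop (𝓝 0) := by
    simpa using (tendsto_rpow_neg_atTop hcd).const_mul (9 * |C0|)
  have T2 : Tendsto (fun β : ℝ => (Real.sqrt (1 - 9 * |C0| * β ^ (-(c' - 2 * d))) ^ 3)⁻¹) atTop
      (𝓝 1) := by
    have h1 : Tendsto (fun β : ℝ => 1 - 9 * |C0| * β ^ (-(c' - 2 * d))) atTop (𝓝 1) := by
      simpa using tendsto_const_nhds.sub T1
    have h2 := (Real.continuous_sqrt.tendsto 1).comp h1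
    have h3 := (h2.pow 3).inv₀ (by simp)
    simpa using h3
  have T3 : Tendsto (fun β : ℝ => A0 + D2 / β) atTop (𝓝 A0) := by
    have h1 : Tendsto (fun β : ℝ => D2 / β) atTop (𝓝 0) :=
      tendsto_const_nhds.div_atTop tendsto_id
    simpa using tendsto_const_nhds.add h1
  have T4 : Tendsto (fun β : ℝ => D1 * β ^ (-(1 - c')) + |C1| * β ^ (-(c - c'))) atTop
      (𝓝 0) := by
    have h1 := (tendsto_rpow_neg_atTop h1c).const_mul D1
    have h2 := (tendsto_rpow_neg_atTop hcc).const_mul |C1|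
    simpa using h1.add h2
  have T5 : Tendsto (fun β : ℝ => 24 * C7 ^ 2 * β ^ (-(1 / 2 - c'))) atTop (𝓝 0) := by
    simpa using (tendsto_rpow_neg_atTop hc2).const_mul (24 * C7 ^ 2)
  have T6 := ((T2.mul T3).add T4).add T5
  have hlim : (1 : ℝ) * A0 + 0 + 0 < (1 + δ) * A0 := by nlinarith
  filter_upwards [T6.eventually (gt_mem_nhds hlim),
    T1.eventually (gt_mem_nhds (by norm_num : (0 : ℝ) < 1 / 2))] with β h1 h2
  exact ⟨h1.le, h2.le⟩

theorem exp_small (s : ℕ) : ∀ᶠ β : ℝ in atTop,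
    Real.sqrt β ^ 3 * (2 * (s : ℝ) * Real.exp (-β)) ≤ β⁻¹ := by
  have h1 := (tendsto_rpow_mul_exp_neg_mul_atTop_nhds_zero (5 / 2) 1 one_pos).const_mul (2 * (s : ℝ))
  rw [mul_zero] at h1
  filter_upwards [h1.eventually (gt_mem_nhds one_pos), eventually_gt_atTop 0] with β h2 hβ
  rw [← one_div, le_div_iff₀ hβ]
  have e : Real.sqrt β ^ 3 * (2 * (s : ℝ) * Real.exp (-β)) * β =
      2 * (s : ℝ) * (β ^ (5 / 2 : ℝ) * Real.exp (-1 * β)) := by
    have h3 : Real.sqrt β ^ 3 * β = β ^ (5 / 2 : ℝ) := by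
      rw [Real.sqrt_eq_rpow, ← Real.rpow_natCast, ← Real.rpow_mul hβ.le]
      nth_rewrite 2 [← Real.rpow_one β]
      rw [← Real.rpow_add hβ]
      norm_num
    rw [← h3]
    have h4 : Real.exp (-1 * β) = Real.exp (-β) := by congr 1; ring
    rw [h4]
    ring
  rw [e]
  exact h2.le

theorem extra_step {X M P F F0 Cp b ε E : ℝ} (hM : 0 < M) (h : X / M * P ≤ F + Cp / b + ε)
    (hF : F ≤ F0) (hE : X * E ≤ 1 / b) : X / M * (P + M * E) ≤ F0 + (Cp + 1) / b + ε := by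
  have h1 : X / M * (P + M * E) = X / M * P + X * E := by field_simp
  have h2 : (Cp + 1) / b = Cp / b + 1 / b := add_div _ _ _
  rw [h1, h2]
  linarith

theorem small3 {s β : ℝ} (hβ : 0 < β)
    (h : Real.sqrt β ^ 3 * (2 * s * Real.exp (-β)) ≤ β⁻¹) :
    Real.sqrt β ^ 3 * (2 * s * Real.exp (-(3 * β))) ≤ 1 / β := by
  by_cases hs : 0 ≤ s
  · have hex : Real.exp (-(3 * β)) ≤ Real.exp (-β) := Real.exp_le_exp.2 (by linarith)
    have h2 : Real.sqrt β ^ 3 * (2 * s * Real.exp (-(3 * β))) ≤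
        Real.sqrt β ^ 3 * (2 * s * Real.exp (-β)) :=
      mul_le_mul_of_nonneg_left (mul_le_mul_of_nonneg_left hex (by positivity)) (by positivity)
    rw [one_div]
    linarith
  · have h1 : 0 ≤ Real.sqrt β ^ 3 * (2 * (-s) * Real.exp (-(3 * β))) := by
      have : 0 ≤ -s := by linarith
      positivity
    have h2 : 0 < 1 / β := by positivity
    linarith

theorem smallτ {s β τ : ℝ} (hβ : 0 < β) (hτ0 : 0 ≤ τ) (hτ1 : τ < 1)
    (h : Real.sqrt β ^ 3 * (2 * s * Real.exp (-β)) ≤ β⁻¹) :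
    Real.sqrt ((1 - τ) * β) ^ 3 * (2 * s * Real.exp (-β)) ≤ 1 / ((1 - τ) * β) := by
  have h3 : β⁻¹ ≤ 1 / ((1 - τ) * β) := by
    rw [← one_div]
    refine one_div_le_one_div_of_le (mul_pos (by linarith) hβ) ?_
    nlinarith
  by_cases hs : 0 ≤ s
  · have h2 : Real.sqrt ((1 - τ) * β) ^ 3 * (2 * s * Real.exp (-β)) ≤
        Real.sqrt β ^ 3 * (2 * s * Real.exp (-β)) := by
      refine mul_le_mul_of_nonneg_right ?_ (by positivity)
      refine pow_le_pow_left₀ (Real.sqrt_nonneg _) (Real.sqrt_le_sqrt ?_) 3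
      nlinarith
    linarith
  · have h1 : 0 ≤ Real.sqrt ((1 - τ) * β) ^ 3 * (2 * (-s) * Real.exp (-β)) := by
      have : 0 ≤ -s := by linarith
      positivity
    have h2 : 0 < β⁻¹ := by positivity
    linarith

/-- Numbers of (M), all spins. -/
theorem mean_num_S {s : ℕ} (hs : 1 ≤ s) {c : ℝ} (hc : 0 < c) (C0 C1 C7 : ℝ) :
    ∃ c' d : ℝ, 0 < c' ∧ 0 < d ∧ d ≤ 1 / 100 ∧
    ∀ δ : ℝ, 0 < δ → ∃ β0 : ℝ, 1 ≤ β0 ∧ ∀ β : ℝ, β0 ≤ β → ∀ w : ℝ, 0 ≤ w →
    w ≤ 3 * β ^ (1 / 2 + d) → ∃ μ : ℝ, 0 ≤ μ ∧ μ ≤ 1 / 2 ∧ C0 * β ^ (-1 - c') * w ^ 2 ≤ μ ∧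
    ∀ h : ℝ, 0 < h → ∀ᶠ m : ℕ in atTop, ∀ [NeZero m] (y lZ ρ : ℝ),
      β ^ (-(3 / 2) : ℝ) * (FS ((s : ℝ) / 2) 0 - C1 * β ^ (-c)) ≤ lZ / (m : ℝ) ^ 3 →
      0 ≤ ρ → ρ ≤ C7 * β ^ (-(3 / 2) : ℝ) →
      β * β ^ (-1 - c') * (((m : ℝ) ^ 3 * s) * y) ≤
        (∑ k : Fin 3 → ZMod m, -Real.log (1 - Real.exp (-(β * (s * tK m k + h)))) +
          (m : ℝ) ^ 3 * (2 * s * Real.exp (-(3 * β)))) +
        β * β ^ (-1 - c') *
          (∑ k : Fin 3 → ZMod m, 1 / (Real.exp (β * ((1 - μ) * (s * tK m k) + h)) - 1) +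
            (m : ℝ) ^ 3 * (2 * s * Real.exp (-β))) - lZ +
          β * (24 * (s : ℝ) ^ 2 * (m : ℝ) ^ 3 * ρ ^ 2) →
      y ≤ (1 + δ) * (BCS s / s) * β ^ (-(3 / 2) : ℝ) := by
  have hsR : (1 : ℝ) ≤ s := by exact_mod_cast hs
  obtain ⟨Cp, hCp, hp⟩ := tor_log_eventually (n := s) hs
  obtain ⟨Cd, hCd, hd⟩ := tor_dens_eventually (n := s) hs
  obtain ⟨c', hc'0, hc'c, hc'4⟩ : ∃ c' : ℝ, 0 < c' ∧ c' < c ∧ c' ≤ 1 / 4 :=
    ⟨min (c / 2) (1 / 4), lt_min (by linarith) (by norm_num),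
      lt_of_le_of_lt (min_le_left _ _) (by linarith), min_le_right _ _⟩
  obtain ⟨d, hd0, hd100, hdc⟩ : ∃ d : ℝ, 0 < d ∧ d ≤ 1 / 100 ∧ d ≤ c' / 4 :=
    ⟨min (1 / 100) (c' / 4), lt_min (by norm_num) (by linarith), min_le_left _ _, min_le_right _ _⟩
  refine ⟨c', d, hc'0, hd0, hd100, fun δ hδ => ?_⟩
  obtain ⟨β0, hβ0⟩ := eventually_atTop.1 ((G_lim_gen (A0 := Vale.Agent.P361.B.aS ((s : ℝ) / 2)) (C0 := C0) (c := c)
    (c' := c') (d := d) (D1 := Cp + 1 + 1) (D2 := 2 * (Cd + 1) + 1) (C1 := C1) (C7 := s * C7)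
    (aS_pos hs) hδ (by linarith) (by linarith) (by linarith)
    (by linarith)).and ((eventually_ge_atTop (2 * 448 : ℝ)).and (exp_small s)))
  refine ⟨max 1 β0, le_max_left _ _, fun β hβ w hw0 hw => ?_⟩
  obtain ⟨⟨hG, hτ⟩, h896, hsm⟩ := hβ0 β (le_trans (le_max_right _ _) hβ)
  have hβ1 : 1 ≤ β := by linarith
  have hβp : 0 < β := by linarith
  obtain ⟨τ, hτd⟩ : ∃ τ : ℝ, τ = 9 * |C0| * β ^ (-(c' - 2 * d)) := ⟨_, rfl⟩
  rw [← hτd] at hG hτ
  have hτ0 : 0 ≤ τ := by rw [hτd]; positivity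
  have hτw : C0 * β ^ (-1 - c') * w ^ 2 ≤ τ := by
    have h1 := w_step (C0 := C0) (c' := c') (t := 1) (gk := C0 * w ^ 2) hβp zero_le_one hw0 hw
      (by rw [mul_one])
    rw [mul_one, ← hτd] at h1
    linarith
  refine ⟨τ, hτ0, hτ, hτw, fun h hh => ?_⟩
  have hβ' : 448 ≤ (1 - τ) * β := by nlinarith
  have hsb : 0 < β * h := mul_pos hβp hh
  filter_upwards [hp β (by linarith) (β * h) hsb β⁻¹ (by positivity),
    hd ((1 - τ) * β) hβ' (β * h) hsb β⁻¹ (by positivity), eventually_gt_atTop 0] with m hm1 hm2 hm0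
  intro _ y lZ ρ hlZ hρ0 hρ hV
  have m1 := hm1
  have m2 := hm2
  have hmR : (0 : ℝ) < m := by exact_mod_cast hm0
  have hm3 : (0 : ℝ) < (m : ℝ) ^ 3 := by positivity
  have e1 : ∀ k : Fin 3 → ZMod m,
      β * ((s : ℝ) * tK m k) + β * h = β * (s * tK m k + h) := fun k => by ring
  have e2 : ∀ k : Fin 3 → ZMod m, (1 - τ) * β * ((s : ℝ) * tK m k) + β * h =
      β * ((1 - τ) * (s * tK m k) + h) := fun k => by ring
  simp only [e1] at m1
  simp only [e2] at m2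
  have f1 : FS ((s : ℝ) / 2) (β * h) ≤ FS ((s : ℝ) / 2) 0 := FS_mono_zero hsb.le _
  have f2 : fS ((s : ℝ) / 2) (β * h) ≤ Vale.Agent.P361.B.aS ((s : ℝ) / 2) := fS_le _ hsb.le
  generalize (∑ k : Fin 3 → ZMod m, -Real.log (1 - Real.exp (-(β * (s * tK m k + h))))) = P at *
  generalize (∑ k : Fin 3 → ZMod m, 1 / (Real.exp (β * ((1 - τ) * (s * tK m k) + h)) - 1)) = Q at *
  have P0 := extra_step (E := 2 * s * Real.exp (-(3 * β))) hm3 m1 f1 (small3 hβp hsm)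
  have Q0 := extra_step (E := 2 * s * Real.exp (-β)) hm3 m2 f2 (smallτ hβp hτ0 (by linarith) hsm)
  have P1 := p_step (M := (m : ℝ) ^ 3) (F0 := FS ((s : ℝ) / 2) 0) (Cp := Cp + 1) hβp P0
  have Q1 := q_step (M := (m : ℝ) ^ 3) (A := Vale.Agent.P361.B.aS ((s : ℝ) / 2)) (Cd := Cd + 1) hβp (by linarith)
    hτ Q0
  rw [rpow_neg_three_half hβp] at hlZ hρ ⊢
  have hsρ : (s : ℝ) * ρ ≤ s * C7 * (Real.sqrt β ^ 3)⁻¹ := by
    rw [mul_assoc]; exact mul_le_mul_of_nonneg_left hρ (by positivity)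
  have V3 := mean_core (c := c) (c' := c') (C1 := C1) (C7 := s * C7) (D1 := Cp + 1 + 1)
    (F0 := FS ((s : ℝ) / 2) 0) (A := Vale.Agent.P361.B.aS ((s : ℝ) / 2) + (2 * (Cd + 1) + 1) / β) (y := s * y)
    (ρ := s * ρ) hβp hm3 P1 Q1 hlZ (by positivity) hsρ (by
      have e3 : β * β ^ (-1 - c') * (m : ℝ) ^ 3 * (s * y) =
        β * β ^ (-1 - c') * (((m : ℝ) ^ 3 * s) * y) := by ring
      have e4 : 24 * β * (m : ℝ) ^ 3 * (s * ρ) ^ 2 =
        β * (24 * (s : ℝ) ^ 2 * (m : ℝ) ^ 3 * ρ ^ 2) := by ring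
      rw [e3, e4]
      linarith)
  have V4 := V3.trans (mul_le_mul_of_nonneg_left hG (by positivity))
  rw [aS_eq_BCS] at V4
  have e5 : (1 + δ) * (BCS s / s) * (Real.sqrt β ^ 3)⁻¹ =
      (Real.sqrt β ^ 3)⁻¹ * ((1 + δ) * BCS s) / s := by ring
  rw [e5, le_div_iff₀ (by linarith)]
  linarith

theorem lz_conv_S {s : ℕ} (hs : 1 ≤ s) {K β h lZ M : ℝ} (hK : 1 ≤ K) (hKβ : K ≤ β) (h0 : 0 ≤ h)
    (hh : h ≤ β ^ (-(10 : ℝ))) (hM : 0 < M)
    (hl : ((1 - K / β) * FS ((s : ℝ) / 2) (β * h) / Real.sqrt β ^ 3 -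
      (Real.sqrt β ^ 3)⁻¹ / β) * M ≤ lZ) :
    β ^ (-(3 / 2) : ℝ) * (FS ((s : ℝ) / 2) 0 -
      (K * FS ((s : ℝ) / 2) 0 + Vale.Agent.P361.B.aS ((s : ℝ) / 2) + 1) * β ^ (-(1 : ℝ))) ≤ lZ / M := by
  have hβ1 : 1 ≤ β := hK.trans hKβ
  have hβp : 0 < β := by linarith
  have hX0 : 0 < (Real.sqrt β ^ 3)⁻¹ := by have := Real.sqrt_pos.2 hβp; positivity
  have h1 : ((1 - K / β) * FS ((s : ℝ) / 2) (β * h) / Real.sqrt β ^ 3 -
      (Real.sqrt β ^ 3)⁻¹ / β) ≤ lZ / M := by rw [le_div_iff₀ hM]; exact hl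
  refine le_trans ?_ h1
  rw [rpow_neg_three_half hβp, Real.rpow_neg_one]
  have e : (1 - K / β) * FS ((s : ℝ) / 2) (β * h) / Real.sqrt β ^ 3 - (Real.sqrt β ^ 3)⁻¹ / β =
      (Real.sqrt β ^ 3)⁻¹ * ((1 - K / β) * FS ((s : ℝ) / 2) (β * h) - 1 / β) := by
    rw [div_eq_mul_inv _ (Real.sqrt β ^ 3)]; ring
  rw [e]
  refine mul_le_mul_of_nonneg_left ?_ hX0.le
  have hbh : β * h ≤ 1 / β := by
    rw [le_div_iff₀ hβp]
    have h2 : β * h * β ≤ β * β ^ (-(10 : ℝ)) * β :=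
      mul_le_mul_of_nonneg_right (mul_le_mul_of_nonneg_left hh hβp.le) hβp.le
    have h3 : β * β ^ (-(10 : ℝ)) * β = β ^ (-(8 : ℝ)) := by
      have h4 : ∀ x : ℝ, β * x * β = β ^ (1 : ℝ) * x * β ^ (1 : ℝ) := fun x => by
        rw [Real.rpow_one]
      rw [h4, ← Real.rpow_add hβp, ← Real.rpow_add hβp]
      norm_num
    have h5 : β ^ (-(8 : ℝ)) ≤ 1 := Real.rpow_le_one_of_one_le_of_nonpos hβ1 (by norm_num)
    linarith
  have hge := FS_ge (s := β * h) (mul_nonneg hβp.le h0) ((s : ℝ) / 2)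
  have hle := FS_mono_zero (mul_nonneg hβp.le h0) ((s : ℝ) / 2)
  have ha : 0 < Vale.Agent.P361.B.aS ((s : ℝ) / 2) := aS_pos hs
  have h6 : β * h * Vale.Agent.P361.B.aS ((s : ℝ) / 2) ≤ 1 / β * Vale.Agent.P361.B.aS ((s : ℝ) / 2) :=
    mul_le_mul_of_nonneg_right hbh ha.le
  have h7 : K / β * FS ((s : ℝ) / 2) (β * h) ≤ K / β * FS ((s : ℝ) / 2) 0 :=
    mul_le_mul_of_nonneg_left hle (by positivity)
  have e2 : (K * FS ((s : ℝ) / 2) 0 + Vale.Agent.P361.B.aS ((s : ℝ) / 2) + 1) * β⁻¹ =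
      K / β * FS ((s : ℝ) / 2) 0 + 1 / β * Vale.Agent.P361.B.aS ((s : ℝ) / 2) + 1 / β := by
    rw [← one_div]; ring
  rw [e2]
  have e3 : (1 - K / β) * FS ((s : ℝ) / 2) (β * h) =
      FS ((s : ℝ) / 2) (β * h) - K / β * FS ((s : ℝ) / 2) (β * h) := by ring
  rw [e3]
  linarith

/-- Numbers of (M), all spins, with the lower bound of the pressure in the landed form. -/
theorem mean_final_S {s : ℕ} (hs : 1 ≤ s) {K : ℝ} (hK : 1 ≤ K) (C0 C7 : ℝ) :
    ∃ c' d : ℝ, 0 < c' ∧ 0 < d ∧ d ≤ 1 / 100 ∧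
    ∀ δ : ℝ, 0 < δ → ∃ β0 : ℝ, K ≤ β0 ∧ ∀ β : ℝ, β0 ≤ β → ∀ w : ℝ, 0 ≤ w →
    w ≤ 3 * β ^ (1 / 2 + d) → ∃ μ : ℝ, 0 ≤ μ ∧ μ ≤ 1 / 2 ∧ C0 * β ^ (-1 - c') * w ^ 2 ≤ μ ∧
    ∀ h : ℝ, 0 < h → h ≤ β ^ (-(10 : ℝ)) → ∃ ε : ℝ, 0 < ε ∧ ∀ᶠ m : ℕ in atTop,
      ∀ [NeZero m] (y lZ ρ : ℝ),
      ((1 - K / β) * FS ((s : ℝ) / 2) (β * h) / Real.sqrt β ^ 3 - ε) * (m : ℝ) ^ 3 ≤ lZ →
      0 ≤ ρ → ρ ≤ C7 * β ^ (-(3 / 2) : ℝ) →
      β * β ^ (-1 - c') * (((m : ℝ) ^ 3 * s) * y) ≤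
        (∑ k : Fin 3 → ZMod m, -Real.log (1 - Real.exp (-(β * (s * tK m k + h)))) +
          (m : ℝ) ^ 3 * (2 * s * Real.exp (-(3 * β)))) +
        β * β ^ (-1 - c') *
          (∑ k : Fin 3 → ZMod m, 1 / (Real.exp (β * ((1 - μ) * (s * tK m k) + h)) - 1) +
            (m : ℝ) ^ 3 * (2 * s * Real.exp (-β))) - lZ +
          β * (24 * (s : ℝ) ^ 2 * (m : ℝ) ^ 3 * ρ ^ 2) →
      y ≤ (1 + δ) * (BCS s / s) * β ^ (-(3 / 2) : ℝ) := by
  obtain ⟨c', d, hc', hd, hd100, H⟩ := mean_num_S hs (c := 1) one_pos C0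
    (K * FS ((s : ℝ) / 2) 0 + Vale.Agent.P361.B.aS ((s : ℝ) / 2) + 1) C7
  refine ⟨c', d, hc', hd, hd100, fun δ hδ => ?_⟩
  obtain ⟨β0, hβ01, H0⟩ := H δ hδ
  refine ⟨max K β0, le_max_left _ _, fun β hβ w hw0 hw => ?_⟩
  obtain ⟨μ, hμ0, hμ1, hμw, H1⟩ := H0 β ((le_max_right _ _).trans hβ) w hw0 hw
  have hKβ : K ≤ β := (le_max_left _ _).trans hβ
  have hβp : 0 < β := by linarith
  refine ⟨μ, hμ0, hμ1, hμw, fun h hh hhβ => ⟨(Real.sqrt β ^ 3)⁻¹ / β, ?_, ?_⟩⟩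
  · have := Real.sqrt_pos.2 hβp
    positivity
  · filter_upwards [H1 h hh, eventually_gt_atTop 0] with m hm hm0
    intro _ y lZ ρ hlZ hρ0 hρ hV
    have hmR : (0 : ℝ) < m := by exact_mod_cast hm0
    have h1 := lz_conv_S hs hK hKβ hh.le hhβ (by positivity : (0 : ℝ) < (m : ℝ) ^ 3) hlZ
    exact hm y lZ ρ h1 hρ0 hρ hV

end Vale.Agent.P361.LRO.S3S
end

section

/-!
P361, stage 3, all spins, block (M): the sharp upper bound for the block mean in a uniform small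
field (helper979).
-/

set_option linter.unusedSectionVars false

namespace Vale.Agent.P361.LRO.S3S.MF

open Finset Filter Topology Matrix Vale.Agent.P361.LRO.GenS Vale.Agent.P361.LRO.S3

noncomputable section

/-- Lower bound of the free energy of the copies on large tori, uniform in the multiplicity of the
intra-site edges. -/
def LogZLowerS (s : ℕ) : Prop :=
  ∃ K : ℝ, 1 ≤ K ∧ ∀ β : ℝ, K ≤ β → ∀ h : ℝ, 0 ≤ h → ∀ ε : ℝ, 0 < ε →
    ∃ n0 : ℕ, ∀ (n : ℕ) [NeZero n], n0 ≤ n → Odd n → ∀ M : ℕ,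
      ((1 - K / β) * B.FS ((s : ℝ) / 2) (β * h) / Real.sqrt β ^ 3 - ε) * (n : ℝ) ^ 3 ≤
        MeanAS.logZS n s M β h

theorem tq_tK {n : ℕ} [NeZero n] (k : Tor n) : OB.tq k = tK n k := OB.tq_eq k

/-- The density from the bootstrap, uniform field `h`. -/
theorem rho_uniform_of_bootS {s : ℕ} (hs : 1 ≤ s) (hB : BootStmt3S s) :
    ∃ C7 β0 : ℝ, 0 < C7 ∧ ∀ β : ℝ, β0 ≤ β → ∀ h : ℝ,
    0 < h → s * β * h ≤ 1 → ∃ n0 : ℕ, ∀ (n : ℕ) [NeZero n], n0 ≤ n → Odd n →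
    ∃ M0 : ℕ, ∀ M : ℕ, M0 ≤ M → ∀ z : Tor n × Fin s,
      rho (edgesS n s M) β (hS fun _ => h) z ≤ C7 * β ^ (-(3 / 2) : ℝ) := by
  obtain ⟨C7, β0, hC7, H⟩ := hB
  have hsR : (1 : ℝ) ≤ s := by exact_mod_cast hs
  refine ⟨C7, max β0 1, hC7, fun β hβ h hh hβh => ?_⟩
  have hβ0 : β0 ≤ β := le_trans (le_max_left _ _) hβ
  have hβ1 : 0 < β := lt_of_lt_of_le one_pos (le_trans (le_max_right _ _) hβ)
  obtain ⟨n0, Hn⟩ := H β hβ0
  have hlim : Filter.Tendsto (fun n : ℕ => (n : ℝ) ^ (-(1 / 4) : ℝ)) Filter.atTop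
      (nhds 0) :=
    (tendsto_rpow_neg_atTop (by norm_num : (0 : ℝ) < 1 / 4)).comp tendsto_natCast_atTop_atTop
  have hpos : 0 < s * β * h := by positivity
  obtain ⟨n1, hn1⟩ := Filter.eventually_atTop.1 ((tendsto_order.1 hlim).2 (s * β * h) hpos)
  refine ⟨max n0 n1, fun n _ hn hodd => ?_⟩
  obtain ⟨M0, hM0⟩ := Hn n (le_trans (le_max_left _ _) hn) hodd
  refine ⟨M0, fun M hM z => ?_⟩
  have h1 := hM0 M hM (s * β * h)
    (hn1 n (le_trans (le_max_right _ _) hn)).le hβh (fun _ => s * β * h) ?_ z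
  · have h2 : (fun _ : Tor n => s * β * h / (s * β)) = fun _ => h := by
      funext _
      field_simp
    simp only [h2] at h1
    exact h1
  · refine ⟨fun _ => ⟨le_rfl, hβh⟩, fun _ _ => ?_⟩
    have e : 0 ≤ β ^ (-(9 / 2) : ℝ) := (Real.rpow_pos_of_pos hβ1 _).le
    have e1 : 1 ≤ Real.exp (β ^ (-(9 / 2) : ℝ)) := Real.one_le_exp e
    constructor <;> nlinarith

/-- **Block (M)**, all spins. -/
theorem meanStmt3S_of {s : ℕ} (hs : 1 ≤ s) (hZ : LogZLowerS s) (hB : BootStmt3S s) :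
    MeanStmt3S s := by
  have : NeZero s := ⟨by omega⟩
  have hsR : (1 : ℝ) ≤ s := by exact_mod_cast hs
  obtain ⟨C7, β7, hC7, Hρ⟩ := rho_uniform_of_bootS hs hB
  obtain ⟨K, hK1, HZ⟩ := hZ
  obtain ⟨c', d, hc', hd, hd1, H⟩ := mean_final_S hs hK1 12 C7
  refine ⟨d, hd, hd1, fun δ hδ => ?_⟩
  obtain ⟨β0, hβ0K, Hβ⟩ := H δ hδ
  have e1 : ∀ᶠ β : ℝ in atTop, C7 * β ^ (-(3 / 2) : ℝ) < 1 / 4 := by
    have h1 : Tendsto (fun β : ℝ => C7 * β ^ (-(3 / 2) : ℝ)) atTop (𝓝 (C7 * 0)) :=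
      (tendsto_rpow_neg_atTop (by norm_num : (0 : ℝ) < 3 / 2)).const_mul C7
    rw [mul_zero] at h1
    exact (tendsto_order.1 h1).2 _ (by norm_num)
  obtain ⟨β1, hβ1⟩ := eventually_atTop.1 e1
  refine ⟨max (max β0 β1) (max β7 s), fun β hβ a _ ha2 h hh hh2 => ?_⟩
  have g0 : β0 ≤ β := le_trans (le_trans (le_max_left _ _) (le_max_left _ _)) hβ
  have g1 : β1 ≤ β := le_trans (le_trans (le_max_right _ _) (le_max_left _ _)) hβ
  have g7 : β7 ≤ β := le_trans (le_trans (le_max_left _ _) (le_max_right _ _)) hβ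
  have gs : (s : ℝ) ≤ β := le_trans (le_trans (le_max_right _ _) (le_max_right _ _)) hβ
  have gK : K ≤ β := hβ0K.trans g0
  have hb1 : 1 ≤ β := hK1.trans gK
  have hb0 : 0 < β := by linarith
  have f1 := hβ1 β g1
  have hβh : s * β * h ≤ 1 := by
    have h1 : s * β * h ≤ β * β * β ^ (-(10 : ℝ)) := by
      refine mul_le_mul ?_ hh2 hh.le (by positivity)
      exact mul_le_mul_of_nonneg_right gs hb0.le
    have h2 : β * β * β ^ (-(10 : ℝ)) = β ^ (-8 : ℝ) := by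
      nth_rewrite 1 [← Real.rpow_one β]
      nth_rewrite 2 [← Real.rpow_one β]
      rw [← Real.rpow_add hb0, ← Real.rpow_add hb0]
      norm_num
    have h3 : β ^ (-8 : ℝ) ≤ 1 := Real.rpow_le_one_of_one_le_of_nonpos hb1 (by norm_num)
    linarith
  obtain ⟨n1, hn1⟩ := Hρ β g7 h hh hβh
  have hw0 : (0 : ℝ) ≤ ((3 ^ a : ℕ) : ℝ) := Nat.cast_nonneg _
  have hw3 : ((3 ^ a : ℕ) : ℝ) ≤ 3 * β ^ (1 / 2 + d) := by
    push_cast
    exact ha2
  obtain ⟨μ, -, hμ1, hμw, Hμ⟩ := Hβ β g0 ((3 ^ a : ℕ) : ℝ) hw0 hw3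
  obtain ⟨ε, hε, Hε⟩ := Hμ h hh hh2
  obtain ⟨n2, hn2⟩ := HZ β gK h hh.le ε hε
  obtain ⟨n3, hn3⟩ := eventually_atTop.1 Hε
  refine ⟨max (max n1 n2) (max n3 (3 ^ a + 2)), fun n _ hn hodd => ?_⟩
  have k1 : n1 ≤ n := le_trans (le_trans (le_max_left _ _) (le_max_left _ _)) hn
  have k2 : n2 ≤ n := le_trans (le_trans (le_max_right _ _) (le_max_left _ _)) hn
  have k3 : n3 ≤ n := le_trans (le_trans (le_max_left _ _) (le_max_right _ _)) hn
  have k4 : 3 ^ a + 2 ≤ n := le_trans (le_trans (le_max_right _ _) (le_max_right _ _)) hn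
  have k6 : 2 ≤ n := le_trans (Nat.le_add_left 2 _) k4
  have k7 : 3 ^ a ≤ n := le_trans (Nat.le_add_right _ 2) k4
  obtain ⟨M0, hM0⟩ := hn1 n k1 hodd
  refine ⟨M0, fun M hM x => ?_⟩
  have hlam : 0 < β ^ (-1 - c') := Real.rpow_pos_of_pos hb0 _
  refine hn3 n k3 (yb (edgesS n s M) β (hS fun _ => h) (cubeS n s x (3 ^ a)))
    (MeanAS.logZS n s M β h) (C7 * β ^ (-(3 / 2) : ℝ)) (hn2 n k2 hodd M) (by positivity) le_rfl ?_
  have h1 := MeanAS.mean_fin (n := n) (s := s) k6 M (w := 3 ^ a) hb1 hh hlam.le hμw hμ1 f1.le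
    (hM0 M hM) (yb_le_gmatS (n := n) (s := s) (w := 3 ^ a) (Nat.one_le_pow _ _ (by norm_num)) k7 M β h x)
  simp only [← tq_tK]
  exact h1

end

end Vale.Agent.P361.LRO.S3S.MF
end

section

/-!
P361, stage 3, all spins, block (M): `BootStmt3S s → MeanStmt3S s` (helper979).
-/

namespace Vale.Agent.P361.LRO.S3S

open Vale.Agent.P361.LRO.S3

theorem logZLowerS {s : ℕ} (hs : 1 ≤ s) : MF.LogZLowerS s := logZS_lower_FS hs

/-- **Block (M)**, all spins. -/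
theorem meanStmt3S_of (s : ℕ) (hs : 1 ≤ s) (hB : BootStmt3S s) : MeanStmt3S s :=
  MF.meanStmt3S_of hs (logZLowerS hs) hB

end Vale.Agent.P361.LRO.S3S
end

section

/-!
P361, stage 3, block (T): lower tail of `N_b`. Assembly (helper260).
-/

namespace Vale.Agent.P361.LRO.S3T

open Finset Matrix Filter Topology
open Vale.Agent.P361.LRO Vale.Agent.P361.LRO.S3

/-- `F(0) - F(τ) ≥ τ f(τ)`. -/
theorem FS_sub_ge (S : ℝ) {τ : ℝ} (hτ : 0 ≤ τ) : τ * B.fS S τ ≤ B.FS S 0 - B.FS S τ := by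
  unfold B.FS B.fS
  rw [← mul_sub, ← (B.summable_F le_rfl).tsum_sub (B.summable_F hτ), mul_left_comm τ]
  refine mul_le_mul_of_nonneg_left ?_ (by positivity)
  rw [← tsum_mul_left]
  refine Summable.tsum_le_tsum (fun r => ?_) ((B.summable_f hτ).mul_left τ)
    ((B.summable_F le_rfl).sub (B.summable_F hτ))
  rw [← sub_div, le_div_iff₀ (by positivity)]
  have h3 : τ * (Real.exp (-(((r : ℝ) + 1) * τ)) / Real.sqrt ((r : ℝ) + 1) ^ 3) *
      (((r : ℝ) + 1) * Real.sqrt ((r : ℝ) + 1) ^ 3) =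
      Real.exp (-(((r : ℝ) + 1) * τ)) * (((r : ℝ) + 1) * τ) := by
    have : 0 < Real.sqrt ((r : ℝ) + 1) := Real.sqrt_pos.2 (by positivity)
    field_simp
  rw [h3]
  have h4 : Real.exp (-(((r : ℝ) + 1) * 0)) = 1 := by simp
  rw [h4]
  have h5 := Real.add_one_le_exp (((r : ℝ) + 1) * τ)
  have h6 : Real.exp (-(((r : ℝ) + 1) * τ)) * Real.exp (((r : ℝ) + 1) * τ) = 1 := by
    rw [← Real.exp_add]; simp
  have h7 := Real.exp_pos (-(((r : ℝ) + 1) * τ))
  nlinarith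

theorem FS_anti (S : ℝ) {τ : ℝ} (hτ : 0 ≤ τ) : B.FS S τ ≤ B.FS S 0 := by
  have h := FS_sub_ge S hτ
  have := mul_nonneg hτ (B.fS_nonneg S τ)
  linarith

/-- The law of `r = J_max - J` of a block. -/
theorem gib_law {V : Type} [Fintype V] [DecidableEq V] (L : List (V × V)) (β : ℝ) (h : V → ℝ)
    (b : Finset V) :
    ∃ (ι : Type) (_ : Fintype ι) (μ : ι → ℝ) (r : ι → ℕ), (∀ i, 0 ≤ μ i) ∧
      (∀ i, 2 * r i ≤ b.card) ∧ ∑ i, μ i = 1 ∧
      (∀ P : Polynomial ℝ, ∑ i, μ i * P.eval ((r i : ℝ) * ((b.card : ℝ) - r i + 1)) =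
        gib L β h (Polynomial.aeval (CM b) P)) ∧
      ∑ i, μ i * (r i : ℝ) ≤ ∑ x ∈ b, rho L β h x := by
  obtain ⟨ι, hι, μ, N, r, p, h1, h2, h3, -, -⟩ :=
    TwJ.joint_law_poly (Tw.expH_psd L β h) (fun σ τ hd => by
      have := Tw.expH_cons L β h σ τ hd
      exact_mod_cast this) b
  have hT := Tw.trace_expH_pos L β h
  set T := Matrix.trace (NormedSpace.exp (-β • ham L h)) with hTdef
  have key : ∀ P Q : Polynomial ℝ, ∑ i, μ i / T *
      (P.eval ((r i : ℝ) * ((b.card : ℝ) - r i + 1)) * Q.eval ((r i : ℝ) + p i)) =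
      gib L β h (Polynomial.aeval (CM b) P * Polynomial.aeval (TwJ.Dn b) Q) := by
    intro P Q
    have e : ∑ i, μ i / T *
        (P.eval ((r i : ℝ) * ((b.card : ℝ) - r i + 1)) * Q.eval ((r i : ℝ) + p i)) =
        (∑ i, μ i * (P.eval ((r i : ℝ) * ((b.card : ℝ) - r i + 1)) *
          Q.eval ((r i : ℝ) + p i))) / T := by
      rw [Finset.sum_div]
      exact Finset.sum_congr rfl fun i _ => by ring
    rw [e, h3]
    rfl
  refine ⟨ι, hι, fun i => μ i / T, r, fun i => div_nonneg (h1 i) hT.le,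
    fun i => by have := (h2 i).1; omega, ?_, ?_, ?_⟩
  · have hk := key 1 1
    simp only [Polynomial.eval_one, mul_one, map_one] at hk
    rw [hk]
    unfold gib
    rw [mul_one, ← hTdef, div_self hT.ne']
  · intro P
    have hk := key P 1
    simpa only [Polynomial.eval_one, mul_one, map_one] using hk
  · have hk := key 1 Polynomial.X
    simp only [Polynomial.eval_one, one_mul, map_one, Polynomial.eval_X,
      Polynomial.aeval_X] at hk
    have e2 : gib L β h (TwJ.Dn b) = ∑ x ∈ b, rho L β h x := by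
      unfold rho gib TwJ.Dn
      rw [Finset.mul_sum, Matrix.trace_sum, Finset.sum_div]
    rw [← e2, ← hk]
    refine Finset.sum_le_sum fun i _ => ?_
    refine mul_le_mul_of_nonneg_left ?_ (div_nonneg (h1 i) hT.le)
    have : (0 : ℝ) ≤ p i := Nat.cast_nonneg _
    linarith

/-- Scalar core for one value of `β`: `v = w³ β^{-3/2}`. -/
theorem core {ι : Type} [Fintype ι] (μ : ι → ℝ) (r : ι → ℕ)
    {q s t' X R : ℝ} {g : ι → ℝ} (ht' : 0 ≤ t')
    (hg : ∀ i, g i = (if (r i : ℝ) < q then s else 0) - t' * r i)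
    (hX : ∑ i, μ i * g i ≤ X) (hR : ∑ i, μ i * (r i : ℝ) ≤ R) :
    s * ∑ i, (if (r i : ℝ) < q then μ i else 0) ≤ X + t' * R := by
  have e : ∑ i, μ i * g i = s * ∑ i, (if (r i : ℝ) < q then μ i else 0) -
      t' * ∑ i, μ i * (r i : ℝ) := by
    rw [Finset.mul_sum, Finset.mul_sum, ← Finset.sum_sub_distrib]
    refine Finset.sum_congr rfl fun i _ => ?_
    rw [hg]
    split_ifs <;> ring
  rw [e] at hX
  have := mul_le_mul_of_nonneg_left hR ht'
  linarith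

/-- The upper bound `X` for the exponent. -/
theorem log_bound {v W A FS0 FSt FSτ s0 s q τ δ ε z1 z2 : ℝ} (hv : 0 < v) (hW : 0 ≤ W)
    (hs : s = s0 * v) (hq : q = (1 - δ) * A * v) (hs0 : s0 = 3 / 4 * δ * τ * A)
    (hF1 : FSt ≤ FS0) (hF2 : τ * ((1 - δ / 4) * A) ≤ FS0 - FSτ) (hz1 : 0 < z1) (hz2 : 0 < z2)
    (h1 : Real.log z1 ≤ v * (FSt + ε)) (h2 : Real.log z2 ≤ v * (FSτ + ε)) :
    Real.log ((W + 1) * (1 * z1 + Real.exp (s + τ * q) * z2)) ≤
      Real.log (2 * (W + 1)) + v * (FS0 + ε) := by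
  have e1 : z1 ≤ Real.exp (v * (FS0 + ε)) := by
    rw [← Real.log_le_iff_le_exp hz1]
    refine h1.trans (mul_le_mul_of_nonneg_left (by linarith) hv.le)
  have e2 : Real.exp (s + τ * q) * z2 ≤ Real.exp (v * (FS0 + ε)) := by
    have e3 : z2 ≤ Real.exp (v * (FSτ + ε)) := by
      rw [← Real.log_le_iff_le_exp hz2]
      exact h2
    refine (mul_le_mul_of_nonneg_left e3 (Real.exp_pos _).le).trans ?_
    rw [← Real.exp_add]
    refine Real.exp_le_exp.2 ?_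
    rw [hs, hq, hs0]
    have e4 : 3 / 4 * δ * τ * A * v + τ * ((1 - δ) * A * v) + v * (FSτ + ε) =
        v * (τ * ((1 - δ / 4) * A) + FSτ + ε) := by ring
    rw [e4]
    exact mul_le_mul_of_nonneg_left (by linarith) hv.le
  have hpos : 0 < (W + 1) * (1 * z1 + Real.exp (s + τ * q) * z2) := by
    have := Real.exp_pos (s + τ * q)
    positivity
  have e5 : (W + 1) * (1 * z1 + Real.exp (s + τ * q) * z2) ≤
      2 * (W + 1) * Real.exp (v * (FS0 + ε)) := by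
    calc (W + 1) * (1 * z1 + Real.exp (s + τ * q) * z2) ≤
        (W + 1) * (Real.exp (v * (FS0 + ε)) + Real.exp (v * (FS0 + ε))) :=
          mul_le_mul_of_nonneg_left (by linarith) (by linarith)
      _ = _ := by ring
  have e6 := Real.log_le_log hpos e5
  rwa [Real.log_mul (by positivity) (Real.exp_pos _).ne', Real.log_exp] at e6

theorem num_fin {s0 δ v t' C7 Z L2 F g ε : ℝ} (hC7 : 0 < C7) (ht' : t' = s0 * δ / (4 * C7))
    (hε : ε = s0 * δ / 16) (q3 : Z ≤ L2 + v * (F + ε)) (q5 : v * (F - ε) ≤ g)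
    (q6 : L2 ≤ s0 * δ / 8 * v) (hvp : 0 < v) (hs : 0 < s0 * δ) :
    Z - g + s0 * δ / 8 * v + t' * (C7 * v) ≤ s0 * v * δ := by
  have e1 : t' * (C7 * v) = s0 * δ / 4 * v := by
    rw [ht']; field_simp
  rw [e1]
  have e3 : v * (F + ε) - v * (F - ε) = 2 * (v * ε) := by ring
  have e4 : v * ε = s0 * δ * v / 16 := by rw [hε]; ring
  have e5 : 0 < s0 * δ * v := by positivity
  have e6 : s0 * δ / 8 * v = s0 * δ * v / 8 := by ring
  have e7 : s0 * δ / 4 * v = s0 * δ * v / 4 := by ring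
  have e8 : s0 * v * δ = s0 * δ * v := by ring
  rw [e6, e7, e8]
  rw [e6] at q6
  rw [e4] at e3
  linarith

theorem exp_G {s t' τ q c : ℝ} {r : ℕ} (ht' : 0 ≤ t') (hτ : 0 ≤ τ)
    (hc : c = (if (r : ℝ) < q then s else 0) - t' * r) :
    Real.exp c ≤ 1 * Real.exp (-(t' * r)) + Real.exp (s + τ * q) * Real.exp (-(τ * r)) := by
  rw [hc]
  split_ifs with hlt
  · rw [← Real.exp_add]
    have e4 : Real.exp (s - t' * r) ≤ Real.exp (s + τ * q + -(τ * r)) := by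
      refine Real.exp_le_exp.2 ?_
      have e5 : 0 ≤ t' * r := by positivity
      have e6 : τ * r ≤ τ * q := mul_le_mul_of_nonneg_left hlt.le hτ
      linarith
    have := Real.exp_pos (-(t' * r))
    linarith
  · rw [zero_sub]
    have := Real.exp_pos (s + τ * q)
    have h7 := Real.exp_pos (-(τ * r))
    have := mul_pos this h7
    linarith

theorem fam_const {n : ℕ} [NeZero n] {g0 lam : ℝ} (hg : 0 ≤ g0) (hg1 : g0 ≤ 1) (hlam : 0 ≤ lam) :
    Fam n g0 lam (fun _ => g0) := by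
  refine ⟨fun x => ⟨le_rfl, hg1⟩, fun x i => ?_⟩
  have h1 : 1 ≤ Real.exp lam := Real.one_le_exp hlam
  constructor <;> nlinarith

end Vale.Agent.P361.LRO.S3T
end

section

/-!
# P361 stage 3, (T2): numbers for the lower tail (helper683)

Finite-volume upper bound for `log Zt` on a cube of side `3 ^ a ∼ β ^ (1/2 + d)` with a fixed
reward `τ`.
-/

namespace Vale.Agent.P361.LRO.S3

open Filter Topology Vale.Agent.P361.B

/-- crude bound on the cube of side `3 ^ a` at the inverse temperature `β / 2`. -/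
theorem lt2_crude {n : ℕ} (hn : 1 ≤ n) {d : ℝ} (hd : 0 < d) (hd2 : d ≤ 1 / 100) :
    ∀ᶠ β : ℝ in atTop, ∀ a : ℕ, β ^ (1 / 2 + d) ≤ (3 : ℝ) ^ a →
      (3 : ℝ) ^ a ≤ 3 * β ^ (1 / 2 + d) →
      Real.log (Zt n (B.cube (3 ^ a)) (β / 2) 0) ≤ 729 * β ^ (7 * d) := by
  have hcr := crude_log hn hd (by linarith)
  filter_upwards [hcr, eventually_ge_atTop 1] with β hcrβ hβ1 a ha1 ha2
  have hβ0 : 0 < β := by linarith
  have pw : ∀ {a b : ℝ}, a ≤ b → β ^ a ≤ β ^ b := fun h =>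
    Real.rpow_le_rpow_of_exponent_le hβ1 h
  have pp : ∀ a : ℝ, 0 < β ^ a := fun a => Real.rpow_pos_of_pos hβ0 a
  have hX1 : (1 : ℝ) ≤ β ^ (1 / 2 - d) := Real.one_le_rpow hβ1 (by linarith)
  obtain ⟨a0, ha0, ha0'⟩ := exists_nat_pow_near hX1 (by norm_num : (1 : ℝ) < 3)
  have haa : a0 ≤ a := by
    have h1 : (3 : ℝ) ^ a0 ≤ 3 ^ a := ha0.trans ((pw (by linarith)).trans ha1)
    exact (pow_le_pow_iff_right₀ (by norm_num : (1 : ℝ) < 3)).1 h1
  have hdec : 3 ^ a = 3 ^ (a - a0) * 3 ^ a0 := by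
    rw [← pow_add]; congr 1; omega
  have hq : ((3 ^ (a - a0) : ℕ) : ℝ) ≤ 9 * β ^ (2 * d) := by
    have h1 : ((3 ^ (a - a0) : ℕ) : ℝ) * (3 : ℝ) ^ a0 = (3 : ℝ) ^ a := by
      push_cast
      rw [← pow_add]; congr 1; omega
    have h2 : β ^ (1 / 2 - d) / 3 ≤ (3 : ℝ) ^ a0 := by
      rw [pow_succ] at ha0'
      linarith
    have h3 : ((3 ^ (a - a0) : ℕ) : ℝ) * (β ^ (1 / 2 - d) / 3) ≤ 3 * β ^ (1 / 2 + d) := by
      calc _ ≤ ((3 ^ (a - a0) : ℕ) : ℝ) * (3 : ℝ) ^ a0 :=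
            mul_le_mul_of_nonneg_left h2 (by positivity)
        _ = _ := h1
        _ ≤ _ := ha2
    have h4 : β ^ (1 / 2 + d) = β ^ (2 * d) * β ^ (1 / 2 - d) := by
      rw [← Real.rpow_add hβ0]; congr 1; ring
    rw [h4] at h3
    have h5 := pp (1 / 2 - d)
    have h6 : ((3 ^ (a - a0) : ℕ) : ℝ) * β ^ (1 / 2 - d) ≤
        (9 * β ^ (2 * d)) * β ^ (1 / 2 - d) := by linarith
    exact le_of_mul_le_mul_right h6 h5
  have h1 := log_Zt_cube_mul (n := n) (β := β / 2) (t := 0) (by positivity) le_rfl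
    (3 ^ (a - a0)) (3 ^ a0) (by positivity)
  rw [← hdec] at h1
  have h2 := hcrβ (3 ^ a0) (by positivity) (by push_cast; exact ha0)
  refine h1.trans ?_
  calc ((3 ^ (a - a0) : ℕ) : ℝ) ^ 3 * Real.log (Zt n (B.cube (3 ^ a0)) (β / 2) 0) ≤
        ((3 ^ (a - a0) : ℕ) : ℝ) ^ 3 * β ^ d := mul_le_mul_of_nonneg_left h2 (by positivity)
    _ ≤ (9 * β ^ (2 * d)) ^ 3 * β ^ d :=
        mul_le_mul_of_nonneg_right (pow_le_pow_left₀ (by positivity) hq 3) (pp _).le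
    _ = _ := by
        rw [mul_pow, ← Real.rpow_natCast (β ^ (2 * d)) 3, ← Real.rpow_mul hβ0.le, mul_assoc,
          ← Real.rpow_add hβ0]
        norm_num
        congr 1
        ring

/-- bounds of the side. -/
theorem lt2_side {d β L : ℝ} (hd : 0 < d) (hβ1 : 1 ≤ β) (hL : β ^ (1 / 2 + d) ≤ L) :
    β ≤ L ^ 2 ∧ Real.sqrt β / L ≤ β ^ (-d) ∧ β / L ^ 2 ≤ β ^ (-(2 * d)) ∧
      Real.sqrt β ^ 3 / L ^ 3 ≤ β ^ (-(3 * d)) := by
  have hβ0 : 0 < β := by linarith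
  have pw : ∀ {a b : ℝ}, a ≤ b → β ^ a ≤ β ^ b := fun h =>
    Real.rpow_le_rpow_of_exponent_le hβ1 h
  have pp : ∀ a : ℝ, 0 < β ^ a := fun a => Real.rpow_pos_of_pos hβ0 a
  have hLR : 0 < L := (pp _).trans_le hL
  have hL2 : β ^ (1 + 2 * d) ≤ L ^ 2 := by
    have h1 : (β ^ (1 / 2 + d)) ^ 2 = β ^ (1 + 2 * d) := by
      rw [← Real.rpow_natCast, ← Real.rpow_mul hβ0.le]
      congr 1
      push_cast
      ring
    rw [← h1]
    exact pow_le_pow_left₀ (pp _).le hL 2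
  have sb2 : Real.sqrt β / L ≤ β ^ (-d) := by
    rw [div_le_iff₀ hLR, Real.sqrt_eq_rpow]
    have h2 : β ^ (-d) * β ^ (1 / 2 + d) = β ^ (1 / 2 : ℝ) := by
      rw [← Real.rpow_add hβ0]; congr 1; ring
    rw [← h2]
    exact mul_le_mul_of_nonneg_left hL (pp _).le
  refine ⟨?_, sb2, ?_, ?_⟩
  · refine le_trans ?_ hL2
    nth_rewrite 1 [← Real.rpow_one β]
    exact pw (by linarith)
  · rw [div_le_iff₀ (by positivity)]
    have h4 : β ^ (-(2 * d)) * β ^ (1 + 2 * d) = β := by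
      rw [← Real.rpow_add hβ0]
      nth_rewrite 2 [← Real.rpow_one β]
      congr 1; ring
    calc β = β ^ (-(2 * d)) * β ^ (1 + 2 * d) := h4.symm
      _ ≤ _ := mul_le_mul_of_nonneg_left hL2 (pp _).le
  · have h1 : Real.sqrt β ^ 3 / L ^ 3 = (Real.sqrt β / L) ^ 3 := by rw [div_pow]
    rw [h1]
    refine (pow_le_pow_left₀ (by positivity) sb2 3).trans (le_of_eq ?_)
    rw [← Real.rpow_natCast, ← Real.rpow_mul hβ0.le]
    congr 1
    push_cast
    ring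

/-- interaction error. -/
theorem lt2_inter {d β A P N W M : ℝ} (hβ1 : 1 ≤ β) (hA : A = 729 * β ^ (7 * d))
    (hP1 : P ≤ 1) (hM0 : 0 < M) (hN0 : 0 ≤ N) (hN : N ≤ M * A) (hW0 : 0 ≤ W)
    (hW1 : W ≤ 899 * Real.sqrt (A / β)) :
    P * (β * (12 * Real.exp 2 * (N ^ 2 * W ^ 3))) ≤
      12 * Real.exp 2 * (M ^ 2 * 899 ^ 3) * (729 ^ 2 * Real.sqrt 729 ^ 3) *
        β ^ (-(1 / 2 - 49 / 2 * d)) := by
  have hβ0 : 0 < β := by linarith
  have pp : ∀ a : ℝ, 0 < β ^ a := fun a => Real.rpow_pos_of_pos hβ0 a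
  have hA0 : 0 < A := by rw [hA]; exact mul_pos (by norm_num) (pp _)
  have h1 : N ^ 2 * W ^ 3 ≤ (M * A) ^ 2 * (899 * Real.sqrt (A / β)) ^ 3 :=
    mul_le_mul (pow_le_pow_left₀ hN0 hN 2) (pow_le_pow_left₀ hW0 hW1 3)
      (by positivity) (by positivity)
  have h3 : Real.sqrt (A / β) ^ 3 = Real.sqrt 729 ^ 3 * β ^ ((21 * d - 3) / 2) := by
    have e1 : A / β = 729 * β ^ (7 * d - 1) := by
      rw [hA, Real.rpow_sub hβ0, Real.rpow_one]; ring
    rw [e1, Real.sqrt_mul (by norm_num), mul_pow, Real.sqrt_eq_rpow (β ^ _),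
      ← Real.rpow_mul hβ0.le, ← Real.rpow_natCast (β ^ _), ← Real.rpow_mul hβ0.le]
    congr 2
    push_cast
    ring
  have h4 : P * (β * (12 * Real.exp 2 * (N ^ 2 * W ^ 3))) ≤
      1 * (β * (12 * Real.exp 2 * ((M * A) ^ 2 * (899 * Real.sqrt (A / β)) ^ 3))) := by
    refine mul_le_mul hP1 ?_ (by positivity) (by norm_num)
    exact mul_le_mul_of_nonneg_left (mul_le_mul_of_nonneg_left h1 (by positivity)) hβ0.le
  refine h4.trans (le_of_eq ?_)
  rw [mul_pow 899, h3, hA]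
  have h6 : β * (β ^ (7 * d)) ^ 2 * β ^ ((21 * d - 3) / 2) = β ^ (-(1 / 2 - 49 / 2 * d)) := by
    rw [← Real.rpow_natCast (β ^ (7 * d)) 2, ← Real.rpow_mul hβ0.le]
    nth_rewrite 1 [← Real.rpow_one β]
    rw [← Real.rpow_add hβ0, ← Real.rpow_add hβ0]
    congr 1
    push_cast
    ring
  rw [← h6]
  ring

/-- the total error. -/
theorem lt2_lim {d : ℝ} (hd : 0 < d) (hd2 : d ≤ 1 / 100) (τ K C : ℝ) :
    Tendsto (fun β : ℝ => β ^ (-(3 * d)) * Real.log 3 +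
      K * β ^ (-(1 / 2 - 49 / 2 * d)) + C * (β ^ (-(1 : ℝ)) + β ^ (-d) + β ^ (-(2 * d))) +
      β ^ (-(3 * d)) / τ) atTop (𝓝 0) := by
  have lim0 : ∀ c : ℝ, 0 < c → Tendsto (fun β : ℝ => β ^ (-c)) atTop (𝓝 0) := fun c hc =>
    tendsto_rpow_neg_atTop hc
  have h1 := (((lim0 (3 * d) (by linarith)).mul_const (Real.log 3)).add
    ((lim0 (1 / 2 - 49 / 2 * d) (by linarith)).const_mul K)).add
    ((((lim0 1 one_pos).add (lim0 d hd)).add (lim0 (2 * d) (by linarith))).const_mul C)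
  have h2 := h1.add ((lim0 (3 * d) (by linarith)).div_const τ)
  simpa using h2

/-- (T2), one cube. -/
theorem lt2_one {n : ℕ} (hn : 1 ≤ n) {d : ℝ} (hd : 0 < d) {τ : ℝ} (hτ : 0 < τ) {C : ℝ}
    (hC0 : 0 ≤ C) (hC : ∀ β : ℝ, 448 ≤ β → ∀ L : ℕ, 0 < L → ∀ t : ℝ, 0 < t →
      Real.sqrt β ^ 3 / (L : ℝ) ^ 3 * bosSer n L β t ≤
      FS ((n : ℝ) / 2) t + C * (1 / β + Real.sqrt β / L + β / (L : ℝ) ^ 2) +
        Real.sqrt β ^ 3 / (L : ℝ) ^ 3 / t) {β : ℝ} (h448 : 448 ≤ β)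
    (h729 : 729 ≤ β ^ (1 - 7 * d)) {L : ℕ} (hLpos : 0 < L) (hL : β ^ (1 / 2 + d) ≤ L)
    (hz0 : Real.log (Zt n (B.cube L) (β / 2) 0) ≤ 729 * β ^ (7 * d)) :
    Real.sqrt β ^ 3 / (L : ℝ) ^ 3 * Real.log (Zt n (B.cube L) β τ) ≤
      FS ((n : ℝ) / 2) τ + (β ^ (-(3 * d)) * Real.log 3 +
      12 * Real.exp 2 * ((1 / τ + 1) ^ 2 * 899 ^ 3) * (729 ^ 2 * Real.sqrt 729 ^ 3) *
        β ^ (-(1 / 2 - 49 / 2 * d)) + C * (β ^ (-(1 : ℝ)) + β ^ (-d) + β ^ (-(2 * d))) +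
      β ^ (-(3 * d)) / τ) := by
  have hβ0 : 0 < β := by linarith
  have hβ1 : 1 ≤ β := by linarith
  have pp : ∀ a : ℝ, 0 < β ^ a := fun a => Real.rpow_pos_of_pos hβ0 a
  have hLR : (0 : ℝ) < L := by exact_mod_cast hLpos
  obtain ⟨A, hA⟩ : ∃ A : ℝ, A = 729 * β ^ (7 * d) := ⟨_, rfl⟩
  have hz1 := hz0
  rw [← hA] at hz1
  have hA1 : 1 ≤ A := by
    have : 1 ≤ β ^ (7 * d) := Real.one_le_rpow hβ1 (by linarith)
    rw [hA]; linarith
  have hA0 : 0 < A := by linarith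
  have hz2 : Real.log (Zt n (B.cube L) β 0) ≤ A :=
    (Real.log_le_log (Zt_pos β 0) (Zt_anti (by linarith) le_rfl)).trans hz1
  have hAβ : A ≤ β := by
    have h1 : β ^ (7 * d) * β ^ (1 - 7 * d) = β := by
      rw [← Real.rpow_add hβ0]
      nth_rewrite 2 [← Real.rpow_one β]
      congr 1; ring
    calc A = β ^ (7 * d) * 729 := by rw [hA]; ring
      _ ≤ β ^ (7 * d) * β ^ (1 - 7 * d) := mul_le_mul_of_nonneg_left h729 (pp _).le
      _ = β := h1
  obtain ⟨N1, hN1a, hN1b⟩ : ∃ N1 : ℕ, A ≤ τ * N1 ∧ (N1 : ℝ) ≤ (1 / τ + 1) * A := by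
    refine ⟨⌈A / τ⌉₊, ?_, ?_⟩
    · have := Nat.le_ceil (A / τ)
      rwa [div_le_iff₀ hτ, mul_comm] at this
    · have h1 := (Nat.ceil_lt_add_one (by positivity : 0 ≤ A / τ)).le
      have h2 : (1 / τ + 1) * A = A / τ + A := by ring
      rw [h2]
      linarith
  have hup := logZt_upper hn hLpos (β := β) (t := τ) (E1 := 2 * A / β) hβ0.le hτ
    (by positivity) N1 (hz1.trans (le_of_eq (by field_simp))) (hz2.trans hN1a)
  obtain ⟨hβL, sb2, sb3, sb4⟩ := lt2_side hd hβ1 hL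
  have hbJ := bJ_param hn hβ0 hA1 hAβ
  have hLinv : 1 / (L : ℝ) ≤ Real.sqrt (A / β) := by
    refine Real.le_sqrt_of_sq_le ?_
    rw [div_pow, one_pow, div_le_div_iff₀ (by positivity) hβ0, one_mul]
    have c4 := mul_le_mul_of_nonneg_right hA1 (sq_nonneg (L : ℝ))
    linarith only [hβL, c4]
  have hP0 : 0 < Real.sqrt β ^ 3 / (L : ℝ) ^ 3 := by positivity
  have hP1 : Real.sqrt β ^ 3 / (L : ℝ) ^ 3 ≤ 1 :=
    sb4.trans (Real.rpow_le_one_of_one_le_of_nonpos hβ1 (by linarith))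
  have piece2 := lt2_inter (d := d) (M := 1 / τ + 1) hβ1 hA hP1 (by positivity)
    (Nat.cast_nonneg N1) hN1b
    (W := 1 / (L : ℝ) + 2 * H.bJ (2 * n / (2 * A / β)))
    (by have := H.bJ_nonneg (2 * n / (2 * A / β)); positivity) (by linarith)
  have piece3 := hC β h448 L hLpos τ hτ
  have g1 : 1 / β = β ^ (-(1 : ℝ)) := by rw [one_div, ← Real.rpow_neg_one]
  have g4 : Real.sqrt β ^ 3 / (L : ℝ) ^ 3 / τ ≤ β ^ (-(3 * d)) / τ :=
    div_le_div_of_nonneg_right sb4 hτ.le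
  have g5 : C * (1 / β + Real.sqrt β / L + β / (L : ℝ) ^ 2) ≤
      C * (β ^ (-(1 : ℝ)) + β ^ (-d) + β ^ (-(2 * d))) := by
    refine mul_le_mul_of_nonneg_left ?_ hC0
    rw [g1]
    linarith
  generalize 12 * Real.exp 2 * ((1 / τ + 1) ^ 2 * 899 ^ 3) * (729 ^ 2 * Real.sqrt 729 ^ 3) = K
    at piece2 ⊢
  generalize Real.sqrt β ^ 3 / (L : ℝ) ^ 3 = P at hP0 hP1 sb4 piece2 piece3 g4 ⊢
  have piece1 : P * Real.log 3 ≤ β ^ (-(3 * d)) * Real.log 3 :=
    mul_le_mul_of_nonneg_right sb4 (Real.log_nonneg (by norm_num))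
  have h3 := mul_le_mul_of_nonneg_left hup hP0.le
  rw [mul_add, mul_add] at h3
  linarith

/-- (T2), all spins `n / 2`. -/
theorem lt2n {n : ℕ} (hn : 1 ≤ n) {d : ℝ} (hd : 0 < d) (hd2 : d ≤ 1 / 100) {τ : ℝ} (hτ : 0 < τ)
    {ε : ℝ} (hε : 0 < ε) : ∃ β0 : ℝ, ∀ β : ℝ, β0 ≤ β → ∀ a : ℕ,
      β ^ (1 / 2 + d) ≤ (3 : ℝ) ^ a → (3 : ℝ) ^ a ≤ 3 * β ^ (1 / 2 + d) →
      Real.sqrt β ^ 3 / ((3 : ℝ) ^ a) ^ 3 * Real.log (Zt n (B.cube (3 ^ a)) β τ) ≤
        FS ((n : ℝ) / 2) τ + ε := by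
  obtain ⟨C, hC0, hC⟩ := bosSer_le hn
  have l2 : ∀ᶠ β : ℝ in atTop, 729 ≤ β ^ (1 - 7 * d) :=
    (tendsto_rpow_atTop (by linarith)).eventually_ge_atTop 729
  obtain ⟨β₀, hβ₀⟩ := eventually_atTop.1
    ((lt2_crude hn hd hd2).and (l2.and ((eventually_ge_atTop (448 : ℝ)).and
      ((lt2_lim hd hd2 τ (12 * Real.exp 2 * ((1 / τ + 1) ^ 2 * 899 ^ 3) *
        (729 ^ 2 * Real.sqrt 729 ^ 3)) C).eventually (ge_mem_nhds hε)))))
  refine ⟨β₀, fun β hβ a ha1 ha2 => ?_⟩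
  obtain ⟨hcrβ, h729, h448, hlim⟩ := hβ₀ β hβ
  have h := lt2_one hn hd hτ hC0 hC h448 h729 (L := 3 ^ a) (by positivity)
    (by push_cast; exact ha1) (hcrβ a ha1 ha2)
  push_cast at h
  linarith

end Vale.Agent.P361.LRO.S3
end

section

/-!
P361, stage 3, block (T) for all spins `s / 2`: lower tail of `N_b`. Assembly (helper260).
-/

namespace Vale.Agent.P361.LRO.S3ST

open Finset Matrix Filter Topology
open Vale.Agent.P361.LRO Vale.Agent.P361.LRO.S3 Vale.Agent.P361.LRO.S3T Vale.Agent.P361.LRO.S3S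
open Vale.Agent.P361.LRO.GenS

/-- (T0) + (T1) for spin `s / 2`. -/
def LT01StmtS (s : ℕ) : Prop :=
  ∀ β h : ℝ, 0 < β → 0 < h → ∀ w : ℕ, 0 < w → ∀ ε : ℝ, 0 < ε →
    ∃ n0 : ℕ, ∀ (n : ℕ) [NeZero n], n0 ≤ n → Odd n →
    ∀ (x : Tor n) (G : Polynomial ℝ) (τ1 τ2 c1 c2 : ℝ), 0 < τ1 → 0 < τ2 → 0 ≤ c1 → 0 ≤ c2 →
    (∀ r : ℕ, 2 * r ≤ s * w ^ 3 →
      Real.exp (G.eval ((r : ℝ) * (((s * w ^ 3 : ℕ) : ℝ) - r + 1))) ≤
        c1 * Real.exp (-(τ1 * r)) + c2 * Real.exp (-(τ2 * r))) →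
    ∃ M0 : ℕ, ∀ M : ℕ, M0 ≤ M →
    gib (edgesS n s M) β (hS fun _ => h) (Polynomial.aeval (CM (cubeS n s x w)) G) ≤
      Real.log (((s : ℝ) * (w : ℝ) ^ 3 + 1) *
        (c1 * B.Zt s (B.cube w) β τ1 + c2 * B.Zt s (B.cube w) β τ2)) -
      (w : ℝ) ^ 3 * B.gRed s β h + ε

theorem BCS_eq (s : ℕ) : BCS s = B.aS ((s : ℝ) / 2) := by
  unfold BCS B.aS
  have h1 : Real.sqrt (4 * Real.pi * ((s : ℝ) / 2)) ^ 3 =
      8 * Real.pi ^ (3 / 2 : ℝ) * ((s : ℝ) / 2) ^ (3 / 2 : ℝ) := by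
    have hpi := Real.pi_pos
    have e1 : Real.sqrt (4 * Real.pi * ((s : ℝ) / 2)) ^ 3 =
        (4 * Real.pi * ((s : ℝ) / 2)) ^ (3 / 2 : ℝ) := by
      rw [Real.sqrt_eq_rpow, ← Real.rpow_natCast, ← Real.rpow_mul (by positivity)]
      norm_num
    rw [e1, Real.mul_rpow (by positivity) (by positivity), Real.mul_rpow (by norm_num) hpi.le]
    have e2 : (4 : ℝ) ^ (3 / 2 : ℝ) = 8 := by
      rw [show (4 : ℝ) = 2 ^ (2 : ℝ) by norm_num, ← Real.rpow_mul (by norm_num)]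
      norm_num
    rw [e2]
  rw [h1, div_eq_inv_mul]

theorem aS_posS {s : ℕ} (hs : 1 ≤ s) : 0 < B.aS ((s : ℝ) / 2) := by
  refine lt_of_lt_of_le ?_ (B.fR_le ((s : ℝ) / 2) 1 (t := 0) le_rfl)
  unfold B.fR
  have hpi := Real.pi_pos
  have : (0 : ℝ) < s := by exact_mod_cast hs
  simp only [Finset.range_one, Finset.sum_singleton]
  positivity

/-- Eventual lower bound of the reduced pressure at tiny fields. -/
theorem gRed_geS {s : ℕ} (hs : 1 ≤ s) {ε : ℝ} (hε : 0 < ε) : ∃ β0 : ℝ, ∀ β : ℝ, β0 ≤ β → ∀ h : ℝ, 0 < h →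
    h ≤ β ^ (-(10 : ℝ)) → B.FS ((s : ℝ) / 2) 0 - ε ≤ Real.sqrt β ^ 3 * B.gRed s β h := by
  obtain ⟨K, hK1, hK⟩ := B.gRed_lower hs
  obtain ⟨R, hR⟩ := ((B.FR_tendsto ((s : ℝ) / 2) (t := 0) le_rfl).eventually
    (lt_mem_nhds (show B.FS ((s : ℝ) / 2) 0 - ε / 3 < B.FS ((s : ℝ) / 2) 0 by linarith))).exists
  have hcont : Tendsto (fun t : ℝ => B.FR ((s : ℝ) / 2) R t) (𝓝 0) (𝓝 (B.FR ((s : ℝ) / 2) R 0)) :=
    (B.hasDerivAt_FR ((s : ℝ) / 2) R 0).continuousAt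
  have hsmall : Tendsto (fun β : ℝ => β ^ (-(9 : ℝ))) atTop (𝓝 0) :=
    tendsto_rpow_neg_atTop (by norm_num)
  have h1 : ∀ᶠ t in 𝓝 (0 : ℝ), B.FS ((s : ℝ) / 2) 0 - 2 * ε / 3 < B.FR ((s : ℝ) / 2) R t :=
    hcont.eventually (lt_mem_nhds (by linarith))
  obtain ⟨δ', hδ', hball⟩ := Metric.eventually_nhds_iff.1 h1
  set X : ℝ := B.FS ((s : ℝ) / 2) 0 - 2 * ε / 3 with hX
  have h2 : Tendsto (fun β : ℝ => (1 - K / β) * X) atTop (𝓝 ((1 - 0) * X)) :=
    (tendsto_const_nhds.sub (tendsto_const_nhds.div_atTop tendsto_id)).mul_const X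
  have h3 : ∀ᶠ β : ℝ in atTop, X - ε / 3 < (1 - K / β) * X :=
    h2.eventually (lt_mem_nhds (by linarith))
  have h4 : ∀ᶠ β : ℝ in atTop, β ^ (-(9 : ℝ)) < δ' := hsmall.eventually (gt_mem_nhds hδ')
  obtain ⟨β0, hβ0⟩ := eventually_atTop.1 (h3.and (h4.and (eventually_ge_atTop (max K 1))))
  refine ⟨β0, fun β hβ h hh0 hh => ?_⟩
  obtain ⟨h5, h6, h7⟩ := hβ0 β hβ
  have hβK : K ≤ β := (le_max_left _ _).trans h7
  have hβ1 : 1 ≤ β := (le_max_right _ _).trans h7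
  have hβ : 0 < β := by linarith
  refine le_trans ?_ (hK β hβK h hh0.le R)
  have h8 : β * h < δ' := by
    refine lt_of_le_of_lt ?_ h6
    calc β * h ≤ β * β ^ (-(10 : ℝ)) := mul_le_mul_of_nonneg_left hh hβ.le
      _ = β ^ (-(9 : ℝ)) := by
        nth_rewrite 1 [← Real.rpow_one β]
        rw [← Real.rpow_add hβ]
        norm_num
  have h9 : X < B.FR ((s : ℝ) / 2) R (β * h) := by
    refine hball ?_
    rw [Real.dist_eq, sub_zero, abs_of_nonneg (by positivity)]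
    exact h8
  have h10 : 0 ≤ 1 - K / β := by
    rw [sub_nonneg, div_le_one hβ]; exact hβK
  have h11 := mul_le_mul_of_nonneg_left h9.le h10
  linarith

theorem num_logS {β d W v c σ : ℝ} (hσ : 1 ≤ σ) (hβ1 : 1 ≤ β) (hd1 : d ≤ 1 / 100) (hWp : 0 < W)
    (ha1 : β ^ (1 / 2 + d) ≤ W) (ha2 : W ≤ 3 * β ^ (1 / 2 + d)) (hv : v = W ^ 3 / Real.sqrt β ^ 3)
    (hc : 0 < c) (k1 : Real.log (56 * σ) + 3 * Real.log β ≤ c * β ^ (3 * d)) :
    Real.log (2 * (σ * W ^ 3 + 1)) ≤ c * v := by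
  have hβ0 : 0 < β := by linarith
  have hσ0 : 0 < σ := by linarith
  have hsb : 0 < Real.sqrt β ^ 3 := by
    have := Real.sqrt_pos.2 hβ0
    positivity
  have a1 : W ≤ 3 * β := by
    refine ha2.trans ?_
    refine mul_le_mul_of_nonneg_left ?_ (by norm_num)
    calc β ^ (1 / 2 + d) ≤ β ^ (1 : ℝ) :=
          Real.rpow_le_rpow_of_exponent_le hβ1 (by linarith)
      _ = β := Real.rpow_one β
  have a2 : 2 * (σ * W ^ 3 + 1) ≤ 56 * σ * β ^ 3 := by
    have b1 : W ^ 3 ≤ (3 * β) ^ 3 := pow_le_pow_left₀ hWp.le a1 3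
    have b2 : 1 ≤ β ^ 3 := one_le_pow₀ hβ1
    have b3 : (3 * β) ^ 3 = 27 * β ^ 3 := by ring
    rw [b3] at b1
    have b4 := mul_le_mul_of_nonneg_left b1 hσ0.le
    have b5 : 1 ≤ σ * β ^ 3 := by nlinarith
    linarith
  have a3 := Real.log_le_log (by positivity) a2
  rw [Real.log_mul (x := 56 * σ) (by positivity) (by positivity), Real.log_pow] at a3
  have a4 : β ^ (3 * d) ≤ v := by
    rw [hv, le_div_iff₀ hsb]
    have b1 : Real.sqrt β ^ 3 = β ^ (3 / 2 : ℝ) := by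
      rw [Real.sqrt_eq_rpow, ← Real.rpow_natCast, ← Real.rpow_mul hβ0.le]
      norm_num
    have b2 : (β ^ (1 / 2 + d)) ^ 3 ≤ W ^ 3 :=
      pow_le_pow_left₀ (Real.rpow_nonneg hβ0.le _) ha1 3
    refine le_trans (le_of_eq ?_) b2
    rw [b1, ← Real.rpow_natCast (β ^ (1 / 2 + d)) 3, ← Real.rpow_mul hβ0.le,
      ← Real.rpow_add hβ0]
    congr 1
    push_cast
    ring
  have a5 := mul_le_mul_of_nonneg_left a4 hc.le
  push_cast at a3
  linarith

theorem card_cubeS {n s : ℕ} [NeZero n] (x : Tor n) {w : ℕ} (hw : w ≤ n) :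
    (cubeS n s x w).card = s * w ^ 3 := by
  unfold cubeS
  rw [Finset.card_product, EnR.card_cube x hw, Finset.card_univ, Fintype.card_fin, mul_comm]

theorem tailStmt3S_of {s : ℕ} (hs1 : 1 ≤ s) (h01 : LT01StmtS s) (hB : BootStmt3S s) :
    TailStmt3S s := by
  intro d hd0 hd1 δ hδ
  have hsR : (1 : ℝ) ≤ s := by exact_mod_cast hs1
  have hsR0 : (0 : ℝ) < s := by linarith
  obtain ⟨C7, βB, hC7, hB⟩ := hB
  rcases le_or_gt 1 δ with hδ1 | hδ1
  · refine ⟨1, fun β hβ a _ _ h _ _ => ⟨0, fun n _ _ _ x P hP => ⟨0, fun M _ => ?_⟩⟩⟩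
    obtain ⟨ι, hι, μ, r, hμ0, hr, hμ1, hlaw, -⟩ :=
      gib_law (edgesS n s M) β (hS fun _ => h) (cubeS n s x (3 ^ a))
    rw [← hlaw P]
    calc _ ≤ ∑ i, μ i * 1 := Finset.sum_le_sum fun i _ =>
          mul_le_mul_of_nonneg_left ((hP _ (hr i)).trans (by split_ifs <;> norm_num)) (hμ0 i)
      _ = 1 := by simp [hμ1]
      _ ≤ δ := hδ1
  set A : ℝ := B.aS ((s : ℝ) / 2) with hA
  have hA0 : 0 < A := aS_posS hs1
  obtain ⟨τ, hτ0, hτ⟩ : ∃ τ : ℝ, 0 < τ ∧ (1 - δ / 4) * A ≤ B.fS ((s : ℝ) / 2) τ := by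
    have h1 := B.fS_tendsto_zero ((s : ℝ) / 2)
    rw [B.fS_zero] at h1
    have h2 : ∀ᶠ t in 𝓝[≥] (0 : ℝ), (1 - δ / 4) * A < B.fS ((s : ℝ) / 2) t :=
      h1.eventually (lt_mem_nhds (by nlinarith))
    have h3 : ∀ᶠ t in 𝓝[>] (0 : ℝ), (1 - δ / 4) * A < B.fS ((s : ℝ) / 2) t :=
      h2.filter_mono (nhdsWithin_mono _ Set.Ioi_subset_Ici_self)
    obtain ⟨t, ht1, ht2⟩ := (h3.and self_mem_nhdsWithin).exists
    exact ⟨t, ht2, ht1.le⟩
  obtain ⟨s0, hs0⟩ : ∃ s0 : ℝ, s0 = 3 / 4 * δ * τ * A := ⟨_, rfl⟩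
  have hs0p : 0 < s0 := by rw [hs0]; positivity
  obtain ⟨C8, hC8⟩ : ∃ C8 : ℝ, C8 = s * C7 := ⟨_, rfl⟩
  have hC8p : 0 < C8 := by rw [hC8]; positivity
  obtain ⟨t', ht'⟩ : ∃ t' : ℝ, t' = s0 * δ / (4 * C8) := ⟨_, rfl⟩
  have ht'p : 0 < t' := by rw [ht']; positivity
  obtain ⟨ε, hε⟩ : ∃ ε : ℝ, ε = s0 * δ / 16 := ⟨_, rfl⟩
  have hεp : 0 < ε := by rw [hε]; positivity
  obtain ⟨β1, hβ1⟩ := lt2n hs1 hd0 hd1 ht'p hεp
  obtain ⟨β2, hβ2⟩ := lt2n hs1 hd0 hd1 hτ0 hεp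
  obtain ⟨β3, hβ3⟩ := gRed_geS hs1 hεp
  have hc : 0 < s0 * δ / 8 := by positivity
  have hl : ∀ᶠ β : ℝ in atTop, Real.log (56 * s) + 3 * Real.log β ≤ s0 * δ / 8 * β ^ (3 * d) := by
    have l1 := (isLittleO_log_rpow_atTop (show 0 < 3 * d by linarith)).bound
      (show 0 < s0 * δ / 8 / 6 by positivity)
    have l2 : ∀ᶠ β : ℝ in atTop, Real.log (56 * s) / (s0 * δ / 8 / 2) ≤ β ^ (3 * d) :=
      (tendsto_rpow_atTop (by linarith)).eventually_ge_atTop _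
    filter_upwards [l1, l2, eventually_ge_atTop 1] with β l1 l2 l3
    rw [Real.norm_of_nonneg (Real.log_nonneg l3),
      Real.norm_of_nonneg (Real.rpow_nonneg (by linarith) _)] at l1
    rw [div_le_iff₀ (by positivity)] at l2
    nlinarith
  have hl2 : ∀ᶠ β : ℝ in atTop, s * β ^ (-(9 : ℝ)) ≤ 1 := by
    have l1 : Tendsto (fun β : ℝ => s * β ^ (-(9 : ℝ))) atTop (𝓝 (s * 0)) :=
      (tendsto_rpow_neg_atTop (by norm_num)).const_mul _
    rw [mul_zero] at l1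
    filter_upwards [l1.eventually (gt_mem_nhds one_pos)] with β l2 using l2.le
  obtain ⟨β4, hβ4⟩ := eventually_atTop.1 (hl.and (hl2.and (eventually_ge_atTop (max 1 βB))))
  refine ⟨max (max β1 β2) (max β3 β4), fun β hβ a ha1 ha2 h hh0 hh => ?_⟩
  have hb1 : β1 ≤ β := (le_max_left _ _).trans ((le_max_left _ _).trans hβ)
  have hb2 : β2 ≤ β := (le_max_right _ _).trans ((le_max_left _ _).trans hβ)
  have hb3 : β3 ≤ β := (le_max_left _ _).trans ((le_max_right _ _).trans hβ)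
  have hb4 : β4 ≤ β := (le_max_right _ _).trans ((le_max_right _ _).trans hβ)
  obtain ⟨k1, k2, k3⟩ := hβ4 β hb4
  have hβ1' : 1 ≤ β := (le_max_left _ _).trans k3
  have hβB : βB ≤ β := (le_max_right _ _).trans k3
  have hβ0 : 0 < β := by linarith
  obtain ⟨nB, hnB⟩ := hB β hβB
  have hw0 : 0 < 3 ^ a := by positivity
  obtain ⟨W, hW⟩ : ∃ W : ℝ, W = (3 : ℝ) ^ a := ⟨_, rfl⟩
  have hW1 : 1 ≤ W := by rw [hW]; exact one_le_pow₀ (by norm_num)
  have hWp : 0 < W := by linarith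
  have hsb : 0 < Real.sqrt β ^ 3 := by
    have := Real.sqrt_pos.2 hβ0
    positivity
  obtain ⟨v, hv⟩ : ∃ v : ℝ, v = W ^ 3 / Real.sqrt β ^ 3 := ⟨_, rfl⟩
  have hvp : 0 < v := by rw [hv]; positivity
  obtain ⟨n1, hn1⟩ := h01 β h hβ0 hh0 (3 ^ a) hw0 (s0 * δ / 8 * v) (by positivity)
  obtain ⟨nh, hnh⟩ : ∃ nh : ℕ, ∀ n : ℕ, nh ≤ n → (n : ℝ) ^ (-(1 / 4) : ℝ) ≤ s * β * h := by
    have l1 : Tendsto (fun n : ℕ => (n : ℝ) ^ (-(1 / 4) : ℝ)) atTop (𝓝 0) :=
      (tendsto_rpow_neg_atTop (by norm_num)).comp tendsto_natCast_atTop_atTop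
    obtain ⟨N, hN⟩ := eventually_atTop.1
      (l1.eventually (gt_mem_nhds (show 0 < s * β * h by positivity)))
    exact ⟨N, fun n hn => (hN n hn).le⟩
  have hhβ : s * β * h ≤ 1 := by
    calc s * β * h ≤ s * β * β ^ (-(10 : ℝ)) :=
          mul_le_mul_of_nonneg_left hh (by positivity)
      _ = s * β ^ (-(9 : ℝ)) := by
        rw [mul_assoc]
        congr 1
        nth_rewrite 1 [← Real.rpow_one β]
        rw [← Real.rpow_add hβ0]
        norm_num
      _ ≤ 1 := k2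
  refine ⟨max (max n1 (3 ^ a)) (max nB nh), fun n _ hn hodd x P hP => ?_⟩
  have hn1' : n1 ≤ n := (le_max_left _ _).trans ((le_max_left _ _).trans hn)
  have hwn : 3 ^ a ≤ n := (le_max_right _ _).trans ((le_max_left _ _).trans hn)
  have hnB' : nB ≤ n := (le_max_left _ _).trans ((le_max_right _ _).trans hn)
  have hnh' : nh ≤ n := (le_max_right _ _).trans ((le_max_right _ _).trans hn)
  have hcard : (cubeS n s x (3 ^ a)).card = s * (3 ^ a) ^ 3 := card_cubeS x hwn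
  have hcardR : ((cubeS n s x (3 ^ a)).card : ℝ) = s * W ^ 3 := by
    rw [hcard, hW]; push_cast; ring
  obtain ⟨q, hq⟩ : ∃ q : ℝ, q = (1 - δ) * A * v := ⟨_, rfl⟩
  have hpow : β ^ (-(3 / 2) : ℝ) = 1 / Real.sqrt β ^ 3 := by
    rw [Real.rpow_neg hβ0.le, Real.sqrt_eq_rpow, ← Real.rpow_natCast, ← Real.rpow_mul hβ0.le,
      one_div]
    norm_num
  have hq' : (1 - δ) * (BCS s / s) * β ^ (-(3 / 2) : ℝ) * (cubeS n s x (3 ^ a)).card = q := by
    have e1 : BCS s = A := BCS_eq s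
    rw [hq, e1, hcardR, hpow, hv]
    have e2 : (1 - δ) * (A / s) * (1 / Real.sqrt β ^ 3) * (s * W ^ 3) =
        (1 - δ) * A * (W ^ 3 / Real.sqrt β ^ 3) * (s / s) := by ring
    rw [e2, div_self hsR0.ne', mul_one]
  rw [hq'] at hP
  obtain ⟨sg, hsg⟩ : ∃ sg : ℝ, sg = s0 * v := ⟨_, rfl⟩
  obtain ⟨G, hG⟩ := TwJ.exists_poly (s * (3 ^ a) ^ 3)
    (fun r : ℕ => (if (r : ℝ) < q then sg else 0) - t' * r)
  have hcast : ((3 ^ a : ℕ) : ℝ) = W := by rw [hW]; push_cast; rfl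
  obtain ⟨M1, hM1⟩ := hn1 n hn1' hodd x G t' τ 1 (Real.exp (sg + τ * q)) ht'p hτ0 zero_le_one
    (Real.exp_pos _).le (fun r' hr' => exp_G ht'p.le hτ0.le (hG r' hr'))
  obtain ⟨MB, hMB⟩ := hnB n hnB' hodd
  refine ⟨max M1 MB, fun M hM => ?_⟩
  have hX := hM1 M ((le_max_left _ _).trans hM)
  have hMB' := hMB M ((le_max_right _ _).trans hM)
  obtain ⟨ι, hι, μ, r, hμ0, hr, hμ1, hlaw, hmean⟩ :=
    gib_law (edgesS n s M) β (hS fun _ => h) (cubeS n s x (3 ^ a))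
  rw [← hlaw P]
  -- mean of `r`
  have hrho : ∀ z, rho (edgesS n s M) β (hS fun _ => h) z ≤ C7 * β ^ (-(3 / 2) : ℝ) := by
    intro z
    have h1 := hMB' (s * β * h) (hnh n hnh') hhβ (fun _ => s * β * h)
      (Vale.Agent.P361.LRO.S3T.fam_const (by positivity) hhβ (by positivity)) z
    have e1 : (fun _ : Tor n => s * β * h / (s * β)) = fun _ => h := by
      funext _
      rw [mul_div_cancel_left₀ _ (by positivity)]
    simp only [e1] at h1
    exact h1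
  have hmean' : ∑ i, μ i * (r i : ℝ) ≤ C8 * v := by
    refine hmean.trans ((Finset.sum_le_card_nsmul _ _ _ fun z _ => hrho z).trans ?_)
    rw [nsmul_eq_mul, hcardR, hpow, hv, hC8]
    refine le_of_eq ?_
    ring
  -- the exponent
  have hFt := FS_anti ((s : ℝ) / 2) ht'p.le
  have hFτ := FS_sub_ge ((s : ℝ) / 2) hτ0.le
  have hFτ' : τ * ((1 - δ / 4) * A) ≤ B.FS ((s : ℝ) / 2) 0 - B.FS ((s : ℝ) / 2) τ :=
    (mul_le_mul_of_nonneg_left hτ hτ0.le).trans hFτ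
  have hz1 := B.Zt_pos (n := s) (Λ := B.cube (3 ^ a)) β t'
  have hz2 := B.Zt_pos (n := s) (Λ := B.cube (3 ^ a)) β τ
  have hvv : v * (Real.sqrt β ^ 3 / W ^ 3) = 1 := by
    rw [hv]; field_simp
  have q1 : Real.log (B.Zt s (B.cube (3 ^ a)) β t') ≤ v * (B.FS ((s : ℝ) / 2) t' + ε) := by
    have e := hβ1 β hb1 a (by rw [← hW]; exact hW ▸ ha1) (by rw [← hW]; exact hW ▸ ha2)
    rw [← hW] at e
    have e2 := mul_le_mul_of_nonneg_left e hvp.le
    rwa [← mul_assoc, hvv, one_mul] at e2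
  have q2 : Real.log (B.Zt s (B.cube (3 ^ a)) β τ) ≤ v * (B.FS ((s : ℝ) / 2) τ + ε) := by
    have e := hβ2 β hb2 a (by rw [← hW]; exact hW ▸ ha1) (by rw [← hW]; exact hW ▸ ha2)
    rw [← hW] at e
    have e2 := mul_le_mul_of_nonneg_left e hvp.le
    rwa [← mul_assoc, hvv, one_mul] at e2
  have q3 := log_bound (W := s * W ^ 3) hvp (by positivity) hsg hq hs0 hFt hFτ' hz1 hz2 q1 q2
  have q4 := hβ3 β hb3 h hh0 hh
  have q5 : v * (B.FS ((s : ℝ) / 2) 0 - ε) ≤ W ^ 3 * B.gRed s β h := by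
    have e := mul_le_mul_of_nonneg_left q4 hvp.le
    have e2 : v * (Real.sqrt β ^ 3 * B.gRed s β h) = W ^ 3 * B.gRed s β h := by
      rw [hv]; field_simp
    rwa [e2] at e
  rw [hcast, ← hlaw G] at hX
  have hGi : ∀ i, G.eval ((r i : ℝ) * (((cubeS n s x (3 ^ a)).card : ℝ) - r i + 1)) =
      (if (r i : ℝ) < q then sg else 0) - t' * r i := by
    intro i
    have := hG (r i) (by have := hr i; rwa [hcard] at this)
    rw [hcard]
    exact this
  have hcore := core μ r (g := fun i =>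
    G.eval ((r i : ℝ) * (((cubeS n s x (3 ^ a)).card : ℝ) - r i + 1))) ht'p.le hGi
    hX hmean'
  have q6 : Real.log (2 * (s * W ^ 3 + 1)) ≤ s0 * δ / 8 * v :=
    num_logS hsR hβ1' hd1 hWp (hW ▸ ha1) (hW ▸ ha2) hv hc k1
  have q7 : ∑ i, μ i * P.eval ((r i : ℝ) * (((cubeS n s x (3 ^ a)).card : ℝ) - r i + 1)) ≤
      ∑ i, (if (r i : ℝ) < q then μ i else 0) := by
    refine Finset.sum_le_sum fun i _ => ?_
    have e := mul_le_mul_of_nonneg_left (hP (r i) (hr i)) (hμ0 i)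
    refine e.trans (le_of_eq ?_)
    split_ifs <;> ring
  refine q7.trans ?_
  have q8 : s0 * v * ∑ i, (if (r i : ℝ) < q then μ i else 0) ≤ s0 * v * δ := by
    refine le_trans (le_trans (le_of_eq (by rw [hsg])) hcore) ?_
    exact num_fin hC8p ht' hε q3 q5 q6 hvp (by positivity)
  exact le_of_mul_le_mul_left q8 (by positivity)

end Vale.Agent.P361.LRO.S3ST
end

section

/-!
P361, stage 3, all spins: (LT0S) and the limit `M → ∞` of the block partition functions.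
-/

namespace Vale.Agent.P361.LRO.S3S

open Matrix Finset Filter Topology
open Vale.Agent.P361.LRO.TwJ Vale.Agent.P361.LRO.GenS Vale.Agent.P361.LRO.S3

noncomputable section

theorem lt0S (s : ℕ) (hs : 1 ≤ s) (Λ : Finset Site) {β : ℝ} (hβ : 0 < β) {G : Polynomial ℝ}
    {τ1 τ2 c1 c2 : ℝ} (h1 : 0 < τ1) (h2 : 0 < τ2) (hc1 : 0 ≤ c1) (hc2 : 0 ≤ c2)
    (hG : ∀ r : ℕ, 2 * r ≤ s * Λ.card →
      Real.exp (G.eval ((r : ℝ) * ((s : ℝ) * Λ.card - r + 1))) ≤
        c1 * Real.exp (-(τ1 * r)) + c2 * Real.exp (-(τ2 * r)))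
    {ε : ℝ} (hε : 0 < ε) :
    ∃ M0 : ℕ, ∀ M, M0 ≤ M →
      Real.log (trace (NormedSpace.exp (-(β / 2) • ham (Lm (nnL Λ) s (2 * M)) 0 +
        Polynomial.aeval (Om (univ : Finset (Λ × Fin s))) G))) ≤
      Real.log (((s : ℝ) * Λ.card + 1) * (c1 * B.Zt s Λ β τ1 + c2 * B.Zt s Λ β τ2)) + ε := by
  haveI : NeZero s := ⟨by omega⟩
  exact lt0S_of hs Λ hβ (fun τ => Zt_spin s Λ β τ) h1 h2 hc1 hc2 hG hε

end

end Vale.Agent.P361.LRO.S3S
end

section

/-!
P361, stage 3, all spins, block (T): leaf (T1_S), final form.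
-/

namespace Vale.Agent.P361.LRO.S3S

open Matrix Finset Filter Topology
open Vale.Agent.P361.LRO.GenS
open Vale.Agent.P361.LRO.S3 (CM nnL)

noncomputable section

theorem logZS_holds {s : ℕ} (hs : 1 ≤ s) : LogZS s := by
  intro β h hβ _ ε hε
  obtain ⟨n0, hn0⟩ := logZ_copies_ge hs (h := h) hβ hε
  refine ⟨n0, fun n _ hn hodd M => ?_⟩
  have h1 := hn0 n hn hodd M
  linarith

/-- **(T1_S)** Peierls–Bogoliubov on the torus with decoupled blocks, all spins, uniformly in `M`. -/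
theorem lt1S {s : ℕ} (hs : 1 ≤ s) {β h : ℝ} (hβ : 0 < β) (hh : 0 ≤ h) {R : ℕ} (hR : 0 < R)
    {ε : ℝ} (hε : 0 < ε) :
    ∃ n0 : ℕ, ∀ (n : ℕ) [NeZero n], n0 ≤ n → Odd n → ∀ (M : ℕ) (x : Tor n) (G : Polynomial ℝ),
      gib (edgesS n s M) β (hS fun _ => h) (Polynomial.aeval (CM (cubeS n s x R)) G) ≤
        Real.log (trace (NormedSpace.exp (-(β / 2) • ham (Lm (nnL (B.cube R)) s (2 * M)) 0 +
          Polynomial.aeval (TwJ.Om (univ : Finset (B.cube R × Fin s))) G))) -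
          (R : ℝ) ^ 3 * B.gRed s β h + ε :=
  lt1S_of (logZS_holds hs) hβ hh hR hε

end

end Vale.Agent.P361.LRO.S3S
end

section

/-!
P361, stage 3, all spins, block (T): `tailStmt3S`.
-/

namespace Vale.Agent.P361.LRO.S3S

open Finset Matrix Filter Topology
open Vale.Agent.P361.LRO Vale.Agent.P361.LRO.S3 Vale.Agent.P361.LRO.GenS Vale.Agent.P361.LRO.S3ST

theorem cardBS (w : ℕ) : (B.cube w).card = w ^ 3 := by
  unfold B.cube
  rw [Fintype.card_piFinset]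
  simp

theorem lt01StmtS {s : ℕ} (hs : 1 ≤ s) : LT01StmtS s := by
  intro β h hβ hh w hw ε hε
  obtain ⟨n0, hn0⟩ := lt1S hs hβ hh.le hw (half_pos hε)
  refine ⟨n0, fun n _ hn hodd x G τ1 τ2 c1 c2 hτ1 hτ2 hc1 hc2 hG => ?_⟩
  obtain ⟨M0, hM0⟩ := lt0S s hs (B.cube w) hβ hτ1 hτ2 hc1 hc2 (G := G) (by
    rw [cardBS]
    intro r hr
    have := hG r hr
    push_cast at this ⊢
    exact this) (half_pos hε)
  refine ⟨M0, fun M hM => ?_⟩
  have h1 := hn0 n hn hodd M x G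
  have h2 := hM0 M hM
  rw [cardBS] at h2
  push_cast at h2
  linarith

/-- **(T)** for all spins. -/
theorem tailStmt3S_of (s : ℕ) (hs : 1 ≤ s) : BootStmt3S s → TailStmt3S s := fun hB =>
  S3ST.tailStmt3S_of hs (lt01StmtS hs) hB

end Vale.Agent.P361.LRO.S3S
end

section

/-!
P361, stage 3: the spontaneous magnetization from the densities at small fields.
-/

namespace Vale.Agent.P361.LRO.S3

open Finset Matrix Filter Topology

end Vale.Agent.P361.LRO.S3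
end

section

/-!
P361 LRO, all spins: everything except the stiffness of the blocks (M2).
-/

namespace Vale.Agent.P361.LRO.GenS

open Finset Matrix Filter Topology

noncomputable section

theorem limStmtS {s : ℕ} (hs : 1 ≤ s) : LimStmtS s := by
  intro n _ hn β h hβ _
  have : NeZero s := ⟨by omega⟩
  exact tendsto_gibbsMag hn hβ h

end

end Vale.Agent.P361.LRO.GenS
end

section

/-!
P361, stage 3 for all spins: the limits `M → ∞`, `n → ∞`, `h → 0` (LIM), and Bloch's order.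
-/

namespace Vale.Agent.P361.LRO.S3S

open Finset Matrix Filter Topology Vale.Agent.P361.LRO.GenS Vale.Agent.P361.LRO.S3

noncomputable section

theorem BCS_pos {s : ℕ} (hs : 1 ≤ s) : 0 < BCS s := by
  have hz : 0 < (riemannZeta (3 / 2)).re := by
    rw [← H.zeta_hasSum.tsum_eq]
    exact H.zeta_hasSum.summable.tsum_pos (fun _ => by positivity) 0 (by norm_num)
  unfold BCS
  have : (0 : ℝ) < s := by exact_mod_cast hs
  positivity

/-- Pointwise in the field. -/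
theorem spontMag_ge_pt (n : ℕ) {β : ℝ} (hβ : 0 < β) {m₀ h₀ : ℝ} (hh₀ : 0 < h₀)
    (H : ∀ h : ℝ, 0 < h → h ≤ h₀ → ∀ᶠ N : ℕ in atTop,
      m₀ ≤ gibbsMagV n (torusAdj (2 * N + 1)) β h / (2 * N + 1) ^ 3) :
    m₀ ≤ Model.spontMag n β := by
  have key : ∀ h₁ h₂ : ℝ, 0 < h₁ → h₁ ≤ h₂ → h₂ ≤ h₀ →
      Model.pressure n β h₁ + (h₂ - h₁) * m₀ ≤ Model.pressure n β h₂ := by
    intro h₁ h₂ h0 h12 h21
    have t1 := (pressTorus_tendsto n hβ h₁).add_const ((h₂ - h₁) * m₀)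
    have t2 := pressTorus_tendsto n hβ h₂
    refine le_of_tendsto_of_tendsto t1 t2 ?_
    filter_upwards [H h₁ h0 (h12.trans h21), eventually_ge_atTop 1] with N hN hN1
    have h3 := pressTorus_support n N hN1 hβ h₁ h₂
    have h5 := mul_le_mul_of_nonneg_left hN (by linarith : (0 : ℝ) ≤ h₂ - h₁)
    linarith
  have hconv : ConvexOn ℝ Set.univ (Model.pressure n β) := pressure_convex n hβ
  have hcont : Continuous (Model.pressure n β) := by
    have := hconv.continuousOn isOpen_univ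
    rwa [continuousOn_univ] at this
  have key0 : ∀ h₂ : ℝ, 0 < h₂ → h₂ ≤ h₀ →
      Model.pressure n β 0 + h₂ * m₀ ≤ Model.pressure n β h₂ := by
    intro h₂ h20 h21
    have t1 : Tendsto (fun h₁ => Model.pressure n β h₁ + (h₂ - h₁) * m₀) (𝓝[>] 0)
        (𝓝 (Model.pressure n β 0 + (h₂ - 0) * m₀)) := by
      have : Continuous fun h₁ => Model.pressure n β h₁ + (h₂ - h₁) * m₀ := by fun_prop
      exact this.continuousWithinAt.tendsto
    rw [sub_zero] at t1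
    refine le_of_tendsto t1 ?_
    filter_upwards [Ioc_mem_nhdsGT h20] with h₁ hh
    exact key h₁ h₂ hh.1 hh.2 h21
  have hder : HasDerivWithinAt (Model.pressure n β) (Model.spontMag n β) (Set.Ioi 0) 0 :=
    spontMag_hasDeriv n hβ
  rw [hasDerivWithinAt_iff_tendsto_slope' (by simp)] at hder
  refine ge_of_tendsto hder ?_
  filter_upwards [Ioc_mem_nhdsGT hh₀] with h hh
  rw [slope_def_field, sub_zero, le_div_iff₀ hh.1]
  linarith [key0 h hh.1 hh.2]

/-- The density of the torus from the densities of the copies, `M → ∞`. -/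
theorem gibbs_ge_of_rho {s : ℕ} (hs : 1 ≤ s) {β h r : ℝ} (hβ : 0 < β) (hh : 0 < h) {n : ℕ}
    [NeZero n] (hn : 3 ≤ n) {M0 : ℕ}
    (H : ∀ M : ℕ, M0 ≤ M → ∀ z : Tor n × Fin s,
      (s : ℝ) * rho (edgesS n s M) β (hS fun _ => h) z ≤ r) :
    (s : ℝ) / 2 - r ≤ gibbsMagV s (torusAdj n) β h / (n : ℝ) ^ 3 := by
  have hn0 : (0 : ℝ) < n := by exact_mod_cast NeZero.pos n
  have hs0 : (0 : ℝ) < s := by exact_mod_cast hs
  have hcard : (Fintype.card (Tor n × Fin s) : ℝ) = (n : ℝ) ^ 3 * s := by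
    rw [Fintype.card_prod, Fintype.card_fun, ZMod.card, Fintype.card_fin, Fintype.card_fin]
    push_cast
    ring
  rw [le_div_iff₀ (by positivity)]
  refine ge_of_tendsto (limStmtS hs n hn β h hβ hh) ?_
  filter_upwards [eventually_ge_atTop M0] with M hM
  have h3 : ((s : ℝ) / 2 - r) * (n : ℝ) ^ 3 =
      (Fintype.card (Tor n × Fin s) : ℝ) * (1 / 2 - r / s) := by
    rw [hcard]
    field_simp
  rw [h3, ← nsmul_eq_mul, ← Finset.card_univ]
  refine Finset.card_nsmul_le_sum _ _ _ fun z _ => ?_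
  have h4 := H M hM z
  have h5 : rho (edgesS n s M) β (hS fun _ => h) z ≤ r / s := by
    rw [le_div_iff₀ hs0, mul_comm]
    exact h4
  linarith

/-- The upper side of Bloch's law from (F). -/
theorem upper_of_final {s : ℕ} (hs : 1 ≤ s) (H : FinalStmt3S s) :
    ∀ ε : ℝ, 0 < ε → ∃ β0 : ℝ, 0 < β0 ∧ ∀ β : ℝ, β0 ≤ β →
      (s : ℝ) / 2 - (1 + ε) * BCS s * β ^ (-(3 / 2) : ℝ) ≤ Model.spontMag s β := by
  intro ε hε
  obtain ⟨β0, H⟩ := H ε hε
  refine ⟨max β0 1, lt_max_of_lt_right one_pos, fun β hβ => ?_⟩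
  have hβ0 : β0 ≤ β := (le_max_left _ _).trans hβ
  have hβ1 : 1 ≤ β := (le_max_right _ _).trans hβ
  have hβp : 0 < β := by linarith
  refine spontMag_ge_pt s hβp (h₀ := β ^ (-(10 : ℝ))) (Real.rpow_pos_of_pos hβp _) ?_
  intro h hh hh2
  obtain ⟨n0, H⟩ := H β hβ0 h hh hh2
  filter_upwards [eventually_ge_atTop (max n0 1)] with N hN
  have hN1 : 1 ≤ N := le_trans (le_max_right _ _) hN
  have hN0 : n0 ≤ 2 * N + 1 := by
    have := le_trans (le_max_left _ _) hN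
    omega
  obtain ⟨M0, H⟩ := H (2 * N + 1) hN0 ⟨N, rfl⟩
  have := gibbs_ge_of_rho hs hβp hh (n := 2 * N + 1) (by omega) H
  push_cast at this
  exact this

/-- **Bloch's law with the constant for spin `s / 2`, from (F).** -/
theorem bloch_of_final {s : ℕ} (hs : 1 ≤ s) (H : FinalStmt3S s) :
    Tendsto (fun β : ℝ => β ^ (3 / 2 : ℝ) * ((s : ℝ) / 2 - Model.spontMag s β)) atTop
      (𝓝 (BCS s)) := by
  have hB := BCS_pos hs
  refine tendsto_order.2 ⟨fun c hc => Bridge.main_bloch s hs c hc, fun c hc => ?_⟩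
  have hε : 0 < (c - BCS s) / (2 * BCS s) := div_pos (by linarith) (by linarith)
  obtain ⟨β0, hβ0, H2⟩ := upper_of_final hs H _ hε
  filter_upwards [eventually_ge_atTop β0] with β hβ
  have hβp : 0 < β := hβ0.trans_le hβ
  have h1 := H2 β hβ
  have h2 : (0 : ℝ) < β ^ (3 / 2 : ℝ) := Real.rpow_pos_of_pos hβp _
  have h3 : β ^ (3 / 2 : ℝ) * β ^ (-(3 / 2) : ℝ) = 1 := by
    rw [← Real.rpow_add hβp]
    norm_num
  have h4 : β ^ (3 / 2 : ℝ) * ((s : ℝ) / 2 - Model.spontMag s β) ≤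
      (1 + (c - BCS s) / (2 * BCS s)) * BCS s := by
    have h5 := mul_le_mul_of_nonneg_left (sub_le_comm.1 h1) h2.le
    refine h5.trans (le_of_eq ?_)
    calc β ^ (3 / 2 : ℝ) * ((1 + (c - BCS s) / (2 * BCS s)) * BCS s * β ^ (-(3 / 2) : ℝ))
        = (1 + (c - BCS s) / (2 * BCS s)) * BCS s *
          (β ^ (3 / 2 : ℝ) * β ^ (-(3 / 2) : ℝ)) := by ring
      _ = _ := by rw [h3, mul_one]
  have h6 : (1 + (c - BCS s) / (2 * BCS s)) * BCS s = (c + BCS s) / 2 := by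
    field_simp
    ring
  rw [h6] at h4
  linarith

end

end Vale.Agent.P361.LRO.S3S
end

section

/-! # Bloch's law for every spin `S = n / 2` -/

namespace Vale.Agent.P361.LRO.S3S

open Filter Topology Vale.Agent.P361.LRO.S3

theorem kappaStmt3S (s : ℕ) (hs : 1 ≤ s) : KappaStmt3S s :=
  kappaStmt3S_of_CC hs (ccgeS_of hs (longTr s))

/-- Bloch's law for every spin. -/
theorem bloch_all : ∀ n : ℕ, 1 ≤ n →
    (∀ β : ℝ, 0 < β →
      (∀ h : ℝ, Tendsto (fun N : ℕ => Model.finPressure n N β h) atTop (𝓝 (Model.pressure n β h))) ∧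
      ConvexOn ℝ Set.univ (Model.pressure n β) ∧
      HasDerivWithinAt (Model.pressure n β) (Model.spontMag n β) (Set.Ioi 0) 0 ∧
      Model.spontMag n β ≤ (n : ℝ) / 2) ∧
    (∃ β₀ : ℝ, 0 < β₀ ∧ ∀ β : ℝ, β₀ ≤ β → 0 < Model.spontMag n β) ∧
    Tendsto (fun β : ℝ => Model.spontMag n β) atTop (𝓝 ((n : ℝ) / 2)) ∧
    Tendsto (fun β : ℝ => β ^ (3 / 2 : ℝ) * ((n : ℝ) / 2 - Model.spontMag n β)) atTop
      (𝓝 ((riemannZeta (3 / 2)).re /
        (8 * Real.pi ^ (3 / 2 : ℝ) * ((n : ℝ) / 2) ^ (3 / 2 : ℝ)))) :=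
  answerS fun s hs =>
    bloch_of_blocksS s (kappaStmt3S s hs) dirStmt3 dirSharpStmt3 (energyStmt3S s hs)
      (startStmt3S s hs) (bootStmt3S_of s hs) (meanStmt3S_of s hs) (tailStmt3S_of s hs)
      (finalStmt3S_of s hs) (bloch_of_final hs)

end Vale.Agent.P361.LRO.S3S
end
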